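import Mathlib

/-! Arrays of cells and mixed-radix indices. -/

namespace Vale.Agent.P338

open Function

/-- The concatenation of the cells `u 0, …, u (n - 1)`. -/
def flat (n : ℕ) (u : ℕ → List Bool) : List Bool := (List.range n).flatMap u

@[simp] theorem flat_zero (u : ℕ → List Bool) : flat 0 u = [] := rfl

theorem flat_succ (n : ℕ) (u : ℕ → List Bool) : flat (n + 1) u = flat n u ++ u n := by
  simp [flat, List.range_succ]

@[simp] theorem flat_one (u : ℕ → List Bool) : flat 1 u = u 0 := by simp [flat]

theorem flat_congr {n : ℕ} {u v : ℕ → List Bool} (h : ∀ i < n, u i = v i) : flat n u = flat n v := by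
  induction n with
  | zero => rfl
  | succ n ih => rw [flat_succ, flat_succ, ih fun i hi => h i (by omega), h n (by omega)]

theorem flat_add (a b : ℕ) (u : ℕ → List Bool) :
    flat (a + b) u = flat a u ++ flat b fun j => u (a + j) := by
  induction b with
  | zero => simp
  | succ b ih => rw [← add_assoc, flat_succ, flat_succ, ih, List.append_assoc]

theorem flat_succ' (n : ℕ) (u : ℕ → List Bool) :
    flat (n + 1) u = u 0 ++ flat n fun j => u (j + 1) := by
  rw [add_comm, flat_add]; simp [add_comm]

theorem flat_mul (H G : ℕ) (u : ℕ → List Bool) :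
    flat (H * G) u = flat H fun h => flat G fun j => u (h * G + j) := by
  induction H with
  | zero => simp
  | succ H ih => rw [Nat.succ_mul, flat_add, flat_succ, ih]

theorem length_flat {n S : ℕ} {u : ℕ → List Bool} (h : ∀ i < n, (u i).length = S) :
    (flat n u).length = n * S := by
  induction n with
  | zero => simp
  | succ n ih =>
    rw [flat_succ, List.length_append, ih fun i hi => h i (by omega), h n (by omega)]; ring

theorem length_flat_le {n S : ℕ} {u : ℕ → List Bool} (h : ∀ i < n, (u i).length ≤ S) :
    (flat n u).length ≤ n * S := by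
  induction n with
  | zero => simp
  | succ n ih =>
    have := ih fun i hi => h i (by omega)
    have := h n (by omega)
    rw [flat_succ, List.length_append]; nlinarith

@[simp] theorem flat_nil (n : ℕ) : flat n (fun _ => []) = [] := by simp [flat]

theorem takeD_append' {a b : List Bool} {n : ℕ} (h : a.length = n) :
    (a ++ b).takeD n false = a := by
  subst h; rw [List.takeD_eq_take _ (by simp)]; simp

theorem drop_append' {a b : List Bool} {n : ℕ} (h : a.length = n) : (a ++ b).drop n = b := by
  subst h; simp

theorem flat_split {n a S : ℕ} {u : ℕ → List Bool} (h : ∀ i < n, (u i).length = S) (ha : a ≤ n) :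
    (flat n u).takeD (a * S) false = flat a u ∧
      (flat n u).drop (a * S) = flat (n - a) fun j => u (a + j) := by
  obtain ⟨b, rfl⟩ := Nat.exists_eq_add_of_le ha
  have := length_flat (n := a) (u := u) fun i hi => h i (by omega)
  rw [flat_add, takeD_append' this, drop_append' this, Nat.add_sub_cancel_left]
  exact ⟨rfl, rfl⟩

theorem flat_replicate (n S : ℕ) (b : Bool) :
    flat n (fun _ => List.replicate S b) = List.replicate (n * S) b := by
  induction n with
  | zero => simp
  | succ n ih => rw [flat_succ, ih, Nat.succ_mul, List.replicate_add]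

theorem takeD_pad (l : List Bool) (k : ℕ) :
    l.takeD (l.length + k) false = l ++ List.replicate k false := by
  induction l with
  | nil => induction k with
    | zero => simp
    | succ k ih => simpa [List.replicate_succ] using ih
  | cons b l ih => rw [List.length_cons, Nat.add_right_comm, List.takeD_succ]; simp [ih]

/-- Cutting or padding an array. -/
theorem takeD_flat {n a S : ℕ} {u : ℕ → List Bool} (h : ∀ i < n, (u i).length = S) :
    (flat n u).takeD (a * S) false =
      flat a fun j => if j < n then u j else List.replicate S false := by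
  rcases le_total a n with ha | ha
  · rw [(flat_split h ha).1]
    exact flat_congr fun i hi => by rw [if_pos (by omega)]
  · obtain ⟨b, rfl⟩ := Nat.exists_eq_add_of_le ha
    rw [add_mul, ← length_flat h, takeD_pad, flat_add, ← flat_replicate]
    congr 1
    · exact flat_congr fun i hi => by rw [if_pos hi]
    · exact flat_congr fun i hi => by rw [if_neg (by omega)]

/-- Every list whose length is a multiple of `S` is an array of cells. -/
theorem exists_flat {n S : ℕ} (l : List Bool) (h : l.length = n * S) :
    l = flat n fun j => (l.drop (j * S)).take S := by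
  induction n generalizing l with
  | zero => simpa using h
  | succ n ih =>
    rw [flat_succ', zero_mul, List.drop_zero]
    conv_lhs => rw [← List.take_append_drop S l]
    congr 1
    rw [ih (l.drop S) (by rw [List.length_drop, h, Nat.succ_mul]; omega)]
    exact flat_congr fun i _ => by rw [List.drop_drop]; congr 2; ring

theorem zipWith_flat (f : Bool → Bool → Bool) {n : ℕ} {u v : ℕ → List Bool}
    (h : ∀ i < n, (u i).length = (v i).length) :
    List.zipWith f (flat n u) (flat n v) = flat n fun i => List.zipWith f (u i) (v i) := by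
  induction n with
  | zero => simp
  | succ n ih =>
    have hl : ∀ k ≤ n, (flat k u).length = (flat k v).length := by
      intro k hk
      induction k with
      | zero => rfl
      | succ k ihk => simp [flat_succ, ihk (by omega), h k (by omega)]
    rw [flat_succ, flat_succ, flat_succ, List.zipWith_append (hl n le_rfl),
      ih fun i hi => h i (by omega)]

/-! Mixed radix. -/

def wt (rad : ℕ → ℕ) : ℕ → ℕ
  | 0 => 1
  | k + 1 => wt rad k * rad k

def enc (rad x : ℕ → ℕ) : ℕ → ℕ
  | 0 => 0
  | k + 1 => enc rad x k + wt rad k * x k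

def Valid (rad : ℕ → ℕ) (D : ℕ) (x : ℕ → ℕ) : Prop := ∀ k < D, x k < rad k

/-- The value of the block of `ℓ` digits from position `k` on, and its range. -/
def blk (rad x : ℕ → ℕ) (k ℓ : ℕ) : ℕ := enc (fun j => rad (k + j)) (fun j => x (k + j)) ℓ
def bw (rad : ℕ → ℕ) (k ℓ : ℕ) : ℕ := wt (fun j => rad (k + j)) ℓ

variable {rad rad' x y : ℕ → ℕ} {D k ℓ : ℕ}

theorem wt_congr (h : ∀ j < D, rad j = rad' j) : wt rad D = wt rad' D := by
  induction D with
  | zero => rfl
  | succ D ih => rw [wt, wt, ih fun j hj => h j (by omega), h D (by omega)]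

theorem enc_congr (h : ∀ j < D, rad j = rad' j) (h' : ∀ j < D, x j = y j) :
    enc rad x D = enc rad' y D := by
  induction D with
  | zero => rfl
  | succ D ih =>
    rw [enc, enc, ih (fun j hj => h j (by omega)) fun j hj => h' j (by omega), h' D (by omega),
      wt_congr fun j hj => h j (by omega)]

theorem wt_add (rad : ℕ → ℕ) (k ℓ : ℕ) : wt rad (k + ℓ) = wt rad k * bw rad k ℓ := by
  induction ℓ with
  | zero => simp [bw, wt]
  | succ ℓ ih => rw [← add_assoc, wt, ih, bw, bw, wt]; ring

theorem enc_add (rad x : ℕ → ℕ) (k ℓ : ℕ) :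
    enc rad x (k + ℓ) = enc rad x k + wt rad k * blk rad x k ℓ := by
  induction ℓ with
  | zero => simp [blk, enc]
  | succ ℓ ih => rw [← add_assoc, enc, ih, wt_add, blk, blk, enc, bw]; ring

theorem enc_lt (h : Valid rad D x) : enc rad x D < wt rad D := by
  induction D with
  | zero => simp [enc, wt]
  | succ D ih =>
    have := ih fun j hj => h j (by omega)
    have := h D (by omega)
    rw [enc, wt]; nlinarith

theorem Valid.mono (h : Valid rad D x) (hk : k ≤ D) : Valid rad k x := fun j hj => h j (by omega)

theorem blk_lt (h : Valid rad D x) (hk : k + ℓ ≤ D) : blk rad x k ℓ < bw rad k ℓ :=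
  enc_lt fun j hj => h _ (by omega)

theorem blk_one (rad x : ℕ → ℕ) (k : ℕ) : blk rad x k 1 = x k := by simp [blk, enc, wt]
theorem bw_one (rad : ℕ → ℕ) (k : ℕ) : bw rad k 1 = rad k := by simp [bw, wt]

theorem blk_congr (h : ∀ j < ℓ, x (k + j) = y (k + j)) : blk rad x k ℓ = blk rad y k ℓ :=
  enc_congr (fun _ _ => rfl) h

theorem wt_const {R : ℕ} (h : ∀ j < D, rad j = R) : wt rad D = R ^ D := by
  induction D with
  | zero => rfl
  | succ D ih => rw [wt, ih fun j hj => h j (by omega), h D (by omega), pow_succ]

theorem enc_const {R : ℕ} (h : ∀ j < D, rad j = R) :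
    enc rad x D = ∑ j ∈ Finset.range D, R ^ j * x j := by
  induction D with
  | zero => rfl
  | succ D ih =>
    rw [enc, ih fun j hj => h j (by omega), Finset.sum_range_succ,
      wt_const fun j hj => h j (by omega)]

/-- The three parts of an index. -/
theorem enc_three (hk : k + ℓ ≤ D) : enc rad x D =
    enc rad x k + wt rad k * (blk rad x k ℓ + bw rad k ℓ * blk rad x (k + ℓ) (D - (k + ℓ))) := by
  conv_lhs => rw [← Nat.add_sub_cancel' hk, enc_add, enc_add, wt_add]
  ring

theorem enc_blk (h : Valid rad D x) (hk : k + ℓ ≤ D) :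
    enc rad x D / wt rad k % bw rad k ℓ = blk rad x k ℓ := by
  have h1 := enc_lt (h.mono (show k ≤ D by omega))
  rw [enc_three hk, Nat.add_mul_div_left _ _ (by omega), Nat.div_eq_of_lt h1, zero_add,
    Nat.add_mul_mod_self_left, Nat.mod_eq_of_lt (blk_lt h hk)]

theorem enc_digit (h : Valid rad D x) (hk : k < D) : enc rad x D / wt rad k % rad k = x k := by
  have := enc_blk (ℓ := 1) h hk
  rwa [bw_one, blk_one] at this

/-- The digit vector with the digits below position `k` set to zero. -/
def up (k : ℕ) (x : ℕ → ℕ) : ℕ → ℕ := fun j => if j < k then 0 else x j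

theorem Valid.up (h : Valid rad D x) (k : ℕ) : Valid rad D (up k x) := fun j hj => by
  have := h j hj
  unfold P338.up; split_ifs <;> omega

theorem enc_zero (h : ∀ j < D, x j = 0) : enc rad x D = 0 := by
  induction D with
  | zero => rfl
  | succ D ih => rw [enc, ih fun j hj => h j (by omega), h D (by omega)]; simp

theorem enc_up (hk : k ≤ D) : enc rad (up k x) D = wt rad k * blk rad x k (D - k) := by
  conv_lhs => rw [← Nat.add_sub_cancel' hk, enc_add]
  rw [enc_zero (x := up k x) fun j hj => if_pos hj, zero_add,
    blk_congr (x := up k x) (y := x) fun j _ => if_neg (by omega)]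

theorem enc_div_mul (h : Valid rad D x) (hk : k ≤ D) :
    enc rad x D / wt rad k * wt rad k = enc rad (up k x) D := by
  have h1 := enc_lt (h.mono hk)
  rw [enc_up hk]
  conv_lhs => rw [← Nat.add_sub_cancel' hk, enc_add]
  rw [Nat.add_mul_div_left _ _ (by omega), Nat.div_eq_of_lt h1, zero_add, mul_comm]

theorem enc_mod (h : Valid rad D x) (hk : k ≤ D) : enc rad x D % wt rad k = enc rad x k := by
  conv_lhs => rw [← Nat.add_sub_cancel' hk, enc_add]
  rw [Nat.add_mul_mod_self_left, Nat.mod_eq_of_lt (enc_lt (h.mono hk))]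

theorem up_digit (h : Valid rad D x) {j : ℕ} (hj : k ≤ j) (hD : j < D) :
    enc rad (up k x) D / wt rad j % rad j = x j := by
  rw [enc_digit (h.up k) hD, up, if_neg (by omega)]

/-- The digits of an index. -/
def dec (rad : ℕ → ℕ) (i : ℕ) : ℕ → ℕ := fun k => i / wt rad k % rad k

theorem enc_dec' (rad : ℕ → ℕ) (i D : ℕ) : enc rad (dec rad i) D = i % wt rad D := by
  induction D with
  | zero => simp [enc, wt, Nat.mod_one]
  | succ D ih => rw [enc, ih, wt, dec, Nat.mod_mul]

theorem rad_pos {i : ℕ} (hi : i < wt rad D) (hk : k < D) : 0 < rad k := by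
  obtain ⟨ℓ, rfl⟩ := Nat.exists_eq_add_of_lt hk
  rw [add_right_comm, wt_add, wt] at hi
  by_contra h
  simp [show rad k = 0 by omega] at hi

theorem valid_dec {i : ℕ} (hi : i < wt rad D) : Valid rad D (dec rad i) :=
  fun _ hk => Nat.mod_lt _ (rad_pos hi hk)

theorem enc_dec {i : ℕ} (hi : i < wt rad D) : enc rad (dec rad i) D = i := by
  rw [enc_dec', Nat.mod_eq_of_lt hi]

/-- The list is an array of cells of length `S`, and the cell with digits `x` satisfies `R x`. -/
def Lay (rad : ℕ → ℕ) (D S : ℕ) (R : (ℕ → ℕ) → List Bool → Prop) (l : List Bool) : Prop :=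
  ∃ u : ℕ → List Bool, l = flat (wt rad D) u ∧ (∀ j < wt rad D, (u j).length = S) ∧
    ∀ x, Valid rad D x → R x (u (enc rad x D))

variable {S : ℕ} {R R' : (ℕ → ℕ) → List Bool → Prop} {l : List Bool}

theorem Lay.mono (h : Lay rad D S R l)
    (h' : ∀ x c, Valid rad D x → c.length = S → R x c → R' x c) : Lay rad D S R' l := by
  obtain ⟨u, h1, h2, h3⟩ := h
  exact ⟨u, h1, h2, fun x hx => h' x _ hx (h2 _ (enc_lt hx)) (h3 x hx)⟩

theorem Lay.length (h : Lay rad D S R l) : l.length = wt rad D * S := by
  obtain ⟨u, rfl, h2, -⟩ := h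
  exact length_flat h2

/-- Change of the digit system. -/
theorem Lay.view {D' : ℕ} (h : Lay rad D S R l) (hw : wt rad' D' = wt rad D)
    (φ : (ℕ → ℕ) → ℕ → ℕ)
    (hφ : ∀ y, Valid rad' D' y → Valid rad D (φ y) ∧ enc rad (φ y) D = enc rad' y D') :
    Lay rad' D' S (fun y => R (φ y)) l := by
  obtain ⟨u, h1, h2, h3⟩ := h
  refine ⟨u, hw ▸ h1, hw ▸ h2, fun y hy => ?_⟩
  rw [← (hφ y hy).2]
  exact h3 _ (hφ y hy).1

end Vale.Agent.P338
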