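import Vale.Agent.P338.Big

/-! The asymptotic size of the cost. -/

namespace Vale.Agent.P338

open Filter Topology

theorem thH_le : thH ≤ 1 - 1 / 2 ^ 41 := hnet_lay.choose_spec.choose_spec.2.1

theorem thH_spec : 0 < thH ∧ thH < 1 :=
  ⟨hnet_lay.choose_spec.choose_spec.1, thH_le.trans_lt (by norm_num)⟩

/-- The saving per level. -/
noncomputable def thA : ℝ := max (1 / 2) (pdT / (2 ^ wT * mm))

theorem thA_le : thA ≤ 1 - 1 / 2 ^ 40 := by
  refine max_le (by norm_num) ?_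
  exact_mod_cast pdT_sav.real (Nat.mul_pos (by positivity) (by decide))

theorem thA_spec : 1 / 2 ≤ thA ∧ thA < 1 := ⟨le_max_left _ _, thA_le.trans_lt (by norm_num)⟩

theorem mm_le_exp : (mm : ℝ) ≤ Real.exp 13 := by
  have h1 : (2 : ℝ) ≤ Real.exp (13 / 18) := by
    have := Real.log_two_lt_d9
    exact (Real.log_le_iff_le_exp (by norm_num)).mp (by linarith)
  have h2 := pow_le_pow_left₀ (by norm_num) h1 18
  rw [← Real.exp_nat_mul] at h2
  have h3 : (mm : ℝ) = 2 ^ 18 := by rw [mm]; norm_num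
  rw [h3]
  exact h2.trans_eq (by norm_num)

theorem exists_E : ∃ E : ℕ, 1 ≤ E ∧ thH ^ E * mm ^ 2 ≤ 1 / 2 ∧
    ((mm : ℝ) ^ (E + 2)) ^ (1 / 2 ^ 92 : ℝ) * thA < 1 := by
  obtain ⟨E, hE⟩ : ∃ E : ℕ, (E : ℝ) = 2 ^ 46 := ⟨2 ^ 46, by norm_num⟩
  have m0 : (0 : ℝ) < mm := by exact_mod_cast (by decide : 0 < mm)
  have a1 : thH ≤ Real.exp (-(1 / 2 ^ 41)) := thH_le.trans (Real.one_sub_le_exp_neg _)
  have a2 : thA ≤ Real.exp (-(1 / 2 ^ 40)) := thA_le.trans (Real.one_sub_le_exp_neg _)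
  refine ⟨E, by exact_mod_cast hE ▸ (by norm_num : (1 : ℝ) ≤ 2 ^ 46), ?_, ?_⟩
  · calc _ ≤ Real.exp (-(1 / 2 ^ 41)) ^ E * Real.exp 13 ^ 2 := by
          have := thH_spec.1
          gcongr; exact mm_le_exp
      _ = Real.exp (-6) := by
          rw [← Real.exp_nat_mul, ← Real.exp_nat_mul, ← Real.exp_add, hE]; norm_num
      _ ≤ 1 / 2 := by
          rw [Real.exp_neg, one_div]
          exact inv_anti₀ (by norm_num) (by linarith [Real.add_one_le_exp 6])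
  · calc _ ≤ (Real.exp 13 ^ (E + 2)) ^ (1 / 2 ^ 92 : ℝ) * Real.exp (-(1 / 2 ^ 40)) := by
          have := thA_spec.1
          gcongr; exact mm_le_exp
      _ < 1 := by
          rw [← Real.exp_nat_mul, ← Real.exp_mul, ← Real.exp_add, Real.exp_lt_one_iff]
          push_cast; rw [hE]; norm_num

theorem tot_real1 {s q r μ u θ L m T : ℝ} (u0 : 0 < u) (t0 : 0 < θ) (m0 : 0 < m) (μ1 : 1 ≤ T)
    (b1 : r * μ * μ ≤ L) (b2 : L ≤ r * μ * μ * m) (b3 : s * (4 * r) ≤ L) (b4 : T ≤ μ) (b5 : μ ≤ r)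
    (b9 : s = 2 * q * μ) (q1 : 1 ≤ q) (s1 : 1 ≤ s) (u2 : 1 ≤ T * u) (u3 : μ * μ * θ ≤ u) :
    r * μ ≤ L * u ∧ s ≤ L * u ∧ r ≤ r * μ ∧ μ ≤ r * μ ∧ s * s * (r * θ) ≤ m * (L * u) ∧
      r * ((2 * q + 1) * (u * μ)) ≤ L * u := by
  have μ2 : 1 ≤ μ := μ1.trans b4
  have r1 : 1 ≤ r := μ2.trans b5
  have v1 : 1 ≤ μ * u := u2.trans (by gcongr)
  have sr : 0 ≤ s * r := by positivity
  have L0 : 0 ≤ L := le_trans (by positivity) b1
  have d5 : s ≤ μ * μ * m := by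
    have : s * r ≤ μ * μ * m * r := by linarith
    exact le_of_mul_le_mul_right this (by positivity)
  refine ⟨?_, ?_, le_mul_of_one_le_right (by positivity) μ2,
    le_mul_of_one_le_left (by positivity) r1, ?_, ?_⟩
  · calc r * μ ≤ r * μ * (μ * u) := le_mul_of_one_le_right (by positivity) v1
      _ = r * μ * μ * u := by ring
      _ ≤ _ := by gcongr
  · calc s ≤ s * (μ * u) := le_mul_of_one_le_right (by positivity) v1
      _ ≤ s * (4 * r * u) := by gcongr; linarith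
      _ = s * (4 * r) * u := by ring
      _ ≤ _ := by gcongr
  · calc s * s * (r * θ) = s * (s * r) * θ := by ring
      _ ≤ μ * μ * m * L * θ := by gcongr; linarith
      _ = m * L * (μ * μ * θ) := by ring
      _ ≤ m * L * u := by gcongr
      _ = _ := by ring
  · calc r * ((2 * q + 1) * (u * μ)) ≤ r * ((2 * q + 2 * q) * (u * μ)) := by gcongr; linarith
      _ = s * (2 * r) * u := by rw [b9]; ring
      _ ≤ _ := by gcongr; linarith

theorem tot_real {s q r μ u θ L m T k e y G K W KHc len Y H X : ℝ} (u0 : 0 < u) (t0 : 0 < θ)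
    (m0 : 0 < m) (W0 : 0 ≤ W) (k0 : 0 ≤ k) (e0 : 0 ≤ e) (K0 : 0 ≤ K) (KH0 : 0 ≤ KHc) (μ1 : 1 ≤ T)
    (b1 : r * μ * μ ≤ L) (b2 : L ≤ r * μ * μ * m) (b3 : s * (4 * r) ≤ L) (b4 : T ≤ μ) (b5 : μ ≤ r)
    (b6 : G ≤ 4 + k * W + 3 * K + K * s + (4 * r + K) * (2 * μ)) (b7 : k + 1 ≤ y) (b8 : e + 2 ≤ y)
    (b9 : s = 2 * q * μ) (q1 : 1 ≤ q) (s1 : 1 ≤ s) (l1 : 1 ≤ len) (M1 : len ≤ Y) (u2 : 1 ≤ T * u)
    (u3 : μ * μ * θ ≤ u) (u4 : X ≤ u * μ * len)
    (u5 : H ≤ KHc * (k + 1) ^ 2 * (k * (2 * s) + 1) * (r * θ) * len + 1) :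
    (s + 1) * H + (s + r + G + 1) * Y + r * ((2 * q + 1) * X + (e + 1) * μ * len) ≤
      (6 * KHc * m + 6 * K + W + 20) * y ^ 3 * (L * u) * Y := by
  obtain ⟨d1, d2, d3, d4, d6, d7⟩ := tot_real1 u0 t0 m0 μ1 b1 b2 b3 b4 b5 b9 q1 s1 u2 u3
  have μ2 : 1 ≤ μ := μ1.trans b4
  have r1 : 1 ≤ r := μ2.trans b5
  clear b1 b2 b3 b4 b9 u2 u3
  generalize L * u = D at *
  have D1 : 1 ≤ D := s1.trans d2
  have y1 : 1 ≤ y := by linarith
  have y3 : y ≤ y ^ 3 := le_self_pow₀ y1 (by norm_num)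
  have Y1 : 1 ≤ Y := l1.trans M1
  have f1 : (s + 1) * H ≤ (6 * KHc * m + 2) * y ^ 3 * D * Y := by
    have g1 : k * (2 * s) + 1 ≤ 3 * y * s := by
      have : (k + 1) * s ≤ y * s := by gcongr
      have : 0 ≤ k * s := by positivity
      linarith
    calc (s + 1) * H ≤ (s + 1) * (KHc * (k + 1) ^ 2 * (k * (2 * s) + 1) * (r * θ) * len + 1) := by
          gcongr
      _ ≤ (s + s) * (KHc * y ^ 2 * (3 * y * s) * (r * θ) * Y + 1) := by gcongr
      _ = 6 * KHc * y ^ 3 * Y * (s * s * (r * θ)) + 2 * s * 1 := by ring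
      _ ≤ 6 * KHc * y ^ 3 * Y * (m * D) + 2 * D * (y ^ 3 * Y) := by
          gcongr; exact one_le_mul_of_one_le_of_one_le (y1.trans y3) Y1
      _ = _ := by ring
  have f2 : s + r + G + 1 ≤ (6 * K + W + 15) * y ^ 3 * D := by
    have g1 : k * W ≤ W * y ^ 3 * D := by
      calc k * W = W * k * 1 := by ring
        _ ≤ _ := by gcongr; linarith
    have g2 : K * 1 ≤ K * D := by gcongr
    have g3 : K * s ≤ K * D := by gcongr
    have g4 : K * μ ≤ K * D := by gcongr; linarith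
    have g5 : (6 * K + 15) * 1 * D ≤ (6 * K + 15) * y ^ 3 * D := by gcongr; linarith
    linarith
  have f3 : r * ((2 * q + 1) * X + (e + 1) * μ * len) ≤ 1 * y ^ 3 * D * Y := by
    calc _ ≤ r * ((2 * q + 1) * (u * μ * len) + (e + 1) * μ * len) := by gcongr
      _ = r * ((2 * q + 1) * (u * μ)) * len + (e + 1) * (r * μ) * len := by ring
      _ ≤ D * Y + (e + 1) * D * Y := by gcongr
      _ = 1 * (e + 2) * D * Y := by ring
      _ ≤ _ := by gcongr; linarith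
  have f4 := mul_le_mul_of_nonneg_right f2 (show 0 ≤ Y by positivity)
  have f5 : 0 ≤ y ^ 3 * D * Y := by positivity
  linarith

variable {K E c n L l a e k w q s G : ℕ}

theorem Pf.tot (h : Pf K (E + 2) c n L l a e k w q s G) (hc : 1 ≤ c)
    (hE : thH ^ E * mm ^ 2 ≤ 1 / 2) {len : ℕ} (hlen : 1 ≤ len) (Mu : ℕ) :
    (Tot k e q s G len Mu : ℝ) ≤ (6 * KHc * mm + 6 * K + (wH + wT) + 20) *
      ((E + 2) * (e + 1)) ^ 3 * (L * thA ^ e) * ((Mu + 1) * len) := by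
  obtain ⟨-, a2, a3, a4, a5, -, -, a8, -, -, a11⟩ := h.lin
  obtain ⟨t0, t1⟩ := thH_spec
  obtain ⟨u0, u1⟩ := thA_spec
  have m0 : (0 : ℝ) < mm := by exact_mod_cast (by decide : 0 < mm)
  have ea : mm ^ a = mm ^ k * mm ^ e * mm ^ e := by rw [h.ha]; ring
  have b1 : (mm : ℝ) ^ k * mm ^ e * mm ^ e ≤ L := by exact_mod_cast ea ▸ h.lo
  have b2 : (L : ℝ) ≤ mm ^ k * mm ^ e * mm ^ e * mm := by
    have := h.hi.le
    rw [pow_succ, ea] at this
    exact_mod_cast this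
  have b3 : (s : ℝ) * (4 * mm ^ k) ≤ L := by exact_mod_cast (by omega : s * (4 * mm ^ k) ≤ L)
  have b4 : (2 : ℝ) ^ e ≤ mm ^ e := by exact_mod_cast a11
  have b5 : (mm : ℝ) ^ e ≤ mm ^ k := by exact_mod_cast a5
  have b6 : (G : ℝ) ≤ 4 + k * (wH + wT) + 3 * K + K * s + (4 * mm ^ k + K) * (2 * mm ^ e) := by
    have := h.G2
    rw [h.hw] at this
    exact_mod_cast this
  have b7 : (k : ℝ) + 1 ≤ (E + 2) * (e + 1) := by
    exact_mod_cast (by have := h.aE; have := h.ha; omega : k + 1 ≤ (E + 2) * (e + 1))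
  have b8 : (e : ℝ) + 2 ≤ (E + 2) * (e + 1) := by
    have : (0 : ℝ) ≤ E * (e + 1) := by positivity
    have : (0 : ℝ) ≤ e := by positivity
    linarith
  have b9 : (s : ℝ) = 2 * q * mm ^ e := by exact_mod_cast h.hs
  have q1 : (1 : ℝ) ≤ q := by exact_mod_cast (by omega : 1 ≤ q)
  have s1 : (1 : ℝ) ≤ s := by exact_mod_cast (by omega : 1 ≤ s)
  have l1 : (1 : ℝ) ≤ len := by exact_mod_cast hlen
  have u2 : 1 ≤ (2 : ℝ) ^ e * thA ^ e := by rw [← mul_pow]; exact one_le_pow₀ (by linarith)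
  have u3 : (mm : ℝ) ^ e * mm ^ e * thH ^ k ≤ thA ^ e := by
    have c1 : thH ^ k ≤ thH ^ (E * e) := pow_le_pow_of_le_one t0.le t1.le (by
      have := h.Ea; have := h.ha; rw [add_mul] at *; omega)
    calc _ ≤ (mm : ℝ) ^ e * mm ^ e * thH ^ (E * e) := by gcongr
      _ = (thH ^ E * mm ^ 2) ^ e := by rw [pow_mul]; ring
      _ ≤ _ := pow_le_pow_left₀ (by positivity) (hE.trans u0) _
  have u4 : ((pdT ^ e * (len / (2 ^ wT) ^ e) : ℕ) : ℝ) ≤ thA ^ e * mm ^ e * len := by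
    have c1 : (pdT : ℝ) / 2 ^ wT ≤ thA * mm := by
      have : (pdT : ℝ) / (2 ^ wT * mm) ≤ thA := le_max_right _ _
      rwa [← div_div, div_le_iff₀ m0] at this
    have c2 : ((len / (2 ^ wT) ^ e : ℕ) : ℝ) ≤ len / (2 ^ wT) ^ e := by
      simpa using Nat.cast_div_le (α := ℝ) (m := len) (n := (2 ^ wT) ^ e)
    calc _ ≤ (pdT : ℝ) ^ e * (len / (2 ^ wT) ^ e) := by push_cast; gcongr
      _ = (pdT / 2 ^ wT) ^ e * len := by rw [div_pow]; ring
      _ ≤ (thA * mm) ^ e * len := by gcongr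
      _ = _ := by rw [mul_pow]
  have u5 : (Hc k (2 * s) len : ℝ) ≤
      KHc * (k + 1) ^ 2 * (k * (2 * s) + 1) * (mm ^ k * thH ^ k) * len + 1 := by
    rw [← mul_pow]
    refine (Nat.ceil_lt_add_one (by positivity)).le.trans (by push_cast; rfl)
  have e1 : (Tot k e q s G len Mu : ℝ) = (s + 1) * Hc k (2 * s) len +
      (s + mm ^ k + G + 1) * ((Mu + 1) * len) + mm ^ k * ((2 * q + 1) *
        (pdT ^ e * (len / (2 ^ wT) ^ e) : ℕ) + (e + 1) * mm ^ e * len) := by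
    rw [Tot, Sw, mul_right_comm (pdT ^ e)]; push_cast; ring
  rw [e1]
  exact tot_real (by positivity) (by positivity) m0 (by positivity) (by positivity) (by positivity)
    (by positivity) (by positivity) (one_le_pow₀ (by norm_num)) b1 b2 b3 b4 b5 b6 b7 b8 b9 q1 s1 l1
    (le_mul_of_one_le_left (by positivity) (by linarith [Mu.cast_nonneg (α := ℝ)])) u2 u3 u4 u5

theorem tot_le {κ : ℝ} (hκ : κ = 1 / 2 ^ 92) : ∃ E : ℕ, 3 ≤ E ∧ ∀ K C : ℕ, ∃ n0, ∀ n ≥ n0,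
    ∀ (A : ℝ) (Mu : ℕ), 1 ≤ A → (Mu : ℝ) ≤ A * (5000 * n.size).size + 1 → 1 ≤ plen K E n →
      (C * Tot (pk E n) (pe E n) (pq K E n) (ps K E n) (pG K E n) (plen K E n) Mu : ℕ) ≤
        A * (n.size : ℝ) ^ (1 - κ) * n := by
  obtain ⟨t0, t1⟩ := thH_spec
  obtain ⟨u0, u1⟩ := thA_spec
  have m0 : (1 : ℝ) < mm := by exact_mod_cast (by decide : 1 < mm)
  obtain ⟨E, E1, hE', k1⟩ := exists_E
  have k3 : 0 < κ := by rw [hκ]; positivity
  rw [← hκ] at k1
  refine ⟨E + 2, by omega, fun K C => ?_⟩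
  generalize hη : ((mm : ℝ) ^ (E + 2)) ^ κ = η at k1
  have η0 : 0 < η := by rw [← hη]; positivity
  have c1 := (tendsto_pow_const_mul_const_pow_of_abs_lt_one 4 (r := η * thA)
    (by rw [abs_of_pos (by positivity)]; exact k1)).const_mul
    (C * (6 * KHc * mm + 6 * K + (wH + wT) + 20) * (E + 2) ^ 4 * 33 * 320000 / thA)
  obtain ⟨e0, he0⟩ := eventually_atTop.mp (c1.eventually_le_const (by simp : _ < (1 : ℝ)))
  obtain ⟨n0, h0⟩ := par_facts K 1 (E := E + 2) (by omega)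
  obtain ⟨n1, h1⟩ := pe_large (E := E + 2) (by omega) e0
  refine ⟨n0 + n1, fun n hn A Mu hA hMu hlen => ?_⟩
  have h := h0 n (by omega)
  have h2 := he0 (pe (E + 2) n + 1) ((h1 n (by omega)).trans (Nat.le_succ _))
  have h3 := h.tot le_rfl hE' hlen Mu
  obtain ⟨-, -, -, -, -, a6, -, a8, -⟩ := h.lin
  have b1 : n.size < 2 ^ n.size.size := Nat.lt_size_self _
  have b2 : plen K (E + 2) n ≤ 320000 * n := by
    have c1 := h.hG
    have c2 := h.n_ge.1
    have c3 : 2 ^ (n.size + 4 - n.size.size) * 2 ^ n.size.size = 2 ^ (n.size - 1) * 2 ^ 5 := by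
      have := h.lo
      have : 0 < mm ^ pa n := pow_pos (by decide) _
      rw [← pow_add, ← pow_add]; congr 1; omega
    have c4 := Nat.mul_le_mul_left (2 ^ (n.size + 4 - n.size.size)) b1.le
    rw [plen, ← pow_mul, ← pow_add, show pG K (E + 2) n + _ = n.size + 4 - n.size.size by omega,
      ← mul_assoc 2, mul_left_comm]
    omega
  have b3 : (5000 * n.size).size + 2 ≤ 33 * ((E + 2) * (pe (E + 2) n + 1)) := by
    have : (5000 * n.size).size ≤ n.size.size + 13 := by rw [Nat.size_le, pow_add]; omega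
    have : 0 < (E + 2) * (pe (E + 2) n + 1) := by positivity
    omega
  have b4 : (Mu : ℝ) + 1 ≤ A * (33 * ((E + 2) * (pe (E + 2) n + 1))) := by
    have : ((5000 * n.size).size : ℝ) + 2 ≤ 33 * ((E + 2) * (pe (E + 2) n + 1)) := by
      exact_mod_cast b3
    have := mul_le_mul_of_nonneg_left this (zero_le_one.trans hA)
    linarith
  have b5 : (n.size : ℝ) ^ κ ≤ η ^ (pe (E + 2) n + 1) := by
    have c1 : n.size ≤ (mm ^ (E + 2)) ^ (pe (E + 2) n + 1) := by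
      rw [← pow_mul]; exact h.hi.le.trans (Nat.pow_le_pow_right (by decide) h.aE)
    rw [← hη, Real.rpow_pow_comm (by positivity)]
    exact Real.rpow_le_rpow (Nat.cast_nonneg _) (by exact_mod_cast c1) k3.le
  have L0 : (0 : ℝ) < n.size := by
    have := h.lo
    have : 0 < mm ^ pa n := pow_pos (by decide) _
    exact_mod_cast (by omega : 0 < n.size)
  have b6 : (n.size : ℝ) = n.size ^ (1 - κ) * n.size ^ κ := by rw [← Real.rpow_add L0]; simp
  have b7 : (plen K (E + 2) n : ℝ) ≤ 320000 * n := by exact_mod_cast b2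
  have A0 : 0 ≤ A := by linarith
  push_cast at h2 ⊢
  have C0 : (0 : ℝ) ≤ 6 * KHc * mm + 6 * K + (wH + wT) + 20 := by positivity
  generalize (6 * KHc * mm + 6 * K + (wH + wT) + 20 : ℝ) = C1 at *
  calc _ ≤ C * (C1 * ((E + 2) * (pe (E + 2) n + 1)) ^ 3 *
        (n.size ^ (1 - κ) * n.size ^ κ * thA ^ pe (E + 2) n) * ((Mu + 1) * plen K (E + 2) n)) := by
        rw [← b6]; gcongr
    _ ≤ C * (C1 * ((E + 2) * (pe (E + 2) n + 1)) ^ 3 *
        (n.size ^ (1 - κ) * η ^ (pe (E + 2) n + 1) * thA ^ pe (E + 2) n) *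
        (A * (33 * ((E + 2) * (pe (E + 2) n + 1))) * (320000 * n))) := by gcongr
    _ = A * n.size ^ (1 - κ) * n * (C * C1 * (E + 2) ^ 4 * 33 * 320000 / thA *
        ((pe (E + 2) n + 1) ^ 4 * (η * thA) ^ (pe (E + 2) n + 1))) := by
        field_simp
        ring
    _ ≤ _ := mul_le_of_le_one_right (by positivity) h2

end Vale.Agent.P338
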