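import Vale.Agent.P338.Par

/-! Consequences of the basic relations between the parameters. -/

namespace Vale.Agent.P338

open Finset

variable {K E c n L l a e k w q s G : ℕ}

theorem Pf.lin (h : Pf K E c n L l a e k w q s G) : c * (e + 1) ≤ q ∧ c ≤ q ∧ q ≤ s ∧
    c ≤ mm ^ e ∧ mm ^ e ≤ mm ^ k ∧ l ≤ 18 * (E * (e + 1)) ∧ k ≤ E * (e + 1) ∧
    s * (4 * mm ^ k) + l ≤ L ∧ s ≤ s * mm ^ k ∧ q ≤ q * mm ^ e ∧ 2 ^ e ≤ mm ^ e := by
  have b1 : c * (e + 1) ≤ c * (e + 1) ^ 2 := Nat.mul_le_mul_left _ (Nat.le_self_pow (by norm_num) _)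
  have b2 : 2 ^ e ≤ mm ^ e := Nat.pow_le_pow_left (by decide) _
  have b3 : q ≤ q * mm ^ e := Nat.le_mul_of_pos_right _ (pow_pos (by decide) _)
  have b4 : c ≤ c * (e + 1) := Nat.le_mul_of_pos_right _ (by omega)
  have b5 : s = 2 * (q * mm ^ e) := by rw [h.hs, mul_assoc]
  have := h.big
  have := h.q2
  have := h.aE
  have := h.la
  have := h.ha
  have := h.hG
  have := h.G1
  exact ⟨by omega, by omega, by omega, by omega, Nat.pow_le_pow_right (by decide) h.ek, by omega,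
    by omega, by omega, Nat.le_mul_of_pos_right _ (pow_pos (by decide) _), b3, b2⟩

theorem Pf.B_le (h : Pf K E c n L l a e k w q s G) (hc : 36 * E + 32 ≤ c) :
    2 ^ (s + 1) + 100 * (5000 * L) ^ 2 + 2 ≤ 2 ^ (s + 3) := by
  obtain ⟨a1, -, a3, -, -, a6, -⟩ := h.lin
  have b1 : L < 2 ^ l := h.hl ▸ Nat.lt_size_self L
  have b2 : (36 * E + 32) * (e + 1) ≤ c * (e + 1) := Nat.mul_le_mul_right _ hc
  have b3 : (36 * E + 32) * (e + 1) = 36 * (E * (e + 1)) + 32 * e + 32 := by ring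
  have b4 : 2 ^ (32 + (l + l)) ≤ 2 ^ (s + 1) := Nat.pow_le_pow_right (by norm_num) (by omega)
  have b5 : L * L ≤ 2 ^ l * 2 ^ l := Nat.mul_le_mul b1.le b1.le
  have b6 := Nat.one_le_two_pow (n := s)
  rw [pow_add, pow_add] at b4
  have b7 : 100 * (5000 * L) ^ 2 = 2500000000 * (L * L) := by ring
  rw [pow_add 2 s 3, pow_add 2 s 1] at *
  omega

theorem Pf.Z_le (h : Pf K E c n L l a e k w q s G) (hc : 36 * E + 32 ≤ c) (K' : ℕ) :
    (2 ^ (s + 1) + 100 * (5000 * L) ^ 2 + 2) ^ K' ≤ 2 ^ (K' * (s + 3)) := by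
  rw [mul_comm K', pow_mul]
  exact Nat.pow_le_pow_left (h.B_le hc) _

theorem Pf.KZ (h : Pf K E c n L l a e k w q s G) (hc : 3 ≤ c) {K' : ℕ} (hK : K' ≤ c) :
    K' * (s + 3) + 2 ≤ s * (4 * mm ^ k) := by
  obtain ⟨-, a2, a3, a4, a5, -⟩ := h.lin
  have b1 : K' * (s + 3) ≤ mm ^ k * (s + s) := Nat.mul_le_mul (by omega) (by omega)
  have b2 : 1 * 1 ≤ mm ^ k * s := Nat.mul_le_mul (by omega) (by omega)
  have b3 : s * (4 * mm ^ k) = 4 * (mm ^ k * s) := by ring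
  rw [mul_add (mm ^ k)] at b1
  omega

theorem Pf.n_ge (h : Pf K E c n L l a e k w q s G) : 2 ^ (L - 1) ≤ n ∧ n < 2 ^ L := by
  have h1 := h.lo
  have h2 : 0 < mm ^ a := pow_pos (by decide) _
  exact ⟨Nat.lt_size.mp (by rw [← h.hL]; omega), h.hL ▸ Nat.lt_size_self n⟩

theorem Pf.hK (h : Pf K E c n L l a e k w q s G) (hc : 32 * K ≤ c) : K * mm ^ e ≤ 2 ^ (2 * q) := by
  obtain ⟨-, a2, -⟩ := h.lin
  have b1 := Nat.lt_two_pow_self (n := q)
  have b2 := Nat.mul_le_mul_left K h.q1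
  have b3 : 32 * K * q ≤ 2 ^ q * 2 ^ q := Nat.mul_le_mul (by omega) b1.le
  rw [two_mul, pow_add]
  calc _ ≤ K * (32 * q) := b2
    _ = 32 * K * q := by ring
    _ ≤ _ := b3

theorem Pf.cop (h : Pf K E c n L l a e k w q s G) {c' : ℕ}
    (hc : c' * (18 * E + 2) ^ 2 + 18 * E + 6 ≤ c) :
    c' * ((4 * mm ^ k * (2 ^ s).size).size + 1) ^ 2 + 4 + 18 * k ≤ s ∧
      18 * k + 6 ≤ q * mm ^ e := by
  obtain ⟨a1, a2, a3, a4, a5, a6, a7, a8, a9, a10, -⟩ := h.lin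
  have b0 := h.big
  have b0' := h.q2
  have b1 : (4 * mm ^ k * (2 ^ s).size).size ≤ l + 1 := by
    have b2 : L < 2 ^ l := h.hl ▸ Nat.lt_size_self L
    have b3 : mm ^ k * 1 ≤ mm ^ k * s := Nat.mul_le_mul_left _ (by omega)
    have b4 : s * (4 * mm ^ k) = 4 * (mm ^ k * s) := by ring
    have b5 : 4 * mm ^ k * (s + 1) = 4 * (mm ^ k * s) + 4 * mm ^ k := by ring
    rw [Nat.size_pow, Nat.size_le, pow_succ]
    omega
  have b2 : (4 * mm ^ k * (2 ^ s).size).size + 1 ≤ (18 * E + 2) * (e + 1) := by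
    have : (18 * E + 2) * (e + 1) = 18 * (E * (e + 1)) + 2 * e + 2 := by ring
    omega
  have b3 := Nat.mul_le_mul_left c' (Nat.pow_le_pow_left b2 2)
  have b4 := Nat.mul_le_mul_right ((e + 1) ^ 2) hc
  have b5 : (18 * E + 6) * (e + 1) ≤ (18 * E + 6) * (e + 1) ^ 2 :=
    Nat.mul_le_mul_left _ (Nat.le_self_pow (by norm_num) _)
  have b6 : (c' * (18 * E + 2) ^ 2 + 18 * E + 6) * (e + 1) ^ 2 =
    c' * ((18 * E + 2) * (e + 1)) ^ 2 + (18 * E + 6) * (e + 1) ^ 2 := by ring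
  have b7 : (18 * E + 6) * (e + 1) = 18 * (E * (e + 1)) + 6 * e + 6 := by ring
  omega

theorem half_le_prod {r Q : ℕ} (hr : 0 < r) {sz : ℕ → ℕ}
    (h : ∀ i < 4 * r, (8 * r - 1) * Q ≤ 8 * r * sz i) : Q ^ (4 * r) ≤ 2 * ∏ i ∈ range (4 * r), sz i := by
  have r1 : (1 : ℝ) ≤ r := by exact_mod_cast hr
  have h1 : ∀ i ∈ range (4 * r), (1 + -(1 / (8 * r))) * (Q : ℝ) ≤ sz i := fun i hi => by
    have := h i (mem_range.mp hi)
    have h2 : ((8 * r - 1 : ℕ) : ℝ) = 8 * r - 1 := by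
      rw [Nat.cast_sub (by omega)]; push_cast; ring
    have h3 : (8 * r - 1 : ℝ) * Q ≤ 8 * r * sz i := by rw [← h2]; exact_mod_cast this
    have h4 : (1 + -(1 / (8 * r))) * (Q : ℝ) = (8 * r - 1) * Q / (8 * r) := by field_simp; ring
    rw [h4, div_le_iff₀ (by positivity)]; linarith
  have h0 : (1 : ℝ) / (8 * r) ≤ 1 := by rw [div_le_one (by positivity)]; linarith
  have h2 := prod_le_prod (fun i _ => mul_nonneg (by linarith) (Nat.cast_nonneg Q)) h1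
  rw [prod_const, card_range, mul_pow] at h2
  have h3 := one_add_mul_le_pow (a := -(1 / (8 * r) : ℝ)) (by linarith) (4 * r)
  have h4 : 1 + ((4 * r : ℕ) : ℝ) * -(1 / (8 * r)) = 1 / 2 := by push_cast; field_simp; norm_num
  rw [h4] at h3
  have h5 := mul_le_mul_of_nonneg_right h3 (show (0 : ℝ) ≤ Q ^ (4 * r) by positivity)
  have : (Q : ℝ) ^ (4 * r) ≤ 2 * ∏ i ∈ range (4 * r), (sz i : ℝ) := by linarith
  exact_mod_cast this

end Vale.Agent.P338
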