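import Vale.Agent.P338.Core
import Vale.Agent.P338.ParB

/-! The computation of the parameters and the algorithm for long inputs. -/

namespace Vale.Agent.P338

open Function Finset

variable {P : Tbl} {g : ℕ → ℕ} {B K Zb t : ℕ} {c : Cmd} {Pre Post : List Bool → Prop}

theorem bits_ones (v : ℕ) : (2 ^ v - 1).bits = List.replicate v true := by
  have h : ∀ v, lv (List.replicate v true) + 1 = 2 ^ v := by
    intro v
    induction v with
    | zero => rfl
    | succ v ih => rw [List.replicate_succ, lv, pow_succ, ← ih]; simp; ring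
  rcases v with _ | v
  · rfl
  · rw [← h, Nat.add_sub_cancel, List.replicate_succ', bits_lv_true]

/-- Run `c` with parameter 0 set to `2 ^ e - 1`. -/
def lettU (e : PF) (c : Cmd) : Cmd := loc 62 (.seq (ruler 62 e []) (loc 30 (.seq (app 62 30) c)))

theorem Step.lettU {v : ℕ} {e : PF} (hb : Bud g B K Zb) (hK : e.deg + 8 ≤ K)
    (hv : e.eval g [] = v) (hv' : v ≤ B)
    (h : Bud (update g 0 (2 ^ v - 1)) B K Zb → Step P c (update g 0 (2 ^ v - 1)) Pre Post t) :
    Step P (lettU e c) g Pre Post (t + 80 * Zb) := fun σ hg hp => by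
  have h1 := ruler_ok (P := P) e (d := 62) (regs := []) (l := []) (hg.upd (v := 62) [] (by omega))
    rfl (by simp) (by omega) hb.sz (by simp)
  rw [hv] at h1
  have hlt : 2 ^ v - 1 < 2 ^ B := by
    have := Nat.pow_le_pow_right (show 0 < 2 by norm_num) hv'
    have := Nat.one_le_two_pow (n := v)
    omega
  obtain ⟨l, hl, h⟩ := h (hb.set 0 hlt) (update (update σ 62 []) 30 (List.replicate v true))
    (by simpa [bits_ones] using (hg.upd (v := 62) [] (by omega)).set 0 (2 ^ v - 1))
    (by simpa using hp)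
  refine ⟨l, hl, (Ok.loc (h1.seq (Ok.loc (((app_ok _ (by omega) (by omega) (by omega)).mono ?_
    le_rfl).seq h)))).mono ?_ ?_⟩
  · simp [update_comm (show 30 ≠ 62 by omega)]
  · funext w
    simp only [update_apply]
    split_ifs <;> simp_all
  · have := hb.pow hK
    have := hb.B_le (by omega)
    simp; omega

theorem Step.lett' {i v : ℕ} {e : PF} (hb : Bud g B K Zb) (hi : i < 30) (hK : e.deg ≤ K)
    (hv : e.eval g [] = v) (hv' : v < 2 ^ B)
    (h : Bud (update g i v) B K Zb → Step P c (update g i v) Pre Post t) :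
    Step P (P338.lett i e c) g Pre Post (t + 40 * Zb) :=
  Step.lett hi (hb.mono hK) hv (h (hb.set i hv'))

def xa : PF := .div (.sub (.size (.glob 14)) (.cst 1)) (.cst 18)
def xe (E : ℕ) : PF := .div xa (.cst E)
def xk : PF := .sub xa (.dbl (.glob 25))
def xm (x : PF) : PF := .pow2 (.mul (.cst 18) x)
def xr : PF := .mul (.cst 4) (.glob 20)
def xs (K : ℕ) : PF := .mul (.dbl (.div
  (.sub (.glob 14) (.add (.add (.size (.glob 14)) (.glob 27)) (.cst (3 * K))))
  (.mul (.add xr (.cst K)) (.dbl (xm (.glob 25)))))) (xm (.glob 25))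
def xG : PF := .sub (.add (.glob 14) (.cst 4)) (.add (.size (.glob 14)) (.mul (.glob 24) xr))
def xB : PF := .add (.pow2 (.add (.glob 24) (.cst 1))) (.mul (.cst 100) (.mul (.glob 1) (.glob 1)))
def xS : PF := copE xr (.sub (.pow2 (.glob 24)) (.mul (.cst 4) (.pow2 (.half (.glob 24)))))
  (.pow2 (.glob 24))
def xNp : PF := .prodN xr (.dg (.glob 23) (.pow2 (.mul (.glob 24) (.var 0))) (.pow2 (.glob 24)))

noncomputable def bigM (K E : ℕ) : Cmd :=
  lett 14 (.size (.glob 29)) <| lettU (.glob 14) <| lett 1 (.mul (.cst 5000) (.glob 14)) <|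
  lett 2 (.mul (.cst 2010) (.glob 14)) <| lett 3 (.dbl (.glob 1)) <|
  lett 28 (.mul (.cst 2000) (.glob 14)) <| lett 25 (xe E) <| lett 15 xk <|
  lett 20 (xm (.glob 15)) <| lett 27 (.mul (.glob 15) (.cst (wH + wT))) <| lett 24 (xs K) <|
  lett 26 xG <| lettU xB <| lett 23 xS <| lett 9 xNp coreM

noncomputable def dBig (K E : ℕ) : ℕ := (PF.size (.glob 29)).deg + (PF.glob 14).deg +
  (PF.mul (.cst 5000) (.glob 14)).deg + (PF.mul (.cst 2010) (.glob 14)).deg +
  (PF.dbl (.glob 1)).deg + (PF.mul (.cst 2000) (.glob 14)).deg + (xe E).deg + xk.deg +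
  (xm (.glob 15)).deg + (PF.mul (.glob 15) (.cst (wH + wT))).deg + (xs K).deg + xG.deg + xB.deg +
  xS.deg + xNp.deg + 8

/-- The length of the padded array. -/
noncomputable def plen (K E n : ℕ) : ℕ :=
  2 ^ pG K E n * (2 ^ ps K E n) ^ (4 * mm ^ pk E n) * (2 * (5000 * n.size))

theorem big_ok {E : ℕ} (hE : 3 ≤ E) : ∃ K C n0 : ℕ, ∀ P : Tbl, P 1 = Tbody → P 2 = Hbody →
    ∀ n ≥ n0, 5000 * n.size < n ∧ n ≤ plen K E n ∧ ∀ (Mu : ℕ) (x y : List Bool),
      MulOk P (5000 * n.size) Mu → x.length = n → y.length = n →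
      Step P (bigM K E) (update (fun _ => 0) 29 n) (· = x ++ y) (· = mulL x y)
        (C * Tot (pk E n) (pe E n) (pq K E n) (ps K E n) (pG K E n) (plen K E n) Mu) := by
  obtain ⟨K, hK⟩ := core_ok
  obtain ⟨c', hc'⟩ := copE_spec
  obtain ⟨n0, h0⟩ := par_facts K (c' * (18 * E + 2) ^ 2 + 36 * E + 32 + 32 * K + dBig K E + 100) hE
  refine ⟨K, K + 1000, n0, fun P t1 t2 n hn => ?_⟩
  have h := h0 n hn
  have eq : (n.size - (n.size.size + pw E n + 3 * K)) /
    ((4 * mm ^ pk E n + K) * (2 * mm ^ pe E n)) = pq K E n := rfl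
  have eG : n.size + 4 - (n.size.size + ps K E n * (4 * mm ^ pk E n)) = pG K E n := rfl
  have ee : (n.size.size - 1) / 18 / E = pe E n := rfl
  have ek : (n.size.size - 1) / 18 - 2 * pe E n = pk E n := rfl
  unfold plen
  generalize pG K E n = G at *
  generalize ps K E n = s at *
  generalize pq K E n = q at *
  generalize pw E n = w at *
  generalize pk E n = k at *
  generalize pe E n = e at *
  generalize pa n = a at *
  generalize hl : n.size.size = l at *
  generalize hL : n.size = L at *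
  obtain ⟨a1, a2, a3, a4, a5, a6, a7, a8, a9, a10, a11⟩ := h.lin
  obtain ⟨n1, n2⟩ := h.n_ge
  obtain ⟨c1, c2⟩ := h.cop (c' := c') (by omega)
  have hG := h.hG
  have G1 := h.G1
  have hek := h.ek
  have hs : s = 2 * (q * mm ^ e) := by rw [h.hs, mul_assoc]
  have e4 : s * (4 * mm ^ k) = 4 * (s * mm ^ k) := by ring
  have e5 : (s + 1) * mm ^ k = s * mm ^ k + mm ^ k := by ring
  have r1 : 1 * mm ^ k ≤ s * mm ^ k := Nat.mul_le_mul_right _ (by omega)
  have k18 := lt_mm_pow k
  have z1 := h.Z_le (by omega) K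
  have z2 := h.Z_le (by omega) (K + dBig K E)
  have z3 := h.KZ (K' := K) (by omega) (by omega)
  have z4 := h.KZ (K' := K + dBig K E) (by omega) (by omega)
  have hB0 : 100 * (5000 * L) ≤ 100 * (5000 * L) ^ 2 :=
    Nat.mul_le_mul_left _ (Nat.le_self_pow (by norm_num) _)
  have hQ0 := Nat.one_le_two_pow (n := s + 1)
  generalize hB : 2 ^ (s + 1) + 100 * (5000 * L) ^ 2 = B at *
  have lt1 : ∀ x ≤ B, x < 2 ^ B := fun x hx => lt_of_le_of_lt hx Nat.lt_two_pow_self
  have lt2 : ∀ x ≤ B, 2 ^ x ≤ 2 ^ B := fun x hx => Nat.pow_le_pow_right (by norm_num) hx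
  have z5 : (B + 2) ^ (K + dBig K E) ≤ n :=
    z2.trans ((Nat.pow_le_pow_right (by norm_num) (by omega)).trans n1)
  have z6 : B + 2 ≤ (B + 2) ^ (K + dBig K E) := Nat.le_self_pow (by unfold dBig; omega) _
  have hl1 : 2 ^ (l - 1) ≤ L := Nat.lt_size.mp (by rw [hl]; have := Nat.size_pos (n := L); omega)
  have l0 : 0 < l := by rw [← hl, Nat.size_pos]; omega
  -- the sizes
  have hQ : 2 ^ s = 16 * mm ^ k * 2 ^ (s - (4 + 18 * k)) := by
    rw [mm, ← pow_mul, show 16 = 2 ^ 4 from rfl, ← pow_add, ← pow_add]; congr 1; omega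
  have hQ' : 4 * 2 ^ (q * mm ^ e) ≤ 2 ^ (s - (4 + 18 * k)) := by
    rw [show 4 = 2 ^ 2 from rfl, ← pow_add]; exact Nat.pow_le_pow_right (by norm_num) (by omega)
  have hQ2 : 16 * 1 * 2 ^ (s - (4 + 18 * k)) ≤ 2 ^ s := by rw [hQ]; gcongr; omega
  have hQ3 : 2 ^ s ≤ B := by rw [pow_succ] at hB; omega
  have hpos := Nat.one_le_two_pow (n := q * mm ^ e)
  have key : ∀ g : ℕ → ℕ, g 0 = 2 ^ B - 1 → g 20 = mm ^ k → g 24 = s → ∀ SS, xS.eval g [] = SS →
      SS < 2 ^ B ∧ ∀ sz : ℕ → ℕ, (∀ i, sz i = SS / 2 ^ (s * i) % 2 ^ s) →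
      (∀ i < 4 * mm ^ k, 0 < sz i ∧ sz i + 4 * 2 ^ (q * mm ^ e) ≤ 2 ^ s) ∧
      (∀ i < 4 * mm ^ k, ∀ j < 4 * mm ^ k, i ≠ j → Nat.Coprime (sz i) (sz j)) ∧
      2 ^ (s * (4 * mm ^ k)) ≤ 2 * ∏ i ∈ range (4 * mm ^ k), sz i := by
    intro g g0 g20 g24 SS hSS
    have gU : g 0 + 1 = 2 ^ B := by have := Nat.one_le_two_pow (n := B); omega
    have p1 : (PF.pow2 (.glob 24)).eval g [] = 2 ^ s := by
      rw [PF.eval_pow2 gU _ (by simp [g24]; omega)]; simp [g24]
    have p2 : (PF.pow2 (.half (.glob 24))).eval g [] = 2 ^ (q * mm ^ e) := by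
      rw [PF.eval_pow2 gU _ (by simp [g24]; omega)]; simp [g24, hs]
    obtain ⟨s1, s2, s3⟩ := hc' g [] B (4 * mm ^ k) (2 ^ s - 4 * 2 ^ (q * mm ^ e)) (2 ^ s)
      (2 ^ (s - (4 + 18 * k))) xr (.sub (.pow2 (.glob 24)) (.mul (.cst 4) (.pow2 (.half (.glob 24)))))
      (.pow2 (.glob 24)) gU (by simp [xr, g20]) (by rw [PF.eval_sub, PF.eval_mul, p1, p2]; rfl) p1
      (by omega) hQ3 (by
        rw [← pow_mul]; exact Nat.pow_lt_pow_right (by norm_num) (by rw [mul_add]; omega))
      (by omega) (by omega) (Nat.pow_le_pow_right (by norm_num) (by omega))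
    rw [← xS, hSS] at s1 s2 s3
    simp only [← pow_mul] at s1 s2 s3
    refine ⟨s2.trans_le (lt2 _ (by omega)), fun sz hsz => ⟨fun i hi => ?_, fun i hi j hj hij => ?_, ?_⟩⟩
    · have := s1 i hi
      rw [hsz]; omega
    · rw [hsz, hsz]; exact s3 i hi j hj hij
    · rw [pow_mul]
      refine half_le_prod (by omega) fun i hi => ?_
      have b1 := (s1 i hi).1
      rw [← hsz] at b1
      have b2 : 2 ^ s ≤ sz i + 2 * 2 ^ (s - (4 + 18 * k)) := by omega
      have b3 := Nat.mul_le_mul_left (8 * mm ^ k) b2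
      have b4 : 8 * mm ^ k * (sz i + 2 * 2 ^ (s - (4 + 18 * k))) =
        8 * mm ^ k * sz i + 16 * mm ^ k * 2 ^ (s - (4 + 18 * k)) := by ring
      rw [Nat.sub_mul, one_mul]; omega
  have hlen : 2 ^ G * (2 ^ s) ^ (4 * mm ^ k) = 2 ^ (L + 4 - l) := by
    rw [← pow_mul, ← pow_add]; congr 1; omega
  have nlen : n ≤ 2 ^ G * (2 ^ s) ^ (4 * mm ^ k) * (2 * (5000 * L)) := by
    have : 2 ^ L ≤ 2 ^ (L + 4 - l) * 2 ^ (l - 1) := by
      rw [← pow_add]; exact Nat.pow_le_pow_right (by norm_num) (by omega)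
    have := Nat.mul_le_mul_left (2 ^ (L + 4 - l)) (show 2 ^ (l - 1) ≤ 2 * (5000 * L) by omega)
    rw [hlen]; omega
  refine ⟨by omega, nlen, fun Mu x y hM hx hy => ?_⟩
  have b0 : Bud (update (fun _ => 0) 29 n) B (K + dBig K E) ((B + 2) ^ (K + dBig K E)) :=
    (show Bud (fun _ => 0) B _ _ from ⟨by simp, le_rfl⟩).set 29 (n2.trans_le (lt2 _ (by omega)))
  have U0 : 2 ^ L - 1 + 1 = 2 ^ L := Nat.sub_add_cancel Nat.one_le_two_pow
  have xmE : ∀ (g : ℕ → ℕ) (i j : ℕ), g 0 = 2 ^ L - 1 → i < 30 → g i = j → j ≤ k →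
      (xm (.glob i)).eval g [] = mm ^ j := fun g i j b1 b2 b3 b4 => by
    rw [xm, PF.eval_pow2 (B := L) (by omega) _ (by simp [b2, b3]; omega)]
    simp [b2, b3, mm, pow_mul]
  have fin : ∀ g : ℕ → ℕ, g 0 = 2 ^ B - 1 → g 1 = 5000 * L → g 2 = 2010 * L →
      g 3 = 2 * (5000 * L) → g 14 = L → g 15 = k → g 20 = mm ^ k → g 24 = s → g 25 = e → g 26 = G →
      g 27 = w → g 28 = 2000 * L → g 29 = n →
      Bud g B (K + dBig K E) ((B + 2) ^ (K + dBig K E)) →
      Step P (lett 23 xS <| lett 9 xNp coreM) g (· = x ++ y) (· = mulL x y)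
        (K * Tot k e q s G (2 ^ G * (2 ^ s) ^ (4 * mm ^ k) * (2 * (5000 * L))) Mu +
        40 * (B + 2) ^ (K + dBig K E) + 40 * (B + 2) ^ (K + dBig K E)) := by
    intro g g0 g1 g2 g3 g14 g15 g20 g24 g25 g26 g27 g28 g29 b
    obtain ⟨s0, s1⟩ := key g g0 g20 g24 _ rfl
    generalize hS : xS.eval g [] = SS at *
    obtain ⟨s1, s2, s3⟩ := s1 (fun i => SS / 2 ^ (s * i) % 2 ^ s) fun _ => rfl
    have gU : g 0 + 1 = 2 ^ B := by have := Nat.one_le_two_pow (n := B); omega
    have s4 : ∀ j ≤ 4 * mm ^ k, ∏ i ∈ range j, SS / 2 ^ (s * i) % 2 ^ s < 2 ^ B := fun j hj => by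
      refine lt_of_le_of_lt (prod_le_pow_card _ _ (2 ^ s) fun i _ =>
        (Nat.mod_lt _ (by positivity)).le) ?_
      rw [card_range, ← pow_mul]
      have := Nat.mul_le_mul_left s hj
      exact Nat.pow_lt_pow_right (by norm_num) (by omega)
    generalize hN : ∏ i ∈ range (4 * mm ^ k), SS / 2 ^ (s * i) % 2 ^ s = N at s3
    have s5 : 2 ^ (s * (4 * mm ^ k) - 2) ≤ N / 2 := by
      have : 2 ^ (s * (4 * mm ^ k)) = 2 ^ (s * (4 * mm ^ k) - 2) * 2 ^ 2 := by
        rw [← pow_add]; congr 1; omega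
      omega
    refine Step.lett' b (by omega) (by unfold dBig; omega) hS s0 fun b =>
      Step.lett' b (by omega) (by unfold dBig; omega) (v := N) ?_ (hN ▸ s4 _ le_rfl) fun b =>
      hK P _ B ((B + 2) ^ K) n L (5000 * L) (2010 * L) (2000 * L) k e q s G w N _ Mu
        (fun i => SS / 2 ^ (s * i) % 2 ^ s) x y ?_ hx hy (by omega) (by omega)
    · have x4 : xr.eval (update g 23 SS) [] = 4 * mm ^ k := by simp [xr, g20]
      rw [xNp, PF.eval_prodN (B := B) (by simpa using gU) (fun i => SS / 2 ^ (s * i) % 2 ^ s)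
        (by omega) (fun i hi a => ?_) (by rwa [x4]), x4, hN]
      have := Nat.mul_le_mul_left s (x4 ▸ hi).le
      rw [PF.eval_dg, PF.eval_pow2 (B := B) (by simpa using gU) _ (by simp [g24]; omega),
        PF.eval_pow2 (B := B) (by simpa using gU) _ (by simp [g24]; omega)]
      simp [g24]
    · exact
      { t1 := t1
        t2 := t2
        mul := hM
        bud := ⟨b.sz, le_rfl⟩
        gU := by simpa using gU
        g1 := by simpa using g1
        g2 := by simpa using g2
        g3 := by simpa using g3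
        g9 := by simp
        g14 := by simpa using g14
        g15 := by simpa using g15
        g20 := by simpa using g20
        g24 := by simpa using g24
        g25 := by simpa using g25
        g26 := by simpa using g26
        g27 := by simpa using g27
        g28 := by simpa using g28
        g29 := by simpa using g29
        hsz := by simp
        pos := fun i hi => (s1 i hi).1
        cop := s2
        hi := fun i hi => (s1 i hi).2
        hN := hN.symm
        hlen := rfl
        hs := h.hs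
        k0 := by have := h.e0; omega
        ek := hek
        hω := h.hw
        hK := h.hK (by omega)
        hK' := by omega
        σ0 := by omega
        ωG := by omega
        hZ := z1.trans (Nat.pow_le_pow_right (by norm_num) (by omega))
        hZ' := z1.trans ((Nat.pow_le_pow_right (by norm_num) (by omega)).trans s5)
        big := by
          have b1 := Nat.lt_two_pow_self (n := 5000 * L)
          have b2 := lt2 (L + 4 - l + (5000 * L + 3)) (by omega)
          have b3 := Nat.mul_lt_mul_of_pos_left (k := 2 ^ (L + 4 - l)) b1 (by positivity)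
          rw [pow_add, pow_add, ← mul_assoc] at b2
          rw [hlen, mul_left_comm (2 ^ (L + 4 - l))]
          omega
        hB := by omega
        hQ := by omega
        hf := by
          have : (5000 * L).size ≤ l + 13 := by
            have b2 : L < 2 ^ l := hl ▸ Nat.lt_size_self L
            rw [Nat.size_le, pow_add]; omega
          omega
        hp := by omega
        b0 := by omega
        hb := by omega
        cap := by
          have b1 : 2 ^ L = 2 ^ (l - 1) * (2 ^ (s * (4 * mm ^ k) - 2) * 2 ^ (G - 1)) := by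
            rw [← pow_add, ← pow_add]; congr 1; omega
          exact n2.le.trans (b1 ▸ Nat.mul_le_mul hl1 (Nat.mul_le_mul_right _ s5)) }
  refine (Step.lett' b0 (by omega) (by unfold dBig; omega) (v := L) (by simp [hL])
      (lt1 _ (by omega)) fun b =>
    Step.lettU b (by unfold dBig; omega) (v := L) (by simp) (by omega) fun b =>
    Step.lett' b (by omega) (by unfold dBig; omega) (v := 5000 * L) (by simp)
      (lt1 _ (by omega)) fun b =>
    Step.lett' b (by omega) (by unfold dBig; omega) (v := 2010 * L) (by simp)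
      (lt1 _ (by omega)) fun b =>
    Step.lett' b (by omega) (by unfold dBig; omega) (v := 2 * (5000 * L)) (by simp)
      (lt1 _ (by omega)) fun b =>
    Step.lett' b (by omega) (by unfold dBig; omega) (v := 2000 * L) (by simp)
      (lt1 _ (by omega)) fun b =>
    Step.lett' b (by omega) (by unfold dBig; omega) (v := e) (by simp [xe, xa, hl, ee])
      (lt1 _ (by omega)) fun b =>
    Step.lett' b (by omega) (by unfold dBig; omega) (v := k) (by simp [xk, xa, hl, ek])
      (lt1 _ (by omega)) fun b =>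
    Step.lett' b (by omega) (by unfold dBig; omega) (v := mm ^ k)
      (xmE _ _ _ (by simp) (by omega) (by simp) le_rfl) (lt1 _ (by omega)) fun b =>
    Step.lett' b (by omega) (by unfold dBig; omega) (v := w) (by simp [h.hw])
      (lt1 _ (by omega)) fun b =>
    Step.lett' b (by omega) (by unfold dBig; omega) (v := s) ?_ (lt1 _ (by omega)) fun b =>
    Step.lett' b (by omega) (by unfold dBig; omega) (v := G) (by simp [xG, xr, hl, eG])
      (lt1 _ (by omega)) fun b =>
    Step.lettU b (by unfold dBig; omega) (v := B) ?_ le_rfl fun b =>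
      fin _ (by simp) (by simp) (by simp) (by simp) (by simp) (by simp) (by simp) (by simp)
        (by simp) (by simp) (by simp) (by simp) (by simp) b).le ?_
  · simp only [xs, PF.eval_mul, PF.eval_dbl, PF.eval_div]
    rw [xmE _ 25 e (by simp) (by omega) (by simp) hek]
    simp [xr, hl, eq, h.hs]
  · rw [xB, PF.eval_add, PF.eval_pow2 (B := L) (by simpa using U0) _ (by simp; omega), ← hB]
    simp [sq]
  · have := (Tot_le k e q s G (2 ^ G * (2 ^ s) ^ (4 * mm ^ k) * (2 * (5000 * L))) Mu).1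
    rw [add_mul]; omega

end Vale.Agent.P338
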