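import Vale.Agent.P338.Ee

/-! Fixed point approximation of roots of unity (pure part). -/

namespace Vale.Agent.P338

open Finset Complex

theorem floor_err (u v : ℕ) : |((u / v : ℕ) : ℝ) - (u : ℝ) / v| ≤ 1 := by
  have h1 : ((u / v : ℕ) : ℝ) ≤ u / v := Nat.cast_div_le
  have h2 : (u : ℝ) / v - 1 < (u / v : ℕ) := by
    rw [← Nat.floor_div_eq_div (K := ℝ)]; exact Nat.sub_one_lt_floor _
  rw [abs_le]; constructor <;> linarith

/-- Terms of the series for `2 π`. -/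
def piU (p n : ℕ) : ℕ :=
  2 ^ (2 * p + 3) * (3 ^ (2 * n + 1) + 2 ^ (2 * n + 1)) / (6 ^ (2 * n + 1) * (2 * n + 1))

/-- An approximation of `2 ^ (2 p) * 2 π`. -/
def piF (p : ℕ) : ℕ := (∑ n ∈ range (p + 2), if n % 2 = 0 then piU p n else 0) -
  ∑ n ∈ range (p + 2), if n % 2 = 1 then piU p n else 0

theorem piF_spec (p : ℕ) : |(piF p : ℝ) - 2 ^ (2 * p) * (2 * Real.pi)| ≤ p + 3 := by
  have h1 := (Real.hasSum_arctan (x := 2⁻¹) (by norm_num [abs_of_pos])).add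
    (Real.hasSum_arctan (x := 3⁻¹) (by norm_num [abs_of_pos]))
  rw [Real.arctan_inv_2_add_arctan_inv_3] at h1
  have e : ∀ n : ℕ, (-1 : ℝ) ^ n * 2⁻¹ ^ (2 * n + 1) / ((2 * n + 1 : ℕ) : ℝ) +
      (-1) ^ n * 3⁻¹ ^ (2 * n + 1) / ((2 * n + 1 : ℕ) : ℝ) =
      (-1) ^ n * ((2⁻¹ ^ (2 * n + 1) + 3⁻¹ ^ (2 * n + 1)) / ((2 * n + 1 : ℕ) : ℝ)) := fun n => by
    ring
  simp only [e] at h1
  have h2 := norm_sub_le_of_geometric_bound_of_hasSum (C := 1) (r := 1 / 4) (by norm_num)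
    (fun n => by
      rw [norm_mul, norm_pow, norm_neg, norm_one, one_pow, one_mul, Real.norm_of_nonneg
        (by positivity), one_mul]
      refine (div_le_self (by positivity) (by exact_mod_cast Nat.le_add_left 1 _)).trans ?_
      have k1 : (3⁻¹ : ℝ) ^ (2 * n + 1) ≤ 2⁻¹ ^ (2 * n + 1) :=
        pow_le_pow_left₀ (by norm_num) (by norm_num) _
      have k2 : (2⁻¹ : ℝ) ^ (2 * n + 1) = (1 / 4) ^ n / 2 := by
        rw [pow_succ, pow_mul]; norm_num; ring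
      linarith) h1 (p + 2)
  have h3 : |∑ n ∈ range (p + 2), (-1 : ℝ) ^ n * piU p n - 2 ^ (2 * p + 3) * ∑ n ∈ range (p + 2),
      (-1 : ℝ) ^ n * ((2⁻¹ ^ (2 * n + 1) + 3⁻¹ ^ (2 * n + 1)) / ((2 * n + 1 : ℕ) : ℝ))| ≤
      (p + 2 : ℕ) := by
    rw [mul_sum, ← sum_sub_distrib]
    refine (abs_sum_le_sum_abs _ _).trans ((sum_le_card_nsmul _ _ 1 fun n _ => ?_).trans (by simp))
    rw [mul_left_comm, ← mul_sub, abs_mul, abs_neg_one_pow, one_mul]
    refine le_of_eq_of_le ?_ (floor_err (2 ^ (2 * p + 3) * (3 ^ (2 * n + 1) + 2 ^ (2 * n + 1)))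
      (6 ^ (2 * n + 1) * (2 * n + 1)))
    congr 2
    push_cast
    rw [show (6 : ℝ) = 2 * 3 by norm_num, mul_pow, inv_pow, inv_pow]
    field_simp
  have h4 : ∑ n ∈ range (p + 2), (-1 : ℝ) ^ n * piU p n =
      ((∑ n ∈ range (p + 2), if n % 2 = 0 then piU p n else 0 : ℕ) : ℝ) -
      ((∑ n ∈ range (p + 2), if n % 2 = 1 then piU p n else 0 : ℕ) : ℝ) := by
    push_cast
    rw [← sum_sub_distrib]
    refine sum_congr rfl fun n _ => ?_
    rcases Nat.mod_two_eq_zero_or_one n with h | h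
    · simp [h, (Nat.even_iff.mpr h).neg_one_pow]
    · simp [h, (Nat.odd_iff.mpr h).neg_one_pow]
  have h5 : (2 : ℝ) ^ (2 * p + 3) * (1 * (1 / 4) ^ (p + 2) / (1 - 1 / 4)) ≤ 1 := by
    rw [pow_add, pow_add, pow_mul, one_div_pow]
    have : (0 : ℝ) < 4 ^ p := by positivity
    norm_num
    field_simp
    norm_num
  have h6 := mul_le_mul_of_nonneg_left h2 (show (0 : ℝ) ≤ 2 ^ (2 * p + 3) by positivity)
  rw [Real.norm_eq_abs, ← abs_of_pos (show (0 : ℝ) < 2 ^ (2 * p + 3) by positivity), ← abs_mul,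
    abs_of_pos (show (0 : ℝ) < 2 ^ (2 * p + 3) by positivity), mul_sub] at h6
  have h7 : (2 : ℝ) ^ (2 * p + 3) * (Real.pi / 4) = 2 ^ (2 * p) * (2 * Real.pi) := by ring
  have h8 : (0 : ℝ) ≤ 2 ^ (2 * p) * (2 * Real.pi) := by positivity
  rw [h4] at h3
  rw [h7] at h6
  rw [piF]
  generalize (∑ n ∈ range (p + 2), if n % 2 = 0 then piU p n else 0) = P at *
  generalize (∑ n ∈ range (p + 2), if n % 2 = 1 then piU p n else 0) = Q at *
  rw [abs_le] at *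
  push_cast at h3 h6
  rcases le_total Q P with h | h
  · rw [Nat.cast_sub h]; constructor <;> linarith
  · have : (P : ℝ) ≤ Q := by exact_mod_cast h
    have : (0 : ℝ) ≤ p := by positivity
    rw [Nat.sub_eq_zero_of_le h, Nat.cast_zero]; constructor <;> linarith

/-- The angle in fixed point. -/
def angF (p N : ℕ) (nu de : ℕ → ℕ) : ℕ :=
  piF p * ((∑ i ∈ range N, 2 ^ (2 * p) * nu i / de i) % 2 ^ (2 * p)) / 2 ^ (2 * p)

theorem piF_le {p : ℕ} (hp : 10 ≤ p) : piF p ≤ 7 * 2 ^ (2 * p) := by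
  have h1 := (abs_le.mp (piF_spec p)).2
  have h2 : 2 * p < 2 ^ (2 * p) := Nat.lt_two_pow_self
  have h3 : (2 * p : ℝ) < 2 ^ (2 * p) := by exact_mod_cast h2
  have h4 := Real.pi_lt_d2
  have h5 : (10 : ℝ) ≤ p := by exact_mod_cast hp
  have : (piF p : ℝ) ≤ 7 * 2 ^ (2 * p) := by nlinarith
  exact_mod_cast this

theorem angF_le {p : ℕ} (hp : 10 ≤ p) (N : ℕ) (nu de : ℕ → ℕ) : angF p N nu de ≤ 7 * 2 ^ (2 * p) :=
  (Nat.div_le_of_le_mul (by
    rw [mul_comm]; exact Nat.mul_le_mul_right _ (Nat.mod_lt _ (by positivity)).le)).trans (piF_le hp)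

theorem angF_spec {p N : ℕ} (hN : N ≤ p) (nu de : ℕ → ℕ) :
    ‖exp (I * ((angF p N nu de : ℝ) / 2 ^ (2 * p) : ℝ)) - ∏ i ∈ range N, ee ((nu i : ℝ) / de i)‖ ≤
      (8 * p + 4) / 2 ^ (2 * p) := by
  have hF : (0 : ℝ) < 2 ^ (2 * p) := by positivity
  set S := ∑ i ∈ range N, 2 ^ (2 * p) * nu i / de i with hS
  have h1 : |(S : ℝ) - 2 ^ (2 * p) * ∑ i ∈ range N, (nu i : ℝ) / de i| ≤ p := by
    rw [hS, Nat.cast_sum, mul_sum, ← sum_sub_distrib]
    refine (abs_sum_le_sum_abs _ _).trans ((sum_le_card_nsmul _ _ 1 fun n _ => ?_).trans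
      (by simpa using hN))
    refine le_of_eq_of_le ?_ (floor_err (2 ^ (2 * p) * nu n) (de n))
    push_cast
    rw [mul_div_assoc]
  have h2 : (S : ℝ) = 2 ^ (2 * p) * (S / 2 ^ (2 * p) : ℕ) + (S % 2 ^ (2 * p) : ℕ) := by
    exact_mod_cast (Nat.div_add_mod S (2 ^ (2 * p))).symm
  have h3 : ((S % 2 ^ (2 * p) : ℕ) : ℝ) ≤ 2 ^ (2 * p) := by
    exact_mod_cast (Nat.mod_lt _ (by positivity)).le
  have h4 := floor_err (piF p * (S % 2 ^ (2 * p))) (2 ^ (2 * p))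
  have h5 := piF_spec p
  rw [← ee_sum, ← angF] at *
  generalize ∑ i ∈ range N, (nu i : ℝ) / de i = θ at *
  generalize S / 2 ^ (2 * p) = n at *
  have h6 : ee θ = exp (I * (2 * Real.pi * (θ - n) : ℝ)) := by
    rw [show θ = θ - n + n by ring, ee_add, ee_nat, mul_one, ee]
    congr 1; push_cast; ring
  rw [h6, ← mul_one (exp (I * (2 * Real.pi * (θ - n) : ℝ))), show exp (I * ((angF p N nu de : ℝ) /
    2 ^ (2 * p) : ℝ)) = exp (I * (2 * Real.pi * (θ - n) : ℝ)) * exp (I * ((angF p N nu de : ℝ) /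
    2 ^ (2 * p) - 2 * Real.pi * (θ - n) : ℝ)) by rw [← exp_add]; congr 1; push_cast; ring,
    ← mul_sub, norm_mul, norm_exp_I_mul_ofReal, one_mul]
  refine Real.norm_exp_I_mul_ofReal_sub_one_le.trans ?_
  rw [Real.norm_eq_abs, le_div_iff₀ hF, ← abs_of_pos hF, ← abs_mul, abs_of_pos hF, sub_mul,
    div_mul_cancel₀ _ hF.ne']
  push_cast at h4
  have h0 : (0 : ℝ) ≤ (S % 2 ^ (2 * p) : ℕ) := by positivity
  generalize ((S % 2 ^ (2 * p) : ℕ) : ℝ) = t at *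
  have k1 : |(piF p : ℝ) * t / 2 ^ (2 * p) - 2 * Real.pi * t| ≤ p + 3 := by
    rw [show (piF p : ℝ) * t / 2 ^ (2 * p) - 2 * Real.pi * t =
      (piF p - 2 ^ (2 * p) * (2 * Real.pi)) * (t / 2 ^ (2 * p)) by field_simp, abs_mul]
    refine (mul_le_mul h5 (show |t / 2 ^ (2 * p)| ≤ 1 by
      rw [abs_of_nonneg (by positivity), div_le_one hF]; exact h3) (abs_nonneg _)
      (by positivity)).trans (by simp)
  have k2 : |2 * Real.pi * t - 2 * Real.pi * (θ - n) * 2 ^ (2 * p)| ≤ 7 * p := by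
    rw [show 2 * Real.pi * t - 2 * Real.pi * (θ - n) * 2 ^ (2 * p) =
      2 * Real.pi * (2 ^ (2 * p) * n + t - 2 ^ (2 * p) * θ) by ring, abs_mul, ← h2,
      abs_of_pos (by positivity)]
    exact mul_le_mul (by linarith [Real.pi_lt_d2]) h1 (abs_nonneg _) (by norm_num)
  rw [abs_le] at *
  constructor <;> linarith

/-- Terms of the exponential series. -/
def tmF (p f a bd X k : ℕ) : ℕ := a * 2 ^ f * X ^ k / (bd * 2 ^ (2 * p * k) * k.factorial)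

theorem taylor_spec {p f a bd X : ℕ} (hp : 10 ≤ p) (hX : X ≤ 7 * 2 ^ (2 * p))
    (hc : (2 ^ f * (a / bd) : ℝ) ≤ 2 ^ (p - 3)) :
    ‖∑ k ∈ range (8 * p), I ^ k * tmF p f a bd X k -
      (2 ^ f * (a / bd) : ℝ) * exp (I * ((X : ℝ) / 2 ^ (2 * p) : ℝ))‖ ≤ 8 * p + 1 := by
  have hF : (0 : ℝ) < 2 ^ (2 * p) := by positivity
  have hx : (X : ℝ) / 2 ^ (2 * p) ≤ 7 := by rw [div_le_iff₀ hF]; exact_mod_cast hX
  have hx0 : (0 : ℝ) ≤ (X : ℝ) / 2 ^ (2 * p) := by positivity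
  have hp' : (10 : ℝ) ≤ p := by exact_mod_cast hp
  have h1 : ‖∑ k ∈ range (8 * p), I ^ k * tmF p f a bd X k - (2 ^ f * (a / bd) : ℝ) *
      ∑ k ∈ range (8 * p), (I * ((X : ℝ) / 2 ^ (2 * p) : ℝ)) ^ k / k.factorial‖ ≤ 8 * p := by
    rw [mul_sum, ← sum_sub_distrib]
    refine (norm_sum_le _ _).trans ((sum_le_card_nsmul _ _ 1 fun k _ => ?_).trans (by simp))
    have e : I ^ k * tmF p f a bd X k - (2 ^ f * (a / bd) : ℝ) *
        ((I * ((X : ℝ) / 2 ^ (2 * p) : ℝ)) ^ k / k.factorial) = I ^ k * (((tmF p f a bd X k : ℝ) -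
        ((a * 2 ^ f * X ^ k : ℕ) : ℝ) / ((bd * 2 ^ (2 * p * k) * k.factorial : ℕ) : ℝ) : ℝ) : ℂ) := by
      push_cast
      rw [mul_pow, div_pow, ← pow_mul]
      ring
    rw [e, norm_mul, norm_pow, norm_I, one_pow, one_mul, norm_real, Real.norm_eq_abs]
    exact floor_err _ _
  generalize (X : ℝ) / 2 ^ (2 * p) = x at *
  have hn : ‖I * (x : ℂ)‖ = x := by simp [abs_of_nonneg hx0]
  have h2 := Complex.exp_bound' (x := I * x) (n := 8 * p) (by
    rw [hn, div_le_iff₀ (by positivity)]; push_cast; linarith)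
  rw [hn] at h2
  have h3 := Real.pow_div_factorial_le_exp (2 * x) (by positivity) (8 * p)
  have h4 : Real.exp (2 * x) ≤ 2 ^ 23 := by
    refine (Real.exp_le_exp.mpr (show 2 * x ≤ (14 : ℕ) * 1 by push_cast; linarith)).trans ?_
    rw [Real.exp_nat_mul]
    exact (pow_le_pow_left₀ (Real.exp_pos _).le Real.exp_one_lt_three.le _).trans (by norm_num)
  have h5 : (2 : ℝ) ^ (p - 3) * 2 ^ 24 ≤ 2 ^ (8 * p) := by
    rw [← pow_add]; exact pow_le_pow_right₀ (by norm_num) (by omega)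
  rw [mul_pow, mul_div_assoc] at h3
  have h6 : (2 : ℝ) ^ (p - 3) * (x ^ (8 * p) / (8 * p).factorial * 2) ≤ 1 := by
    have k1 : (0 : ℝ) ≤ x ^ (8 * p) / (8 * p).factorial := by positivity
    nlinarith [mul_le_mul_of_nonneg_right h5 k1]
  have h7 : ‖((2 ^ f * (a / bd) : ℝ) : ℂ) * (exp (I * x) -
      ∑ k ∈ range (8 * p), (I * x) ^ k / k.factorial)‖ ≤ 1 := by
    rw [norm_mul, norm_real, Real.norm_of_nonneg (by positivity)]
    exact (mul_le_mul hc h2 (norm_nonneg _) (by positivity)).trans h6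
  refine le_of_eq_of_le ?_ ((norm_sub_le _ _).trans (add_le_add h1 h7))
  congr 1
  ring

theorem term_spec {p f a bd N : ℕ} (hp : 10 ≤ p) (hN : N ≤ p) (nu de : ℕ → ℕ)
    (hc : (2 ^ f * (a / bd) : ℝ) ≤ 2 ^ (p - 3)) :
    ‖∑ k ∈ range (8 * p), I ^ k * tmF p f a bd (angF p N nu de) k -
      (2 ^ f * (a / bd) : ℝ) * ∏ i ∈ range N, ee ((nu i : ℝ) / de i)‖ ≤ 50 * p := by
  have h1 := taylor_spec hp (angF_le hp N nu de) hc
  have h2 : ‖((2 ^ f * (a / bd) : ℝ) : ℂ) * (exp (I * ((angF p N nu de : ℝ) / 2 ^ (2 * p) : ℝ)) -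
      ∏ i ∈ range N, ee ((nu i : ℝ) / de i))‖ ≤ 8 * p + 4 := by
    rw [norm_mul, norm_real, Real.norm_of_nonneg (by positivity)]
    refine (mul_le_mul hc (angF_spec hN nu de) (norm_nonneg _) (by positivity)).trans ?_
    rw [mul_div_assoc', div_le_iff₀ (by positivity), mul_comm]
    exact mul_le_mul_of_nonneg_left (pow_le_pow_right₀ (by norm_num) (by omega)) (by positivity)
  have hp' : (10 : ℝ) ≤ p := by exact_mod_cast hp
  refine le_of_eq_of_le ?_ ((norm_add_le _ _).trans ((add_le_add h1 h2).trans (by linarith)))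
  congr 1
  ring

theorem sum_classes (K : ℕ) (t : ℕ → ℕ) : ∑ k ∈ range K, I ^ k * t k =
    ((∑ k ∈ range K, if k % 4 = 0 then t k else 0 : ℕ) -
      (∑ k ∈ range K, if k % 4 = 2 then t k else 0 : ℕ)) +
    ((∑ k ∈ range K, if k % 4 = 1 then t k else 0 : ℕ) -
      (∑ k ∈ range K, if k % 4 = 3 then t k else 0 : ℕ)) * I := by
  push_cast
  rw [← sum_sub_distrib, ← sum_sub_distrib, sum_mul, ← sum_add_distrib]
  refine sum_congr rfl fun k _ => ?_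
  rw [I_pow_eq_pow_mod k]
  have : k % 4 < 4 := Nat.mod_lt _ (by norm_num)
  generalize k % 4 = r at *
  interval_cases r <;> simp [mul_comm]

theorem signed_mod {p u v : ℕ} (hp : 10 ≤ p) (h : |(u : ℤ) - v| ≤ 2 ^ (p - 2)) :
    (u + (2 ^ p - 1 - v % (2 ^ p - 1))) % (2 ^ p - 1) < 2 ^ p ∧
    (if (u + (2 ^ p - 1 - v % (2 ^ p - 1))) % (2 ^ p - 1) < 2 ^ (p - 1) then
      (((u + (2 ^ p - 1 - v % (2 ^ p - 1))) % (2 ^ p - 1) : ℕ) : ℤ) else
      ((u + (2 ^ p - 1 - v % (2 ^ p - 1))) % (2 ^ p - 1) : ℕ) - (2 ^ p - 1)) = u - v := by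
  obtain ⟨r, rfl⟩ : ∃ r, p = r + 2 := ⟨p - 2, by omega⟩
  have h1 : 2 ^ 8 ≤ 2 ^ r := Nat.pow_le_pow_right (by norm_num) (by omega)
  have h2 : ((2 ^ r : ℕ) : ℤ) = 2 ^ r := by push_cast; rfl
  simp only [show r + 2 - 2 = r by omega, show r + 2 - 1 = r + 1 by omega, pow_succ, ← h2] at *
  generalize 2 ^ r = Q at *
  have hM : 0 < Q * 2 * 2 - 1 := by omega
  have h3 := Nat.mod_lt v hM
  have h4 := Nat.div_add_mod v (Q * 2 * 2 - 1)
  rw [abs_le] at h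
  rcases le_total v u with k | k
  · have : (u + (Q * 2 * 2 - 1 - v % (Q * 2 * 2 - 1))) % (Q * 2 * 2 - 1) = u - v := by
      rw [show u + (Q * 2 * 2 - 1 - v % (Q * 2 * 2 - 1)) = u - v + (Q * 2 * 2 - 1) *
        (v / (Q * 2 * 2 - 1) + 1) by rw [mul_add]; omega, Nat.add_mul_mod_self_left,
        Nat.mod_eq_of_lt (by omega)]
    rw [this]
    split_ifs <;> omega
  · rcases k.lt_or_eq with k | rfl
    · have : (u + (Q * 2 * 2 - 1 - v % (Q * 2 * 2 - 1))) % (Q * 2 * 2 - 1) =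
          Q * 2 * 2 - 1 - (v - u) := by
        rw [show u + (Q * 2 * 2 - 1 - v % (Q * 2 * 2 - 1)) = Q * 2 * 2 - 1 - (v - u) +
          (Q * 2 * 2 - 1) * (v / (Q * 2 * 2 - 1)) by omega, Nat.add_mul_mod_self_left,
          Nat.mod_eq_of_lt (by omega)]
      rw [this]
      split_ifs <;> omega
    · have : (u + (Q * 2 * 2 - 1 - u % (Q * 2 * 2 - 1))) % (Q * 2 * 2 - 1) = 0 := by
        rw [show u + (Q * 2 * 2 - 1 - u % (Q * 2 * 2 - 1)) = (Q * 2 * 2 - 1) *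
          (u / (Q * 2 * 2 - 1) + 1) by rw [mul_add]; omega, Nat.mul_mod_right]
      rw [this]
      split_ifs <;> omega

end Vale.Agent.P338
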