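import Mathlib

/-! The additive character `x ↦ exp (2 π i x)`. -/

namespace Vale.Agent.P338

open Complex

noncomputable def ee (x : ℝ) : ℂ := Complex.exp (2 * Real.pi * I * x)

theorem ee_add (x y : ℝ) : ee (x + y) = ee x * ee y := by
  rw [ee, ee, ee, ← Complex.exp_add]; congr 1; push_cast; ring

@[simp] theorem ee_zero : ee 0 = 1 := by simp [ee]

theorem ee_int (n : ℤ) : ee n = 1 := by
  rw [ee, ← Complex.exp_int_mul_two_pi_mul_I n]; congr 1; push_cast; ring

theorem ee_nat (n : ℕ) : ee n = 1 := by simpa using ee_int n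

@[simp] theorem norm_ee (x : ℝ) : ‖ee x‖ = 1 := by
  rw [ee, show 2 * (Real.pi : ℂ) * I * x = ((2 * Real.pi * x : ℝ) : ℂ) * I by push_cast; ring]
  exact Complex.norm_exp_ofReal_mul_I _

theorem ee_ne_zero (x : ℝ) : ee x ≠ 0 := Complex.exp_ne_zero _

theorem ee_half : ee (1 / 2) = -1 := by
  rw [ee, ← Complex.exp_pi_mul_I]; congr 1; push_cast; ring

theorem ee_quarter : ee (1 / 4) = I := by
  rw [ee, show 2 * (Real.pi : ℂ) * I * ((1 / 4 : ℝ) : ℂ) = Real.pi / 2 * I by push_cast; ring,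
    Complex.exp_pi_div_two_mul_I]

theorem ee_nat_mul (n : ℕ) (x : ℝ) : ee (n * x) = ee x ^ n := by
  rw [ee, ee, ← Complex.exp_nat_mul]; congr 1; push_cast; ring

theorem ee_sum {ι : Type} (s : Finset ι) (f : ι → ℝ) : ee (∑ i ∈ s, f i) = ∏ i ∈ s, ee (f i) := by
  classical
  induction s using Finset.induction_on with
  | empty => simp
  | insert a s h ih => rw [Finset.sum_insert h, Finset.prod_insert h, ee_add, ih]

end Vale.Agent.P338
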