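import Vale.Agent.P338.Item
import Vale.Agent.P338.Ee
import Vale.Agent.P338.CisA

/-! Expressions for approximate sums of roots of unity. -/

namespace Vale.Agent.P338

open Finset

/-- Half of the series for `2 π`. -/
def piC (c : ℕ) : PF := PF.sumN (.add (.glob 1) (.cst 2)) (PF.ifEq (PF.mod (.var 0) (.cst 2)) (.cst c)
  (PF.div (PF.mul (PF.pow2 (.add (PF.dbl (.glob 1)) (.cst 3)))
      (.add (PF.pow (.cst 3) (.add (PF.dbl (.var 0)) (.cst 1)))
        (PF.pow (.cst 2) (.add (PF.dbl (.var 0)) (.cst 1)))))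
    (PF.mul (PF.pow (.cst 6) (.add (PF.dbl (.var 0)) (.cst 1))) (.add (PF.dbl (.var 0)) (.cst 1))))
  (.cst 0))

section
variable {g : ℕ → ℕ} {l : List ℕ} {B p f : ℕ}

theorem lt_B (hB : 100 * p ^ 2 ≤ B) {x k : ℕ} (hx : x ≤ 2 ^ k) (hk : k < 100 * p ^ 2) : x < 2 ^ B :=
  hx.trans_lt (Nat.pow_lt_pow_right (by norm_num) (hk.trans_le hB))

theorem piU_le (p n : ℕ) : piU p n ≤ 2 ^ (2 * p + 3) := by
  refine Nat.div_le_of_le_mul ?_
  rw [mul_comm]
  refine Nat.mul_le_mul_right _ (le_trans ?_ (Nat.le_mul_of_pos_right _ (by omega)))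
  have h1 : 3 ^ (2 * n) ≤ 6 ^ (2 * n) := Nat.pow_le_pow_left (by norm_num) _
  have h2 : 2 ^ (2 * n) ≤ 6 ^ (2 * n) := Nat.pow_le_pow_left (by norm_num) _
  simp only [pow_succ]
  omega

theorem eval_piC (hU : g 0 + 1 = 2 ^ B) (hp : g 1 = p) (hB : 100 * p ^ 2 ≤ B) (hp10 : 10 ≤ p)
    (c : ℕ) : (piC c).eval g l = ∑ n ∈ range (p + 2), if n % 2 = c then piU p n else 0 := by
  have h0 : (PF.add (.glob 1) (.cst 2)).eval g l = p + 2 := by simp [hp]
  rw [piC, PF.eval_sumN hU (fun n => if n % 2 = c then piU p n else 0) (by rw [h0]; nlinarith) ?_ ?_,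
    h0]
  · intro n hn a
    rw [h0] at hn
    have e : ∀ b ≤ 8, (PF.pow (.cst b) (.add (PF.dbl (.var 0)) (.cst 1))).eval g (n :: a :: l) =
        b ^ (2 * n + 1) := fun b hb => by
      have := PF.eval_pow hU (l := n :: a :: l) (a := .cst b) (n := .add (PF.dbl (.var 0)) (.cst 1))
        (by simp; nlinarith) (by nlinarith) (by
          simp only [PF.eval_cst, PF.eval_add, PF.eval_dbl, PF.eval_var, List.getD_cons_zero]
          refine lt_B hB (k := 3 * (2 * n + 1)) ?_ (by nlinarith)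
          rw [pow_mul 2 3]; exact Nat.pow_le_pow_left hb _)
      simpa using this
    have e2 := PF.eval_pow2 hU (l := n :: a :: l) (.add (PF.dbl (.glob 1)) (.cst 3))
      (by simp [hp]; nlinarith)
    rw [PF.eval_ifEq, PF.eval_div, PF.eval_mul, PF.eval_mul, PF.eval_add, e 3 (by norm_num),
      e 2 (by norm_num), e 6 (by norm_num), e2]
    simp [hp, piU]
  · rw [h0]
    refine lt_B hB (k := p + 2 + (2 * p + 3)) ((sum_le_card_nsmul _ _ (2 ^ (2 * p + 3)) fun n _ => by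
      have := piU_le p n
      split_ifs
      exacts [this, Nat.zero_le _]).trans ?_) (by nlinarith)
    rw [card_range, smul_eq_mul, pow_add 2 (p + 2)]
    exact Nat.mul_le_mul_right _ Nat.lt_two_pow_self.le

/-- The angle; `ni` sees the outer variables from `var 2` on. -/
def angE (ni num den : PF) : PF :=
  PF.div (PF.mul (.sub (piC 0) (piC 1)) (PF.mod
    (PF.sumN (.dr 2 ni) (PF.div (PF.mul (PF.pow2 (PF.dbl (.glob 1))) num) den))
    (PF.pow2 (PF.dbl (.glob 1))))) (PF.pow2 (PF.dbl (.glob 1)))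

theorem eval_angE (hU : g 0 + 1 = 2 ^ B) (hp : g 1 = p) (hB : 100 * p ^ 2 ≤ B) (hp10 : 10 ≤ p)
    {ni num den : PF} {NI d y : ℕ} (nu de : ℕ → ℕ) (h2 : ni.eval g l = NI) (hNI : NI ≤ p)
    (h5 : ∀ i < NI, ∀ x, num.eval g (i :: x :: d :: y :: l) = nu i ∧
      den.eval g (i :: x :: d :: y :: l) = de i ∧ nu i < 2 ^ p) :
    (angE ni num den).eval g (d :: y :: l) = angF p NI nu de := by
  have e2 : ∀ l, (PF.pow2 (PF.dbl (.glob 1))).eval g l = 2 ^ (2 * p) := fun l => by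
    rw [PF.eval_pow2 hU _ (by simp [hp]; nlinarith)]; simp [hp]
  have h0 : (PF.dr 2 ni).eval g (d :: y :: l) = NI := by simpa using h2
  rw [angE, PF.eval_div, PF.eval_mul, PF.eval_mod, PF.eval_sub, eval_piC hU hp hB hp10,
    eval_piC hU hp hB hp10, e2, PF.eval_sumN hU (fun i => 2 ^ (2 * p) * nu i / de i)
    (by rw [h0]; nlinarith) ?_ ?_, h0]
  · rfl
  · intro i hi a
    rw [h0] at hi
    rw [PF.eval_div, PF.eval_mul, e2, (h5 i hi a).1, (h5 i hi a).2.1]
  · rw [h0]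
    refine lt_B hB (k := p + (2 * p + p)) ((sum_le_card_nsmul _ _ (2 ^ (2 * p + p)) fun i hi =>
      (Nat.div_le_self _ _).trans ?_).trans ?_) (by nlinarith)
    · rw [pow_add]; exact Nat.mul_le_mul_left _ (h5 i (mem_range.mp hi) 0).2.2.le
    · rw [card_range, smul_eq_mul, pow_add 2 p]
      exact Nat.mul_le_mul_right _ (hNI.trans Nat.lt_two_pow_self.le)

/-- A quarter of the exponential series; `var 0` is the angle, the outer variables start at
`var 3`. -/
def tayE (A Bd : PF) (c : ℕ) : PF :=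
  PF.sumN (PF.mul (.cst 8) (.glob 1)) (PF.ifEq (PF.mod (.var 0) (.cst 4)) (.cst c)
    (PF.div (PF.mul (PF.mul (.dr 5 A) (PF.pow2 (.glob 2))) (PF.pow (.var 2) (.var 0)))
      (PF.mul (PF.mul (.dr 5 Bd) (PF.pow2 (PF.mul (PF.dbl (.glob 1)) (.var 0))))
        (PF.prodN (.var 0) (.add (.var 0) (.cst 1))))) (.cst 0))

theorem pow_ang_le {X k : ℕ} (hX : X ≤ 7 * 2 ^ (2 * p)) (hk : k ≤ 8 * p) :
    X ^ k ≤ 2 ^ ((2 * p + 3) * (8 * p)) :=
  (Nat.pow_le_pow_left (show X ≤ 2 ^ (2 * p + 3) by rw [pow_add]; omega) _).trans (by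
    rw [← pow_mul]; exact Nat.pow_le_pow_right (by norm_num) (Nat.mul_le_mul_left _ hk))

theorem tay_le {a bd X : ℕ} (hfp : f ≤ p) (ha : a < 2 ^ p) (hX : X ≤ 7 * 2 ^ (2 * p)) (c : ℕ) :
    (∑ k ∈ range (8 * p), if k % 4 = c then tmF p f a bd X k else 0) ≤
      2 ^ (8 * p + (p + p + (2 * p + 3) * (8 * p))) := by
  refine (sum_le_card_nsmul _ _ (2 ^ (p + p + (2 * p + 3) * (8 * p))) fun k hk => ?_).trans ?_
  · split_ifs
    · refine (Nat.div_le_self _ _).trans ?_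
      rw [pow_add, pow_add]
      exact Nat.mul_le_mul (Nat.mul_le_mul ha.le (Nat.pow_le_pow_right (by norm_num) hfp))
        (pow_ang_le hX (mem_range.mp hk).le)
    · exact Nat.zero_le _
  · rw [card_range, smul_eq_mul, pow_add 2 (8 * p)]
    exact Nat.mul_le_mul_right _ Nat.lt_two_pow_self.le

theorem eval_tayE (hU : g 0 + 1 = 2 ^ B) (hp : g 1 = p) (hf : g 2 = f) (hB : 100 * p ^ 2 ≤ B)
    (hp10 : 10 ≤ p) (hfp : f ≤ p) {A Bd : PF} {a bd X d y : ℕ} (h3 : A.eval g l = a)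
    (h4 : Bd.eval g l = bd) (ha : a < 2 ^ p) (hX : X ≤ 7 * 2 ^ (2 * p)) (c : ℕ) :
    (tayE A Bd c).eval g (X :: d :: y :: l) =
      ∑ k ∈ range (8 * p), if k % 4 = c then tmF p f a bd X k else 0 := by
  have h0 : (PF.mul (.cst 8) (.glob 1)).eval g (X :: d :: y :: l) = 8 * p := by simp [hp]
  rw [tayE, PF.eval_sumN hU (fun k => if k % 4 = c then tmF p f a bd X k else 0)
    (by rw [h0]; nlinarith) ?_ (by rw [h0]; exact lt_B hB (tay_le hfp ha hX c) (by nlinarith)), h0]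
  intro k hk z
  rw [h0] at hk
  have e1 := PF.eval_pow2 hU (l := k :: z :: X :: d :: y :: l) (.glob 2) (by simp [hf]; nlinarith)
  have e2 := PF.eval_pow2 hU (l := k :: z :: X :: d :: y :: l) (PF.mul (PF.dbl (.glob 1)) (.var 0))
    (by simp [hp]; nlinarith)
  have e3 := PF.eval_pow hU (l := k :: z :: X :: d :: y :: l) (a := .var 2) (n := .var 0)
    (by simp; nlinarith) (by nlinarith) (lt_B hB (pow_ang_le hX hk.le) (by nlinarith))
  have e4 := PF.eval_prodN hU (l := k :: z :: X :: d :: y :: l) (n := .var 0)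
    (t := .add (.var 0) (.cst 1)) (fun i => i + 1) (by simp; nlinarith) (fun i _ b => by simp)
    fun j hj => by
      have hj : j ≤ k := hj
      rw [prod_range_add_one_eq_factorial]
      refine lt_B hB (k := 8 * p * (8 * p)) ((Nat.factorial_le_pow j).trans ?_) (by nlinarith)
      rw [pow_mul]
      exact (Nat.pow_le_pow_left (show j ≤ 2 ^ (8 * p) by
        have := Nat.lt_two_pow_self (n := 8 * p); omega) _).trans
        (Nat.pow_le_pow_right (by positivity) (by omega))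
  rw [PF.eval_ifEq, PF.eval_div, PF.eval_mul, PF.eval_mul, PF.eval_mul, PF.eval_mul, e1, e2, e3, e4]
  simp [hp, hf, h3, h4, tmF, prod_range_add_one_eq_factorial]

end

/-- A quarter of the double sum. -/
def quaE (nt ni A Bd num den : PF) (c : ℕ) : PF :=
  PF.sumN nt (.lt (angE ni num den) 0 (tayE A Bd c))

/-- A difference modulo `2 ^ p - 1`. -/
def cmbE (u v : PF) : PF :=
  PF.mod (.add u (.sub (.sub (PF.pow2 (.glob 1)) (.cst 1))
    (PF.mod v (.sub (PF.pow2 (.glob 1)) (.cst 1))))) (.sub (PF.pow2 (.glob 1)) (.cst 1))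

/-- An item approximating `2 ^ f (A / Bd) ∑_{d < nt} ∏_{i < ni} e (num / den)`, where `p` is
`glob 1` and `f` is `glob 2`. The expressions `num`, `den` see `i` as `var 0`, `d` as `var 2` and
the outer variables from `var 4` on. -/
def wE (nt ni A Bd num den : PF) : PF :=
  .add (cmbE (quaE nt ni A Bd num den 0) (quaE nt ni A Bd num den 2))
    (PF.mul (PF.pow2 (.glob 1)) (cmbE (quaE nt ni A Bd num den 1) (quaE nt ni A Bd num den 3)))

theorem sg_pack {p u v : ℕ} (hu : u < 2 ^ p) (hv : v < 2 ^ p) :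
    lv (((u + 2 ^ p * v).bits.takeD (2 * p) false).take p) = u ∧
    lv (((u + 2 ^ p * v).bits.takeD (2 * p) false).drop p) = v := by
  have h1 : u + 2 ^ p * v < 2 ^ (2 * p) := by
    have := Nat.mul_le_mul_left (2 ^ p) (Nat.succ_le_of_lt hv)
    rw [two_mul, pow_add]; rw [Nat.mul_succ] at this; omega
  rw [← List.takeD_eq_take false (by simp; omega), lv_takeD, lv_drop, lv_takeD, lv_bits,
    Nat.mod_eq_of_lt h1, Nat.add_mul_mod_self_left, Nat.mod_eq_of_lt hu,
    Nat.add_mul_div_left _ _ (by positivity), Nat.div_eq_of_lt hu, zero_add]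
  exact ⟨rfl, rfl⟩

theorem wE_spec {g : ℕ → ℕ} {l : List ℕ} {B p f NT NI a bd : ℕ} {nt ni A Bd num den : PF}
    (nu de : ℕ → ℕ → ℕ) (hU : g 0 + 1 = 2 ^ B) (hp : g 1 = p) (hf : g 2 = f)
    (hB : 100 * p ^ 2 ≤ B) (hp10 : 10 ≤ p) (hfp : f ≤ p)
    (h1 : nt.eval g l = NT) (h2 : ni.eval g l = NI) (h3 : A.eval g l = a) (h4 : Bd.eval g l = bd)
    (hNT : NT ≤ B) (hNI : NI ≤ p) (ha : a < 2 ^ p) (hbd : 0 < bd) (hbd' : bd < 2 ^ p)
    (h5 : ∀ d < NT, ∀ i < NI, ∀ x y, num.eval g (i :: x :: d :: y :: l) = nu d i ∧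
      den.eval g (i :: x :: d :: y :: l) = de d i ∧ 0 < de d i ∧ nu d i < 2 ^ p)
    (hmag : NT * a * 2 ^ f ≤ bd * 2 ^ (p - 3)) (herr : NT * (50 * p) ≤ 2 ^ (p - 3)) :
    ‖(sg p (((wE nt ni A Bd num den).eval g l).bits.takeD (2 * p) false) : ℂ) -
      2 ^ f * ((a : ℂ) / bd * ∑ d ∈ range NT, ∏ i ∈ range NI, ee ((nu d i : ℝ) / de d i))‖ ≤
        NT * (50 * p) ∧
    (a = 0 → sg p (((wE nt ni A Bd num den).eval g l).bits.takeD (2 * p) false) = 0) := by
  have _ := hbd'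
  let S : ℕ → ℕ := fun c => ∑ d ∈ range NT, ∑ k ∈ range (8 * p),
    if k % 4 = c then tmF p f a bd (angF p NI (nu d) (de d)) k else 0
  have hS : ∀ c, (quaE nt ni A Bd num den c).eval g l = S c := fun c => by
    rw [quaE, PF.eval_sumN hU (fun d => ∑ k ∈ range (8 * p),
      if k % 4 = c then tmF p f a bd (angF p NI (nu d) (de d)) k else 0) (by omega) ?_ ?_, h1]
    · intro d hd y
      rw [h1] at hd
      rw [PF.eval_lt, eval_angE hU hp hB hp10 (nu d) (de d) h2 hNI fun i hi x =>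
        ⟨(h5 d hd i hi x y).1, (h5 d hd i hi x y).2.1, (h5 d hd i hi x y).2.2.2⟩]
      exact eval_tayE hU hp hf hB hp10 hfp h3 h4 ha (angF_le hp10 _ _ _) c
    · rw [h1]
      refine lt_B hB (k := p + (8 * p + (p + p + (2 * p + 3) * (8 * p))))
        ((sum_le_card_nsmul _ _ _ fun d _ => tay_le hfp ha (angF_le hp10 _ _ _) c).trans ?_)
        (by nlinarith)
      rw [card_range, smul_eq_mul, pow_add 2 p]
      have : 2 ^ (p - 3) ≤ 2 ^ p := Nat.pow_le_pow_right (by norm_num) (by omega)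
      exact Nat.mul_le_mul_right _ (by nlinarith)
  have e2 : (PF.pow2 (.glob 1)).eval g l = 2 ^ p := by
    rw [PF.eval_pow2 hU _ (by simp [hp]; nlinarith)]; simp [hp]
  have hbd0 : (0 : ℝ) < bd := by exact_mod_cast hbd
  have hmag' : (NT : ℝ) * (2 ^ f * (a / bd)) ≤ 2 ^ (p - 3) := by
    rw [mul_div_assoc', mul_div_assoc', div_le_iff₀ hbd0]
    have : ((NT * a * 2 ^ f : ℕ) : ℝ) ≤ (bd * 2 ^ (p - 3) : ℕ) := by exact_mod_cast hmag
    push_cast at this
    linarith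
  have herr' : (NT : ℝ) * (50 * p) ≤ 2 ^ (p - 3) := by exact_mod_cast herr
  have hW : ‖(((S 0 : ℂ) - S 2) + ((S 1 : ℂ) - S 3) * Complex.I) -
      2 ^ f * ((a : ℂ) / bd * ∑ d ∈ range NT, ∏ i ∈ range NI, ee ((nu d i : ℝ) / de d i))‖ ≤
      NT * (50 * p) := by
    simp only [S, Nat.cast_sum (range NT), ← sum_sub_distrib, sum_mul, ← sum_add_distrib,
      ← sum_classes, ← mul_assoc, mul_sum (range NT)]
    refine (norm_sum_le _ _).trans ((sum_le_card_nsmul _ _ (50 * p : ℝ) fun d hd => ?_).trans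
      (by simp [mul_assoc]))
    have h6 : (1 : ℝ) ≤ NT := by exact_mod_cast (Nat.zero_le d).trans_lt (mem_range.mp hd)
    have := term_spec (f := f) (a := a) (bd := bd) hp10 hNI (nu d) (de d)
      ((le_mul_of_one_le_left (by positivity) h6).trans hmag')
    push_cast at this
    exact this
  have hZ : ‖2 ^ f * ((a : ℂ) / bd * ∑ d ∈ range NT, ∏ i ∈ range NI,
      ee ((nu d i : ℝ) / de d i))‖ ≤ 2 ^ (p - 3) := by
    refine le_trans ?_ hmag'
    rw [← mul_assoc, norm_mul, mul_comm]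
    refine mul_le_mul ((norm_sum_le _ _).trans (by simp)) (by simp) (norm_nonneg _) (by positivity)
  have hN : ‖((S 0 : ℂ) - S 2) + ((S 1 : ℂ) - S 3) * Complex.I‖ ≤ 2 ^ (p - 2) := by
    have := norm_le_norm_add_norm_sub' (((S 0 : ℂ) - S 2) + ((S 1 : ℂ) - S 3) * Complex.I)
      (2 ^ f * ((a : ℂ) / bd * ∑ d ∈ range NT, ∏ i ∈ range NI, ee ((nu d i : ℝ) / de d i)))
    rw [show p - 2 = p - 3 + 1 by omega, pow_succ]
    linarith
  have k1 := (Complex.abs_re_le_norm _).trans hN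
  have k2 := (Complex.abs_im_le_norm _).trans hN
  simp only [Complex.add_re, Complex.sub_re, Complex.natCast_re, Complex.mul_re, Complex.I_re,
    Complex.sub_im, Complex.natCast_im, Complex.I_im, Complex.add_im, Complex.mul_im, mul_zero,
    sub_self, mul_one, add_zero, zero_add] at k1 k2
  obtain ⟨r1, r2⟩ := signed_mod (u := S 0) (v := S 2) hp10 (by exact_mod_cast k1)
  obtain ⟨r3, r4⟩ := signed_mod (u := S 1) (v := S 3) hp10 (by exact_mod_cast k2)
  obtain ⟨r5, r6⟩ := sg_pack r1 r3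
  have hsg : sg p (((wE nt ni A Bd num den).eval g l).bits.takeD (2 * p) false) =
      ⟨S 0 - S 2, S 1 - S 3⟩ := by
    simp only [wE, cmbE, PF.eval_add, PF.eval_mul, PF.eval_mod, PF.eval_sub, PF.eval_cst, e2, hS,
      sg, sv, r5, r6, r2, r4]
  rw [hsg]
  refine ⟨?_, fun h0 => ?_⟩
  · rw [GaussianInt.toComplex_def']
    push_cast
    exact hW
  · have : ∀ c, S c = 0 := fun c => by simp [S, tmF, h0]
    simp only [this]
    rfl

end Vale.Agent.P338
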