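import Vale.Agent.P338.Fft

/-! The multidimensional transform and the convolution theorem. -/

namespace Vale.Agent.P338

open Finset Function Complex

/-- The discrete Fourier transform of length `n`. -/
noncomputable def F1 (ε : Bool) (n : ℕ) : E1 where
  toFun f y := ∑ a ∈ range n, ee (sgn ε * ((y * a : ℕ) / n)) * f a
  map_add' f g := by funext y; simp [mul_add, sum_add_distrib]
  map_smul' c f := by funext y; simp [mul_sum]; congr 1; funext a; ring

theorem F1_mem (ε : Bool) (n : ℕ) : F1 ε n ∈ Fin1 := fun _ => ⟨range n, _, fun _ => rfl⟩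

theorem F1_apply (ε : Bool) (n : ℕ) (f : ℕ → ℂ) (y : ℕ) :
    F1 ε n f y = ∑ a ∈ range n, ee (sgn ε * ((y * a : ℕ) / n)) * f a := rfl

theorem F1_inv {n y : ℕ} (hy : y < n) (f : ℕ → ℂ) : (F1 true n * F1 false n) f y = n * f y := by
  simp only [Module.End.mul_apply, F1_apply, mul_sum, ← mul_assoc]
  rw [sum_comm]
  simp only [← sum_mul]
  rw [sum_congr rfl fun c hc => by
    rw [show ∑ a ∈ range n, ee (sgn true * ((y * a : ℕ) / n)) * ee (sgn false * ((a * c : ℕ) / n)) =
      if y = c then (n : ℂ) else 0 from by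
      rw [← sum_ee_sub hy (mem_range.1 hc) (Or.inr rfl)]
      refine sum_congr rfl fun a _ => ?_
      rw [← ee_add]; congr 1; simp [sgn]; ring]]
  simp [hy]

theorem base_div {n y u : ℕ} (hu : u < 2 ^ n) : (y - y % 2 ^ n + u) / 2 ^ n = y / 2 ^ n := by
  have := Nat.div_add_mod y (2 ^ n)
  rw [show y - y % 2 ^ n = 2 ^ n * (y / 2 ^ n) by omega, Nat.mul_add_div (by positivity),
    Nat.div_eq_of_lt hu, add_zero]

/-- From `ρ` digits of radix `Q ^ 2` at the positions `1, …, ρ` to `2 ρ` digits of radix `Q`. -/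
def split (ρ Q : ℕ) (y : ℕ → ℕ) : ℕ → ℕ := fun k =>
  if k = 0 then y 0 else if k ≤ 2 * ρ then (if k % 2 = 1 then y ((k + 1) / 2) % Q else y (k / 2) / Q)
  else if k = 2 * ρ + 1 then y (ρ + 1) else 0

theorem Tens_split (ε : Bool) {s ρ o r : ℕ} (n : ℕ → ℕ) (h : o + r ≤ ρ) (hn : ∀ i < r, n i ≤ 2 ^ s)
    (v : (ℕ → ℕ) → ℂ) (y : ℕ → ℕ) (hy : ∀ i < r, y (1 + o + i) % 2 ^ s < n i) :
    Tens (fun i => 1 + o + i) (fun i => Fop ε s (n i)) r (v ∘ split ρ (2 ^ s)) y =
      Tens (fun i => 1 + 2 * (o + i)) (fun i => F1 ε (n i)) r v (split ρ (2 ^ s) y) := by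
  induction r generalizing y with
  | zero => rfl
  | succ r ih =>
    have e : split ρ (2 ^ s) y (1 + 2 * (o + r)) = y (1 + o + r) % 2 ^ s := by
      rw [split, if_neg (by omega), if_pos (by omega), if_pos (by omega)]
      congr 2; omega
    rw [Tens, Tens, Module.End.mul_apply, Module.End.mul_apply, ax_apply, ax_apply,
      Fop_apply ε (hn r (by omega)) (hy r (by omega)), F1_apply, e]
    refine sum_congr rfl fun a ha => ?_
    have ha : a < 2 ^ s := (mem_range.1 ha).trans_le (hn r (by omega))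
    rw [ih (by omega) (fun i hi => hn i (by omega)) _ fun i hi => by
      rw [update_of_ne (by omega)]; exact hy i (by omega)]
    refine congrArg _ (congrArg _ ?_)
    funext k
    by_cases h1 : k = 1 + 2 * (o + r)
    · rw [h1, update_self, split, if_neg (by omega), if_pos (by omega), if_pos (by omega),
        show (1 + 2 * (o + r) + 1) / 2 = 1 + o + r by omega, update_self, base_mod ha]
    rw [update_of_ne h1]
    by_cases h2 : k = 2 + 2 * (o + r)
    · rw [h2, split, split, if_neg (by omega), if_pos (by omega), if_neg (by omega),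
        if_neg (by omega), if_pos (by omega), if_neg (by omega),
        show (2 + 2 * (o + r)) / 2 = 1 + o + r by omega, update_self, base_div ha]
    unfold split
    split_ifs <;> first | rfl | rw [update_of_ne (by omega)]

/-- The digits at the positions `1, …, d` are below the sizes. -/
def Vd (d : ℕ) (sz : ℕ → ℕ) (x : ℕ → ℕ) : Prop := ∀ i < d, x (1 + i) < sz i

theorem Vd.update {d : ℕ} {sz x : ℕ → ℕ} (hx : Vd d sz x) {k a : ℕ} (ha : a < sz k) :
    Vd d sz (update x (1 + k) a) := by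
  intro i hi
  by_cases h : i = k
  · rw [h, update_self]; exact ha
  · rw [update_of_ne (by omega)]; exact hx i hi

/-- A transform along some of the positions `1, …, d` reads only valid entries. -/
theorem Tens_F1_congr (ε : Bool) {d r : ℕ} {sz : ℕ → ℕ} (q : ℕ → ℕ) (hq : ∀ i < r, q i < d)
    {S : (ℕ → ℕ) → Prop} (hS : ∀ x, S x → ∀ i < d, ∀ y, S (update x (1 + i) y))
    {u v : (ℕ → ℕ) → ℂ} (h : ∀ x, Vd d sz x → S x → u x = v x) (x : ℕ → ℕ) (hx : Vd d sz x)
    (hx' : S x) : Tens (fun i => 1 + q i) (fun i => F1 ε (sz (q i))) r u x =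
      Tens (fun i => 1 + q i) (fun i => F1 ε (sz (q i))) r v x := by
  induction r generalizing x with
  | zero => exact h x hx hx'
  | succ r ih =>
    rw [Tens, Module.End.mul_apply, Module.End.mul_apply, ax_apply, ax_apply, F1_apply, F1_apply]
    refine sum_congr rfl fun a ha => ?_
    rw [ih (fun i hi => hq i (by omega)) _ (hx.update (mem_range.1 ha))
      (hS x hx' _ (hq r (by omega)) a)]

/-- The positions of the four groups. -/
def grp (r q i : ℕ) : ℕ := 2 * (r * (1 - q / 2) + i) + q % 2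

/-- The product of the transforms of the first `q` groups. -/
noncomputable def Grps (ε : Bool) (r : ℕ) (sz : ℕ → ℕ) : ℕ → EE
  | 0 => 1
  | q + 1 => Tens (fun i => 1 + grp r q i) (fun i => F1 ε (sz (grp r q i))) r * Grps ε r sz q

theorem Tens_add (pos : ℕ → ℕ) (A : ℕ → E1) (m r : ℕ) : Tens pos A (m + r) =
    Tens (fun i => pos (m + i)) (fun i => A (m + i)) r * Tens pos A m := by
  induction r with
  | zero => simp [Tens]
  | succ r ih => rw [← add_assoc, Tens, Tens, ih, mul_assoc]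

theorem Tens_comm {pos pos' : ℕ → ℕ} {A B : ℕ → E1} (hA : ∀ i, A i ∈ Fin1) (hB : ∀ i, B i ∈ Fin1)
    {r r' : ℕ} (h : ∀ i < r, ∀ j < r', pos i ≠ pos' j) :
    Commute (Tens pos A r) (Tens pos' B r') := by
  induction r with
  | zero => exact Commute.one_left _
  | succ r ih =>
    exact (ax_comm_Tens hB (hA r) (h r (by omega))).mul_left (ih fun i hi => h i (by omega))

theorem Tens_pair {A : ℕ → E1} (hA : ∀ i, A i ∈ Fin1) (o r : ℕ) :
    Tens (fun i => 1 + (2 * (o + i) + 1)) (fun i => A (2 * (o + i) + 1)) r *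
      Tens (fun i => 1 + 2 * (o + i)) (fun i => A (2 * (o + i))) r =
    Tens (fun i => 1 + (2 * o + i)) (fun i => A (2 * o + i)) (2 * r) := by
  induction r with
  | zero => simp [Tens]
  | succ r ih =>
    have hc := ax_comm_Tens (pos := fun i => 1 + (2 * (o + i) + 1))
      (A := fun i => A (2 * (o + i) + 1)) (fun i => hA _) (k := 1 + 2 * (o + r))
      (hA (2 * (o + r))) (r := r) fun i _ => by omega
    rw [show 2 * (r + 1) = 2 * r + 1 + 1 by ring, Tens, Tens, Tens, Tens, ← ih, mul_assoc,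
      ← mul_assoc (Tens _ _ _), ← hc.eq, mul_assoc, show 2 * o + (2 * r + 1) = 2 * (o + r) + 1 by ring,
      show 2 * o + 2 * r = 2 * (o + r) by ring]

theorem Grps_four (ε : Bool) (r : ℕ) (sz : ℕ → ℕ) :
    Grps ε r sz 4 = Tens (fun i => 1 + i) (fun i => F1 ε (sz i)) (4 * r) := by
  have h0 := Tens_pair (A := fun i => F1 ε (sz i)) (fun i => F1_mem _ _) 0 r
  have h1 := Tens_pair (A := fun i => F1 ε (sz i)) (fun i => F1_mem _ _) r r
  simp only [zero_add, mul_zero] at h0
  simp only [Grps, grp, mul_one, Nat.reduceDiv, Nat.reduceMod, Nat.reduceSub, mul_zero, zero_add,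
    add_zero]
  rw [h1, ← mul_assoc, h0, show 4 * r = 2 * r + 2 * r by ring, Tens_add]
  exact (Tens_comm (fun i => F1_mem _ _) (fun i => F1_mem _ _) fun i hi j hj => by omega).eq

/-- Sizes and inverses for the Chinese remainder map `j ↦ (inv i * j % sz i)`. -/
structure Crt (d : ℕ) (sz inv : ℕ → ℕ) : Prop where
  pos : ∀ i < d, 0 < sz i
  cop : ∀ i < d, ∀ j < d, i ≠ j → Nat.Coprime (sz i) (sz j)
  inv : ∀ i < d, (∏ j ∈ Ico (i + 1) d, sz j) * inv i ≡ 1 [MOD sz i]

open Classical in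
/-- The array of a bivariate coefficient family. -/
noncomputable def emb2 (d : ℕ) (sz inv : ℕ → ℕ) (cf : ℕ → ℕ → ℂ) (x : ℕ → ℕ) : ℂ :=
  ∑ j ∈ range (∏ i ∈ range d, sz i),
    if ∀ i < d, x (1 + i) = inv i * j % sz i then cf j (x (d + 1)) else 0

/-- The number whose mixed-radix digits, most significant first, stand at positions `1, …, d`. -/
def mix (d : ℕ) (sz : ℕ → ℕ) (x : ℕ → ℕ) : ℕ := ∑ i ∈ range d, (∏ j ∈ Ico (i + 1) d, sz j) * x (1 + i)

/-- The part of `mix` above position `1 + i`, times the inverse, modulo the size. -/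
def off (d : ℕ) (sz inv : ℕ → ℕ) (i : ℕ) (x : ℕ → ℕ) : ℕ :=
  inv i * (∑ k ∈ Ico (i + 1) d, (∏ j ∈ Ico (k + 1) d, sz j) * x (1 + k)) % sz i

/-- The position treated in pass `t`. -/
def crtP (dir : Bool) (d t : ℕ) : ℕ := if dir then d - 1 - t else t

/-- The first `t` passes of the Chinese remainder permutation (`dir = false`) or of its inverse
(`dir = true`), as a map of indices. -/
def crt (dir : Bool) (d : ℕ) (sz inv : ℕ → ℕ) : ℕ → (ℕ → ℕ) → ℕ → ℕ
  | 0, x => x
  | t + 1, x => crt dir d sz inv t (update x (1 + crtP dir d t) ((x (1 + crtP dir d t) +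
      if dir then off d sz inv (crtP dir d t) x
      else sz (crtP dir d t) - off d sz inv (crtP dir d t) x) % sz (crtP dir d t)))

variable {d : ℕ} {sz inv : ℕ → ℕ}

theorem mix_succ (d : ℕ) (sz x : ℕ → ℕ) : mix (d + 1) sz x = mix d sz x * sz d + x (1 + d) := by
  rw [mix, mix, sum_range_succ, sum_mul]
  congr 1
  · refine sum_congr rfl fun i hi => ?_
    rw [prod_Ico_succ_top (by have := mem_range.1 hi; omega)]; ring
  · simp

theorem mix_lt {x : ℕ → ℕ} (hx : Vd d sz x) : mix d sz x < ∏ i ∈ range d, sz i := by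
  induction d with
  | zero => simp [mix]
  | succ d ih =>
    have h1 := ih fun i hi => hx i (by omega)
    have h2 := hx d (by omega)
    rw [mix_succ, prod_range_succ]
    nlinarith

theorem crt_ne (dir : Bool) {t : ℕ} (x : ℕ → ℕ) {k : ℕ} (hk : ∀ j < t, k ≠ 1 + crtP dir d j) :
    crt dir d sz inv t x k = x k := by
  induction t generalizing x with
  | zero => rfl
  | succ t ih => rw [crt, ih _ fun j hj => hk j (by omega), update_of_ne (hk t (by omega))]

theorem crtP_lt (dir : Bool) {t : ℕ} (ht : t < d) : crtP dir d t < d := by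
  unfold crtP; split_ifs <;> omega

theorem crt_other (dir : Bool) {t : ℕ} (ht : t ≤ d) (x : ℕ → ℕ) {k : ℕ} (hk : k = 0 ∨ d < k) :
    crt dir d sz inv t x k = x k :=
  crt_ne dir x fun j hj => by have := crtP_lt dir (d := d) (t := j) (by omega); omega

theorem crt_valid (h : Crt d sz inv) (dir : Bool) {t : ℕ} (ht : t ≤ d) {x : ℕ → ℕ}
    (hx : Vd d sz x) : Vd d sz (crt dir d sz inv t x) := by
  induction t generalizing x with
  | zero => exact hx
  | succ t ih =>
    exact ih (by omega) (hx.update (Nat.mod_lt _ (h.pos _ (crtP_lt dir (by omega)))))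

theorem off_congr {i : ℕ} {x z : ℕ → ℕ} (h : ∀ k, i < k → x (1 + k) = z (1 + k)) :
    off d sz inv i x = off d sz inv i z := by
  unfold off
  rw [sum_congr rfl fun k hk => by rw [h k (mem_Ico.1 hk).1]]

theorem inv_mix (h : Crt d sz inv) {i : ℕ} (hi : i < d) (z : ℕ → ℕ) :
    inv i * mix d sz z ≡ z (1 + i) + off d sz inv i z [MOD sz i] := by
  rw [mix, range_eq_Ico, ← sum_Ico_consecutive _ (Nat.zero_le i) hi.le,
    sum_eq_sum_Ico_succ_bot hi, mul_add, mul_add]
  have h1 : inv i * ∑ k ∈ Ico 0 i, (∏ j ∈ Ico (k + 1) d, sz j) * z (1 + k) ≡ 0 [MOD sz i] :=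
    (Nat.modEq_zero_iff_dvd).2 (Dvd.dvd.mul_left (dvd_sum fun k hk =>
      Dvd.dvd.mul_right (dvd_prod_of_mem _ (mem_Ico.2 ⟨(mem_Ico.1 hk).2, hi⟩)) _) _)
  have h2 : inv i * ((∏ j ∈ Ico (i + 1) d, sz j) * z (1 + i)) ≡ z (1 + i) [MOD sz i] := by
    have := (h.inv i hi).mul_right (z (1 + i))
    rwa [one_mul, mul_comm _ (inv i), mul_assoc] at this
  have h3 := h1.add (h2.add (Nat.mod_modEq
    (inv i * ∑ k ∈ Ico (i + 1) d, (∏ j ∈ Ico (k + 1) d, sz j) * z (1 + k)) (sz i)).symm)
  rwa [zero_add] at h3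

theorem emb2_eq (h : Crt d sz inv) (cf : ℕ → ℕ → ℂ) {x : ℕ → ℕ} {j : ℕ}
    (hj : j < ∏ i ∈ range d, sz i) (hx : ∀ i < d, x (1 + i) = inv i * j % sz i) :
    emb2 d sz inv cf x = cf j (x (d + 1)) := by
  rw [emb2, sum_eq_single_of_mem j (mem_range.2 hj), if_pos hx]
  intro k hk hkj
  rw [if_neg]
  intro hk'
  refine hkj (Nat.ModEq.eq_of_lt_of_lt ?_ (mem_range.1 hk) hj)
  have key : ∀ i < d, k ≡ j [MOD sz i] := by
    intro i hi
    have e : inv i * k ≡ inv i * j [MOD sz i] := (hk' i hi).symm.trans (hx i hi)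
    have e1 := (h.inv i hi).mul_right k
    have e2 := (h.inv i hi).mul_right j
    rw [one_mul, mul_assoc] at e1 e2
    exact e1.symm.trans ((e.mul_left _).trans e2)
  have : ∀ m ≤ d, k ≡ j [MOD ∏ i ∈ range m, sz i] := by
    intro m
    induction m with
    | zero => intro _; simp [Nat.modEq_one]
    | succ m ih =>
      intro hm
      rw [prod_range_succ]
      exact (Nat.modEq_and_modEq_iff_modEq_mul (Nat.Coprime.prod_left fun i hi =>
        h.cop i (by have := mem_range.1 hi; omega) m (by omega)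
          (by have := mem_range.1 hi; omega))).1 ⟨ih (by omega), key m (by omega)⟩
  exact this d le_rfl

theorem crt_false_eq {t : ℕ} (x : ℕ → ℕ) : ∀ i < t, crt false d sz inv t x (1 + i) =
    (x (1 + i) + (sz i - off d sz inv i (crt false d sz inv t x))) % sz i := by
  induction t generalizing x with
  | zero => intro i hi; omega
  | succ t ih =>
    intro i hi
    rw [crt]
    simp only [crtP, Bool.false_eq_true, if_false]
    rcases (by omega : i < t ∨ i = t) with h | rfl
    · rw [ih _ i h, update_of_ne (by omega)]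
    · rw [crt_ne _ _ fun j hj => by simp [crtP]; omega, update_self]
      congr 3
      refine off_congr fun k hk => ?_
      rw [crt_ne _ _ fun j hj => by simp [crtP]; omega, update_of_ne (by omega)]

theorem crt_true_eq {t : ℕ} (ht : t ≤ d) (x : ℕ → ℕ) : ∀ i < d, d - t ≤ i →
    crt true d sz inv t x (1 + i) = (x (1 + i) + off d sz inv i x) % sz i := by
  induction t generalizing x with
  | zero => intro i hi hi'; omega
  | succ t ih =>
    intro i hi hi'
    rw [crt]
    simp only [crtP, if_true]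
    rcases (by omega : d - t ≤ i ∨ i = d - 1 - t) with h | rfl
    · rw [ih (by omega) _ i hi h, update_of_ne (by omega),
        off_congr fun k hk => update_of_ne (by omega) _ _]
    · rw [crt_ne _ _ fun j hj => by simp [crtP]; omega, update_self]

theorem crt_fwd (h : Crt d sz inv) (cf : ℕ → ℕ → ℂ) {x : ℕ → ℕ} (hx : Vd d sz x) :
    emb2 d sz inv cf x = cf (mix d sz (crt false d sz inv d x)) (x (d + 1)) := by
  refine emb2_eq h cf (mix_lt (crt_valid h false le_rfl hx)) fun i hi => ?_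
  have h1 := inv_mix h hi (crt false d sz inv d x)
  rw [crt_false_eq x i hi] at h1
  have h2 : off d sz inv i (crt false d sz inv d x) < sz i := Nat.mod_lt _ (h.pos i hi)
  rw [h1, Nat.mod_add_mod, add_assoc, Nat.sub_add_cancel h2.le, Nat.add_mod_right,
    Nat.mod_eq_of_lt (hx i hi)]

theorem crt_bwd (h : Crt d sz inv) (cf : ℕ → ℕ → ℂ) {x : ℕ → ℕ} (hx : Vd d sz x) :
    emb2 d sz inv cf (crt true d sz inv d x) = cf (mix d sz x) (x (d + 1)) := by
  rw [emb2_eq h cf (mix_lt hx) fun i hi => by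
    rw [crt_true_eq le_rfl x i hi (by omega)]; exact (inv_mix h hi x).symm,
    crt_other true le_rfl x (Or.inr (by omega))]

noncomputable def Fwd (d : ℕ) (sz : ℕ → ℕ) (g : ℕ) : EE :=
  ax (d + 1) (fft false g g) * Tens (fun i => 1 + i) (fun i => F1 false (sz i)) d

noncomputable def Bwd (d : ℕ) (sz : ℕ → ℕ) (g : ℕ) : EE :=
  Tens (fun i => 1 + i) (fun i => F1 true (sz i)) d * ax (d + 1) (fft true g g)

/-- The coefficients of the product of two bivariate polynomials. -/
noncomputable def cv2 (a b : ℕ → ℕ → ℂ) (j γ : ℕ) : ℂ :=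
  ∑ p ∈ antidiagonal j, ∑ q ∈ antidiagonal γ, a p.1 q.1 * b p.2 q.2

open Classical in
theorem Tens_delta (ε : Bool) {r : ℕ} {c : ℕ → ℕ} (hc : ∀ i < r, c i < sz i) (w : (ℕ → ℕ) → ℂ)
    (hw : ∀ i < r, ∀ x y, w (update x (1 + i) y) = w x) (x : ℕ → ℕ) :
    Tens (fun i => 1 + i) (fun i => F1 ε (sz i)) r
      (fun x => if ∀ i < r, x (1 + i) = c i then w x else 0) x =
      (∏ i ∈ range r, ee (sgn ε * ((x (1 + i) * c i : ℕ) / sz i))) * w x := by
  induction r generalizing w x with
  | zero => simp [Tens]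
  | succ r ih =>
    have e : (fun x : ℕ → ℕ => if ∀ i < r + 1, x (1 + i) = c i then w x else 0) = fun x =>
        if ∀ i < r, x (1 + i) = c i then (if x (1 + r) = c r then w x else 0) else 0 := by
      funext x
      simp only [Nat.forall_lt_succ_right, ite_and]
    rw [Tens, Module.End.mul_apply, ax_apply, F1_apply, e,
      sum_eq_single_of_mem (c r) (mem_range.2 (hc r (by omega)))]
    · rw [ih (fun i hi => hc i (by omega)) _ fun i hi x y => by
        rw [update_of_ne (by omega), hw i (by omega)], update_self, if_pos rfl, hw r (by omega),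
        prod_range_succ, prod_congr rfl fun i hi => by
          rw [update_of_ne (by have := mem_range.1 hi; omega)]]
      ring
    · intro a _ ha
      rw [ih (fun i hi => hc i (by omega)) _ fun i hi x y => by
        rw [update_of_ne (by omega), hw i (by omega)], update_self, if_neg ha]
      simp

theorem Fwd_emb2 (h : Crt d sz inv) (g : ℕ) (a : ℕ → ℕ → ℂ) {x : ℕ → ℕ} (hx' : x (d + 1) < 2 ^ g) :
    Fwd d sz g (emb2 d sz inv a) x = ∑ j ∈ range (∏ i ∈ range d, sz i), ∑ γ ∈ range (2 ^ g),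
      a j γ * ((∏ i ∈ range d, ee ((x (1 + i) * inv i : ℕ) / sz i)) ^ j *
        ee ((rev g (x (d + 1)) : ℕ) / (2 ^ g : ℕ)) ^ γ) := by
  classical
  rw [Fwd, Module.End.mul_apply, ax_apply, fft_apply, sum_comm]
  refine sum_congr rfl fun γ _ => ?_
  have e : emb2 d sz inv a = ∑ j ∈ range (∏ i ∈ range d, sz i), fun x =>
      if ∀ i < d, x (1 + i) = inv i * j % sz i then a j (x (d + 1)) else 0 := by
    funext x; rw [emb2, Finset.sum_apply]
  rw [e, map_sum, Finset.sum_apply, mul_sum, Nat.mod_eq_of_lt hx', Nat.sub_self, zero_add]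
  refine sum_congr rfl fun j _ => ?_
  have := Tens_delta (sz := sz) false (c := fun i => inv i * j % sz i)
    (fun i hi => Nat.mod_lt _ (h.pos i hi)) (fun x => a j (x (d + 1)))
    (fun i hi x y => by rw [update_of_ne (by omega)]) (update x (d + 1) γ)
  rw [update_self] at this
  rw [← prod_pow, ← ee_nat_mul, prod_congr rfl fun i _ => (ee_nat_mul _ _).symm]
  refine (congrArg _ (Eq.trans (by congr!) this)).trans ?_
  rw [prod_congr rfl fun i hi => by
    rw [update_of_ne (by have := mem_range.1 hi; omega), show sgn false = 1 from rfl, one_mul,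
      ee_mod, show ((x (1 + i) * (inv i * j) : ℕ) : ℝ) / sz i =
        j * ((x (1 + i) * inv i : ℕ) / sz i) by push_cast; ring],
    show ((rev g (x (d + 1)) * γ : ℕ) : ℝ) / (2 ^ g : ℕ) =
      γ * ((rev g (x (d + 1)) : ℕ) / (2 ^ g : ℕ)) by push_cast; ring]
  ring

theorem sum_conv (M : ℕ) (F : ℕ → ℕ → ℂ) (hF : ∀ i j, M ≤ 2 * i ∨ M ≤ 2 * j → F i j = 0) :
    ∑ k ∈ range M, ∑ p ∈ antidiagonal k, F p.1 p.2 = ∑ i ∈ range M, ∑ j ∈ range M, F i j := by
  simp only [Finset.Nat.sum_antidiagonal_eq_sum_range_succ_mk]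
  rw [sum_range_diag_flip M F]
  refine sum_congr rfl fun i _ => sum_subset (range_subset_range.2 (Nat.sub_le _ _)) ?_
  intro j _ hj
  exact hF i j (by rw [mem_range] at hj; omega)

theorem conv_fwd (h : Crt d sz inv) (g : ℕ) {a b : ℕ → ℕ → ℂ}
    (ha : ∀ j γ, (∏ i ∈ range d, sz i ≤ 2 * j ∨ 2 ^ g ≤ 2 * γ) → a j γ = 0)
    (hb : ∀ j γ, (∏ i ∈ range d, sz i ≤ 2 * j ∨ 2 ^ g ≤ 2 * γ) → b j γ = 0)
    {x : ℕ → ℕ} (hx : Vd d sz x) (hx' : x (d + 1) < 2 ^ g) :
    Fwd d sz g (emb2 d sz inv a) x * Fwd d sz g (emb2 d sz inv b) x =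
      Fwd d sz g (emb2 d sz inv (cv2 a b)) x := by
  have _ := hx
  rw [Fwd_emb2 h g a hx', Fwd_emb2 h g b hx', Fwd_emb2 h g _ hx']
  generalize (∏ i ∈ range d, ee ((x (1 + i) * inv i : ℕ) / sz i)) = X
  generalize ee ((rev g (x (d + 1)) : ℕ) / (2 ^ g : ℕ)) = Z
  generalize ∏ i ∈ range d, sz i = M at *
  generalize 2 ^ g = G at *
  rw [sum_mul_sum, ← sum_conv M (fun i j => (∑ γ ∈ range G, a i γ * (X ^ i * Z ^ γ)) *
    ∑ γ ∈ range G, b j γ * (X ^ j * Z ^ γ))]
  · refine sum_congr rfl fun k _ => ?_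
    simp only [cv2, sum_mul]
    rw [sum_comm (s := range G) (t := antidiagonal k)]
    refine sum_congr rfl fun p hp => ?_
    simp only [mul_sum]
    rw [← sum_conv G (fun γ δ => a p.1 γ * (X ^ p.1 * Z ^ γ) * (b p.2 δ * (X ^ p.2 * Z ^ δ)))]
    · refine sum_congr rfl fun γ _ => sum_congr rfl fun q hq => ?_
      rw [← mem_antidiagonal.1 hp, ← mem_antidiagonal.1 hq]; ring
    · rintro i j (h' | h')
      · rw [ha _ _ (Or.inr h')]; simp
      · rw [hb _ _ (Or.inr h')]; simp
  · rintro i j (h' | h')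
    · simp [ha _ _ (Or.inl h')]
    · simp [hb _ _ (Or.inl h')]

theorem Tens_F1_inv {r : ℕ} (u : (ℕ → ℕ) → ℂ) {x : ℕ → ℕ} (hx : Vd r sz x) :
    Tens (fun i => 1 + i) (fun i => F1 true (sz i) * F1 false (sz i)) r u x =
      (∏ i ∈ range r, sz i : ℕ) * u x := by
  induction r with
  | zero => simp [Tens]
  | succ r ih =>
    rw [Tens, Module.End.mul_apply, ax_apply, F1_inv (hx r (by omega)), update_eq_self,
      ih fun i hi => hx i (by omega), prod_range_succ]
    push_cast; ring

theorem conv_bwd (g : ℕ) {u w : (ℕ → ℕ) → ℂ}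
    (hw : ∀ x, Vd d sz x → x (d + 1) < 2 ^ g → w x = Fwd d sz g u x)
    {x : ℕ → ℕ} (hx : Vd d sz x) (hx' : x (d + 1) < 2 ^ g) :
    Bwd d sz g w x = (∏ i ∈ range d, sz i : ℕ) * u x := by
  rw [← Tens_F1_inv u hx, Tens_mul (add_right_injective 1) (fun i => F1_mem _ _)
    (fun i => F1_mem _ _), Bwd, Module.End.mul_apply, Module.End.mul_apply]
  refine Tens_F1_congr true (d := d) id (fun i hi => hi) (S := fun x => x (d + 1) < 2 ^ g)
    (fun x hx i hi y => by rwa [update_of_ne (by omega)]) (fun x hx hx' => ?_) x hx hx'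
  rw [ax_apply, fft_true_congr g (f' := fun y => Fwd d sz g u (update x (d + 1) y)) (fun y hy =>
    hw _ (fun i hi => by rw [update_of_ne (by omega)]; exact hx i hi) (by rwa [update_self])) hx',
    ← ax_apply, Fwd, ← Module.End.mul_apply, ← mul_assoc, ← map_mul, fft_inv, map_one, one_mul]

end Vale.Agent.P338
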