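import Vale.Agent.P338.Conv

/-! The convolution theorem with the power-of-two transform done first. -/

namespace Vale.Agent.P338

open Finset Function

variable {d : ℕ} {sz inv : ℕ → ℕ}

theorem emb2_ax {A : E1} (cf : ℕ → ℕ → ℂ) :
    emb2 d sz inv (fun j => A (cf j)) = ax (d + 1) A (emb2 d sz inv cf) := by
  classical
  funext x
  have e : (fun y => emb2 d sz inv cf (update x (d + 1) y)) =
      ∑ j ∈ range (∏ i ∈ range d, sz i),
        if ∀ i < d, x (1 + i) = inv i * j % sz i then cf j else 0 := by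
    funext y
    rw [emb2, Finset.sum_apply]
    refine sum_congr rfl fun j _ => ?_
    have : (∀ i < d, update x (d + 1) y (1 + i) = inv i * j % sz i) ↔
        ∀ i < d, x (1 + i) = inv i * j % sz i :=
      forall₂_congr fun i hi => by rw [update_of_ne (by omega)]
    rw [update_self]
    by_cases h : ∀ i < d, x (1 + i) = inv i * j % sz i
    · rw [if_pos h, if_pos (this.mpr h)]
    · rw [if_neg h, if_neg fun h' => h (this.mp h')]; rfl
  rw [ax_apply, e, map_sum, emb2, Finset.sum_apply]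
  refine sum_congr rfl fun j _ => ?_
  by_cases h : ∀ i < d, x (1 + i) = inv i * j % sz i
  · rw [if_pos h, if_pos h]
  · rw [if_neg h, if_neg h, map_zero]; rfl

theorem Tens_emb2_fft (ε : Bool) (g : ℕ) (cf : ℕ → ℕ → ℂ) :
    Tens (fun i => 1 + i) (fun i => F1 ε (sz i)) d (emb2 d sz inv fun j => fft false g g (cf j)) =
      ax (d + 1) (fft false g g) (Tens (fun i => 1 + i) (fun i => F1 ε (sz i)) d
        (emb2 d sz inv cf)) := by
  rw [emb2_ax, ← Module.End.mul_apply, ← (ax_comm_Tens (fun i => F1_mem ε (sz i))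
    (fft_mem false g g) fun i hi => by omega).eq, Module.End.mul_apply]

theorem conv_mid (h : Crt d sz inv) (g : ℕ) {a b : ℕ → ℕ → ℂ}
    (ha : ∀ j γ, (∏ i ∈ range d, sz i ≤ 2 * j ∨ 2 ^ g ≤ 2 * γ) → a j γ = 0)
    (hb : ∀ j γ, (∏ i ∈ range d, sz i ≤ 2 * j ∨ 2 ^ g ≤ 2 * γ) → b j γ = 0)
    {x : ℕ → ℕ} (hx : Vd d sz x) (hx' : x (d + 1) < 2 ^ g) :
    Tens (fun i => 1 + i) (fun i => F1 true (sz i)) d
      (Tens (fun i => 1 + i) (fun i => F1 false (sz i)) d
          (emb2 d sz inv fun j => fft false g g (a j)) *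
        Tens (fun i => 1 + i) (fun i => F1 false (sz i)) d
          (emb2 d sz inv fun j => fft false g g (b j))) x =
      (∏ i ∈ range d, sz i : ℕ) * emb2 d sz inv (fun j => fft false g g (cv2 a b j)) x := by
  rw [← Tens_F1_inv _ hx, Tens_mul (fun i j h => by simpa using h) (fun i => F1_mem _ _)
    fun i => F1_mem _ _, Module.End.mul_apply]
  refine Tens_F1_congr true id (fun i hi => hi) (S := fun x => x (d + 1) < 2 ^ g)
    (fun x hx i hi y => by rwa [update_of_ne (by omega)]) (fun y hy hy' => ?_) x hx hx'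
  rw [Pi.mul_apply, Tens_emb2_fft, Tens_emb2_fft, Tens_emb2_fft]
  exact conv_fwd h g ha hb hy hy'

end Vale.Agent.P338
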