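import Mathlib

/-! A truncated sieve: short intervals contain numbers coprime to a given number. -/

namespace Vale.Agent.P338

open Finset

/-- Truncated inclusion-exclusion sums. -/
def trunc : List ℝ → ℕ → ℝ
  | [], _ => 1
  | _ :: _, 0 => 1
  | a :: l, m + 1 => trunc l (m + 1) - a * trunc l m

theorem trunc_zero (l : List ℝ) : trunc l 0 = 1 := by cases l <;> rfl

theorem add_pow_ge {L a : ℝ} (hL : 0 ≤ L) (ha : 0 ≤ a) (k : ℕ) :
    L ^ (k + 1) + (k + 1) * a * L ^ k ≤ (a + L) ^ (k + 1) := by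
  induction k with
  | zero => simp [add_comm]
  | succ k ih =>
    have h1 := mul_le_mul_of_nonneg_right ih (add_nonneg ha hL)
    have h2 : 0 ≤ (k + 1) * a * L ^ k * a := by positivity
    push_cast
    rw [pow_succ (a + L) (k + 1), pow_succ L (k + 1)]
    rw [pow_succ L k] at *
    nlinarith

theorem trunc_bound (l : List ℝ) (hl : ∀ a ∈ l, 0 ≤ a ∧ a ≤ 1) : ∀ m : ℕ,
    0 ≤ (l.map fun a => 1 - a).prod ∧ (l.map fun a => 1 - a).prod ≤ 1 ∧
    0 ≤ (-1) ^ m * (trunc l m - (l.map fun a => 1 - a).prod) ∧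
    (-1) ^ m * (trunc l m - (l.map fun a => 1 - a).prod) ≤ l.sum ^ (m + 1) / (m + 1).factorial := by
  induction l with
  | nil => intro m; simp [trunc]
  | cons a l ih =>
    intro m
    obtain ⟨h0, h1⟩ := hl a (by simp)
    have ih := ih fun b hb => hl b (by simp [hb])
    have hL : 0 ≤ l.sum := List.sum_nonneg fun b hb => (hl b (by simp [hb])).1
    obtain ⟨k1, k2, k3, k4⟩ := ih m
    simp only [List.map_cons, List.prod_cons, List.sum_cons]
    refine ⟨mul_nonneg (by linarith) k1, by nlinarith, ?_⟩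
    cases m with
    | zero =>
      simp only [trunc_zero, pow_zero, one_mul, zero_add, pow_one, Nat.factorial_one,
        Nat.cast_one, div_one] at *
      constructor <;> nlinarith
    | succ m =>
      obtain ⟨-, -, k5, k6⟩ := ih m
      have e : (-1) ^ (m + 1) * (trunc (a :: l) (m + 1) - (1 - a) * (l.map fun a => 1 - a).prod) =
          (-1) ^ (m + 1) * (trunc l (m + 1) - (l.map fun a => 1 - a).prod) +
          a * ((-1) ^ m * (trunc l m - (l.map fun a => 1 - a).prod)) := by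
        simp only [trunc]; ring
      rw [e]
      refine ⟨add_nonneg k3 (mul_nonneg h0 k5),
        (add_le_add k4 (mul_le_mul_of_nonneg_left k6 h0)).trans ?_⟩
      refine le_of_eq_of_le ?_ (div_le_div_of_nonneg_right (add_pow_ge hL h0 (m + 1))
        (by positivity))
      rw [Nat.factorial_succ (m + 1)]
      push_cast
      field_simp

theorem count_dvd (H A d : ℕ) (hA : A ≤ H) (_hd : 0 < d) :
    |∑ x ∈ Ioc (H - A) H, (if d ∣ x then (1 : ℝ) else 0) - A / d| ≤ 1 := by
  have h1 : ∀ n : ℕ, ∑ x ∈ Ioc 0 n, (if d ∣ x then (1 : ℝ) else 0) = (n / d : ℕ) := fun n => by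
    rw [sum_boole, Nat.Ioc_filter_dvd_card_eq_div]
  have h2 := sum_Ioc_consecutive (fun x => if d ∣ x then (1 : ℝ) else 0) (Nat.zero_le (H - A))
    (Nat.sub_le H A)
  have h3 : ∀ n : ℕ, (n : ℝ) / d - 1 ≤ (n / d : ℕ) ∧ ((n / d : ℕ) : ℝ) ≤ n / d := fun n =>
    ⟨by rw [← Nat.floor_div_eq_div (K := ℝ)]; exact (Nat.sub_one_lt_floor _).le, Nat.cast_div_le⟩
  rw [h1, h1] at h2
  have h4 := h3 H
  have h5 := h3 (H - A)
  rw [Nat.cast_sub hA, sub_div] at h5
  rw [abs_le]
  constructor <;> linarith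

theorem sieve_sum (H A : ℕ) (hA : A ≤ H) (l : List ℕ) (hl : l.Pairwise Nat.Coprime)
    (h0 : ∀ p ∈ l, 0 < p) : ∀ m d : ℕ, 0 < d → (∀ p ∈ l, Nat.Coprime d p) →
    |∑ x ∈ Ioc (H - A) H, (if d ∣ x then (1 : ℝ) else 0) *
      trunc (l.map fun p => if p ∣ x then 1 else 0) m -
      A / d * trunc (l.map fun p : ℕ => (1 : ℝ) / p) m| ≤ (l.length + 1) ^ m := by
  induction l with
  | nil => intro m d hd _; simpa [trunc] using count_dvd H A d hA hd
  | cons p l ih =>
    intro m d hd hc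
    cases m with
    | zero => simpa [trunc] using count_dvd H A d hA hd
    | succ m =>
      rw [List.pairwise_cons] at hl
      have hp := h0 p (by simp)
      have ih := ih hl.2 fun q hq => h0 q (by simp [hq])
      have k1 := ih (m + 1) d hd fun q hq => hc q (by simp [hq])
      have k2 := ih m (d * p) (Nat.mul_pos hd hp) fun q hq =>
        Nat.Coprime.mul_left (hc q (by simp [hq])) (hl.1 q hq)
      have e : ∀ x, (if d * p ∣ x then (1 : ℝ) else 0) =
          (if d ∣ x then (1 : ℝ) else 0) * if p ∣ x then 1 else 0 := fun x => by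
        have : d * p ∣ x ↔ d ∣ x ∧ p ∣ x := ⟨fun h => ⟨dvd_of_mul_right_dvd h,
          dvd_of_mul_left_dvd h⟩, fun h => (hc p (by simp)).mul_dvd_of_dvd_of_dvd h.1 h.2⟩
        by_cases h1 : d ∣ x <;> by_cases h2 : p ∣ x <;> simp [this, h1, h2]
      simp only [e, Nat.cast_mul, mul_assoc] at k2
      simp only [List.map_cons, trunc, mul_sub, sum_sub_distrib, List.length_cons]
      have e2 : (A : ℝ) / d * (1 / p * trunc (l.map fun p : ℕ => (1 : ℝ) / p) m) =
          A / (d * p) * trunc (l.map fun p : ℕ => (1 : ℝ) / p) m := by field_simp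
      have k3 : ((l.length : ℝ) + 1) ^ m ≤ (l.length + 1 + 1) ^ m :=
        pow_le_pow_left₀ (by positivity) (by linarith) _
      have k4 : (0 : ℝ) ≤ l.length := by positivity
      rw [e2, abs_le] at *
      push_cast
      rw [pow_succ] at *
      constructor <;> nlinarith

theorem prod_ge (l : List ℕ) (hl : l.Pairwise (· < ·)) : ∀ c : ℕ, 0 < c → (∀ p ∈ l, c < p) →
    (c : ℝ) / (c + l.length) ≤ ((l.map fun p : ℕ => (1 : ℝ) / p).map fun a => 1 - a).prod := by
  induction l with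
  | nil => intro c hc _; simp [div_self (Nat.cast_ne_zero.mpr hc.ne' : (c : ℝ) ≠ 0)]
  | cons p l ih =>
    intro c hc h
    rw [List.pairwise_cons] at hl
    have hp := h p (by simp)
    have k1 := ih hl.2 (c + 1) (by omega) fun q hq => by have := hl.1 q hq; omega
    have hc' : (0 : ℝ) < c := by exact_mod_cast hc
    have k2 : (c : ℝ) / (c + 1) ≤ 1 - 1 / p := by
      have : (1 : ℝ) / p ≤ 1 / (c + 1) :=
        one_div_le_one_div_of_le (by positivity) (by exact_mod_cast hp)
      have e : (c : ℝ) / (c + 1) = 1 - 1 / (c + 1) := by field_simp; ring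
      linarith
    simp only [List.map_cons, List.prod_cons, List.length_cons]
    refine le_of_eq_of_le ?_ (mul_le_mul k2 k1 (by positivity) (le_trans (by positivity) k2))
    push_cast
    field_simp
    ring

theorem prod_le_exp (l : List ℝ) (hl : ∀ a ∈ l, a ≤ 1) :
    (l.map fun a => 1 - a).prod ≤ Real.exp (-l.sum) := by
  induction l with
  | nil => simp
  | cons a l ih =>
    simp only [List.map_cons, List.prod_cons, List.sum_cons, neg_add, Real.exp_add]
    have h1 := Real.add_one_le_exp (-a)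
    have h2 := hl a (by simp)
    have h3 := ih fun b hb => hl b (by simp [hb])
    by_cases h4 : 0 ≤ (l.map fun a => 1 - a).prod
    · exact mul_le_mul (by linarith) h3 h4 (by positivity)
    · exact (mul_nonpos_of_nonneg_of_nonpos (by linarith) (not_le.mp h4).le).trans (by positivity)

theorem exists_coprime {H A N z : ℕ} (hA : A ≤ H) (hN : 0 < N) (hz : N ≤ 2 ^ z)
    (h : 2 ^ (5 * (z.size + 1) ^ 2) ≤ A) : ∃ x, H - A < x ∧ x ≤ H ∧ Nat.Coprime x N := by
  by_contra hx
  push Not at hx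
  set l := N.primeFactors.sort
  have l1 : ∀ p ∈ l, p.Prime ∧ p ∣ N := fun p hp => by
    have := (mem_sort _).mp hp
    exact ⟨Nat.prime_of_mem_primeFactors this, Nat.dvd_of_mem_primeFactors this⟩
  have l2 : l.Pairwise (· < ·) := (sortedLT_sort _).pairwise
  have l3 : l.length ≤ z := by
    rw [length_sort]
    refine (Nat.pow_le_pow_iff_right (by norm_num : 1 < 2)).mp (le_trans ?_ hz)
    exact (pow_card_le_prod _ _ _ fun p hp => (Nat.prime_of_mem_primeFactors hp).two_le).trans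
      (Nat.le_of_dvd hN (Nat.prod_primeFactors_dvd N))
  have l4 : l.Pairwise Nat.Coprime := l2.imp_of_mem fun ha hb h =>
    (Nat.coprime_primes (l1 _ ha).1 (l1 _ hb).1).mpr h.ne
  set s := z.size
  have h1 := sieve_sum H A hA l l4 (fun p hp => (l1 p hp).1.pos) (2 * (2 * s + 1) + 1) 1 one_pos
    fun _ _ => Nat.coprime_one_left _
  have hodd : (-1 : ℝ) ^ (2 * (2 * s + 1) + 1) = -1 := by simp [pow_succ, pow_mul]
  have h2 : ∑ x ∈ Ioc (H - A) H, (if 1 ∣ x then (1 : ℝ) else 0) *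
      trunc (l.map fun p => if p ∣ x then 1 else 0) (2 * (2 * s + 1) + 1) ≤ 0 := by
    refine sum_nonpos fun x hxx => ?_
    obtain ⟨p, p1, p2, p3⟩ := Nat.Prime.not_coprime_iff_dvd.mp
      (hx x (mem_Ioc.mp hxx).1 (mem_Ioc.mp hxx).2)
    have k1 := (trunc_bound (l.map fun p => if p ∣ x then 1 else 0) (fun a ha => by
      obtain ⟨q, -, rfl⟩ := List.mem_map.mp ha
      split_ifs <;> simp) (2 * (2 * s + 1) + 1)).2.2.1
    rw [hodd, List.prod_eq_zero] at k1
    · simpa using k1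
    · simp only [List.map_map, List.mem_map]
      exact ⟨p, (mem_sort _).mpr (Nat.mem_primeFactors.mpr ⟨p1, p3, hN.ne'⟩), by simp [p2]⟩
  have h3 : ∀ a ∈ l.map fun p : ℕ => (1 : ℝ) / p, 0 ≤ a ∧ a ≤ 1 := fun a ha => by
    obtain ⟨q, hq, rfl⟩ := List.mem_map.mp ha
    have : (1 : ℝ) ≤ q := by exact_mod_cast (l1 q hq).1.one_le
    exact ⟨by positivity, (div_le_one (by positivity)).mpr this⟩
  have h4 := (trunc_bound _ h3 (2 * (2 * s + 1) + 1)).2.2.2
  have h5 := prod_ge l l2 1 one_pos fun p hp => (l1 p hp).1.one_lt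
  have h6 := prod_le_exp _ fun a ha => (h3 a ha).2
  have h7 : (l.length : ℝ) + 1 ≤ 2 ^ s := by exact_mod_cast l3.trans_lt (Nat.lt_size_self z)
  have hL : 0 ≤ (l.map fun p : ℕ => (1 : ℝ) / p).sum := List.sum_nonneg fun a ha => (h3 a ha).1
  generalize (l.map fun p : ℕ => (1 : ℝ) / p).sum = L at *
  have h8 : (1 : ℝ) / 2 ^ s ≤ ((l.map fun p : ℕ => (1 : ℝ) / p).map fun a => 1 - a).prod := by
    refine le_trans (one_div_le_one_div_of_le (by positivity) h7) (le_of_eq_of_le ?_ h5)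
    simp [add_comm]
  have h9 : Real.exp L ≤ 2 ^ s := by
    have := h8.trans h6
    rwa [Real.exp_neg, one_div, inv_le_inv₀ (by positivity) (Real.exp_pos _)] at this
  have h10 := Real.pow_div_factorial_le_exp (2 * L) (by positivity) (2 * (2 * s + 1) + 1 + 1)
  rw [two_mul L, Real.exp_add, ← two_mul L, mul_pow, mul_div_assoc] at h10
  have h11 : L ^ (2 * (2 * s + 1) + 1 + 1) / (2 * (2 * s + 1) + 1 + 1).factorial ≤
      1 / 2 * (1 / 2 ^ s) := by
    have k1 := h10.trans (mul_le_mul h9 h9 (Real.exp_pos _).le (by positivity))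
    have k2 : (2 : ℝ) ^ (2 * (2 * s + 1) + 1 + 1) = 16 * (2 ^ s * 2 ^ s) * (2 ^ s * 2 ^ s) := by ring
    have k3 : (1 : ℝ) ≤ 2 ^ s := one_le_pow₀ (by norm_num)
    rw [k2, ← le_div_iff₀' (by positivity)] at k1
    refine k1.trans ?_
    rw [div_mul_div_comm, div_le_div_iff₀ (by positivity) (by positivity)]
    nlinarith [mul_pos (show (0 : ℝ) < 2 ^ s * 2 ^ s by positivity) (show (0 : ℝ) < 2 ^ s by positivity)]
  have h12 : ((l.length : ℝ) + 1) ^ (2 * (2 * s + 1) + 1) ≤ (2 ^ s) ^ (2 * (2 * s + 1) + 1) :=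
    pow_le_pow_left₀ (by positivity) h7 _
  have h13 : (2 : ℝ) ^ s * 4 * (2 ^ s) ^ (2 * (2 * s + 1) + 1) ≤ A := by
    refine le_trans ?_ (show (2 : ℝ) ^ (5 * (s + 1) ^ 2) ≤ A by exact_mod_cast h)
    rw [← pow_mul, show (4 : ℝ) = 2 ^ 2 by norm_num, ← pow_add, ← pow_add]
    exact pow_le_pow_right₀ (by norm_num) (by nlinarith)
  have h14 : 1 / 2 * (1 / 2 ^ s) ≤ trunc (l.map fun p : ℕ => (1 : ℝ) / p) (2 * (2 * s + 1) + 1) := by
    rw [hodd] at h4; linarith
  have h15 := mul_le_mul h13 h14 (by positivity) (by positivity)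
  have h16 : (2 : ℝ) ^ s * 4 * (2 ^ s) ^ (2 * (2 * s + 1) + 1) * (1 / 2 * (1 / 2 ^ s)) =
      2 * (2 ^ s) ^ (2 * (2 * s + 1) + 1) := by field_simp; norm_num
  have h17 : (0 : ℝ) < (2 ^ s) ^ (2 * (2 * s + 1) + 1) := by positivity
  rw [Nat.cast_one, div_one, abs_le] at h1
  linarith

end Vale.Agent.P338
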