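import Vale.Agent.P338.PF
import Vale.Agent.P338.CopA

/-! Expressions for pairwise coprime sizes and modular inverses. -/

namespace Vale.Agent.P338

open Finset

/-- The last index below a bound at which a function vanishes. -/
def lastF (c : ℕ → ℕ) : ℕ → ℕ
  | 0 => 0
  | k + 1 => if c k = 0 then k else lastF c k

theorem lastF_le (c : ℕ → ℕ) : ∀ k, lastF c k ≤ k - 1
  | 0 => le_rfl
  | k + 1 => by have := lastF_le c k; rw [lastF]; split_ifs <;> omega

theorem lastF_spec (c : ℕ → ℕ) {i : ℕ} (hi : c i = 0) :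
    ∀ k, i < k → i ≤ lastF c k ∧ c (lastF c k) = 0
  | 0, h => by omega
  | k + 1, h => by
    rw [lastF]
    split_ifs with h1
    · exact ⟨by omega, h1⟩
    · exact lastF_spec c hi k (by by_contra h2; exact h1 ((by omega : i = k) ▸ hi))

/-- Search for the last zero of `c`, which sees the index as `var 0`. -/
def lastE (n c : PF) : PF := PF.rep n (.cst 0) (.ite c (.var 1) (.var 0))

theorem eval_lastE {g : ℕ → ℕ} {l : List ℕ} {B : ℕ} (hU : g 0 + 1 = 2 ^ B) {n c : PF}
    (f : ℕ → ℕ) (hn : n.eval g l ≤ B) (hs : ∀ i < n.eval g l, ∀ a, c.eval g (i :: a :: l) = f i) :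
    (lastE n c).eval g l = lastF f (n.eval g l) :=
  PF.eval_rep hU (lastF f) hn rfl (fun i hi => by simp [hs i hi, lastF]) fun i hi => by
    have := lastF_le f i
    have := Nat.lt_two_pow_self (n := B)
    omega

/-- The number of common divisors in `[2, q + 2)`. -/
def comF (q N x : ℕ) : ℕ := ∑ t ∈ range q, if x % (t + 2) + N % (t + 2) = 0 then 1 else 0

/-- The largest number at most `hi` without small common divisor with `N`. -/
def selE (hi Q N : PF) : PF :=
  lastE (.add hi (.cst 1)) (PF.sumN (.dr 2 Q) (.ite (.add (PF.mod (.var 2) (.add (.var 0) (.cst 2)))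
    (PF.mod (.dr 4 N) (.add (.var 0) (.cst 2)))) (.cst 0) (.cst 1)))

theorem eval_selE {g : ℕ → ℕ} {l : List ℕ} {B : ℕ} (hU : g 0 + 1 = 2 ^ B) {hi Q N : PF}
    (h1 : hi.eval g l < Q.eval g l) (h2 : Q.eval g l ≤ B) : (selE hi Q N).eval g l =
      lastF (comF (Q.eval g l) (N.eval g l)) (hi.eval g l + 1) :=
  eval_lastE hU _ (h1.trans_le h2) fun i _ a => by
    refine PF.eval_sumN hU (fun t => if i % (t + 2) + N.eval g l % (t + 2) = 0 then 1 else 0) h2
      (fun t _ b => by simp) ((sum_le_card_nsmul _ _ 1 fun t _ => by split_ifs <;> simp).trans_lt ?_)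
    have := Nat.lt_two_pow_self (n := B)
    simpa using h2.trans_lt this

/-- The product of the numbers chosen so far. -/
def prF (q H : ℕ) : ℕ → ℕ
  | 0 => 1
  | i + 1 => prF q H i * lastF (comF q (prF q H i)) (H + 1)

theorem prF_le {q H : ℕ} (h : H < q) : ∀ i, prF q H i ≤ q ^ i
  | 0 => le_rfl
  | i + 1 => by
    have := lastF_le (comF q (prF q H i)) (H + 1)
    rw [prF, pow_succ]
    exact Nat.mul_le_mul (prF_le h i) (by omega)

theorem digit_sum {q : ℕ} (s : ℕ → ℕ) (hs : ∀ i, s i < q) : ∀ D, ∑ i ∈ range D, s i * q ^ i < q ^ D ∧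
    ∀ j < D, (∑ i ∈ range D, s i * q ^ i) / q ^ j % q = s j
  | 0 => by simp
  | D + 1 => by
    obtain ⟨h1, h2⟩ := digit_sum s hs D
    have hq : 0 < q := (Nat.zero_le _).trans_lt (hs 0)
    have h3 := Nat.mul_le_mul_right (q ^ D) (Nat.succ_le_of_lt (hs D))
    rw [sum_range_succ]
    refine ⟨by rw [pow_succ, mul_comm _ q]; rw [Nat.succ_mul] at h3; omega, fun j hj => ?_⟩
    rcases (Nat.lt_succ_iff.mp hj).lt_or_eq with h | rfl
    · obtain ⟨k, rfl⟩ := Nat.exists_eq_add_of_lt h
      rw [show s (j + k + 1) * q ^ (j + k + 1) = s (j + k + 1) * q ^ k * q * q ^ j by ring,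
        Nat.add_mul_div_right _ _ (pow_pos hq _), Nat.add_mul_mod_self_right, h2 j h]
    · rw [Nat.add_mul_div_right _ _ (pow_pos hq _), Nat.div_eq_of_lt h1, zero_add,
        Nat.mod_eq_of_lt (hs _)]

/-- Greedy search for `d` pairwise coprime numbers at most `hi`, packed in base `Q`. -/
def copE (d hi Q : PF) : PF :=
  PF.sumN d (PF.mul (selE (.dr 2 hi) (.dr 2 Q)
    (PF.rep (.var 0) (.cst 1) (PF.mul (.var 1) (selE (.dr 4 hi) (.dr 4 Q) (.var 1)))))
    (PF.pow (.dr 2 Q) (.var 0)))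

theorem copE_spec : ∃ c : ℕ, ∀ (g : ℕ → ℕ) (l : List ℕ) (B D H q len : ℕ) (d hi Q : PF),
    g 0 + 1 = 2 ^ B → d.eval g l = D → hi.eval g l = H → Q.eval g l = q → D ≤ B → q ≤ B →
    q ^ (D + 1) < 2 ^ B → H < q → len ≤ H → 2 ^ (c * ((D * q.size).size + 1) ^ 2) ≤ len →
    (∀ i < D, H - len < (copE d hi Q).eval g l / q ^ i % q ∧
      (copE d hi Q).eval g l / q ^ i % q ≤ H) ∧ (copE d hi Q).eval g l < q ^ D ∧
    ∀ i < D, ∀ j < D, i ≠ j →
      Nat.Coprime ((copE d hi Q).eval g l / q ^ i % q) ((copE d hi Q).eval g l / q ^ j % q) := by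
  refine ⟨5, fun g l B D H q len d hi Q hU hd hh hQ hD hq hpow hH hlen hc => ?_⟩
  have hq0 : 0 < q := by omega
  have hp : ∀ i ≤ D, q ^ i < 2 ^ B := fun i hi =>
    (Nat.pow_le_pow_right hq0 (by omega)).trans_lt hpow
  let s : ℕ → ℕ := fun i => lastF (comF q (prF q H i)) (H + 1)
  have s1 : ∀ i, s i ≤ H := fun i => lastF_le _ _
  obtain ⟨d1, d2⟩ := digit_sum s (fun i => (s1 i).trans_lt hH) D
  have e : (copE d hi Q).eval g l = ∑ i ∈ range D, s i * q ^ i := by
    rw [copE, PF.eval_sumN hU (fun i => s i * q ^ i) (by omega) ?_ (hd ▸ d1.trans (hp D le_rfl)), hd]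
    intro i hi' a
    rw [hd] at hi'
    have e1 := PF.eval_pow hU (l := i :: a :: l) (a := .dr 2 Q) (n := .var 0) (by simp; omega)
      (by omega) (by simpa [hQ] using hp i hi'.le)
    have e2 := PF.eval_rep hU (l := i :: a :: l) (n := .var 0) (base := .cst 1)
      (step := PF.mul (.var 1) (selE (.dr 4 hi) (.dr 4 Q) (.var 1))) (prF q H) (by simp; omega) rfl
      (fun j _ => by
        have := eval_selE hU (l := j :: prF q H j :: i :: a :: l) (hi := .dr 4 hi) (Q := .dr 4 Q)
          (N := .var 1) (by simpa [hh, hQ] using hH) (by simpa [hQ] using hq)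
        rw [PF.eval_mul, this]
        simp [hh, hQ, prF])
      fun j hj => (prF_le hH j).trans_lt (hp j (by simp at hj; omega))
    have e3 := fun N => eval_selE hU (l := i :: a :: l) (hi := .dr 2 hi) (Q := .dr 2 Q) (N := N)
      (by simpa [hh, hQ] using hH) (by simpa [hQ] using hq)
    rw [PF.eval_mul, e1, e3, e2]
    simp [hh, hQ, s]
  have s2 : ∀ i ≤ D, 0 < prF q H i → H - len < s i ∧ Nat.Coprime (s i) (prF q H i) := by
    intro i hi h0
    obtain ⟨x, x1, x2, x3⟩ := exists_coprime hlen h0 (z := D * q.size) ((prF_le hH i).trans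
      ((Nat.pow_le_pow_right hq0 hi).trans (by
        rw [mul_comm, pow_mul]; exact Nat.pow_le_pow_left (Nat.lt_size_self q).le _))) hc
    obtain ⟨k1, k2⟩ := lastF_spec (comF q (prF q H i)) (i := x) (sum_eq_zero fun t _ => if_neg
      fun h => by
        have := Nat.eq_one_of_dvd_coprimes x3 (Nat.dvd_of_mod_eq_zero (by omega : x % (t + 2) = 0))
          (Nat.dvd_of_mod_eq_zero (by omega))
        omega) (H + 1) (by omega)
    refine ⟨x1.trans_le k1, ?_⟩
    by_contra h
    obtain ⟨p, p1, p2, p3⟩ := Nat.Prime.not_coprime_iff_dvd.mp h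
    have k3 := Nat.le_of_dvd (by simp only [s]; omega) p2
    have k4 := s1 i
    have k5 := p1.two_le
    have := sum_eq_zero_iff.mp k2 (p - 2) (mem_range.mpr (by omega))
    rw [Nat.sub_add_cancel k5, Nat.mod_eq_zero_of_dvd p2, Nat.mod_eq_zero_of_dvd p3] at this
    simp at this
  have s3 : ∀ i ≤ D, 0 < prF q H i := by
    intro i
    induction i with
    | zero => intro _; exact one_pos
    | succ i ih =>
      intro hi
      exact Nat.mul_pos (ih (by omega)) ((Nat.zero_le _).trans_lt (s2 i (by omega) (ih (by omega))).1)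
  have s4 : ∀ i j, i < j → s i ∣ prF q H j := by
    intro i j hij
    induction j, hij using Nat.le_induction with
    | base => exact Dvd.intro_left _ rfl
    | succ j _ ih => exact ih.mul_right _
  have s5 : ∀ i j, i < j → j < D → Nat.Coprime (s j) (s i) := fun i j hij hj =>
    (s2 j hj.le (s3 j hj.le)).2.coprime_dvd_right (s4 i j hij)
  rw [e]
  refine ⟨fun i hi => ?_, d1, fun i hi j hj hij => ?_⟩
  · rw [d2 i hi]; exact ⟨(s2 i hi.le (s3 i hi.le)).1, s1 i⟩
  · rw [d2 i hi, d2 j hj]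
    rcases lt_or_gt_of_ne hij with h | h
    exacts [(s5 i j h hj).symm, s5 j i h hi]

/-- The inverse of `a` modulo `n`, by exhaustive search. -/
def invE (a n : PF) : PF :=
  lastE n (PF.ifEq (PF.mod (PF.mul (.dr 2 a) (.var 0)) (.dr 2 n)) (PF.mod (.cst 1) (.dr 2 n))
    (.cst 0) (.cst 1))

theorem invE_spec {g : ℕ → ℕ} {l : List ℕ} {B : ℕ} {a n : PF} (hU : g 0 + 1 = 2 ^ B)
    (hn : n.eval g l ≤ B) (h0 : 0 < n.eval g l) (h : Nat.Coprime (a.eval g l) (n.eval g l)) :
    (invE a n).eval g l < n.eval g l ∧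
      a.eval g l * (invE a n).eval g l ≡ 1 [MOD n.eval g l] := by
  rw [invE, eval_lastE hU (fun i => if a.eval g l * i % n.eval g l = 1 % n.eval g l then 0 else 1)
    hn fun i _ b => by simp]
  obtain ⟨i, hi, e⟩ := Nat.exists_mul_mod_eq_of_coprime 1 h h0.ne'
  have h1 := lastF_le (fun i => if a.eval g l * i % n.eval g l = 1 % n.eval g l then 0 else 1)
    (n.eval g l)
  have h2 := (lastF_spec (fun i => if a.eval g l * i % n.eval g l = 1 % n.eval g l then 0 else 1)
    (i := i) (if_pos e) _ hi).2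
  exact ⟨by omega, by_contra fun k => by simp only [Nat.ModEq] at k; simp [k] at h2⟩

end Vale.Agent.P338
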