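import Vale.Agent.P338.GrpA

/-! The multidimensional transform in four groups of dimensions. -/

namespace Vale.Agent.P338

open Function Finset

variable {P : Tbl} {g : ℕ → ℕ} {B Zb K n b p f f0 k e σ' s G ω N len Mu : ℕ} {sz : ℕ → ℕ}

theorem Gx.grp (h : Gx P g B Zb K n b p f f0 k e σ' s G ω N len Mu sz) :
    0 < σ' * mm ^ e ∧ s = 2 * (σ' * mm ^ e) ∧ Zb ≤ len ∧ 0 < len ∧ 4 * mm ^ k ≤ p ∧ p ≤ B ∧
      50 * p * 2 ^ (f0 + 1) ≤ 2 ^ f ∧ s * (4 * mm ^ k) ≤ B := by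
  have h1 := h.bits
  have h2 := h.p10
  have h3 := h.hp
  have h4 := h.hB
  have h5 := h.bud.pos
  have hZ : Zb ≤ len := by
    rw [← h.len_eq, wt_radD', mul_assoc, mul_assoc]
    exact h.hZ.trans (Nat.le_mul_of_pos_right _ (by positivity))
  refine ⟨Nat.mul_pos h.σ0 (pow_pos (by decide) _), by rw [h.hs, mul_assoc], hZ, by omega,
    by nlinarith [Nat.zero_le (s * mm ^ k)], by nlinarith, ?_, by omega⟩
  calc _ ≤ 2 ^ 6 * 2 ^ p.size * 2 ^ (f0 + 1) := by
        have := Nat.lt_size_self p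
        gcongr
        norm_num
    _ ≤ _ := by
        rw [← pow_add, ← pow_add]
        exact Nat.pow_le_pow_right (by norm_num) (by have := h.hf; omega)

/-- One if all digits of the index are below the sizes, else zero. -/
def eMask : PF :=
  .prodN (.mul (.cst 4) (.glob 20)) (.ltE (.dg (.var 2) (wD (.var 0)) (.pow2 (.glob 24)))
    (.dg (.glob 23) (.pow2 (.mul (.glob 24) (.var 0))) (.pow2 (.glob 24))))

def eW1 : PF := wE (.cst 1) (.cst 0) eMask (.cst 1) (.cst 0) (.cst 1)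

/-- Set the invalid cells to zero. -/
def maskM : Cmd := diagM (wD (.cst 0)) (.glob 2) eW1

open Classical in
theorem eMask_eq (h : Gx P g B Zb K n b p f f0 k e σ' s G ω N len Mu sz) {x : ℕ → ℕ}
    (hx : Valid (radD (2 ^ (G - ω)) (2 ^ s) (4 * mm ^ k) (2 ^ ω)) (4 * mm ^ k + 2) x) :
    eMask.eval g [enc (radD (2 ^ (G - ω)) (2 ^ s) (4 * mm ^ k) (2 ^ ω)) (up 1 x) (4 * mm ^ k + 2)] =
      if Vd (4 * mm ^ k) sz x then 1 else 0 := by
  obtain ⟨-, -, -, -, a5, a6, -, a8⟩ := h.grp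
  have r0 : 0 < mm ^ k := pow_pos (by decide) _
  have e1 : ∀ l, (PF.mul (.cst 4) (.glob 20)).eval g l = 4 * mm ^ k := fun l => by simp [h.g20]
  have e2 : ∀ l, (PF.pow2 (.glob 24)).eval g l = 2 ^ s := fun l => by
    rw [PF.eval_pow2 h.gU _ (by simp [h.g24]; nlinarith)]; simp [h.g24]
  rw [eMask, PF.eval_prodN h.gU (fun i => if x (1 + i) < sz i then 1 else 0) (by rw [e1]; omega)
    (fun i hi a => ?_) fun m _ => ?_, e1, prod_boole]
  · exact if_congr (by simp [Vd]) rfl rfl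
  · rw [e1] at hi
    have := up_digit (k := 1) hx (j := 1 + i) (by omega) (by omega)
    rw [wt_radD _ _ _ _ hi.le, radD.eq_1 _ _ _ _ (1 + i), if_neg (by omega), if_pos (by omega)]
      at this
    rw [PF.eval_ltE, PF.eval_dg, PF.eval_dg, e2, h.wD (m := i) (by simp) hi.le,
      PF.eval_pow2 h.gU _ (by simp [h.g24]; nlinarith), h.hsz i hi]
    simp [this, h.g24]
  · rw [prod_boole]
    have : 1 < 2 ^ B := Nat.one_lt_two_pow (by omega)
    split_ifs <;> simp [this]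

open Classical in
theorem mask_apx (h : Gx P g B Zb K n b p f f0 k e σ' s G ω N len Mu sz)
    (hK : dDiag (wD (.cst 0)) (.glob 2) eW1 ≤ K) {lv : ℕ} (hl : f0 + lv + 3 ≤ p)
    (v : (ℕ → ℕ) → ℂ) :
    Step P maskM g
      (Apx p f0 (radD (2 ^ (G - ω)) (2 ^ s) (4 * mm ^ k) (2 ^ ω)) (4 * mm ^ k + 2)
        (Vd (4 * mm ^ k) sz) v lv)
      (Apx p f0 (radD (2 ^ (G - ω)) (2 ^ s) (4 * mm ^ k) (2 ^ ω)) (4 * mm ^ k + 2)
        (fun _ => True) (fun x => (if Vd (4 * mm ^ k) sz x then 1 else 0) * v x) (lv + 3))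
      ((4 * Mu + 11000) * len) := by
  obtain ⟨-, -, a3, a4, a5, a6, a7, -⟩ := h.grp
  have hp := h.hp
  have h10 := h.p10
  have hb := h.big
  have hw := h.len_eq
  have b1 : 2 ^ f ≤ 2 ^ (p - 3) := Nat.pow_le_pow_right (by norm_num) (by omega)
  have b2 : 50 * p ≤ 50 * p * 2 ^ (f0 + 1) := Nat.le_mul_of_pos_right _ (by positivity)
  have := diag_apx (P := P) (α := 0) (E := 50 * p) (eG := wD (.cst 0)) (eW := eW1) (k := 1)
    (rad := radD (2 ^ (G - ω)) (2 ^ s) (4 * mm ^ k) (2 ^ ω)) (D := 4 * mm ^ k + 2)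
    (Gd := Vd (4 * mm ^ k) sz) (Gd' := fun _ => True) (v := v) h.mul (h.bud.mono hK) (by omega)
    (by rw [h.wD (m := 0) rfl (by omega), ← wt_radD _ _ (4 * mm ^ k) (2 ^ ω) (by omega)])
    h.g2 h.g1 h.g3 (by omega)
    (by simpa [wt, radD] using h.hZ.trans (Nat.le_mul_of_pos_right _ (by omega)))
    (by nlinarith) (by rw [wt_radD']; positivity) hl (by exact_mod_cast a7)
    (fun x => if Vd (4 * mm ^ k) sz x then 1 else 0) fun x hx _ => by
      obtain ⟨c1, c2⟩ := wE_spec (nt := .cst 1) (ni := .cst 0) (Bd := .cst 1) (num := .cst 0)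
        (den := .cst 1) (NT := 1) (NI := 0) (bd := 1) (fun _ _ => 0) (fun _ _ => 1) h.gU h.g1 h.g2
        h.hB h10 (by omega) rfl rfl (eMask_eq h hx) rfl (by omega) (by omega)
        (by split_ifs <;> simp; omega) (by omega) (by simp; omega) (by simp)
        (by split_ifs <;> simp [b1]) (by omega)
      refine ⟨by split_ifs <;> simp, by simpa [eW1] using c1, ?_⟩
      by_cases hv : Vd (4 * mm ^ k) sz x
      · exact Or.inl hv
      · exact Or.inr ⟨if_neg hv, c2 (if_neg hv)⟩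
  rwa [hw] at this

/-- The index of the `i`-th digit of group `q`. -/
def eGrp (q : ℕ) (i : PF) : PF :=
  .add (.dbl (.add (.mul (.glob 20) (.cst (1 - q / 2))) i)) (.cst (q % 2))

def eAct : PF := .dbl (.add (.glob 20) (.glob 21))

def lSt (q : ℕ) : List (ℕ × PF) :=
  [(8, .mul eCells (.glob 3)), (16, .glob 20), (18, wD (.cst 0)), (19, .dbl (.glob 24)),
    (22, eGrp q (.cst 0))]

theorem stg_apx : ∃ K : ℕ, ∀ (ε : Bool) (q : ℕ) (P : Tbl) (g : ℕ → ℕ)
    (B Zb n b p f f0 k e σ' s G ω N len Mu : ℕ) (sz : ℕ → ℕ) (lv : ℕ) (v : (ℕ → ℕ) → ℂ),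
    Gx P g B Zb (K + dLets (lSt q)) n b p f f0 k e σ' s G ω N len Mu sz →
    f0 + (lv + 300 * ((s + 1) * mm ^ k)) + 3 ≤ p →
    Step P (lets (lSt q) (stageM ε)) g
      (Apx p f0 (radD (2 ^ (G - ω)) (2 ^ s) (4 * mm ^ k) (2 ^ ω)) (4 * mm ^ k + 2)
        (fun _ => True) v lv)
      (Apx p f0 (radD (2 ^ (G - ω)) (2 ^ s) (4 * mm ^ k) (2 ^ ω)) (4 * mm ^ k + 2)
        (fun x => ∀ j < 4 * mm ^ k, x (1 + j) + 4 * 2 ^ (σ' * mm ^ e) < 2 ^ s)
        (fun x => Tens (fun i => 1 + mm ^ k + i) (fun i => Fop ε s (sz (grp (mm ^ k) q i))) (mm ^ k)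
          (v ∘ split (2 * mm ^ k) (2 ^ s)) (join (2 * mm ^ k) (2 ^ s) x))
        (lv + 300 * ((s + 1) * mm ^ k)))
      (K * ((s + 1) * Hc k (2 * s) len + (s + mm ^ k + 1) * ((Mu + 1) * len)) + 250 * Zb) := by
  obtain ⟨K, hK⟩ := stage_apx
  refine ⟨K, ?_⟩
  intro ε q P g B Zb n b p f f0 k e σ' s G ω N len Mu sz lv v h hl
  obtain ⟨a1, a2, a3, a4, a5, a6, -, a8⟩ := h.grp
  have hb := h.big
  have hB := Nat.lt_two_pow_self (n := B)
  have h10 := h.p10
  have hZ := h.hZ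
  have r0 : 0 < mm ^ k := pow_pos (by decide) _
  have e4 : 4 * mm ^ k = 2 * (2 * mm ^ k) := by ring
  have hw := h.len_eq
  have e8 : (PF.mul eCells (.glob 3)).eval g [] = len := by simp [h.eCells, h.g3, hw]
  have e18 : (wD (.cst 0)).eval g [] = 2 ^ (G - ω) := by simpa using h.wD (m := 0) rfl (by omega)
  have e22 : (eGrp q (.cst 0)).eval g [] = grp (mm ^ k) q 0 := by simp [eGrp, grp, h.g20]
  have z1 : 2 ^ (G - ω) < 2 ^ B := Nat.pow_lt_pow_right (by norm_num) (by have := h.bits; omega)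
  have z2 := grp_lt (q := q) r0
  have z3 : 2 * s ≤ s * (4 * mm ^ k) := by nlinarith
  have eu : upds g (lSt q) = update (update (update (update (update g 22 (grp (mm ^ k) q 0)) 19
      (2 * s)) 18 (2 ^ (G - ω))) 16 (mm ^ k)) 8 len := by
    simp only [lSt, upds, e8, e18, e22]; simp [h.g20, h.g24]
  have h' := ((((h.upd (i := 22) (v := grp (mm ^ k) q 0) (by omega) (by omega)).upd (i := 19)
    (v := 2 * s) (by omega) (by omega)).upd (i := 18) (by omega) z1).upd (i := 16) (v := mm ^ k)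
    (by omega) (by omega)).upd (i := 8) (v := len) (by omega) (by omega)
  rw [e4, ← wt_pair, ← pow_mul, mul_comm s 2] at hw
  have hσ' : σ' ≤ σ' * mm ^ e := Nat.le_mul_of_pos_right _ (pow_pos (by decide) _)
  have hk' := h.hK'
  generalize σ' * mm ^ e = σ at *
  have q1 : 2 ^ (3 * σ) = 2 ^ s * 2 ^ σ := by rw [← pow_add]; congr 1; omega
  have q2 : 2 ^ (4 * σ) = 2 ^ s * 2 ^ s := by rw [← pow_add]; congr 1; omega
  refine Step.lets (lSt q) (by simp [lSt]) (by simp [lSt]) (h.bud.mono (by omega)) ?_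
  rw [eu]
  refine (hK ε P _ B Zb (radD (2 ^ (G - ω)) (2 ^ (2 * s)) (2 * mm ^ k) (2 ^ ω)) (2 * mm ^ k + 2) p 1
    (2 * mm ^ k) k (mm ^ k) (2 * s) σ
    (fun y => ∀ i < 2 * mm ^ k, y (1 + i) + 4 * 2 ^ (3 * σ) < 2 ^ (4 * σ)) f f0 s Mu lv
    (fun i => sz (grp (mm ^ k) q i)) (v ∘ split (2 * mm ^ k) (2 ^ s))
    { t1 := h.t1, t2 := h.t2, gU := h'.gU, g1 := h'.g1, g3 := h'.g3, g8 := by simp [hw]
      g15 := h'.g15, g16 := by simp, g18 := by simp [wt, radD], g19 := by simp, p1 := by omega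
      reg := fun i hi => by rw [radD, if_neg (by omega), if_pos (by omega)]
      ho := by omega, hD := by omega
      hZ := by simpa [wt, radD] using hZ.trans (Nat.le_mul_of_pos_right _ (by omega))
      pos := by rw [wt_radD']; positivity
      sz := by rwa [hw]
      net := fun _ => ⟨by omega, by omega, by omega, Nat.pow_le_pow_right (by decide) (by omega),
        by rw [radD, if_neg (by omega), if_neg (by omega), h.hω, ← pow_add, ← pow_mul, mul_comm],
        fun _ hx => hx, fun x y hx i hi => by rw [update_of_ne (by omega)]; exact hx i hi⟩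
      bud := h'.bud.mono (by omega), mul := h.mul, g2 := h'.g2, g20 := h'.g20, g24 := h'.g24
      hB := h.hB, hf := by have := h.hf; omega, hp := by have := h.hp; omega
      hs := by omega, hσ := fun _ => by omega }
    (by omega) h.hQ (fun i hi => ?_) (fun x hx i hi y hy j hj => ?_) hl).mono (fun l hl => ?_)
    (fun l hl => ?_) (by rw [hw])
  · have e : grp (mm ^ k) q 0 + 2 * i = grp (mm ^ k) q i := by unfold grp; omega
    have := grp_lt (q := q) hi
    simp only [update_apply, Nat.reduceEqDiff, reduceIte, e]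
    exact ⟨h.hsz _ this, h.pos _ this, (Nat.mul_le_mul_left _ this.le).trans a8⟩
  · by_cases e : j = mm ^ k + i
    · have := hx j hj
      rw [e, ← add_assoc] at this
      rw [e, ← add_assoc, update_self]
      have e1 : 4 * 2 ^ (3 * σ) = 2 ^ (s + 2) * 2 ^ σ := by rw [q1]; ring
      have e2 : 2 ^ (4 * σ) = 2 ^ (s - 2) * 2 ^ (s + 2) := by rw [← pow_add]; congr 1; omega
      rw [e1, e2, ← Nat.div_lt_iff_lt_mul (by positivity),
        Nat.add_mul_div_left _ _ (by positivity)] at this ⊢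
      rwa [hy]
    · rw [update_of_ne (by omega)]; exact hx j hj
  · rw [e4] at hl
    have := Lay.split (by positivity) hl
    rw [← pow_mul, mul_comm s 2] at this
    exact this.mono fun y c _ _ hc _ => hc trivial
  · rw [mul_comm 2 s, pow_mul] at hl
    have := Lay.join hl
    rw [← e4] at this
    refine this.mono fun x c _ _ hc hG => hc fun i hi => ?_
    have b1 := hG (2 * i) (by omega)
    have b2 := hG (2 * i + 1) (by omega)
    rw [join_mid x hi, q1, q2]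
    have := Nat.mul_le_mul_left (2 ^ s) (Nat.succ_le_of_lt b2)
    rw [Nat.mul_succ, mul_add, mul_left_comm] at this
    omega

noncomputable def swQ (q : ℕ) : Cmd :=
  swapsM (if q = 0 then .cst 0 else .glob 20) (if q = 1 then eAct else eGrp q (.glob 21))
    (if q = 1 then eGrp q (.glob 21) else eAct)

theorem swQ_lay (q : ℕ) : ∃ K : ℕ, q < 4 → ∀ (P : Tbl) (g : ℕ → ℕ)
    (B Zb n b p f f0 k e σ' s G ω N len Mu : ℕ) (sz : ℕ → ℕ)
    (R : (ℕ → ℕ) → List Bool → Prop), Gx P g B Zb K n b p f f0 k e σ' s G ω N len Mu sz →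
    Step P (swQ q) g
      (Lay (radD (2 ^ (G - ω)) (2 ^ s) (4 * mm ^ k) (2 ^ ω)) (4 * mm ^ k + 2) (2 * p) R)
      (Lay (radD (2 ^ (G - ω)) (2 ^ s) (4 * mm ^ k) (2 ^ ω)) (4 * mm ^ k + 2) (2 * p)
        fun x => R (x ∘ tp (loQ (mm ^ k) q) (hiQ (mm ^ k) q) (if q = 0 then 0 else mm ^ k)))
      (K * (mm ^ k * Sw e (2 * σ') len)) := by
  obtain ⟨K, hK⟩ := swaps_lay (if q = 0 then .cst 0 else .glob 20)
    (if q = 1 then eAct else eGrp q (.glob 21)) (if q = 1 then eGrp q (.glob 21) else eAct)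
  refine ⟨K, fun hq P g B Zb n b p f f0 k e σ' s G ω N len Mu sz R h =>
    hK P g B Zb n b p f f0 k e σ' s G ω N len Mu sz _ _ _ R h ?_ (by split_ifs <;> omega)
    fun i hi => ?_⟩
  · split_ifs <;> simp [h.g20]
  · interval_cases q <;> simp [loQ, hiQ, eAct, eGrp, grp, h.g20] at hi ⊢ <;> omega

noncomputable def grpsM (ε : Bool) : Cmd :=
  seqs (fun q => .seq maskM (.seq (swQ q) (.seq (lets (lSt q) (stageM ε)) (swQ q)))) 4

theorem grps_apx : ∃ K : ℕ, ∀ (ε : Bool) (P : Tbl) (g : ℕ → ℕ)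
    (B Zb n b p f f0 k e σ' s G ω N len Mu : ℕ) (sz : ℕ → ℕ) (lv : ℕ) (V : (ℕ → ℕ) → ℂ),
    Gx P g B Zb K n b p f f0 k e σ' s G ω N len Mu sz →
    f0 + (lv + 1300 * ((s + 1) * mm ^ k)) + 3 ≤ p →
    Step P (grpsM ε) g
      (Apx p f0 (radD (2 ^ (G - ω)) (2 ^ s) (4 * mm ^ k) (2 ^ ω)) (4 * mm ^ k + 2)
        (Vd (4 * mm ^ k) sz) (V ∘ gam (4 * mm ^ k) ω) lv)
      (Apx p f0 (radD (2 ^ (G - ω)) (2 ^ s) (4 * mm ^ k) (2 ^ ω)) (4 * mm ^ k + 2)
        (Vd (4 * mm ^ k) sz)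
        (Tens (fun i => 1 + i) (fun i => F1 ε (sz i)) (4 * mm ^ k) V ∘ gam (4 * mm ^ k) ω)
        (lv + 1300 * ((s + 1) * mm ^ k)))
      (K * ((s + 1) * Hc k (2 * s) len + (s + mm ^ k + 1) * ((Mu + 1) * len) +
        mm ^ k * Sw e (2 * σ') len)) := by
  obtain ⟨K1, h1⟩ := stg_apx
  choose K2 h2 using swQ_lay
  obtain ⟨K3, h3⟩ : ∃ K3, ∀ q < 4, K2 q ≤ K3 ∧ dLets (lSt q) ≤ K3 :=
    ⟨∑ q ∈ range 4, (K2 q + dLets (lSt q)), fun q hq => by
      have := single_le_sum (f := fun q => K2 q + dLets (lSt q)) (fun _ _ => Nat.zero_le _)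
        (mem_range.2 hq)
      omega⟩
  refine ⟨dDiag (wD (.cst 0)) (.glob 2) eW1 + 4 * K1 + 8 * K3 + 50000, ?_⟩
  intro ε P g B Zb n b p f f0 k e σ' s G ω N len Mu sz lv V h hl
  obtain ⟨-, -, a3, a4, -⟩ := h.grp
  have r0 : 0 < mm ^ k := pow_pos (by decide) _
  have x0 : 0 < (s + 1) * mm ^ k := by positivity
  rw [← Grps_four]
  refine (Step.seqs (R := fun q => Apx p f0 (radD (2 ^ (G - ω)) (2 ^ s) (4 * mm ^ k) (2 ^ ω))
    (4 * mm ^ k + 2) (Vd (4 * mm ^ k) sz) (Grps ε (mm ^ k) sz q V ∘ gam (4 * mm ^ k) ω)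
    (lv + q * (300 * ((s + 1) * mm ^ k) + 3)))
    (t := (4 * Mu + 11000) * len + 2 * (K3 * (mm ^ k * Sw e (2 * σ') len)) + 3 +
      (K1 * ((s + 1) * Hc k (2 * s) len + (s + mm ^ k + 1) * ((Mu + 1) * len)) + 250 * Zb))
    4 fun q hq => ?_).mono (fun l hl => by simpa [Grps] using hl)
    (fun l hl => hl.mono (by omega) fun _ _ h => ⟨h, rfl⟩) ?_
  · obtain ⟨c1, c2⟩ := h3 q hq
    have c3 : q * (300 * ((s + 1) * mm ^ k) + 3) ≤ 3 * (300 * ((s + 1) * mm ^ k) + 3) :=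
      Nat.mul_le_mul_right _ (by omega)
    have c4 : K2 q * (mm ^ k * Sw e (2 * σ') len) ≤ K3 * (mm ^ k * Sw e (2 * σ') len) :=
      Nat.mul_le_mul_right _ c1
    have s2 := fun R => h2 q hq P g B Zb n b p f f0 k e σ' s G ω N len Mu sz R (h.mono (by omega))
    have hπ := piS_tp (r := mm ^ k) hq
    generalize tp (loQ (mm ^ k) q) (hiQ (mm ^ k) q) (if q = 0 then 0 else mm ^ k) = π at s2 hπ
    refine ((mask_apx h (by omega) (by omega) _).seq ((s2 _).seq
      ((h1 ε q P g B Zb n b p f f0 k e σ' s G ω N len Mu sz _ _ (h.mono (by omega))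
        (by omega)).seq (s2 _)))).mono (fun _ h => h)
      (fun l hl => Apx.mono hl (by rw [add_mul q]; omega) fun x _ hx => ⟨fun j hj => ?_, ?_⟩)
      (by omega)
    · obtain ⟨j', b1, b2⟩ := hπ.mid hj
      have := hx j' b1
      have := h.hi j' b1
      rw [comp_apply, b2]
      omega
    · exact (grp_val ε hπ (fun i hi => by have := h.hi i hi; omega) _ hx).symm
  · have c1 : (Mu + 1) * len ≤ (s + mm ^ k + 1) * ((Mu + 1) * len) :=
      Nat.le_mul_of_pos_left _ (by omega)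
    generalize (s + mm ^ k + 1) * ((Mu + 1) * len) = Y at *
    generalize (s + 1) * Hc k (2 * s) len = X at *
    generalize mm ^ k * Sw e (2 * σ') len = Z at *
    nlinarith [Nat.zero_le (dDiag (wD (.cst 0)) (.glob 2) eW1 * (X + Y + Z)), Nat.zero_le (K1 * Z),
      Nat.zero_le (K3 * (X + Y)), Nat.zero_le (Mu * len)]

end Vale.Agent.P338
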