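import Vale.Agent.P338.IoB
import Vale.Agent.P338.Conv

/-! Rounding and the carry pass. -/

namespace Vale.Agent.P338

open Function Finset

variable {P : Tbl} {g : ℕ → ℕ} {B Zb : ℕ}

/-- The rounded real part of an item. -/
def rndC (p f0 : ℕ) (c : List Bool) : List Bool :=
  (addM p (c.take p) (2 ^ (f0 - 1)).bits).drop f0

theorem lv_rndC {p f0 l m : ℕ} {c : List Bool} {z : GaussianInt} (hc : c.length = 2 * p)
    (h1 : io p c = mkR p z) (h2 : ‖(z : ℂ) - 2 ^ f0 * (m : ℂ)‖ ≤ 2 ^ l) (h3 : ‖(m : ℂ)‖ ≤ 2 ^ l)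
    (hl : l + 2 ≤ f0) (hp : f0 + l + 3 ≤ p) : lv (rndC p f0 c) = m := by
  obtain ⟨a, rfl⟩ : ∃ a, f0 = a + 2 := ⟨f0 - 2, by omega⟩
  have e1 : (|z.re - 2 ^ (a + 2) * m| : ℤ) ≤ 2 ^ l := by
    have := (Complex.abs_re_le_norm _).trans h2
    rw [Complex.sub_re, ← GaussianInt.intCast_re,
      show (2 : ℂ) ^ (a + 2) * m = ((2 ^ (a + 2) * m : ℝ) : ℂ) by push_cast; rfl,
      Complex.ofReal_re] at this
    exact_mod_cast this
  have e2 : m ≤ 2 ^ l := by
    rw [Complex.norm_natCast] at h3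
    exact_mod_cast h3
  have e3 : 2 ^ l ≤ 2 ^ a := Nat.pow_le_pow_right (by norm_num) (by omega)
  have e4 : 2 ^ (a + l + 5) ≤ 2 ^ p := Nat.pow_le_pow_right (by norm_num) (by omega)
  have e5 : 2 ^ a * m ≤ 2 ^ (a + l) := by rw [pow_add]; exact Nat.mul_le_mul_left _ e2
  have e6 : 2 ^ a ≤ 2 ^ (a + l) := Nat.pow_le_pow_right (by norm_num) (by omega)
  have e7 : 0 < 2 ^ a := by positivity
  have k1 := lv_addM (p := p) (x := c.take p) (y := (2 ^ (a + 2 - 1)).bits)
    (lv_lt' (len_take hc).le) (by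
      rw [lv_bits]; exact Nat.pow_lt_pow_right (by norm_num) (by omega))
  rw [io_eq] at h1
  have k2 := k1.trans ((mkR_eq_iff.1 h1).1.add_right _)
  have k3 := lv_lt' (p := p) (x := addM p (c.take p) (2 ^ (a + 2 - 1)).bits) (by simp)
  rw [rndC, lv_drop]
  rw [lv_bits] at k2
  generalize lv (addM p (c.take p) (2 ^ (a + 2 - 1)).bits) = w at *
  rw [show a + 2 - 1 = a + 1 by omega] at k2
  have k4 : (w : ℤ) = z.re + (2 ^ (a + 1) : ℕ) := by
    have := Int.eq_zero_of_abs_lt_dvd k2.dvd (by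
      rw [abs_le] at e1
      rw [abs_lt]
      zify at e3 e4 e5 e6 e7 k3
      push_cast
      rw [pow_add _ _ 5] at e4
      rw [pow_add _ _ 2, mul_right_comm] at e1
      rw [pow_succ]
      have : (0 : ℤ) ≤ 2 ^ a * m := by positivity
      constructor <;> nlinarith)
    omega
  rw [Nat.div_eq_iff (by positivity)]
  rw [abs_le] at e1
  zify at e3 e7
  have k5 : ((m * 2 ^ (a + 2) : ℕ) : ℤ) = 2 ^ (a + 2) * m := by push_cast; ring
  have k6 : ((2 ^ (a + 2) : ℕ) : ℤ) = 4 * 2 ^ a := by push_cast; ring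
  have k7 : ((2 ^ (a + 1) : ℕ) : ℤ) = 2 * 2 ^ a := by push_cast; ring
  omega

/-- The carry after `i` cells. -/
def carry (b : ℕ) (d : ℕ → List Bool) : ℕ → List Bool
  | 0 => []
  | i + 1 => (addB (d i) (carry b d i) false).drop b

theorem length_carry {b p : ℕ} (hb : 0 < b) {d : ℕ → List Bool} (hd : ∀ i, (d i).length ≤ p)
    (i : ℕ) : (carry b d i).length ≤ p := by
  induction i with
  | zero => simp [carry]
  | succ i ih =>
    have := hd i
    rw [carry, List.length_drop, length_addB]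
    omega

theorem lv_carry (b : ℕ) (d : ℕ → List Bool) (i : ℕ) :
    lv (flat i fun j => (addB (d j) (carry b d j) false).takeD b false) +
      2 ^ (b * i) * lv (carry b d i) = ∑ j ∈ range i, 2 ^ (b * j) * lv (d j) := by
  induction i with
  | zero => simp [carry, lv]
  | succ i ih =>
    rw [flat_succ, lv_append, length_flat (S := b) (by simp), sum_range_succ, ← ih, carry, lv_drop,
      lv_takeD, lv_addB, mul_comm i b, mul_add b, mul_one, pow_add]
    have := Nat.mod_add_div (lv (d i) + lv (carry b d i) + false.toNat) (2 ^ b)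
    simp only [Bool.toNat_false, add_zero] at this ⊢
    generalize (lv (d i) + lv (carry b d i)) % 2 ^ b = x at *
    generalize (lv (d i) + lv (carry b d i)) / 2 ^ b = y at *
    have : 2 ^ (b * i) * (x + 2 ^ b * y) = 2 ^ (b * i) * (lv (d i) + lv (carry b d i)) := by
      rw [this]
    nlinarith

def carB : Cmd :=
  .seq (tk 13 12 60) (.seq (clr 12) (.seq (cpy 5 12) (.seq (addMI 13 12) (.seq (tk 12 13 61)
    (.seq (clr 12) (.seq (addR 13 14) (.seq (tk 12 13 17) (app 13 14))))))))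

/-- Round all cells and add them up with the weights `2 ^ (b j)`. -/
def carM : Cmd :=
  loc 5 (loc 17 (loc 60 (loc 61 (.seq (evalTo 5 (.pow2 (.sub (.glob 28) (.cst 1))) [])
    (.seq (ruler 17 (.glob 14) []) (.seq (ruler 60 (.glob 1) []) (.seq (ruler 61 (.glob 28) [])
      (passE (.glob 3) (.cst 0) carB))))))))

def dCar : ℕ := (PF.pow2 (.sub (.glob 28) (.cst 1))).deg + (PF.glob 14).deg + (PF.glob 1).deg +
  (PF.glob 28).deg + (PF.glob 3).deg + (PF.cst 0).deg + 8

theorem car_ok {H b f0 p : ℕ} {σ : St} {u : ℕ → List Bool} (hg : Num σ g) (hB : Bud g B dCar Zb)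
    (hU : g 0 + 1 = 2 ^ B) (hp : g 1 = p) (hS : g 3 = 2 * p) (hb : g 14 = b) (hf : g 28 = f0)
    (b0 : 0 < b) (f1 : 0 < f0) (hbp : b ≤ p) (hfp : f0 ≤ p) (hpB : p ≤ B) (hH : 0 < H)
    (h3 : σ 3 = flat H u) (hu : ∀ j < H, (u j).length = 2 * p) :
    Ok P carM σ (update σ 3 (flat H fun j => (addB (rndC p f0 (u j))
      (carry b (fun j => rndC p f0 (u j)) j) false).takeD b false))
      (1000 * (H * (2 * p)) + 150 * Zb) := by
  have hg' : Num (update (update (update (update σ 5 []) 17 []) 60 []) 61 []) g :=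
    (((hg.upd _ (by omega)).upd _ (by omega)).upd _ (by omega)).upd _ (by omega)
  have e0 : (PF.pow2 (.sub (.glob 28) (.cst 1))).eval g [] = 2 ^ (f0 - 1) := by
    rw [PF.eval_pow2 hU _ (by simp [hf]; omega)]; simp [hf]
  have l0 : (2 ^ (f0 - 1)).bits.length = f0 := by rw [length_bits, Nat.size_pow]; omega
  have r0 := evalTo_ok (P := P) (.pow2 (.sub (.glob 28) (.cst 1))) (d := 5) (regs := []) (l := [])
    hg' rfl (by simp) (by omega) hB.sz (by simp)
  rw [e0] at r0
  have hg1 := hg'.upd (v := 5) (2 ^ (f0 - 1)).bits (by omega)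
  have r1 := ruler_ok (P := P) (.glob 14) (d := 17) (regs := []) (l := []) hg1 rfl (by simp)
    (by omega) hB.sz (by simp)
  simp only [PF.eval_glob, Nat.reduceLT, reduceIte, hb] at r1
  have hg2 := hg1.upd (v := 17) (List.replicate b true) (by omega)
  have r2 := ruler_ok (P := P) (.glob 1) (d := 60) (regs := []) (l := []) hg2 rfl (by simp)
    (by omega) hB.sz (by simp)
  simp only [PF.eval_glob, Nat.reduceLT, reduceIte, hp] at r2
  have hg3 := hg2.upd (v := 60) (List.replicate p true) (by omega)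
  have r3 := ruler_ok (P := P) (.glob 28) (d := 61) (regs := []) (l := []) hg3 rfl (by simp)
    (by omega) hB.sz (by simp)
  simp only [PF.eval_glob, Nat.reduceLT, reduceIte, hf] at r3
  have hd : ∀ j, (rndC p f0 (u j)).length ≤ p := fun j => by simp [rndC]
  have key := passE_ok (P := P) (body := carB) (B := B) (Zb := Zb) (eG := .glob 3)
    (eG' := .cst 0) (H := H) (G := 2 * p) (G' := 0) (Go := b) (fa := u) (fb := fun _ => [])
    (fo := fun j => (addB (rndC p f0 (u j))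
      (carry b (fun j => rndC p f0 (u j)) j) false).takeD b false)
    (I := carry b fun j => rndC p f0 (u j)) (rest := σ 4) (t := 500 * p + 500)
    (hg3.upd (v := 61) (List.replicate f0 true) (by omega)) (hB.mono (by unfold dCar; omega))
    (by simp [hS]) (by simp) (by omega) (by simpa using h3) (by simp) rfl hu (by simp) (by simp)
    fun j hj τ a1 a2 a3 a4 => by
      have a5 : (τ 60).length = p := by rw [a1 60 (by unfold Out; omega)]; simp
      have a6 : (τ 61).length = f0 := by rw [a1 61 (by unfold Out; omega)]; simp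
      have a7 : (τ 17).length = b := by rw [a1 17 (by unfold Out; omega)]; simp
      have a8 : τ 5 = (2 ^ (f0 - 1)).bits := by rw [a1 5 (by unfold Out; omega)]; simp
      have a9 := length_carry b0 hd j
      have a10 := hd j
      refine ((tk_ok _ (by omega) (by omega) (by omega) (by omega) (by omega) (by omega)).seq
        ((clr_ok _ _).seq ((cpy_ok _ (by omega) (by omega) (by omega)).seq
        ((addMI_ok (p := p) _ (by omega) (by omega) (by omega) ?_ ?_ ?_).seq
        ((tk_ok _ (by omega) (by omega) (by omega) (by omega) (by omega) (by omega)).seq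
        ((clr_ok _ _).seq ((addR_ok _ (by omega) (by omega) (by omega)).seq
        ((tk_ok _ (by omega) (by omega) (by omega) (by omega) (by omega) (by omega)).seq
        (app_ok _ (by omega) (by omega) (by omega)))))))))).mono ?_ ?_
      pick_goal 4
      funext w
      all_goals
        simp only [update_apply, ↓reduceIte, Nat.reduceEqDiff, a2, a3, a4, a5, a6, a7, a8, l0,
          List.append_nil, takeD_take (hu j hj), len_take (hu j hj), len_drop (hu j hj), le_refl,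
          hfp, List.takeD_length]
      · rw [carry, rndC]
        split_ifs <;> first | omega | rfl
      · rw [rndC] at a10
        rw [List.length_drop (l := addB _ _ _), length_addB]
        omega
  refine (Ok.loc (Ok.loc (Ok.loc (Ok.loc (r0.seq (r1.seq (r2.seq (r3.seq key)))))))).mono ?_ ?_
  · funext v
    simp only [update_apply]
    split_ifs <;> subst_vars <;> first | omega | rfl
  · have := hB.pow (K' := (PF.pow2 (.sub (.glob 28) (.cst 1))).deg) (by unfold dCar; omega)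
    have := hB.pow (K' := (PF.glob 14).deg + 8) (by unfold dCar; omega)
    have := hB.pow (K' := (PF.glob 1).deg + 8) (by unfold dCar; omega)
    have := hB.pow (K' := (PF.glob 28).deg + 8) (by unfold dCar; omega)
    have := hB.pos
    have := length_carry b0 hd H
    have : p ≤ H * p := Nat.le_mul_of_pos_left _ hH
    have : H ≤ H * p := Nat.le_mul_of_pos_right _ (by omega)
    have : H * b ≤ H * p := Nat.mul_le_mul_left _ hbp
    simp [l0]; nlinarith

theorem sum_range_mul {A : Type} [AddCommMonoid A] (M W : ℕ) (F : ℕ → A) :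
    ∑ i ∈ range (M * W), F i = ∑ γ ∈ range W, ∑ j ∈ range M, F (j + M * γ) := by
  induction W with
  | zero => simp
  | succ W ih =>
    rw [Nat.mul_succ, sum_range_add, ih, sum_range_succ]
    simp only [add_comm]

theorem car_lay {M W b f0 p l : ℕ} (hB : Bud g B dCar Zb)
    (hU : g 0 + 1 = 2 ^ B) (hp : g 1 = p) (hS : g 3 = 2 * p) (hb : g 14 = b) (hf : g 28 = f0)
    (b0 : 0 < b) (hbp : b ≤ p) (hl : l + 2 ≤ f0) (hfp : f0 + l + 3 ≤ p) (hpB : p ≤ B)
    (hH : 0 < M * W) (c : ℕ → ℕ → ℕ) :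
    Step P carM g (Apx p f0 (rad3 1 M W) 3 (fun _ => True) (fun y => c (y 1) (y 2)) l)
      (fun o => o.length = M * W * b ∧ lv o ≡ ∑ γ ∈ range W, ∑ j ∈ range M,
        2 ^ (b * (j + M * γ)) * c j γ [MOD 2 ^ (b * (M * W))])
      (1000 * (M * W * (2 * p)) + 150 * Zb) := by
  intro σ hg h
  obtain ⟨u, h1, h2, h3⟩ := (lay3_iff (R := fun _ j γ a => True → ∃ z : GaussianInt,
    io p a = mkR p z ∧ ‖(z : ℂ) - 2 ^ f0 * (c j γ : ℂ)‖ ≤ 2 ^ l ∧ ‖(c j γ : ℂ)‖ ≤ 2 ^ l)).mp h
  rw [one_mul] at h1 h2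
  refine ⟨_, ⟨length_flat (by simp), ?_⟩,
    car_ok hg hB hU hp hS hb hf b0 (by omega) hbp (by omega) hpB hH h1 h2⟩
  have e : ∑ γ ∈ range W, ∑ j ∈ range M, 2 ^ (b * (j + M * γ)) * c j γ =
      ∑ i ∈ range (M * W), 2 ^ (b * i) * lv (rndC p f0 (u i)) := by
    rw [sum_range_mul]
    refine sum_congr rfl fun γ hγ => sum_congr rfl fun j hj => ?_
    obtain ⟨z, a1, a2, a3⟩ := h3 0 (by omega) j (mem_range.1 hj) γ (mem_range.1 hγ) trivial
    rw [zero_add, one_mul] at a1
    rw [lv_rndC (h2 _ (lt_mul_of (mem_range.1 hj) (mem_range.1 hγ))) a1 a2 a3 hl hfp]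
  rw [e, ← lv_carry b (fun j => rndC p f0 (u j)) (M * W)]
  exact (Nat.modEq_iff_dvd' (Nat.le_add_right _ _)).2 (by simp)

/-- The chunks of a number as coefficients of a bivariate polynomial. -/
noncomputable def chk (b N G X j γ : ℕ) : ℂ :=
  if j < N / 2 ∧ 2 * γ < 2 ^ G then ((X / 2 ^ (b * (j + N / 2 * γ)) % 2 ^ b : ℕ) : ℂ) else 0

theorem cv2_nat (b N G X Y : ℕ) : ∃ c : ℕ → ℕ → ℕ,
    ∀ j γ, cv2 (chk b N G X) (chk b N G Y) j γ = c j γ := by
  refine ⟨fun j γ => ∑ p ∈ antidiagonal j, ∑ q ∈ antidiagonal γ,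
    (if p.1 < N / 2 ∧ 2 * q.1 < 2 ^ G then X / 2 ^ (b * (p.1 + N / 2 * q.1)) % 2 ^ b else 0) *
    (if p.2 < N / 2 ∧ 2 * q.2 < 2 ^ G then Y / 2 ^ (b * (p.2 + N / 2 * q.2)) % 2 ^ b else 0),
    fun j γ => ?_⟩
  simp only [cv2, chk, Nat.cast_sum, Nat.cast_mul, Nat.cast_ite, Nat.cast_zero]

theorem conv_poly (M G : ℕ) {a b : ℕ → ℕ → ℂ} (ha : ∀ j γ, (M ≤ 2 * j ∨ G ≤ 2 * γ) → a j γ = 0)
    (hb : ∀ j γ, (M ≤ 2 * j ∨ G ≤ 2 * γ) → b j γ = 0) (X Z : ℂ) :
    (∑ j ∈ range M, ∑ γ ∈ range G, a j γ * (X ^ j * Z ^ γ)) *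
      (∑ j ∈ range M, ∑ γ ∈ range G, b j γ * (X ^ j * Z ^ γ)) =
      ∑ j ∈ range M, ∑ γ ∈ range G, cv2 a b j γ * (X ^ j * Z ^ γ) := by
  rw [sum_mul_sum, ← sum_conv M (fun i j => (∑ γ ∈ range G, a i γ * (X ^ i * Z ^ γ)) *
    ∑ γ ∈ range G, b j γ * (X ^ j * Z ^ γ))]
  · refine sum_congr rfl fun k _ => ?_
    simp only [cv2, sum_mul]
    rw [sum_comm (s := range G) (t := antidiagonal k)]
    refine sum_congr rfl fun p hp => ?_
    simp only [mul_sum]
    rw [← sum_conv G (fun γ δ => a p.1 γ * (X ^ p.1 * Z ^ γ) * (b p.2 δ * (X ^ p.2 * Z ^ δ)))]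
    · refine sum_congr rfl fun γ _ => sum_congr rfl fun q hq => ?_
      rw [← mem_antidiagonal.1 hp, ← mem_antidiagonal.1 hq]; ring
    · rintro i j (h' | h')
      · rw [ha _ _ (Or.inr h')]; simp
      · rw [hb _ _ (Or.inr h')]; simp
  · rintro i j (h' | h')
    · simp [ha _ _ (Or.inl h')]
    · simp [hb _ _ (Or.inl h')]

theorem digits_sum (T X n : ℕ) : ∑ i ∈ range n, X / T ^ i % T * T ^ i = X % T ^ n := by
  induction n with
  | zero => simp [Nat.mod_one]
  | succ n ih => rw [sum_range_succ, ih, Nat.mod_pow_succ, mul_comm]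

theorem chk_sum {b N G X : ℕ} (hG : 0 < G) (hX : X < 2 ^ (b * (N / 2 * 2 ^ (G - 1)))) :
    ∑ j ∈ range (2 * (N / 2)), ∑ γ ∈ range (2 ^ G),
      chk b N G X j γ * ((2 ^ b) ^ j * ((2 ^ b) ^ (N / 2)) ^ γ) = X := by
  have e := two_pow_pred hG
  conv_rhs => rw [← Nat.mod_eq_of_lt hX, pow_mul, ← digits_sum, sum_range_mul, sum_comm]
  rw [two_mul, sum_range_add, sum_eq_zero (s := range (N / 2))
    (f := fun j => ∑ γ ∈ range (2 ^ G), chk b N G X (N / 2 + j) γ * _) fun j _ =>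
      sum_eq_zero fun γ _ => by rw [chk, if_neg (by omega), zero_mul], add_zero, Nat.cast_sum]
  refine sum_congr rfl fun j hj => ?_
  have hj := mem_range.1 hj
  rw [show range (2 ^ G) = range (2 ^ (G - 1) + 2 ^ (G - 1)) by rw [e, two_mul], sum_range_add,
    sum_eq_zero (s := range (2 ^ (G - 1)))
      (f := fun γ => chk b N G X j (2 ^ (G - 1) + γ) * _) fun γ _ => by
        rw [chk, if_neg (by omega), zero_mul], add_zero, Nat.cast_sum]
  refine sum_congr rfl fun γ hγ => ?_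
  have hγ := mem_range.1 hγ
  rw [chk, if_pos ⟨hj, by omega⟩, Nat.cast_mul, pow_mul, ← pow_mul _ (N / 2), ← pow_add]
  simp

theorem prod_eq {b N G X Y : ℕ} (hG : 0 < G) (hX : X < 2 ^ (b * (N / 2 * 2 ^ (G - 1))))
    (hY : Y < 2 ^ (b * (N / 2 * 2 ^ (G - 1)))) {c : ℕ → ℕ → ℕ}
    (hc : ∀ j γ, cv2 (chk b N G X) (chk b N G Y) j γ = c j γ) :
    ∑ γ ∈ range (2 ^ G), ∑ j ∈ range (N / 2), 2 ^ (b * (j + N / 2 * γ)) * c j γ +
      2 ^ (b * (N / 2)) * ∑ γ ∈ range (2 ^ G), ∑ j ∈ range (N / 2),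
        2 ^ (b * (j + N / 2 * γ)) * c (j + N / 2) γ = X * Y := by
  have hz : ∀ X j γ, (2 * (N / 2) ≤ 2 * j ∨ 2 ^ G ≤ 2 * γ) → chk b N G X j γ = 0 :=
    fun X j γ h => by rw [chk, if_neg (by omega)]
  have := conv_poly (2 * (N / 2)) (2 ^ G) (hz X) (hz Y) (2 ^ b) ((2 ^ b) ^ (N / 2))
  rw [chk_sum hG hX, chk_sum hG hY, two_mul, sum_range_add] at this
  refine Nat.cast_injective (R := ℂ) ?_
  rw [Nat.cast_mul X, this]
  push_cast
  simp only [hc, mul_sum]
  congr 1 <;> rw [sum_comm]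
  · exact sum_congr rfl fun γ _ => sum_congr rfl fun j _ => by ring
  · exact sum_congr rfl fun γ _ => sum_congr rfl fun j _ => by rw [add_comm γ (N / 2)]; ring

end Vale.Agent.P338
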