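import Vale.Agent.P338.Gx
import Vale.Agent.P338.IoC

/-! Input, output and the moves of the bits of the power-of-two dimension. -/

namespace Vale.Agent.P338

open Function Finset

theorem Gx.io {P : Tbl} {g : ℕ → ℕ} {B Zb K n b p f f0 k e σ' s G ω N len Mu : ℕ} {sz : ℕ → ℕ}
    (h : Gx P g B Zb K n b p f f0 k e σ' s G ω N len Mu sz) :
    N * 2 ^ G * (2 * p) ≤ len ∧ G < B ∧ p ≤ B ∧ 0 < N / 2 ∧ N * 2 ^ G < 2 ^ B ∧ Zb ≤ len ∧
      2 * (b * (N / 2 * 2 ^ (G - 1))) ≤ len ∧ 2 ^ G = 2 * 2 ^ (G - 1) := by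
  have h1 := h.N_le
  have h2 := h.p10
  have h3 := h.big
  have h4 := h.hZ'
  have h5 := h.bud.pos
  have h6 := h.hB
  have h7 := h.hb
  have h8 : 2 ^ G = 2 * 2 ^ (G - 1) := two_pow_pred (by have := h.ωG; omega)
  have a1 : N * 2 ^ G * (2 * p) ≤ len := by
    rw [h.hlen, mul_comm N]; gcongr
  have a2 : 0 < 2 ^ G := by positivity
  have a3 : N * 2 ^ G ≤ N * 2 ^ G * (2 * p) := Nat.le_mul_of_pos_right _ (by omega)
  have a4 : N ≤ N * 2 ^ G := Nat.le_mul_of_pos_right _ a2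
  have a5 : 2 ^ G ≤ N * 2 ^ G := Nat.le_mul_of_pos_left _ (by omega)
  refine ⟨a1, (Nat.pow_lt_pow_iff_right (a := 2) (by norm_num)).mp (by omega), by nlinarith,
    by omega, by omega, by omega, le_trans ?_ a1, h8⟩
  rw [h8]
  calc _ = N / 2 * (2 * 2 ^ (G - 1)) * b := by ring
    _ ≤ _ := by gcongr <;> omega

/-- The length of one half of the array. -/
def eHalf : PF := .mul (.mul (.glob 9) (.pow2 (.sub (.glob 26) (.cst 1)))) (.glob 3)

/-- Move `G - ω` bits from the top digit to the lowest digit. -/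
def shufM : Cmd := forN 21 (.sub (.glob 26) (.glob 27)) (rifM eHalf)

theorem rif_cost {G ω X Zb len K : ℕ} (h : ω < G) (h1 : X ≤ len) (h2 : Zb ≤ len) :
    (G - ω) * (300 * X + 150 * Zb + 40 * Zb) + 20 * Zb ≤ (K + 1000) * (G * len) := by
  have : (G - ω) * (300 * X + 150 * Zb + 40 * Zb) ≤ G * (500 * len) :=
    Nat.mul_le_mul (by omega) (by omega)
  have : len ≤ G * len := Nat.le_mul_of_pos_left _ (by omega)
  nlinarith [Nat.zero_le (K * (G * len))]

theorem shuf_lay : ∃ K : ℕ, ∀ (P : Tbl) (g : ℕ → ℕ)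
    (B Zb n b p f f0 k e σ' s G ω N len Mu : ℕ) (sz : ℕ → ℕ)
    (R : ℕ → ℕ → List Bool → Prop), Gx P g B Zb K n b p f f0 k e σ' s G ω N len Mu sz →
    Step P shufM g (Lay (rad3 1 N (2 ^ G)) 3 (2 * p) fun y => R (y 1) (y 2))
      (Lay (rad3 (2 ^ (G - ω)) N (2 ^ ω)) 3 (2 * p) fun y => R (y 1) (y 0 * 2 ^ ω + y 2))
      (K * (G * len)) := by
  refine ⟨dFor 21 (.sub (.glob 26) (.glob 27)) + dRif eHalf + 1000, ?_⟩
  intro P g B Zb n b p f f0 k e σ' s G ω N len Mu sz R h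
  obtain ⟨a1, a2, a3, a4, a5, a6, a7, a8⟩ := h.io
  have hp := h.p10
  have hω := h.ωG
  have hB := Nat.lt_two_pow_self (n := B)
  refine (Step.forN (n := G - ω) (R := fun j => Lay (rad3 (2 ^ j) N (2 ^ (G - j))) 3 (2 * p)
    fun y => R (y 1) (y 0 * 2 ^ (G - j) + y 2))
    (t := 300 * (N * 2 ^ (G - 1) * (2 * p)) + 150 * Zb) (by omega) (h.bud.mono (by omega))
    (by simp [h.g26, h.g27]) (by omega) fun j hj => ?_).mono (fun l hl => ?_) (fun l hl => ?_)
    (rif_cost hω (le_trans (by gcongr <;> omega) a1) a6)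
  · have h' := h.upd (i := 21) (v := j) (by omega) (by omega)
    have e1 : 2 ^ (G - j) = 2 * 2 ^ (G - (j + 1)) := by rw [← pow_succ']; congr 1; omega
    have e2 : 2 ^ j * N * 2 ^ (G - (j + 1)) = N * 2 ^ (G - 1) := by
      rw [mul_comm _ N, mul_assoc, ← pow_add]; congr 2; omega
    have := rif_lay (P := P) (eh := eHalf) (Z := 2 ^ j) (Y := N) (W := 2 ^ (G - (j + 1)))
      (R := fun a b c => R b (a * (2 * 2 ^ (G - (j + 1))) + c))
      ((h'.bud.mono (K' := dRif eHalf) (by omega))) (by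
        rw [e2, eHalf, PF.eval_mul, PF.eval_mul, PF.eval_pow2 h'.gU _ (by simp [h.g26]; omega)]
        simp [h.g26, h.g9, h.g3]) h'.g3 (by omega)
      (by rw [e2]; exact Nat.mul_pos (by omega) (by positivity))
    rw [e2] at this
    rw [e1, pow_succ' 2 j]
    refine this.post fun l hl => hl.mono fun y c _ _ hc => ?_
    convert hc using 1
    conv_lhs => rw [← Nat.div_add_mod (y 0) 2]
    ring
  · refine Lay.mono hl fun y c hy _ hc => ?_
    have : y 0 = 0 := by simpa [rad3] using hy 0 (by omega)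
    simpa [this] using hc
  · rwa [Nat.sub_sub_self hω.le] at hl

def unshufM : Cmd := forN 21 (.sub (.glob 26) (.glob 27)) unrifM

theorem unshuf_lay : ∃ K : ℕ, ∀ (P : Tbl) (g : ℕ → ℕ)
    (B Zb n b p f f0 k e σ' s G ω N len Mu : ℕ) (sz : ℕ → ℕ)
    (R : ℕ → ℕ → List Bool → Prop), Gx P g B Zb K n b p f f0 k e σ' s G ω N len Mu sz →
    Step P unshufM g
      (Lay (rad3 (2 ^ (G - ω)) N (2 ^ ω)) 3 (2 * p) fun y => R (y 1) (y 0 * 2 ^ ω + y 2))
      (Lay (rad3 1 N (2 ^ G)) 3 (2 * p) fun y => R (y 1) (y 2)) (K * (G * len)) := by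
  refine ⟨dFor 21 (.sub (.glob 26) (.glob 27)) + dUnrif + 1000, ?_⟩
  intro P g B Zb n b p f f0 k e σ' s G ω N len Mu sz R h
  obtain ⟨a1, a2, a3, a4, a5, a6, a7, a8⟩ := h.io
  have hp := h.p10
  have hω := h.ωG
  have hB := Nat.lt_two_pow_self (n := B)
  refine (Step.forN (n := G - ω) (R := fun j => Lay (rad3 (2 ^ (G - ω - j)) N (2 ^ (ω + j))) 3
    (2 * p) fun y => R (y 1) (y 0 * 2 ^ (ω + j) + y 2))
    (t := 300 * (N * 2 ^ (G - 1) * (2 * p)) + 150 * Zb) (by omega) (h.bud.mono (by omega))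
    (by simp [h.g26, h.g27]) (by omega) fun j hj => ?_).mono (fun l hl => hl) (fun l hl => ?_)
    (rif_cost hω (le_trans (by gcongr <;> omega) a1) a6)
  · have h' := h.upd (i := 21) (v := j) (by omega) (by omega)
    have e1 : 2 ^ (G - ω - j) = 2 * 2 ^ (G - ω - (j + 1)) := by rw [← pow_succ']; congr 1; omega
    have e2 : 2 ^ (G - ω - (j + 1)) * N * 2 ^ (ω + j) = N * 2 ^ (G - 1) := by
      rw [mul_comm _ N, mul_assoc, ← pow_add]; congr 2; omega
    have := unrif_lay (P := P) (Z := 2 ^ (G - ω - (j + 1))) (Y := N) (W := 2 ^ (ω + j))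
      (R := fun a b c => R b (a * 2 ^ (ω + j) + c))
      ((h'.bud.mono (K' := dUnrif) (by omega))) h'.g3 (by omega)
      (by rw [e2]; exact Nat.mul_pos (by omega) (by positivity))
    rw [e2] at this
    rw [e1, ← add_assoc, pow_succ' 2 (ω + j)]
    refine this.post fun l hl => hl.mono fun y c _ _ hc => ?_
    convert hc using 1
    conv_lhs => rw [← Nat.div_add_mod (y 2) (2 ^ (ω + j))]
    ring
  · rw [Nat.sub_self, Nat.add_sub_cancel' hω.le] at hl
    refine Lay.mono hl fun y c hy _ hc => ?_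
    have : y 0 = 0 := by simpa [rad3] using hy 0 (by omega)
    simpa [this] using hc

theorem upd_rad3 (Z Y W X : ℕ) : update (rad3 Z Y W) 1 X = rad3 Z X W := by
  funext j
  by_cases h : j = 1
  · subst h; simp [rad3]
  · simp [rad3, h]

theorem Lay.rad_congr {rad rad' : ℕ → ℕ} {D S : ℕ} {R : (ℕ → ℕ) → List Bool → Prop}
    {l : List Bool} (h : Lay rad D S R l) (e : ∀ j < D, rad' j = rad j) : Lay rad' D S R l :=
  h.view (wt_congr e) id fun _ hy =>
    ⟨fun j hj => e j hj ▸ hy j hj, enc_congr (fun j hj => (e j hj).symm) fun _ _ => rfl⟩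

def eN2 : PF := .half (.glob 9)
def eG1 : PF := .pow2 (.sub (.glob 26) (.cst 1))

/-- Cut the first `n` bits into chunks. -/
def inM : Cmd :=
  .seq (takeM (.glob 29)) (.seq (takeM (.mul (.mul eN2 eG1) (.glob 14))) (.seq chkM
    (.seq (fitM eN2 (.glob 9)) (fitM (.mul (.glob 9) eG1) (.mul (.glob 9) (.dbl eG1))))))

theorem io_zero (p : ℕ) : io p (List.replicate (2 * p) false) = mkR p 0 := by
  simpa using io_of_lv (p := p) (m := 0) (by simp) (lv_replicate _) (by positivity)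

theorem in_apx : ∃ K : ℕ, ∀ (P : Tbl) (g : ℕ → ℕ)
    (B Zb n b p f f0 k e σ' s G ω N len Mu : ℕ) (sz : ℕ → ℕ) (x z : List Bool),
    Gx P g B Zb K n b p f f0 k e σ' s G ω N len Mu sz → x.length = n → z.length ≤ n →
    Step P inM g (· = x ++ z)
      (Apx p f0 (rad3 1 N (2 ^ G)) 3 (fun _ => True) (fun y => chk b N G (lv x) (y 1) (y 2)) b)
      (K * len) := by
  refine ⟨(PF.glob 29).deg + (PF.mul (.mul eN2 eG1) (.glob 14)).deg + dChk + dFit eN2 (.glob 9) +
    dFit (.mul (.glob 9) eG1) (.mul (.glob 9) (.dbl eG1)) + 3000, ?_⟩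
  intro P g B Zb n b p f f0 k e σ' s G ω N len Mu sz x z h hx hz
  obtain ⟨a1, a2, a3, a4, a5, a6, a7, a8⟩ := h.io
  have hp := h.p10
  have hb := h.hb
  have hc := h.cap
  have hZ := h.hZ'
  have e1 : eN2.eval g [] = N / 2 := by simp [eN2, h.g9]
  have e2 : eG1.eval g [] = 2 ^ (G - 1) := by
    rw [eG1, PF.eval_pow2 h.gU _ (by simp [h.g26]; omega)]; simp [h.g26]
  rw [a8] at a1 a5 ⊢
  have w0 : 0 < 2 ^ (G - 1) := by positivity
  have c0 : ∀ j γ, chk b N G (lv x) j γ = if j < N / 2 ∧ γ < 2 ^ (G - 1) then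
      ((lv x / 2 ^ (b * (j + N / 2 * γ)) % 2 ^ b : ℕ) : ℂ) else 0 := fun j γ => by
    rw [chk, a8]; simp
  generalize 2 ^ (G - 1) = W at *
  have b1 : N / 2 * W ≤ N * W := Nat.mul_le_mul_right _ (Nat.div_le_self _ _)
  have b2 : N * (2 * W) = 2 * (N * W) := by ring
  have b3 : N ≤ N * W := Nat.le_mul_of_pos_right _ w0
  have s1 := take_ok (P := P) (e := .glob 29) (n := n) (h.bud.mono (by omega)) (by simp [h.g29])
    (x ++ z)
  rw [takeD_append' hx] at s1
  have s2 := take_ok (P := P) (e := .mul (.mul eN2 eG1) (.glob 14)) (n := N / 2 * W * b)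
    (h.bud.mono (by omega)) (by simp [e1, e2, h.g14]) x
  have s3 := chk_lay (P := P) (M := N / 2) (W := W) (h.bud.mono (by omega)) h.g3 h.g14 h.g28 h.b0
    (by omega) (by positivity) (x.takeD (N / 2 * W * b) false) (by simp)
  rw [lv_takeD, Nat.mod_eq_of_lt (lv_lt' (by rw [hx, mul_comm]; exact hc))] at s3
  have s4 := fun R => fit_lay (P := P) (R := R) (rad := rad3 1 (N / 2) W) (D := 3) (k := 1) (Y := N)
    (eG := eN2) (e2 := .glob 9) (h.bud.mono (by omega)) (by omega) (by simp [e1, wt, rad3])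
    (by simp [h.g9, wt, rad3]) h.g3
    (by simpa [wt, rad3] using hZ.trans (Nat.le_mul_of_pos_right _ (by omega)))
    (by rw [wt_rad3, one_mul]; omega) (by rw [wt_rad3]; positivity)
  rw [upd_rad3] at s4
  have s5 := fun R => fit_lay (P := P) (R := R) (rad := rad3 1 N W) (D := 3) (k := 2) (Y := 2 * W)
    (eG := .mul (.glob 9) eG1) (e2 := .mul (.glob 9) (.dbl eG1)) (h.bud.mono (by omega)) (by omega)
    (by simp [e2, h.g9, wt, rad3]) (by simp [e2, h.g9, wt, rad3]) h.g3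
    (by
      rw [wt_rad3, one_mul]
      exact le_trans (by omega) (Nat.le_mul_of_pos_right (N * W) (by omega)))
    (by rw [wt_rad3, one_mul]; omega) (by rw [wt_rad3, one_mul]; omega)
  have er : ∀ j < 3, rad3 1 N (2 * W) j = update (rad3 1 N W) 2 (2 * W) j := fun j hj => by
    interval_cases j <;> simp [rad3]
  refine (s1.seq (s2.seq (s3.seq ((s4 _).seq (s5 _))))).mono (fun _ h => h)
    (fun l hl => (hl.rad_congr er).mono fun y c _ _ hc _ => ?_) ?_
  · have p0 : (0 : ℝ) ≤ 2 ^ b := by positivity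
    simp only [c0]
    simp only [rad3, Nat.reduceEqDiff, reduceIte] at hc
    by_cases h2 : y 2 < W
    · by_cases h1 : y 1 < N / 2
      · rw [if_pos h2, if_pos h1] at hc
        rw [if_pos ⟨h1, h2⟩]
        refine ⟨_, hc, by rw [map_natCast, Nat.cast_mul, Nat.cast_pow]; simp, ?_⟩
        rw [Complex.norm_natCast]
        exact_mod_cast (Nat.mod_lt _ (by positivity)).le
      · rw [if_pos h2, if_neg h1] at hc
        rw [if_neg fun h => h1 h.1, hc]
        exact ⟨0, io_zero p, by simp, by simp⟩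
    · rw [if_neg h2] at hc
      rw [if_neg fun h => h2 h.2, hc]
      exact ⟨0, io_zero p, by simp, by simp⟩
  · rw [← wt_congr er, wt_rad3, wt_rad3, wt_rad3, List.length_append, hx]
    have b4 : N / 2 * W * (2 * p) ≤ N * W * (2 * p) := Nat.mul_le_mul_right _ b1
    have b5 := h.bud.pos
    rw [mul_comm b] at a7 hc
    simp only [one_mul, add_mul, b2, mul_assoc 2] at a1 ⊢
    omega

/-- Drop the first `n` bits. -/
def dropM : Cmd := skipM (.glob 29)

theorem drop_ok : ∃ K : ℕ, ∀ (P : Tbl) (g : ℕ → ℕ)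
    (B Zb n b p f f0 k e σ' s G ω N len Mu : ℕ) (sz : ℕ → ℕ) (x z : List Bool),
    Gx P g B Zb K n b p f f0 k e σ' s G ω N len Mu sz → x.length = n →
    Step P dropM g (· = x ++ z) (· = z) (K * len) := by
  refine ⟨(PF.glob 29).deg + 200, ?_⟩
  intro P g B Zb n b p f f0 k e σ' s G ω N len Mu sz x z h hx
  obtain ⟨a1, a2, a3, a4, a5, a6, a7, a8⟩ := h.io
  have hc := h.cap
  have s1 := skip_ok (P := P) (e := .glob 29) (n := n) (h.bud.mono (by omega)) (by simp [h.g29])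
    (x ++ z)
  rw [drop_append' hx] at s1
  exact s1.le (by rw [add_mul]; omega)

/-- The sum of the coefficients in the lower half. -/
def lowM : Cmd := .seq (fitM (.glob 9) eN2) carM

/-- Round the coefficients and add them up. -/
def outM : Cmd :=
  .seq (fork (.seq (rotM (.cst 1) (.glob 9) (.glob 9) eN2) (.seq lowM (padM (.mul (.glob 14) eN2))))
    (.seq lowM (addR 3 4))) (takeM (.dbl (.glob 29)))

theorem low_ok {P : Tbl} {g : ℕ → ℕ} {B Zb K n b p f f0 k e σ' s G ω N len Mu : ℕ} {sz : ℕ → ℕ}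
    (h : Gx P g B Zb K n b p f f0 k e σ' s G ω N len Mu sz) (hK : dFit (.glob 9) eN2 + dCar ≤ K)
    {l : ℕ} (hl : l + 2 ≤ f0) (hp : f0 + l + 3 ≤ p) (c : ℕ → ℕ → ℕ) :
    Step P lowM g (Apx p f0 (rad3 1 N (2 ^ G)) 3 (fun y => y 1 < N / 2) (fun y => c (y 1) (y 2)) l)
      (fun o => o.length = N / 2 * 2 ^ G * b ∧ lv o ≡ ∑ γ ∈ range (2 ^ G), ∑ j ∈ range (N / 2),
        2 ^ (b * (j + N / 2 * γ)) * c j γ [MOD 2 ^ (b * (N / 2 * 2 ^ G))]) (2000 * len) := by
  obtain ⟨a1, a2, a3, a4, a5, a6, a7, a8⟩ := h.io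
  have hb := h.hb
  have hZ := h.hZ'
  have b0 := h.bud.pos
  have s1 := fun R => fit_lay (P := P) (R := R) (rad := rad3 1 N (2 ^ G)) (D := 3) (k := 1)
    (Y := N / 2) (eG := .glob 9) (e2 := eN2) (h.bud.mono (by omega)) (by omega)
    (by simp [h.g9, wt, rad3]) (by simp [eN2, h.g9, wt, rad3]) h.g3
    (by
      simp only [wt, rad3, Nat.reduceEqDiff, reduceIte, one_mul]
      exact le_trans (by omega) (Nat.le_mul_of_pos_right N (by omega)))
    (by rw [wt_rad3, one_mul]; omega)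
    (by rw [wt_rad3, one_mul]; exact Nat.mul_pos (by omega) (by positivity))
  rw [upd_rad3] at s1
  have s2 := car_lay (P := P) (M := N / 2) (W := 2 ^ G) (h.bud.mono (by omega)) h.gU h.g1 h.g3
    h.g14 h.g28 h.b0 (by omega) hl hp a3 (by positivity) c
  refine (((s1 _).post fun l hl => Lay.mono hl fun y c hy _ hc _ => ?_).seq s2).le ?_
  · have : y 1 < N / 2 := by simpa [rad3] using hy 1 (by omega)
    rw [if_pos (by simp only [rad3, Nat.reduceEqDiff, reduceIte]; omega)] at hc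
    exact hc this
  · have : N / 2 * 2 ^ G * (2 * p) ≤ N * 2 ^ G * (2 * p) := by gcongr; omega
    rw [wt_rad3, wt_rad3, one_mul, one_mul, add_mul]
    omega

theorem out_apx : ∃ K : ℕ, ∀ (P : Tbl) (g : ℕ → ℕ)
    (B Zb n b p f f0 k e σ' s G ω N len Mu : ℕ) (sz : ℕ → ℕ) (l : ℕ) (x y : List Bool),
    Gx P g B Zb K n b p f f0 k e σ' s G ω N len Mu sz → x.length = n → y.length = n →
    l + 2 ≤ f0 → f0 + l + 3 ≤ p →
    Step P outM g (Apx p f0 (rad3 1 N (2 ^ G)) 3 (fun _ => True)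
      (fun z => cv2 (chk b N G (lv x)) (chk b N G (lv y)) (z 1) (z 2)) l)
      (· = mulL x y) (K * len) := by
  refine ⟨dFit (.glob 9) eN2 + dCar + dRot (.cst 1) (.glob 9) (.glob 9) eN2 +
    (PF.mul (.glob 14) eN2).deg + (PF.dbl (.glob 29)).deg + 6000, ?_⟩
  intro P g B Zb n b p f f0 k e σ' s G ω N len Mu sz l x y h hx hy hl hp
  obtain ⟨a1, a2, a3, a4, a5, a6, a7, a8⟩ := h.io
  obtain ⟨c, hc⟩ := cv2_nat b N G (lv x) (lv y)
  have hn := h.cap
  have hZ := h.hZ'
  have b0 := h.bud.pos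
  have key := prod_eq (by have := h.ωG; omega) (lv_lt' (hx.trans_le hn)) (lv_lt' (hy.trans_le hn)) hc
  simp only [hc]
  have e1 : b * (N / 2 * 2 ^ G) = 2 * (b * (N / 2 * 2 ^ (G - 1))) := by rw [a8]; ring
  have e2 : b * (N / 2) ≤ b * (N / 2 * 2 ^ (G - 1)) :=
    Nat.mul_le_mul_left _ (Nat.le_mul_of_pos_right _ (by positivity))
  have s1 := low_ok h (by omega) hl hp c
  have s2 := low_ok h (by omega) hl hp fun j γ => c (j + N / 2) γ
  rw [mul_comm _ b, e1] at s1 s2
  generalize ∑ γ ∈ range (2 ^ G), ∑ j ∈ range (N / 2), 2 ^ (b * (j + N / 2 * γ)) * c j γ = X at *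
  generalize ∑ γ ∈ range (2 ^ G), ∑ j ∈ range (N / 2),
    2 ^ (b * (j + N / 2 * γ)) * c (j + N / 2) γ = Y at *
  generalize b * (N / 2 * 2 ^ (G - 1)) = L at *
  have s3 := fun R => rot_lay (P := P) (R := R) (rad := rad3 1 N (2 ^ G)) (D := 3) (k := 1) (ℓ := 1)
    (eZ := .cst 1) (eG := .glob 9) (ea := .glob 9) (eo := eN2) (h.bud.mono (by omega)) (by omega)
    (by simp [wt, rad3]) (by simp [h.g9, wt, rad3]) h.g3
    (by
      simp only [wt, rad3, Nat.reduceEqDiff, reduceIte, one_mul]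
      exact le_trans (by omega) (Nat.le_mul_of_pos_right N (by omega)))
    (by rw [wt_rad3, one_mul]; omega)
    (by rw [wt_rad3, one_mul]; exact Nat.mul_pos (by omega) (by positivity))
    (fun i0 => by simp [eN2, h.g9, bw_one, rad3, Nat.div_le_self])
    (fun z => update z 1 (z 1 + N / 2)) (fun z => z 1 < N / 2) fun z hz hG =>
      ⟨fun j hj => by
        by_cases e : j = 1
        · subst e; simp [rad3]; omega
        · simpa [e] using hz j hj,
      fun j hj => update_of_ne (by omega) _ _, by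
        simp only [blk_one, update_self, PF.eval_glob, eN2, PF.eval_half, Nat.reduceLT, reduceIte,
          h.g9]
        rw [rotv, if_pos (by omega), Nat.mod_eq_of_lt (by omega)]⟩
  rw [wt_rad3, one_mul] at s3
  have hd : 2 ^ (2 * n) ∣ 2 ^ (2 * L) := pow_dvd_pow _ (by omega)
  refine ((Step.fork (n := 2 * len) (t := 2600 * len) (t' := 2300 * len)
    (Rel := fun _ o => o.length ≤ 2 * len ∧ lv o ≡ 2 ^ (b * (N / 2)) * Y [MOD 2 ^ (2 * n)])
    (Post := fun o => o.length ≤ 3 * len ∧ lv o ≡ lv x * lv y [MOD 2 ^ (2 * n)])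
    (fun u hu => ⟨?_, ?_⟩) ?_).seq (t' := 200 * len) (Step.of_eq fun o ho => ?_)).le ?_
  · rw [Lay.length hu, wt_rad3, one_mul]; omega
  · refine ((((s3 _).post fun v hv => Lay.mono hv fun z c _ _ hc hG => ?_).seq (s2.seq
      (t' := 50 * (b * (N / 2)) + 70 * Zb) (Step.of_eq fun o ho => ?_))).pre fun v hv =>
        hv ▸ hu).le (by omega)
    · simpa using hc hG trivial
    · refine (pad_ok (h.bud.mono (by omega)) (by simp [eN2, h.g9, h.g14]) o).post ?_
      rintro _ rfl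
      have : (List.replicate (b * (N / 2)) false ++ o).length ≤ 2 * len := by
        rw [List.length_append, List.length_replicate, ho.1]; omega
      refine ⟨⟨this, ?_⟩, this⟩
      rw [lv_append, lv_replicate, zero_add, List.length_replicate]
      exact (ho.2.of_dvd hd).mul_left _
  · rintro σ hg ⟨h1, h2, h3⟩
    obtain ⟨o, ⟨o1, o2⟩, o3⟩ := s1 σ hg (Apx.mono h1 le_rfl fun _ _ _ => ⟨trivial, rfl⟩)
    refine ⟨addB o (σ 4) false, ⟨by rw [length_addB]; omega, ?_⟩,
      (o3.seq (addR_ok _ (by omega) (by omega) (by omega))).mono ?_ ?_⟩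
    · rw [lv_addB, ← key]
      exact (o2.of_dvd hd).add h3
    · funext v
      simp only [update_apply, Nat.reduceEqDiff, reduceIte]
      split_ifs <;> first | omega | rfl
    · simp [o1]; omega
  · refine (take_ok (n := 2 * n) (h.bud.mono (by omega)) (by simp [h.g29]) o).mono (fun _ h => h)
      ?_ (by have := ho.1; omega)
    rintro _ rfl
    refine lv_inj (by simp [hx]) ?_
    rw [mulL, lv_takeD, lv_takeD, lv_bits, hx]
    exact ho.2
  · rw [add_mul]; omega

end Vale.Agent.P338
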