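import Vale.Agent.P338.Prep
import Vale.Agent.P338.Grp
import Vale.Agent.P338.Io
import Vale.Agent.P338.Conv2

/-! The multiplication algorithm for fixed parameters. -/

namespace Vale.Agent.P338

open Function Finset

variable {P : Tbl} {g : ℕ → ℕ} {B Zb K n b p f f0 k e σ' s G ω N len Mu : ℕ} {sz : ℕ → ℕ}

theorem Step.seq2 {c z : Cmd} {Pre Mid Q Post : List Bool → Prop} {t t' : ℕ}
    (h : Step P c g Pre Mid t) (hz : Step2 P z g (fun l l' => Mid l ∧ Q l') Post t') :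
    Step2 P (.seq c z) g (fun l l' => Pre l ∧ Q l') Post (t + t' + 1) := fun σ hg hp => by
  obtain ⟨l, hl, h⟩ := h σ hg hp.1
  obtain ⟨l', hl', h'⟩ := hz (update σ 3 l) (hg.upd _ (by omega)) (by simpa using ⟨hl, hp.2⟩)
  refine ⟨l', hl', (h.seq h').mono ?_ le_rfl⟩
  rw [update_comm (a := 3) (b := 4) (by omega), update_idem]

theorem Step.par {c c' z : Cmd} {l0 : List Bool} {A A' Post : List Bool → Prop} {m t t' t'' : ℕ}
    (h0 : l0.length ≤ m) (hA : ∀ l, A l → l.length ≤ m) (h : Step P c g (· = l0) A t)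
    (h' : Step P c' g (· = l0) A' t') (hz : Step2 P z g (fun l l' => A' l ∧ A l') Post t'') :
    Step P (P338.fork c (.seq c' z)) g (· = l0) Post (t + (t' + t'' + 1) + 20 * m + 50) :=
  Step.fork (Rel := fun _ l' => A l') (fun l hl => by
    subst hl; exact ⟨h0, h.post fun l hl => ⟨hl, hA l hl⟩⟩) (h'.seq2 hz)

theorem Gx.len3 (h : Gx P g B Zb K n b p f f0 k e σ' s G ω N len Mu sz) :
    wt (rad3 1 N (2 ^ G)) 3 * (2 * p) ≤ len := by
  rw [wt_rad3, h.hlen, one_mul, mul_comm N]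
  have := h.N_le
  gcongr

theorem Gx.N2 (h : Gx P g B Zb K n b p f f0 k e σ' s G ω N len Mu sz) : 2 ≤ N ∧ Zb ≤ N := by
  have := h.hZ'
  have := h.bud.pos
  omega

theorem Gx.Zlen (h : Gx P g B Zb K n b p f f0 k e σ' s G ω N len Mu sz) : Zb ≤ len := by
  refine le_trans ?_ h.len3
  have := h.p10
  rw [wt_rad3, one_mul, mul_assoc]
  exact h.N2.2.trans (Nat.le_mul_of_pos_right _ (by positivity))

theorem Gx.nlen (h : Gx P g B Zb K n b p f f0 k e σ' s G ω N len Mu sz) : n ≤ len := by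
  refine h.cap.trans (le_trans ?_ h.len3)
  have := h.hb
  rw [wt_rad3, one_mul, mul_comm b]
  gcongr
  · exact Nat.div_le_self _ _
  · norm_num
  · omega
  · omega

def gL : List (ℕ × PF) :=
  [(8, .mul (.mul (.glob 9) (.pow2 (.glob 26))) (.glob 3)), (15, .cst 0), (16, .cst 0),
    (18, .glob 9), (19, .glob 26), (20, .cst 1), (24, .sub (.glob 26) (.cst 1))]

/-- The transform along the power-of-two dimension. -/
def gfftM (dir : Bool) : Cmd := lets gL (fftM dir)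

theorem gfft_apx : ∃ K : ℕ, ∀ (dir : Bool) (P : Tbl) (g : ℕ → ℕ)
    (B Zb n b p f f0 k e σ' s G ω N len Mu : ℕ) (sz : ℕ → ℕ) (lv : ℕ) (cf : ℕ → ℕ → ℂ),
    Gx P g B Zb K n b p f f0 k e σ' s G ω N len Mu sz → f0 + (lv + 7 * G) + 3 ≤ p →
    Step P (gfftM dir) g
      (Apx p f0 (rad3 1 N (2 ^ G)) 3 (fun _ => True) (fun y => cf (y 1) (y 2)) lv)
      (Apx p f0 (rad3 1 N (2 ^ G)) 3 (fun _ => True)
        (fun y => fft dir G G (cf (y 1)) (y 2)) (lv + 7 * G)) (K * (G * ((Mu + 1) * len))) := by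
  obtain ⟨K, hK⟩ := fft_apx
  refine ⟨K + dLets gL + K * KHc + K + 400, ?_⟩
  intro dir P g B Zb n b p f f0 k e σ' s G ω N len Mu sz lv cf h hl
  have hb := h.bits
  have hp := h.p10
  have h3 := h.len3
  have hG := h.ωG
  have hN := h.N2
  have hbig := h.big
  have hZ := h.Zlen
  obtain ⟨G', rfl⟩ : ∃ G', G = G' + 1 := ⟨G - 1, by omega⟩
  have e8 : (PF.mul (.mul (.glob 9) (.pow2 (.glob 26))) (.glob 3)).eval g [] =
      wt (rad3 1 N (2 ^ (G' + 1))) 3 * (2 * p) := by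
    rw [PF.eval_mul, PF.eval_mul, PF.eval_pow2 h.gU _ (by simp [h.g26]; omega), wt_rad3]
    simp [h.g9, h.g26, h.g3]
  have e0 : wt (rad3 1 N (2 ^ (G' + 1))) 2 = N := by simp [wt, rad3]
  have lt1 : ∀ x ≤ B, x < 2 ^ B := fun x hx => lt_of_le_of_lt hx Nat.lt_two_pow_self
  have hS : Sx P (upds g gL) B Zb (rad3 1 N (2 ^ (G' + 1))) 3 p 2 1 0 0 (G' + 1) 0 K
      (fun _ => True) f f0 G' Mu :=
    { t1 := h.t1
      t2 := h.t2
      gU := by simpa [upds, gL] using h.gU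
      g1 := by simpa [upds, gL] using h.g1
      g3 := by simpa [upds, gL] using h.g3
      g8 := by simp only [upds, gL, update_self, e8]
      g15 := by simp [upds, gL]
      g16 := by simp [upds, gL]
      g18 := by simpa [upds, gL, e0] using h.g9
      g19 := by simpa [upds, gL] using h.g26
      p1 := by omega
      reg := fun i hi => by obtain rfl : i = 0 := by omega
                            simp [rad3]
      ho := by simp
      hD := by simp
      hZ := by rw [e0]; nlinarith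
      pos := by rw [wt_rad3]; have := hN.1; positivity
      sz := by omega
      net := by simp
      bud := by
        simp only [upds, gL, e8]
        refine ((((((((h.bud.mono (by omega)).set _ ?_).set _ ?_).set _ ?_).set _ ?_).set _ ?_).set
          _ ?_).set _ (by omega))
        · exact lt1 _ (by simp [h.g26]; omega)
        · exact lt1 _ (by simp; omega)
        · exact lt1 _ (by simp [h.g26]; omega)
        · simpa using h.bud.lt (i := 9) (by omega)
        · simp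
        · simp
      mul := h.mul
      g2 := by simpa [upds, gL] using h.g2
      g20 := by simp [upds, gL]
      g24 := by simp [upds, gL, h.g26]
      hB := h.hB
      hf := by have := h.hf; omega
      hp := by have := h.hp; simp; omega
      hs := by omega
      hσ := by simp }
  refine (Step.lets gL (by simp [gL]) (by simp [gL]) (h.bud.mono (by omega))
    (hK dir P _ B Zb _ 3 p 2 1 0 0 (G' + 1) 0 _ f f0 G' Mu lv (fun y => cf (y 1) (y 2)) hS
      (fun _ _ _ _ _ _ => trivial) (by simpa using hl))).mono (fun _ h => h)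
    (fun l hl => hl.mono (by simp) fun x _ _ => ⟨trivial, ?_⟩) ?_
  · simp [Tens, ax_apply]
  · have e1 : Hc 0 (G' + 1) (wt (rad3 1 N (2 ^ (G' + 1))) 3 * (2 * p)) =
        KHc * (wt (rad3 1 N (2 ^ (G' + 1))) 3 * (2 * p)) := by
      rw [Hc, ← Nat.ceil_natCast (R := ℝ) (KHc * _)]; congr 1; push_cast; ring
    rw [e1]
    generalize wt (rad3 1 N (2 ^ (G' + 1))) 3 * (2 * p) = X at *
    have a1 : KHc * X + (Mu + 1) * X ≤ (KHc + 1) * ((Mu + 1) * len) := by
      have : X ≤ (Mu + 1) * len := by nlinarith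
      have : (Mu + 1) * X ≤ (Mu + 1) * len := by gcongr
      nlinarith
    have a2 : Zb ≤ (G' + 1) * ((Mu + 1) * len) := by nlinarith [Nat.zero_le (Mu * len)]
    have a3 : K * ((G' + 1) * (KHc * X + (Mu + 1) * X)) ≤
        K * (KHc + 1) * ((G' + 1) * ((Mu + 1) * len)) := by
      calc _ ≤ K * ((G' + 1) * ((KHc + 1) * ((Mu + 1) * len))) := by gcongr
        _ = _ := by ring
    rw [show gL.length = 7 from rfl]
    generalize (G' + 1) * ((Mu + 1) * len) = Y at *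
    nlinarith [Nat.zero_le ((K + dLets gL) * Y)]

/-- The total cost, up to a constant. -/
noncomputable def Tot (k e σ' s G len Mu : ℕ) : ℕ :=
  (s + 1) * Hc k (2 * s) len + (s + mm ^ k + G + 1) * ((Mu + 1) * len) + mm ^ k * Sw e (2 * σ') len

theorem Tot_le (k e σ' s G len Mu : ℕ) : len ≤ Tot k e σ' s G len Mu ∧
    (Mu + 1) * len ≤ Tot k e σ' s G len Mu ∧ G * len ≤ Tot k e σ' s G len Mu ∧
    G * ((Mu + 1) * len) ≤ Tot k e σ' s G len Mu ∧
    mm ^ k * Sw e (2 * σ') len ≤ Tot k e σ' s G len Mu ∧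
    (s + 1) * Hc k (2 * s) len + (s + mm ^ k + 1) * ((Mu + 1) * len) + mm ^ k * Sw e (2 * σ') len ≤
      Tot k e σ' s G len Mu := by
  have a1 : len ≤ (Mu + 1) * len := by nlinarith
  have a2 : G * len ≤ G * ((Mu + 1) * len) := by gcongr
  unfold Tot
  generalize (Mu + 1) * len = Y at *
  have a3 : (s + mm ^ k + G + 1) * Y = (s + mm ^ k) * Y + Y + G * Y := by ring
  have a4 : (s + mm ^ k + 1) * Y = (s + mm ^ k) * Y + Y := by ring
  omega

theorem emb2_gam {d : ℕ} {inv : ℕ → ℕ} (cf : ℕ → ℕ → ℂ) (x : ℕ → ℕ) :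
    emb2 d sz inv cf (gam d ω x) = emb2 d sz inv (fun j _ => cf j (x 0 * 2 ^ ω + x (d + 1))) x := by
  have e : gam d ω x (d + 1) = x 0 * 2 ^ ω + x (d + 1) := by simp [gam]
  have e' : ∀ i < d, gam d ω x (1 + i) = x (1 + i) := fun i hi => by
    rw [gam, if_neg (by omega), if_pos (by omega)]
  unfold emb2
  refine sum_congr rfl fun j _ => ?_
  rw [e]
  congr 1
  exact propext (forall₂_congr fun i hi => by rw [e' i hi])

noncomputable def fwdM : Cmd :=
  .seq inM (.seq (gfftM false) (.seq shufM (.seq prepM (grpsM false))))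

theorem fwd_apx : ∃ K : ℕ, ∀ (P : Tbl) (g : ℕ → ℕ)
    (B Zb n b p f f0 k e σ' s G ω N len Mu : ℕ) (sz : ℕ → ℕ) (x z : List Bool),
    Gx P g B Zb K n b p f f0 k e σ' s G ω N len Mu sz → x.length = n → z.length ≤ n →
    f0 + (b + 7 * G + 1300 * ((s + 1) * mm ^ k)) + 3 ≤ p →
    Step P fwdM g (· = x ++ z)
      (Apx p f0 (radD (2 ^ (G - ω)) (2 ^ s) (4 * mm ^ k) (2 ^ ω)) (4 * mm ^ k + 2)
        (Vd (4 * mm ^ k) sz)
        (Tens (fun i => 1 + i) (fun i => F1 false (sz i)) (4 * mm ^ k)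
          (emb2 (4 * mm ^ k) sz (invF (4 * mm ^ k) sz)
            fun j => fft false G G (chk b N G (lv x) j)) ∘ gam (4 * mm ^ k) ω)
        (b + 7 * G + 1300 * ((s + 1) * mm ^ k))) (K * Tot k e σ' s G len Mu) := by
  obtain ⟨K1, h1⟩ := in_apx
  obtain ⟨K2, h2⟩ := gfft_apx
  obtain ⟨K3, h3⟩ := shuf_lay
  obtain ⟨K4, h4⟩ := prep_lay
  obtain ⟨K5, h5⟩ := grps_apx
  refine ⟨K1 + K2 + K3 + K4 + K5 + 4, ?_⟩
  intro P g B Zb n b p f f0 k e σ' s G ω N len Mu sz x z h hx hz hl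
  let cf : ℕ → ℕ → ℂ := fun j => fft false G G (chk b N G (lv x) j)
  let R : ℕ → ℕ → List Bool → Prop := fun j γ c => ∃ z : GaussianInt, io p c = mkR p z ∧
    ‖(z : ℂ) - 2 ^ f0 * cf j γ‖ ≤ 2 ^ (b + 7 * G) ∧ ‖cf j γ‖ ≤ 2 ^ (b + 7 * G)
  refine ((h1 P g B Zb n b p f f0 k e σ' s G ω N len Mu sz x z (h.mono (by omega)) hx hz).seq
    ((h2 false P g B Zb n b p f f0 k e σ' s G ω N len Mu sz b _ (h.mono (by omega)) (by omega)).seq
    (((h3 P g B Zb n b p f f0 k e σ' s G ω N len Mu sz R (h.mono (by omega))).pre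
      fun l hl => Lay.mono hl fun _ _ _ _ hc => hc trivial).seq
    ((h4 P g B Zb n b p f f0 k e σ' s G ω N len Mu sz (fun a j c => R j (a * 2 ^ ω + c))
      (h.mono (by omega))).seq
    ((h5 false P g B Zb n b p f f0 k e σ' s G ω N len Mu sz _ _ (h.mono (by omega)) hl).pre
      fun l hl => Lay.mono hl fun y c _ _ hc hy => ?_))))).le ?_
  · rw [comp_apply, emb2_gam, crt_fwd (crt_invF h.pos h.cop) _ hy]
    exact hc hy
  · obtain ⟨a1, a2, a3, a4, a5, a6⟩ := Tot_le k e σ' s G len Mu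
    have := h.Zlen
    have := h.bud.pos
    have b1 := Nat.mul_le_mul_left K1 a1
    have b2 := Nat.mul_le_mul_left K2 a4
    have b3 := Nat.mul_le_mul_left K3 a3
    have b4 := Nat.mul_le_mul_left K4 a5
    have b5 := Nat.mul_le_mul_left K5 a6
    simp only [add_mul K1, add_mul (K1 + K2), add_mul (K1 + K2 + K3), add_mul (K1 + K2 + K3 + K4),
      add_mul (K1 + K2 + K3 + K4 + K5)]
    omega

theorem zip_apx {rad : ℕ → ℕ} {D lv : ℕ} {Gd : (ℕ → ℕ) → Prop} {u v : (ℕ → ℕ) → ℂ}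
    (hM : MulOk P p Mu) (hB : Bud g B (dZip (.glob 28)) Zb) (hp : g 1 = p) (hf : g 28 = f0)
    (hS : g 3 = 2 * p) (h0 : 0 < wt rad D) (hZ : Zb ≤ wt rad D * (2 * p)) (hl : f0 + lv + 3 ≤ p) :
    Step2 P (zipM true (.glob 28) (cmulI 12 13)) g
      (fun l l' => Apx p f0 rad D Gd u lv l ∧ Apx p f0 rad D Gd v lv l')
      (Apx p f0 rad D Gd (u * v) (2 * lv + 3)) ((4 * Mu + 10300) * (wt rad D * (2 * p))) := by
  refine (zip_lay (F := cmulC p f0) (t := 4 * Mu + 10000) hB hp (by simpa using hf) hS (by omega)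
    (by omega) (by omega) h0 hZ fun τ a1 a2 a3 a4 => ⟨length_cmulC a3 a4, (cmulI_ok hM (by omega)
      (by omega) (by omega) a1 a2 (by omega) (by omega) a3 a4).le (by gcongr; omega)⟩).mono
    (fun _ _ h => h) (fun l hl' => hl'.mono ?_) le_rfl
  rintro x c - - ⟨a, a', ha, ha', r1, r2, rfl⟩ hG
  obtain ⟨z1, c1, c2, c3⟩ := r1 hG
  obtain ⟨z2, d1, d2, d3⟩ := r2 hG
  obtain ⟨z, b1, b2⟩ := io_cmulC (f := f0) (show 1 ≤ p by omega) ha ha'
  have n1 := norm_le_of_apx c2 c3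
  have n2 := norm_le_of_apx d2 d3
  have q : (2 : ℝ) ^ (f0 + lv + 1) < 2 ^ (p - 1) := pow_lt_pow_right₀ (by norm_num) (by omega)
  rw [sg_eq (by omega) ha c1 (n1.trans_lt q), sg_eq (by omega) ha' d1 (n2.trans_lt q)] at b2
  have a0 : (0 : ℝ) < 2 ^ f0 := by positivity
  have a1 : (1 : ℝ) ≤ 2 ^ lv := one_le_pow₀ (by norm_num)
  have e : (z : ℂ) - 2 ^ f0 * (u x * v x) = (z - z1 * z2 / 2 ^ f0) +
      (z1 - 2 ^ f0 * u x) * z2 / 2 ^ f0 + u x * (z2 - 2 ^ f0 * v x) := by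
    field_simp; ring
  have a3 : ‖((z1 : ℂ) - 2 ^ f0 * u x) * z2 / 2 ^ f0‖ ≤ 2 ^ lv * (2 ^ lv * 2) := by
    rw [norm_div, norm_mul, norm_pow, Complex.norm_two, div_le_iff₀ a0]
    calc _ ≤ 2 ^ lv * 2 ^ (f0 + lv + 1) := mul_le_mul c2 n2 (norm_nonneg _) (by positivity)
      _ = _ := by ring
  have a4 : ‖u x * ((z2 : ℂ) - 2 ^ f0 * v x)‖ ≤ 2 ^ lv * 2 ^ lv := by
    rw [norm_mul]; exact mul_le_mul c3 d2 (norm_nonneg _) (by positivity)
  have a5 : ‖u x * v x‖ ≤ 2 ^ lv * 2 ^ lv := by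
    rw [norm_mul]; exact mul_le_mul c3 d3 (norm_nonneg _) (by positivity)
  have a6 := norm_add₃_le (a := (z : ℂ) - z1 * z2 / 2 ^ f0)
    (b := ((z1 : ℂ) - 2 ^ f0 * u x) * z2 / 2 ^ f0) (c := u x * ((z2 : ℂ) - 2 ^ f0 * v x))
  refine ⟨z, b1, ?_⟩
  rw [Pi.mul_apply, e, pow_add, two_mul, pow_add]
  constructor <;> nlinarith

/-- Division by `N`. -/
def scaleM : Cmd :=
  diagM (.glob 9) (.glob 2) (wE (.cst 1) (.cst 0) (.cst 1) (.glob 9) (.cst 0) (.cst 1))

theorem Gx.err (h : Gx P g B Zb K n b p f f0 k e σ' s G ω N len Mu sz) :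
    50 * p * 2 ^ (f0 + 1) ≤ 2 ^ f := by
  have h1 := Nat.lt_size_self p
  calc 50 * p * 2 ^ (f0 + 1) ≤ 2 ^ 6 * 2 ^ p.size * 2 ^ (f0 + 1) := by gcongr; norm_num
    _ ≤ 2 ^ f := by
      rw [← pow_add, ← pow_add]; exact Nat.pow_le_pow_right (by norm_num) (by have := h.hf; omega)

theorem scale_apx {lv : ℕ} {v : (ℕ → ℕ) → ℂ}
    (h : Gx P g B Zb (dDiag (.glob 9) (.glob 2)
      (wE (.cst 1) (.cst 0) (.cst 1) (.glob 9) (.cst 0) (.cst 1)))
      n b p f f0 k e σ' s G ω N len Mu sz) (hl : f0 + lv + 3 ≤ p) :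
    Step P scaleM g (Apx p f0 (rad3 1 N (2 ^ G)) 3 (fun _ => True) (fun y => N * v y) lv)
      (Apx p f0 (rad3 1 N (2 ^ G)) 3 (fun _ => True) v (lv + 3)) ((4 * Mu + 11000) * len) := by
  have hN := h.N2
  have hp := h.hp
  have h3 := h.len3
  have hb := h.big
  have he := h.err
  have e0 : wt (rad3 1 N (2 ^ G)) 2 = N := by simp [wt, rad3]
  have N0 : (N : ℂ) ≠ 0 := Nat.cast_ne_zero.mpr (by omega)
  have w0 : 0 < wt (rad3 1 N (2 ^ G)) 3 := by rw [wt_rad3]; have := hN.1; positivity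
  have Np : N < 2 ^ p := by
    refine lt_of_le_of_lt h.N_le ?_
    rw [← pow_mul]
    exact Nat.pow_lt_pow_right (by norm_num) (by nlinarith [Nat.zero_le (mm ^ k)])
  refine (diag_apx (α := 0) (E := (50 * p : ℕ)) (k := 2) (Gd' := fun _ => True) h.mul h.bud
    (by omega) (by simp [h.g9, e0]) h.g2 h.g1 h.g3 (by omega) (by rw [e0]; nlinarith)
    (by nlinarith) w0 hl (by exact_mod_cast he) (fun _ => 1 / N) fun x _ _ => ⟨?_, ?_,
      Or.inl trivial⟩).mono (fun _ h => h)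
    (fun l hl => hl.mono le_rfl fun x _ _ => ⟨trivial, by field_simp⟩) (by gcongr)
  · have : (1 : ℝ) ≤ N := by exact_mod_cast (by omega : 1 ≤ N)
    rwa [norm_div, norm_one, Complex.norm_natCast, pow_zero, div_le_one (by linarith)]
  · have := (wE_spec (l := [enc (rad3 1 N (2 ^ G)) (up 2 x) 3]) (NT := 1) (NI := 0) (a := 1)
      (bd := N) (nt := .cst 1) (ni := .cst 0) (A := .cst 1) (Bd := .glob 9) (num := .cst 0)
      (den := .cst 1) (fun _ _ => 0) (fun _ _ => 1) h.gU h.g1 h.g2 h.hB h.p10 (by omega) rfl rfl rfl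
      (by simpa using h.g9) (by have := h.hB; nlinarith) (by omega)
      (Nat.one_lt_two_pow (by omega)) (by omega) Np (by simp) ?_ ?_).1
    · simpa using this
    · have : 2 ^ f ≤ 2 ^ (p - 3) := Nat.pow_le_pow_right (by norm_num) (by omega)
      have := Nat.mul_le_mul_right (2 ^ (p - 3)) hN.1
      omega
    · have : 2 ^ f ≤ 2 ^ (p - 3) := Nat.pow_le_pow_right (by norm_num) (by omega)
      have := Nat.one_le_two_pow (n := f0 + 1)
      nlinarith

noncomputable def bwdM : Cmd :=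
  .seq (grpsM true) (.seq unprepM (.seq unshufM (.seq (gfftM true) (.seq scaleM outM))))

noncomputable def coreM : Cmd :=
  .seq (fork (.seq dropM fwdM) (.seq fwdM (zipM true (.glob 28) (cmulI 12 13)))) bwdM

theorem chk_zero {X j γ : ℕ} (h : N ≤ 2 * j ∨ 2 ^ G ≤ 2 * γ) : chk b N G X j γ = 0 :=
  if_neg (by omega)

theorem core_ok : ∃ K : ℕ, ∀ (P : Tbl) (g : ℕ → ℕ)
    (B Zb n b p f f0 k e σ' s G ω N len Mu : ℕ) (sz : ℕ → ℕ) (x y : List Bool),
    Gx P g B Zb K n b p f f0 k e σ' s G ω N len Mu sz → x.length = n → y.length = n →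
    2 * b + 21 * G + 3900 * ((s + 1) * mm ^ k) + 8 ≤ f0 → 2 * f0 + 1 ≤ p →
    Step P coreM g (· = x ++ y) (· = mulL x y) (K * Tot k e σ' s G len Mu) := by
  obtain ⟨K1, h1⟩ := fwd_apx
  obtain ⟨K2, h2⟩ := drop_ok
  obtain ⟨K3, h3⟩ := grps_apx
  obtain ⟨K4, h4⟩ := unprep_lay
  obtain ⟨K5, h5⟩ := unshuf_lay
  obtain ⟨K6, h6⟩ := gfft_apx
  obtain ⟨K7, h7⟩ := out_apx
  refine ⟨2 * K1 + K2 + K3 + K4 + K5 + K6 + K7 + (dZip (.glob 28) + dDiag (.glob 9) (.glob 2)
    (wE (.cst 1) (.cst 0) (.cst 1) (.glob 9) (.cst 0) (.cst 1))) + 30000, ?_⟩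
  intro P g B Zb n b p f f0 k e σ' s G ω N len Mu sz x y h hx hy hl hl'
  have hc := crt_invF h.pos h.cop
  have hn := h.nlen
  have hZ := h.Zlen
  have hlen := h.len_eq
  have hb := h.b0
  have hlen2 : 2 * n ≤ 2 * len := by omega
  have f1 := h1 P g B Zb n b p f f0 k e σ' s G ω N len Mu sz x y (h.mono (by omega)) hx hy.le
    (by omega)
  have f2 := h1 P g B Zb n b p f f0 k e σ' s G ω N len Mu sz y [] (h.mono (by omega)) hy (by simp)
    (by omega)
  rw [List.append_nil] at f2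
  generalize hl1 : b + 7 * G + 1300 * ((s + 1) * mm ^ k) = l1 at *
  let cf : ℕ → ℕ → ℂ := fun j => fft false G G (cv2 (chk b N G (lv x)) (chk b N G (lv y)) j)
  let l2 := 2 * l1 + 3 + 1300 * ((s + 1) * mm ^ k)
  let R : ℂ → List Bool → Prop := fun w c => ∃ z : GaussianInt, io p c = mkR p z ∧
    ‖(z : ℂ) - 2 ^ f0 * w‖ ≤ 2 ^ l2 ∧ ‖w‖ ≤ 2 ^ l2
  refine ((Step.par (m := 2 * len) (by simp [hx, hy]; omega)
    (fun l hl => by rw [Lay.length hl, hlen]; omega)
    ((h2 P g B Zb n b p f f0 k e σ' s G ω N len Mu sz x y (h.mono (by omega)) hx).seq f2) f1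
    (zip_apx h.mul (h.bud.mono (by omega)) h.g1 h.g28 h.g3
      (by rw [wt_radD']; positivity) (by omega) (by omega))).seq
    ((h3 true P g B Zb n b p f f0 k e σ' s G ω N len Mu sz (2 * l1 + 3) (_ * _)
      (h.mono (by omega)) (by omega)).seq
    (((h4 P g B Zb n b p f f0 k e σ' s G ω N len Mu sz (fun z => R (N * emb2 (4 * mm ^ k) sz
      (invF (4 * mm ^ k) sz) cf (gam (4 * mm ^ k) ω z))) (h.mono (by omega))).pre
      fun l hl => Lay.mono hl fun z c hz _ hc' hv => ?_).seq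
    (((h5 P g B Zb n b p f f0 k e σ' s G ω N len Mu sz (fun j γ => R (N * cf j γ))
      (h.mono (by omega))).pre fun l hl => Lay.mono hl ?_).seq
    (((h6 true P g B Zb n b p f f0 k e σ' s G ω N len Mu sz l2 (fun j γ => N * cf j γ)
      (h.mono (by omega)) (by omega)).pre fun l hl => Lay.mono hl fun _ _ _ _ hc _ => hc).seq
    (((scale_apx (lv := l2 + 7 * G) (h.mono (by omega)) (by omega)).pre
      fun l hl => Apx.mono hl le_rfl fun z _ _ => ⟨trivial, ?_⟩).seq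
    (h7 P g B Zb n b p f f0 k e σ' s G ω N len Mu sz _ x y (h.mono (by omega)) hx hy (by omega)
      (by omega)))))))).le ?_
  · have a0 := hz 0 (by omega)
    have a1 := hz (4 * mm ^ k + 1) (by omega)
    simp only [radD, reduceIte, Nat.add_one_ne_zero, Nat.not_succ_le_self] at a0 a1
    have := hc' hv
    rwa [comp_apply, conv_mid hc G (fun j γ hj => chk_zero (h.hN ▸ hj))
      (fun j γ hj => chk_zero (h.hN ▸ hj))
      (fun i hi => by rw [gam, if_neg (by omega), if_pos (by omega)]; exact hv i hi)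
      (by
        have : 2 ^ G = 2 ^ (G - ω) * 2 ^ ω := by rw [← pow_add, Nat.sub_add_cancel h.ωG.le]
        simp only [gam, Nat.add_one_ne_zero, Nat.not_succ_le_self, reduceIte]
        nlinarith), ← h.hN] at this
  · rintro z c - - ⟨w, a1, a2, a3, a4, a5⟩
    rwa [emb2_gam, crt_bwd hc _ a1, crt_other _ le_rfl _ (Or.inl rfl),
      crt_other _ le_rfl _ (Or.inr (by omega)), a2, a3, a4] at a5
  · have : (fun γ => (N : ℂ) * cf (z 1) γ) = (N : ℂ) • cf (z 1) := rfl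
    rw [this, map_smul, ← Module.End.mul_apply, fft_inv]; rfl
  · obtain ⟨a1, a2, a3, a4, a5, a6⟩ := Tot_le k e σ' s G len Mu
    have := h.bud.pos
    have b2 := Nat.mul_le_mul_left K2 a1
    have b3 := Nat.mul_le_mul_left K3 a6
    have b4 := Nat.mul_le_mul_left K4 a5
    have b5 := Nat.mul_le_mul_left K5 a3
    have b6 := Nat.mul_le_mul_left K6 a4
    have b7 := Nat.mul_le_mul_left K7 a1
    have b8 : (4 * Mu + 10300) * len ≤ 10300 * ((Mu + 1) * len) := by
      rw [← mul_assoc]; exact Nat.mul_le_mul_right _ (by omega)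
    have b9 : (4 * Mu + 11000) * len ≤ 11000 * ((Mu + 1) * len) := by
      rw [← mul_assoc]; exact Nat.mul_le_mul_right _ (by omega)
    rw [hlen]
    generalize dZip (.glob 28) + dDiag (.glob 9) (.glob 2)
      (wE (.cst 1) (.cst 0) (.cst 1) (.glob 9) (.cst 0) (.cst 1)) = K8
    generalize Tot k e σ' s G len Mu = T at *
    have : (2 * K1 + K2 + K3 + K4 + K5 + K6 + K7 + K8 + 30000) * T = 2 * (K1 * T) + K2 * T + K3 * T +
      K4 * T + K5 * T + K6 * T + K7 * T + K8 * T + 30000 * T := by ring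
    omega

end Vale.Agent.P338
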