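import Mathlib

/-! Deterministic multitape Turing machines that multiply binary integers. -/

namespace Vale.Agent.P338

/-- A head move. -/
inductive Move
  | left
  | stay
  | right

/-- The new head position on a tape that is infinite to the right; a left move on the leftmost
cell leaves the head there. -/
def Move.app : Move → ℕ → ℕ
  | .left, i => i - 1
  | .stay, i => i
  | .right, i => i + 1

/-- A deterministic Turing machine with `k + 1` tapes, finite state set `Q` and finite alphabet `G`,
which contains four different symbols: blank, the two bits, and the separator. -/
structure TM where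
  k : ℕ
  Q : Type
  G : Type
  finQ : Fintype Q
  finG : Fintype G
  blank : G
  sep : G
  bit : Bool → G
  bit_inj : Function.Injective bit
  bit_ne_blank : ∀ b, bit b ≠ blank
  bit_ne_sep : ∀ b, bit b ≠ sep
  sep_ne_blank : sep ≠ blank
  out : Fin (k + 1)
  start : Q
  halt : Q
  trans : Q → (Fin (k + 1) → G) → Q × (Fin (k + 1) → G × Move)

/-- The value of a binary string, leftmost bit most significant. -/
def val (x : List Bool) : ℕ := x.foldl (fun a b => 2 * a + b.toNat) 0

/-- The binary representation of `z`, padded on the left to length `k`. -/
def bin (k z : ℕ) : List Bool := List.ofFn fun i : Fin k => z.testBit (k - 1 - i)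

namespace TM

variable (A : TM)

/-- A configuration: state, head positions and tape contents. -/
structure Cfg where
  q : A.Q
  head : Fin (A.k + 1) → ℕ
  tape : Fin (A.k + 1) → ℕ → A.G

/-- The tape that holds the word `w` on its first cells and blanks on all other cells. -/
def word (w : List A.G) : ℕ → A.G := fun i => w.getD i A.blank

/-- The start configuration: `x`, separator, `y` on the first tape, the other tapes blank, all
heads on the leftmost cell. -/
def init (x y : List Bool) : A.Cfg where
  q := A.start
  head := fun _ => 0
  tape := fun j => if j = 0 then A.word (x.map A.bit ++ A.sep :: y.map A.bit) else A.word []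

/-- One step: on every tape write on the scanned cell and move the head; change the state. -/
def step (c : A.Cfg) : A.Cfg where
  q := (A.trans c.q fun j => c.tape j (c.head j)).1
  head := fun j => ((A.trans c.q fun j => c.tape j (c.head j)).2 j).2.app (c.head j)
  tape := fun j =>
    Function.update (c.tape j) (c.head j) ((A.trans c.q fun j => c.tape j (c.head j)).2 j).1

/-- The configuration after `t` steps on the input given by `x` and `y`. -/
def run (x y : List Bool) (t : ℕ) : A.Cfg := A.step^[t] (A.init x y)

/-- The machine halts after exactly `t` steps. -/
def HaltsAt (x y : List Bool) (t : ℕ) : Prop :=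
  (A.run x y t).q = A.halt ∧ ∀ s < t, (A.run x y s).q ≠ A.halt

/-- For all `n ≥ 1` and all `n`-bit strings `x, y` the machine halts with the `2 n`-bit product,
and nothing else, on the output tape. -/
def Multiplies : Prop :=
  ∀ n ≥ 1, ∀ x y : List Bool, x.length = n → y.length = n → ∃ t, A.HaltsAt x y t ∧
    (A.run x y t).tape A.out = A.word ((bin (2 * n) (val x * val y)).map A.bit)

/-- The worst-case running time on pairs of `n`-bit strings. -/
noncomputable def time (n : ℕ) : ℕ :=
  sSup {t | ∃ x y : List Bool, x.length = n ∧ y.length = n ∧ A.HaltsAt x y t}

end TM

end Vale.Agent.P338
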