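import Vale.Agent.P338.Step

/-! Simultaneous binding of parameters, and static sequences. -/

namespace Vale.Agent.P338

open Function

variable {P : Tbl} {g : ℕ → ℕ} {B Zb t : ℕ} {c : Cmd} {Pre Post : List Bool → Prop}

/-- Run `c` with the listed parameters set to values computed in the old environment. -/
def lets : List (ℕ × PF) → Cmd → Cmd
  | [], c => c
  | (i, e) :: r, c => loc (64 + r.length) (.seq (evalTo (64 + r.length) e [])
      (lets r (loc (30 + i) (.seq (cpy (64 + r.length) (30 + i)) c))))

def upds (g : ℕ → ℕ) : List (ℕ × PF) → ℕ → ℕ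
  | [] => g
  | (i, e) :: r => update (upds g r) i (e.eval g [])

def dLets : List (ℕ × PF) → ℕ
  | [] => 0
  | (_, e) :: r => e.deg + dLets r

theorem lets_aux (L : List (ℕ × PF)) (hL : L.length ≤ 20) (hi : ∀ x ∈ L, x.1 < 30)
    (hb : Bud g B (dLets L) Zb) (Q : St → Prop)
    (hQ : ∀ σ τ, Q σ → (∀ v, 64 + L.length ≤ v → τ v = σ v) → Q τ)
    (h : ∀ σ, Num σ (upds g L) → Q σ → Pre (σ 3) → ∃ l, Post l ∧ Ok P c σ (update σ 3 l) t) :
    ∀ σ, Num σ g → Q σ → Pre (σ 3) →
      ∃ l, Post l ∧ Ok P (lets L c) σ (update σ 3 l) (t + 50 * L.length * Zb) := by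
  induction L generalizing c Q t with
  | nil => simpa [lets, upds] using h
  | cons x r ih =>
    obtain ⟨i, e⟩ := x
    intro σ hg hq hp
    have hi' : i < 30 := hi (i, e) (by simp)
    simp only [List.length_cons] at hL hQ
    have hs := e.size_eval_le (l := []) hb.sz (by simp)
    have p1 := hb.pow (K' := e.deg) (by rw [dLets]; omega)
    have p2 := hb.pos
    have h1 := evalTo_ok (P := P) e (d := 64 + r.length) (regs := []) (l := [])
      (hg.upd (v := 64 + r.length) [] (by omega)) rfl (by simp) (by omega) hb.sz (by simp)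
    obtain ⟨l, hl, h2⟩ := ih (c := loc (30 + i) (.seq (cpy (64 + r.length) (30 + i)) c))
      (t := t + 30 * Zb) (by omega) (fun x hx => hi x (by simp [hx]))
      (hb.mono (by rw [dLets]; omega)) (fun σ => Q σ ∧ σ (64 + r.length) = (e.eval g []).bits)
      (fun σ τ a b => ⟨hQ σ τ a.1 fun v hv => b v (by omega), by rw [b _ le_rfl, a.2]⟩)
      (fun τ a1 a2 a3 => by
        obtain ⟨l, hl, h3⟩ := h (update τ (30 + i) (e.eval g []).bits) (a1.set _ _)
          (hQ _ _ a2.1 fun v hv => update_of_ne (by omega) _ _)
          (by rwa [update_of_ne (by omega)])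
        refine ⟨l, hl, (Ok.loc (((cpy_ok _ (by omega) (by omega) (by omega)).mono ?_ le_rfl).seq
          h3)).mono ?_ ?_⟩
        · rw [update_self, update_of_ne (by omega), a2.2]; simp
        · rw [update_comm (by omega), update_idem, update_eq_self]
        · rw [update_of_ne (by omega), a2.2, update_of_ne (by omega), update_self, length_bits]
          omega)
      (update (update σ (64 + r.length) []) (64 + r.length) (e.eval g []).bits)
      ((hg.upd _ (by omega)).upd _ (by omega))
      ⟨hQ _ _ hq fun v hv => by rw [update_idem, update_of_ne (by omega)], by simp⟩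
      (by rwa [update_idem, update_of_ne (by omega)])
    refine ⟨l, hl, (Ok.loc (h1.seq h2)).mono ?_ ?_⟩
    · rw [update_idem, update_comm (by omega), update_idem, update_eq_self]
    · rw [update_self, update_of_ne (by omega), update_self, length_bits, List.length_cons]
      simp; nlinarith

theorem Step.lets (L : List (ℕ × PF)) (hL : L.length ≤ 20) (hi : ∀ x ∈ L, x.1 < 30)
    (hb : Bud g B (dLets L) Zb) (h : Step P c (upds g L) Pre Post t) :
    Step P (lets L c) g Pre Post (t + 50 * L.length * Zb) := fun σ hg hp =>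
  lets_aux L hL hi hb (fun _ => True) (fun _ _ _ _ => trivial) (fun τ a _ b => h τ a b) σ hg
    trivial hp

/-- The commands `c 0, …, c (n - 1)` in this order. -/
def seqs (c : ℕ → Cmd) : ℕ → Cmd
  | 0 => .skip
  | n + 1 => .seq (seqs c n) (c n)

theorem Step.seqs {c : ℕ → Cmd} {R : ℕ → List Bool → Prop} (n : ℕ)
    (h : ∀ i < n, Step P (c i) g (R i) (R (i + 1)) t) :
    Step P (seqs c n) g (R 0) (R n) (n * (t + 1) + 1) := by
  induction n with
  | zero => simpa [P338.seqs] using Step.skip
  | succ n ih =>
    exact ((ih fun i hi => h i (by omega)).seq (h n (by omega))).le (by ring_nf; omega)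

end Vale.Agent.P338
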