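import Vale.Agent.P338.Flip
import Vale.Agent.P338.Cis
import Vale.Agent.P338.Lets

/-! Diagonal passes and approximate arrays. -/

namespace Vale.Agent.P338

open Function

variable {P : Tbl} {g : ℕ → ℕ} {B Zb t : ℕ} {rad : ℕ → ℕ} {D k p f Mu : ℕ}
  {R : (ℕ → ℕ) → List Bool → Prop}

def diagB (ef eW : PF) : Cmd :=
  loc 5 (loc 17 (loc 18 (loc 3 (.seq (evalTo 17 eW [14]) (.seq (ruler 18 (.glob 3) [])
    (.seq (tk 5 17 18) (.seq (app 12 3) (.seq (zipM false ef (.seq (cpy 5 13) (cmulI 12 13)))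
    (app 3 12)))))))))

/-- Multiply the cells of each group of `eG` cells by the item `eW`, dropping `ef` bits. -/
def diagM (eG ef eW : PF) : Cmd := passI false eG (diagB ef eW)

def dDiag (eG ef eW : PF) : ℕ := dPass eG + dZip ef + eW.deg

theorem diag_lay {eG ef eW : PF} (hM : MulOk P p Mu) (hB : Bud g B (dDiag eG ef eW) Zb)
    (hk : k ≤ D) (e0 : eG.eval g [] = wt rad k) (e1 : ef.eval g [] = f) (hp : g 1 = p)
    (hS : g 3 = 2 * p) (hp1 : 1 ≤ p) (hfp : f ≤ p) (hZ : Zb ≤ wt rad k * (2 * p))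
    (hn : wt rad D < 2 ^ B) (h0 : 0 < wt rad D) :
    Step P (diagM eG ef eW) g (Lay rad D (2 * p) R)
      (Lay rad D (2 * p) fun x c => ∃ a, a.length = 2 * p ∧ R x a ∧ c = cmulC p f a
        ((eW.eval g [enc rad (up k x) D]).bits.takeD (2 * p) false))
      ((4 * Mu + 11000) * (wt rad D * (2 * p))) := by
  rintro σ hg ⟨u, h1, h2, h3⟩
  have hw : wt rad D = bw rad k (D - k) * wt rad k := by
    rw [mul_comm, ← wt_add, Nat.add_sub_cancel' hk]
  generalize hH : bw rad k (D - k) = H at hw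
  generalize hZ' : wt rad k = G at *
  have hH0 : 0 < H := Nat.pos_of_mul_pos_right (hw ▸ h0)
  have hG0 : 0 < G := Nat.pos_of_mul_pos_left (hw ▸ h0)
  have hlt : ∀ h < H, ∀ j < G, h * G + j < wt rad D := by
    intro h hh j hj
    rw [hw]; nlinarith
  have key := passI_ok (P := P) (two := false) (body := diagB ef eW) (u := u) (v := u)
    (rest := σ 4) (H := H) (fo := fun h => flat G fun j => cmulC p f (u (h * G + j))
      ((eW.eval g [h * G]).bits.takeD (2 * p) false))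
    (Go := G * (2 * p)) (t := (4 * Mu + 10700) * (G * (2 * p)))
    hg (hB.mono (by unfold dDiag; omega)) e0 hS hZ (hw ▸ hn) hH0 (hw ▸ h1) (by simp)
    (hw ▸ h2) (by simp) (fun h hh => ?_) fun h hh τ a1 a2 a3 a4 => ?_
  · refine ⟨_, ⟨fun j => cmulC p f (u j) ((eW.eval g [j / G * G]).bits.takeD (2 * p) false), rfl,
      fun j hj => length_cmulC (h2 j hj) (by simp), fun x hx => ⟨_, h2 _ (enc_lt hx), h3 x hx, ?_⟩⟩,
      key.mono ?_ ?_⟩
    · beta_reduce
      rw [← hZ', enc_div_mul hx hk]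
    · rw [update_eq_self, hw, flat_mul]
      refine congrArg _ (flat_congr fun h hh => flat_congr fun j hj => ?_)
      rw [div_mul_add hj]
    · rw [hw]; ring_nf; omega
  · exact (length_flat fun j hj => length_cmulC (h2 _ (hlt h hh j hj)) (by simp)).le
  · have hi : h * G < 2 ^ B := by have := hw ▸ hn; nlinarith
    have hg' : Num (update (update (update (update τ 5 []) 17 []) 18 []) 3 []) g :=
      ((((hg.congr fun v hv => a1 v (by unfold Out; omega)).upd _ (by omega)).upd _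
        (by omega)).upd _ (by omega)).upd _ (by omega)
    have r1 := evalTo_ok (P := P) eW (d := 17) (regs := [14]) (l := [h * G]) hg'
      (by simp [a4]) (by simp) (by omega) hB.sz (by simpa using Nat.size_le.mpr hi)
    have hs := eW.size_eval_le (l := [h * G]) hB.sz (by simpa using Nat.size_le.mpr hi)
    have r2 := ruler_ok (P := P) (.glob 3) (d := 18) (regs := []) (l := [])
      (hg'.upd (v := 17) (eW.eval g [h * G]).bits (by omega)) rfl (by simp) (by omega) hB.sz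
      (by simp)
    simp only [PF.eval_glob, Nat.reduceLT, reduceIte, hS] at r2
    have p1 := hB.pow (K' := eW.deg) (by unfold dDiag; omega)
    have p2 := hB.pow (K' := (PF.glob 3).deg + 8) (by unfold dDiag dZip; omega)
    have p3 := hB.pos
    have l1 : ∀ j < G, (u (h * G + j)).length = 2 * p := fun j hj => h2 _ (hlt h hh j hj)
    have l2 := length_flat l1
    rw [← length_bits] at hs
    generalize (eW.eval g [h * G]).bits = w at *
    have l3 : ∀ j < G, (cmulC p f (u (h * G + j)) (w.takeD (2 * p) false)).length = 2 * p :=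
      fun j hj => length_cmulC (l1 j hj) (by simp)
    have l4 := length_flat l3
    have r3 := zipM_ok (P := P) (two := false) (ef := ef) (body := .seq (cpy 5 13) (cmulI 12 13))
      (σ := update (update (update (update (update τ 17 (w.drop (2 * p))) 18
        (List.replicate (2 * p) true)) 5 (w.takeD (2 * p) false)) 12 []) 3
        (flat G fun j => u (h * G + j))) (rest := τ 4) (So := 2 * p) (n := G)
      (u := fun j => u (h * G + j)) (v := u) (t := (4 * Mu + 10020) * (2 * p))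
      (fo := fun j => cmulC p f (u (h * G + j)) (w.takeD (2 * p) false))
      ((((((hg.congr fun v hv => a1 v (by unfold Out; omega)).upd _ (by omega)).upd _
        (by omega)).upd _ (by omega)).upd _ (by omega)).upd _ (by omega))
      (hB.mono (by unfold dDiag; omega)) hp e1 hS (by omega) (by simp) (by simp) l1 (by simp)
      (fun j hj => (l3 j hj).le) fun τ' b1 b2 b3 j hj b4 b5 => by
        simp only [update_apply, Nat.reduceEqDiff, reduceIte, Bool.false_eq_true] at b1 b5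
        refine ((cpy_ok _ (by omega) (by omega) (by omega)).seq (cmulI_ok hM (by omega) (by omega)
          (by omega) (by simpa using b2) (by simpa using b3) hp1 hfp (by simp [b4, l1 j hj])
          (by simp [b1, b5]))).mono ?_ ?_
        · simp [b1, b4, b5]
        · simp [b1]; nlinarith
    refine (Ok.loc (Ok.loc (Ok.loc (Ok.loc (r1.seq (r2.seq
      ((tk_ok _ (by omega) (by omega) (by omega) (by omega) (by omega) (by omega)).seq
      (((app_ok _ (by omega) (by omega) (by omega)).mono ?_ le_rfl).seq (r3.seq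
      (app_ok _ (by omega) (by omega) (by omega))))))))))).mono ?_ ?_
    · funext v
      simp only [update_apply, Nat.reduceEqDiff, reduceIte, a2, List.length_replicate,
        List.append_nil]
      split_ifs <;> subst_vars <;> first | omega | rfl
    · funext v
      simp only [update_apply, Nat.reduceEqDiff, reduceIte, List.append_nil]
      split_ifs <;> subst_vars <;> first | omega | rfl | exact a3
    · have c := zip_cost (t := 4 * Mu + 10020) hG0 (show 0 < 2 * p by omega) (show p ≤ 2 * p by omega)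
        (show f ≤ 2 * p by omega) hZ
      have : 2 * p ≤ G * (2 * p) := Nat.le_mul_of_pos_left _ hG0
      simp only [update_apply, Nat.reduceEqDiff, reduceIte, a2, List.length_replicate, l2, l4,
        List.length_nil, List.length_drop, List.takeD_length]
      have c2 := Nat.sub_le w.length (2 * p)
      have c3 : (4 * Mu + 10700) * (G * (2 * p)) =
          (4 * Mu + 10020 + 300) * (G * (2 * p)) + 380 * (G * (2 * p)) := by ring
      rw [c3]
      generalize (4 * Mu + 10020 + 300) * (G * (2 * p)) = X at *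
      generalize G * ((4 * Mu + 10020) * (2 * p) + 18 * (2 * p) + 4 * (2 * p) + 50) = Y at *
      generalize G * (2 * p) = Z at *
      omega

/-- The good cells approximate `2 ^ f0 v` within `2 ^ lv`, and `v` is bounded by `2 ^ lv`. -/
def Apx (p f0 : ℕ) (rad : ℕ → ℕ) (D : ℕ) (Gd : (ℕ → ℕ) → Prop) (v : (ℕ → ℕ) → ℂ) (lv : ℕ) :
    List Bool → Prop :=
  Lay rad D (2 * p) fun x c => Gd x → ∃ z : GaussianInt, io p c = mkR p z ∧
    ‖(z : ℂ) - 2 ^ f0 * v x‖ ≤ 2 ^ lv ∧ ‖v x‖ ≤ 2 ^ lv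

variable {f0 lv : ℕ} {Gd Gd' : (ℕ → ℕ) → Prop} {v v' : (ℕ → ℕ) → ℂ} {l : List Bool}

theorem Apx.mono {lv' : ℕ} (h : Apx p f0 rad D Gd v lv l) (hl : lv ≤ lv')
    (h' : ∀ x, Valid rad D x → Gd' x → Gd x ∧ v' x = v x) : Apx p f0 rad D Gd' v' lv' l :=
  Lay.mono h fun x c hx _ hc hG => by
    obtain ⟨z, h1, h2, h3⟩ := hc (h' x hx hG).1
    have : (2 : ℝ) ^ lv ≤ 2 ^ lv' := pow_le_pow_right₀ (by norm_num) hl
    rw [(h' x hx hG).2]
    exact ⟨z, h1, h2.trans this, h3.trans this⟩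

theorem norm_le_of_apx {z w : ℂ} (h2 : ‖z - 2 ^ f0 * w‖ ≤ 2 ^ lv) (h3 : ‖w‖ ≤ 2 ^ lv) :
    ‖z‖ ≤ 2 ^ (f0 + lv + 1) := by
  have h := norm_add_le (z - 2 ^ f0 * w) (2 ^ f0 * w)
  rw [sub_add_cancel, norm_mul, norm_pow, Complex.norm_two] at h
  have h4 : (1 : ℝ) ≤ 2 ^ f0 := one_le_pow₀ (by norm_num)
  have h5 : (0 : ℝ) < 2 ^ lv := by positivity
  rw [pow_succ, pow_add]
  nlinarith

theorem mul_apx {z w z' W ω : ℂ} {α : ℕ} {E : ℝ} (h2 : ‖z - 2 ^ f0 * w‖ ≤ 2 ^ lv) (h3 : ‖w‖ ≤ 2 ^ lv)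
    (h4 : ‖W - 2 ^ f * ω‖ ≤ E) (h5 : E * 2 ^ (f0 + 1) ≤ 2 ^ f) (h6 : ‖ω‖ ≤ 2 ^ α)
    (h7 : ‖z' - z * W / 2 ^ f‖ ≤ 4) :
    ‖z' - 2 ^ f0 * (ω * w)‖ ≤ 2 ^ (lv + α + 3) ∧ ‖ω * w‖ ≤ 2 ^ (lv + α + 3) := by
  have hz := norm_le_of_apx h2 h3
  have e : z' - 2 ^ f0 * (ω * w) =
      (z' - z * W / 2 ^ f) + z * (W - 2 ^ f * ω) / 2 ^ f + ω * (z - 2 ^ f0 * w) := by
    field_simp; ring
  have a0 : (0 : ℝ) < 2 ^ f := by positivity
  have a1 : (1 : ℝ) ≤ 2 ^ lv := one_le_pow₀ (by norm_num)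
  have a2 : (1 : ℝ) ≤ 2 ^ α := one_le_pow₀ (by norm_num)
  have a3 : ‖z * (W - 2 ^ f * ω) / 2 ^ f‖ ≤ 2 ^ lv := by
    rw [norm_div, norm_mul, norm_pow, Complex.norm_two, div_le_iff₀ a0]
    calc _ ≤ 2 ^ (f0 + lv + 1) * E := mul_le_mul hz h4 (norm_nonneg _) (by positivity)
      _ = 2 ^ lv * (E * 2 ^ (f0 + 1)) := by ring
      _ ≤ _ := by gcongr
  have a4 : ‖ω * (z - 2 ^ f0 * w)‖ ≤ 2 ^ α * 2 ^ lv := by
    rw [norm_mul]; exact mul_le_mul h6 h2 (norm_nonneg _) (by positivity)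
  have a5 : ‖ω * w‖ ≤ 2 ^ α * 2 ^ lv := by
    rw [norm_mul]; exact mul_le_mul h6 h3 (norm_nonneg _) (by positivity)
  have a6 := norm_add₃_le (a := z' - z * W / 2 ^ f) (b := z * (W - 2 ^ f * ω) / 2 ^ f)
    (c := ω * (z - 2 ^ f0 * w))
  rw [e, pow_add, pow_add]
  constructor <;> nlinarith

/-- An approximate diagonal pass; where the factor is exactly zero nothing is needed of the
cell. -/
theorem diag_apx {eG eW : PF} {α : ℕ} {E : ℝ} (hM : MulOk P p Mu)
    (hB : Bud g B (dDiag eG (.glob 2) eW) Zb) (hk : k ≤ D) (e0 : eG.eval g [] = wt rad k)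
    (hf : g 2 = f) (hp : g 1 = p) (hS : g 3 = 2 * p) (hfp : f ≤ p)
    (hZ : Zb ≤ wt rad k * (2 * p)) (hn : wt rad D < 2 ^ B) (h0 : 0 < wt rad D)
    (hl : f0 + lv + 3 ≤ p) (hE : E * 2 ^ (f0 + 1) ≤ 2 ^ f) (ω : (ℕ → ℕ) → ℂ)
    (hω : ∀ x, Valid rad D x → Gd' x → ‖ω x‖ ≤ 2 ^ α ∧
      ‖(sg p ((eW.eval g [enc rad (up k x) D]).bits.takeD (2 * p) false) : ℂ) - 2 ^ f * ω x‖ ≤ E ∧
      (Gd x ∨ (ω x = 0 ∧
        sg p ((eW.eval g [enc rad (up k x) D]).bits.takeD (2 * p) false) = 0))) :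
    Step P (diagM eG (.glob 2) eW) g (Apx p f0 rad D Gd v lv)
      (Apx p f0 rad D Gd' (fun x => ω x * v x) (lv + α + 3))
      ((4 * Mu + 11000) * (wt rad D * (2 * p))) := by
  refine (diag_lay hM hB hk e0 (by simp [hf]) hp hS (by omega) hfp hZ hn h0).post fun l hl' =>
    hl'.mono ?_
  rintro x c hx - ⟨a, ha, hR, rfl⟩ hG
  obtain ⟨w1, w2, w3⟩ := hω x hx hG
  obtain ⟨z', b1, b2⟩ := io_cmulC (f := f) (show 1 ≤ p by omega) ha
    (d := (eW.eval g [enc rad (up k x) D]).bits.takeD (2 * p) false) (by simp)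
  refine ⟨z', b1, ?_⟩
  rcases w3 with w3 | ⟨w3, w4⟩
  · obtain ⟨z, c1, c2, c3⟩ := hR w3
    have := sg_eq (by omega) ha c1 ((norm_le_of_apx c2 c3).trans_lt
      (pow_lt_pow_right₀ (by norm_num) (by omega)))
    rw [this] at b2
    exact mul_apx c2 c3 w2 hE w1 b2
  · rw [w4] at b2
    have : (4 : ℝ) ≤ 2 ^ (lv + α + 3) := by
      rw [pow_add]
      have : (1 : ℝ) ≤ 2 ^ (lv + α) := one_le_pow₀ (by norm_num)
      linarith
    simp only [w3, zero_mul, mul_zero, sub_zero, norm_zero]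
    exact ⟨le_trans (by simpa using b2) this, by positivity⟩

end Vale.Agent.P338
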