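import Vale.Agent.P338.Ops

/-! The radix-two transform on the low bits of a digit, and the in-place transform of arbitrary
length on four copies. -/

namespace Vale.Agent.P338

open Finset Function Complex

/-- Bit `t` of `y`. -/
def bt (t y : ℕ) : ℕ := y / 2 ^ t % 2

theorem bt_lt (t y : ℕ) : bt t y < 2 := Nat.mod_lt _ (by norm_num)

theorem xor_mod (t y : ℕ) : (y ^^^ 2 ^ t) % 2 ^ t = y % 2 ^ t := by
  rw [Nat.xor_mod_two_pow, Nat.mod_self, Nat.xor_zero]

theorem xor_div (t y : ℕ) : (y ^^^ 2 ^ t) / 2 ^ t = (y / 2 ^ t) ^^^ 1 := by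
  rw [Nat.xor_div_two_pow, Nat.div_self (by positivity)]

theorem xor_of_zero {t y : ℕ} (h : bt t y = 0) : y ^^^ 2 ^ t = y + 2 ^ t := by
  have h1 := Nat.div_add_mod (y ^^^ 2 ^ t) (2 ^ t)
  rw [xor_mod, xor_div, Nat.xor_one_of_even (Nat.even_iff.2 h)] at h1
  have h2 := Nat.div_add_mod y (2 ^ t)
  rw [mul_add] at h1; omega

theorem xor_of_one {t y : ℕ} (h : bt t y = 1) : (y ^^^ 2 ^ t) + 2 ^ t = y := by
  have h1 := Nat.div_add_mod (y ^^^ 2 ^ t) (2 ^ t)
  rw [xor_mod, xor_div, Nat.xor_one_of_odd (Nat.odd_iff.2 h)] at h1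
  have h2 := Nat.div_add_mod y (2 ^ t)
  have h3 : 1 ≤ y / 2 ^ t := by
    unfold bt at h
    generalize y / 2 ^ t = q at h
    omega
  obtain ⟨q, hq⟩ := Nat.exists_eq_add_of_le h3
  rw [hq] at h1 h2
  rw [Nat.add_sub_cancel_left] at h1
  rw [mul_add] at h2; omega

theorem bt_xor (t y : ℕ) : bt t (y ^^^ 2 ^ t) = 1 - bt t y := by
  unfold bt
  rw [xor_div]
  rcases Nat.even_or_odd (y / 2 ^ t) with h | h
  · rw [Nat.xor_one_of_even h]; have := Nat.even_iff.1 h; omega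
  · rw [Nat.xor_one_of_odd h]; have := Nat.odd_iff.1 h; omega

theorem bt_mod {t n : ℕ} (h : t < n) (y : ℕ) : bt t (y % 2 ^ n) = bt t y := by
  obtain ⟨k, rfl⟩ := Nat.exists_eq_add_of_lt h
  unfold bt
  rw [add_assoc, pow_add, Nat.mod_mul_right_div_self, Nat.mod_mod_of_dvd _ (dvd_pow_self 2 (by omega))]

theorem mod_succ (n y : ℕ) : y % 2 ^ (n + 1) = y % 2 ^ n + bt n y * 2 ^ n := by
  rw [pow_succ, Nat.mod_mul, bt, mul_comm]

theorem ee_neg_mul (x : ℝ) : ee (-x) * ee x = 1 := by rw [← ee_add]; simp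

theorem ee_half_nat (m : ℕ) : ee ((m : ℝ) / (2 : ℕ)) = (-1) ^ m := by
  rw [← ee_half, ← ee_nat_mul]; congr 1; push_cast; ring

theorem ee_eq_of_sub {x y : ℝ} (k : ℤ) (h : x = y + k) : ee x = ee y := by
  rw [h, ee_add, ee_int, mul_one]

theorem ee_mod (R x N : ℕ) : ee ((R * (x % N) : ℕ) / (N : ℕ)) = ee ((R * x : ℕ) / (N : ℕ)) := by
  rcases Nat.eq_zero_or_pos N with rfl | hN
  · simp
  have hN' : (N : ℝ) ≠ 0 := by positivity
  refine (ee_eq_of_sub ((R * (x / N) : ℕ) : ℤ) ?_).symm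
  have := congrArg (Nat.cast : ℕ → ℝ) (Nat.div_add_mod x N)
  rw [Int.cast_natCast]
  push_cast at this ⊢
  field_simp
  rw [← this]; ring

theorem sum_ee {n : ℕ} {k : ℤ} (h : ¬(n : ℤ) ∣ k) (hn : 0 < n) :
    ∑ b ∈ range n, ee (b * (k / n)) = 0 := by
  have hn' : (n : ℝ) ≠ 0 := by positivity
  have h1 : ee (k / n) ≠ 1 := by
    intro h1
    rw [ee, Complex.exp_eq_one_iff] at h1
    obtain ⟨m, hm⟩ := h1
    have h2 : (((k : ℝ) / n : ℝ) : ℂ) = m := by
      have : (2 * Real.pi * I : ℂ) ≠ 0 := by simp [Real.pi_ne_zero]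
      exact mul_left_cancel₀ this (hm.trans (mul_comm _ _))
    have h3 : (k : ℝ) / n = m := by exact_mod_cast h2
    rw [div_eq_iff hn'] at h3
    exact h ⟨m, by rw [mul_comm]; exact_mod_cast h3⟩
  simp only [ee_nat_mul]
  rw [geom_sum_eq h1, ← ee_nat_mul, mul_div_cancel₀ _ hn', ee_int, sub_self, zero_div]

theorem sum_ee_sub {n a c : ℕ} (ha : a < n) (hc : c < n) {σ : ℝ} (hσ : σ = 1 ∨ σ = -1) :
    ∑ b ∈ range n, ee (σ * (b * (a - c) / n)) = if a = c then (n : ℂ) else 0 := by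
  split_ifs with h
  · simp [h]
  · rcases hσ with rfl | rfl
    · rw [← sum_ee (n := n) (k := a - c) (fun hd => h ?_) (by omega)]
      · exact sum_congr rfl fun b _ => by congr 1; push_cast; ring
      · have := Int.eq_zero_of_abs_lt_dvd hd (by rw [abs_lt]; omega); omega
    · rw [← sum_ee (n := n) (k := c - a) (fun hd => h ?_) (by omega)]
      · exact sum_congr rfl fun b _ => by congr 1; push_cast; ring
      · have := Int.eq_zero_of_abs_lt_dvd hd (by rw [abs_lt]; omega); omega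

def Eb (t : ℕ) : E1 := two 1 (fun _ => -I) fun y => y ^^^ 2 ^ t

def preN (dir : Bool) (t y : ℕ) : ℕ := bt t y * if dir then 5 * 2 ^ t - 2 * (y % 2 ^ t) else 2 ^ t
def postN (dir : Bool) (t y : ℕ) : ℕ := bt t y * if dir then 2 ^ t else 2 ^ t + 2 * (y % 2 ^ t)

noncomputable def levPre (dir : Bool) (t : ℕ) : E1 :=
  dg1 fun y => ee ((preN dir t y : ℝ) / (2 ^ (t + 2) : ℕ))
noncomputable def levPost (dir : Bool) (t : ℕ) : E1 :=
  dg1 fun y => (1 : ℂ) / (if dir then 2 else 1 : ℕ) * ee ((postN dir t y : ℝ) / (2 ^ (t + 2) : ℕ))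

/-- One level of the transform (`dir = false`) or of its inverse (`dir = true`). -/
noncomputable def lev (dir : Bool) (t : ℕ) : E1 := levPost dir t * (Eb t * levPre dir t)

theorem ee_q (t : ℕ) : ee (((2 ^ t : ℕ) : ℝ) / (2 ^ (t + 2) : ℕ)) = I := by
  rw [← ee_quarter]; congr 1; push_cast; field_simp; ring

theorem ee_post (t r : ℕ) : ee (((2 ^ t + 2 * r : ℕ) : ℝ) / (2 ^ (t + 2) : ℕ)) =
    I * ee (r / (2 ^ (t + 1) : ℕ)) := by
  rw [← ee_quarter, ← ee_add]; congr 1; push_cast; field_simp; ring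

theorem ee_pre {t r : ℕ} (h : r < 2 ^ t) : ee (((5 * 2 ^ t - 2 * r : ℕ) : ℝ) / (2 ^ (t + 2) : ℕ)) =
    I * ee (-(r / (2 ^ (t + 1) : ℕ))) := by
  rw [← ee_quarter, ← ee_add]
  refine ee_eq_of_sub 1 ?_
  rw [Nat.cast_sub (by omega)]; push_cast; field_simp; ring

theorem lev_false_zero {t y : ℕ} (h : bt t y = 0) (f : ℕ → ℂ) :
    lev false t f y = f y + f (y ^^^ 2 ^ t) := by
  simp only [lev, levPost, levPre, Eb, Module.End.mul_apply, dg1_apply, two_apply, preN, postN,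
    bt_xor, h, Bool.false_eq_true, if_false, zero_mul, Nat.sub_zero, one_mul, ee_q]
  simp [← mul_assoc]

theorem lev_false_one {t y : ℕ} (h : bt t y = 1) (f : ℕ → ℂ) :
    lev false t f y = (f (y ^^^ 2 ^ t) - f y) * ee ((y % 2 ^ t : ℕ) / (2 ^ (t + 1) : ℕ)) := by
  simp only [lev, levPost, levPre, Eb, Module.End.mul_apply, dg1_apply, two_apply, preN, postN,
    bt_xor, h, Bool.false_eq_true, if_false, zero_mul, Nat.sub_self, one_mul, ee_q, ee_post]
  simp only [Nat.cast_zero, zero_div, ee_zero, Nat.cast_one, Pi.one_apply]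
  linear_combination (ee ((y % 2 ^ t : ℕ) / (2 ^ (t + 1) : ℕ)) * (f y - f (y ^^^ 2 ^ t))) * I_mul_I

theorem lev_true_zero {t y : ℕ} (h : bt t y = 0) (f : ℕ → ℂ) :
    lev true t f y = (f y + ee (-((y % 2 ^ t : ℕ) / (2 ^ (t + 1) : ℕ))) * f (y ^^^ 2 ^ t)) / 2 := by
  simp only [lev, levPost, levPre, Eb, Module.End.mul_apply, dg1_apply, two_apply, preN, postN,
    bt_xor, h, if_true, zero_mul, Nat.sub_zero, one_mul, xor_mod,
    ee_pre (Nat.mod_lt y (by positivity : 0 < 2 ^ t))]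
  simp only [Nat.cast_zero, zero_div, ee_zero, Nat.cast_ofNat, Pi.one_apply]
  linear_combination (-ee (-((y % 2 ^ t : ℕ) / (2 ^ (t + 1) : ℕ))) * f (y ^^^ 2 ^ t) / 2) * I_mul_I

theorem lev_true_one {t y : ℕ} (h : bt t y = 1) (f : ℕ → ℂ) :
    lev true t f y = (f (y ^^^ 2 ^ t) - ee (-((y % 2 ^ t : ℕ) / (2 ^ (t + 1) : ℕ))) * f y) / 2 := by
  simp only [lev, levPost, levPre, Eb, Module.End.mul_apply, dg1_apply, two_apply, preN, postN,
    bt_xor, h, if_true, zero_mul, Nat.sub_self, one_mul, ee_q,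
    ee_pre (Nat.mod_lt y (by positivity : 0 < 2 ^ t))]
  simp only [Nat.cast_zero, zero_div, ee_zero, Nat.cast_ofNat, Pi.one_apply]
  linear_combination
    ((ee (-((y % 2 ^ t : ℕ) / (2 ^ (t + 1) : ℕ))) * f y - f (y ^^^ 2 ^ t)) / 2) * I_mul_I

theorem lev_inv (t : ℕ) : lev true t * lev false t = 1 := by
  ext f y
  have hb := bt_lt t y
  have hx := bt_xor t y
  have e := ee_neg_mul ((y % 2 ^ t : ℕ) / (2 ^ (t + 1) : ℕ))
  rw [Module.End.mul_apply, Module.End.one_apply]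
  rcases (by omega : bt t y = 0 ∨ bt t y = 1) with h | h
  · rw [lev_true_zero h, lev_false_zero h, lev_false_one (by omega), Nat.xor_xor_cancel_right,
      xor_mod]
    linear_combination ((f y - f (y ^^^ 2 ^ t)) / 2) * e
  · rw [lev_true_one h, lev_false_one h, lev_false_zero (by omega), Nat.xor_xor_cancel_right]
    linear_combination ((f y - f (y ^^^ 2 ^ t)) / 2) * e

/-- The first `i` levels of the transform on `n` bits. -/
noncomputable def fft (dir : Bool) (n : ℕ) : ℕ → E1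
  | 0 => 1
  | i + 1 => lev dir (if dir then i else n - 1 - i) * fft dir n i

/-- Reversal of the low `n` bits. -/
def rev (n y : ℕ) : ℕ := ∑ i ∈ range n, bt (n - 1 - i) y * 2 ^ i

theorem rev_succ (n y : ℕ) : rev (n + 1) y = 2 * rev n y + bt n y := by
  rw [rev, rev, sum_range_succ', mul_sum]
  congr 1
  · refine sum_congr rfl fun i _ => ?_
    rw [show n + 1 - 1 - (i + 1) = n - 1 - i by omega]; ring
  · simp

theorem rev_lt (n y : ℕ) : rev n y < 2 ^ n := by
  induction n with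
  | zero => simp [rev]
  | succ n ih => have := bt_lt n y; rw [rev_succ, pow_succ]; omega

theorem rev_mod (n y : ℕ) : rev n (y % 2 ^ n) = rev n y :=
  sum_congr rfl fun i hi => by rw [bt_mod (by have := mem_range.1 hi; omega)]

theorem lev_mem (dir : Bool) (t : ℕ) : lev dir t ∈ Fin1 :=
  mul_mem (dg1_mem _) (mul_mem (two_mem _ _ _) (dg1_mem _))

theorem fft_mem (dir : Bool) (n i : ℕ) : fft dir n i ∈ Fin1 := by
  induction i with
  | zero => exact one_mem _
  | succ i ih => exact mul_mem (lev_mem _ _) ih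

theorem fft_false_succ (n i : ℕ) : fft false (n + 1) (i + 1) = fft false n i * lev false n := by
  induction i with
  | zero => simp [fft]
  | succ i ih =>
    rw [fft, ih, fft, mul_assoc]
    simp only [Bool.false_eq_true, if_false]
    rw [show n + 1 - 1 - (i + 1) = n - 1 - i by omega]

theorem fft_true_eq (n m i : ℕ) : fft true n i = fft true m i := by
  induction i with
  | zero => rfl
  | succ i ih => rw [fft, fft, ih]; rfl

theorem fft_inv (n : ℕ) : fft true n n * fft false n n = 1 := by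
  induction n with
  | zero => simp [fft]
  | succ n ih =>
    rw [fft_false_succ, fft, fft_true_eq (n + 1) n, mul_assoc, ← mul_assoc (fft true n n), ih,
      one_mul]
    exact lev_inv n

theorem base_mod {n y u : ℕ} (hu : u < 2 ^ n) : (y - y % 2 ^ n + u) % 2 ^ n = u := by
  have := Nat.div_add_mod y (2 ^ n)
  rw [show y - y % 2 ^ n = 2 ^ n * (y / 2 ^ n) by omega, Nat.mul_add_mod, Nat.mod_eq_of_lt hu]

theorem base_bt {n y u : ℕ} (hu : u < 2 ^ n) : bt n (y - y % 2 ^ n + u) = bt n y := by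
  have := Nat.div_add_mod y (2 ^ n)
  unfold bt
  rw [show y - y % 2 ^ n = 2 ^ n * (y / 2 ^ n) by omega, Nat.mul_add_div (by positivity),
    Nat.div_eq_of_lt hu, add_zero]

theorem fft_apply (n : ℕ) (f : ℕ → ℂ) (y : ℕ) : fft false n n f y =
    ∑ u ∈ range (2 ^ n), ee ((rev n y * u : ℕ) / (2 ^ n : ℕ)) * f (y - y % 2 ^ n + u) := by
  induction n generalizing f with
  | zero => simp [fft, Nat.mod_one]
  | succ n ih =>
    rw [fft_false_succ, Module.End.mul_apply, ih, show range (2 ^ (n + 1)) = range (2 ^ n + 2 ^ n) by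
      rw [pow_succ, mul_two], sum_range_add, ← sum_add_distrib]
    refine sum_congr rfl fun u hu => ?_
    have hu := mem_range.1 hu
    have hb := bt_lt n y
    have hm := mod_succ n y
    have hle := Nat.mod_le y (2 ^ (n + 1))
    have e1 : ee ((rev (n + 1) y * u : ℕ) / (2 ^ (n + 1) : ℕ)) =
        ee ((rev n y * u : ℕ) / (2 ^ n : ℕ)) * ee ((bt n y * u : ℕ) / (2 ^ (n + 1) : ℕ)) := by
      rw [← ee_add, rev_succ]; congr 1; push_cast; field_simp; ring
    have e2 : ee ((rev (n + 1) y * (2 ^ n + u) : ℕ) / (2 ^ (n + 1) : ℕ)) =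
        ee ((rev (n + 1) y * u : ℕ) / (2 ^ (n + 1) : ℕ)) * (-1) ^ bt n y := by
      rw [← ee_half_nat, ← ee_add]
      refine ee_eq_of_sub (rev n y) ?_
      rw [rev_succ]; push_cast; field_simp; ring
    rw [e2, e1]
    rcases (by omega : bt n y = 0 ∨ bt n y = 1) with h | h
    · have h' := (base_bt hu).trans h
      rw [lev_false_zero h', xor_of_zero h', hm, h]
      simp only [zero_mul, add_zero, Nat.cast_zero, zero_div, ee_zero, pow_zero, mul_one]
      rw [show y - y % 2 ^ n + u + 2 ^ n = y - y % 2 ^ n + (2 ^ n + u) by omega]; ring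
    · have h' := (base_bt hu).trans h
      have hx := xor_of_one h'
      rw [h] at hm
      rw [lev_false_one h', base_mod hu, h,
        show (y - y % 2 ^ n + u) ^^^ 2 ^ n = y - y % 2 ^ (n + 1) + u by omega,
        show y - y % 2 ^ (n + 1) + (2 ^ n + u) = y - y % 2 ^ n + u by omega, one_mul]
      ring

/-- The inverse transform reads only the block of its argument. -/
theorem fft_true_congr (n : ℕ) {f f' : ℕ → ℂ} (h : ∀ y < 2 ^ n, f y = f' y) {y : ℕ}
    (hy : y < 2 ^ n) : fft true n n f y = fft true n n f' y := by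
  have key : ∀ i ≤ n, ∀ y < 2 ^ n, fft true n i f y = fft true n i f' y := by
    intro i
    induction i with
    | zero => exact fun _ => h
    | succ i ih =>
      intro hi y hy
      have h1 := ih (by omega) y hy
      have h2 := ih (by omega) (y ^^^ 2 ^ i)
        (Nat.xor_lt_two_pow hy (Nat.pow_lt_pow_right (by norm_num) (by omega)))
      have hb := bt_lt i y
      rw [fft, Module.End.mul_apply, Module.End.mul_apply, if_pos rfl]
      rcases (by omega : bt i y = 0 ∨ bt i y = 1) with h | h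
      · rw [lev_true_zero h, lev_true_zero h, h1, h2]
      · rw [lev_true_one h, lev_true_one h, h1, h2]
  exact key n le_rfl y hy

/-! The digit `y` has the parts `a = y % 2 ^ s`, copy bit `bt s y`, side bit `bt (s + 1) y`. -/

/-- Numerator of the chirp `± a ^ 2 / (2 n)`. -/
def chN (neg : Bool) (n a : ℕ) : ℕ := if neg then 2 * n - a ^ 2 % (2 * n) else a ^ 2 % (2 * n)

/-- Numerators and denominators of the three angles in the symbol of the shear with target
side `τ`. -/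
def lamN (ε : Bool) (s n τ y d : ℕ) : ℕ → ℕ
  | 0 => chN (xor ε (τ == 1)) n (min d (2 ^ (s + 1) - d))
  | 1 => rev (s + 1) y * d
  | _ => 1 - τ
def lamD (s n : ℕ) : ℕ → ℕ
  | 0 => 2 * n
  | 1 => 2 ^ (s + 1)
  | _ => 2

noncomputable def lam (ε : Bool) (s n τ y : ℕ) : ℂ :=
  (1 : ℂ) / (if τ = 1 then 4 else 4 * n : ℕ) *
    ∑ d ∈ range (2 ^ (s + 1)), ∏ i ∈ range 3, ee ((lamN ε s n τ y d i : ℝ) / lamD s n i)

/-- The shear in the frequency domain. -/
noncomputable def Sh (ε : Bool) (s n τ : ℕ) : E1 :=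
  two 1 (fun y => if bt (s + 1) y = τ then lam ε s n τ y else 0) fun y => y ^^^ 2 ^ (s + 1)

theorem lam_xor (ε : Bool) (s n τ y : ℕ) : lam ε s n τ (y ^^^ 2 ^ (s + 1)) = lam ε s n τ y := by
  have : rev (s + 1) (y ^^^ 2 ^ (s + 1)) = rev (s + 1) y := by
    rw [← rev_mod, xor_mod, rev_mod]
  simp only [lam, prod_range_succ, prod_range_zero, lamN, this]

/-- The class of a position: its copy, or a junk class that depends on the side. -/
def cls (s n τ y : ℕ) : ℕ := if y % 2 ^ s < n then bt s y else if bt (s + 1) y = τ then 3 else 2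

def sgN (s n τ c y : ℕ) : ℕ := cls s n τ y % 2 * (c % 2) + cls s n τ y / 2 * (c / 2)

noncomputable def Sg (s n τ c : ℕ) : E1 := dg1 fun y => ee ((sgN s n τ c y : ℝ) / (2 : ℕ))

noncomputable def term (ε : Bool) (s n j : ℕ) : E1 :=
  Sg s n (1 - j / 4 % 2) (j % 4) * (fft true (s + 1) (s + 1) * (Sh ε s n (1 - j / 4 % 2) *
    (fft false (s + 1) (s + 1) * Sg s n (1 - j / 4 % 2) (j % 4))))

noncomputable def terms (ε : Bool) (s n : ℕ) : ℕ → E1
  | 0 => 1
  | j + 1 => term ε s n j * terms ε s n j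

def dpreN (ε : Bool) (s n y : ℕ) : ℕ := chN (xor ε (bt (s + 1) y == 1)) n (y % 2 ^ s)
def dpostN (ε : Bool) (s n y : ℕ) : ℕ :=
  chN (xor ε (bt (s + 1) y == 0)) n (y % 2 ^ s) + (1 - bt (s + 1) y) * n
def dpostA (s n y : ℕ) : ℕ := if bt (s + 1) y = 0 then n else 1

noncomputable def Dpre (ε : Bool) (s n : ℕ) : E1 :=
  dg1 fun y => ee ((dpreN ε s n y : ℝ) / (2 * n : ℕ))
noncomputable def Dpost (ε : Bool) (s n : ℕ) : E1 :=
  dg1 fun y => (dpostA s n y : ℂ) * ee ((dpostN ε s n y : ℝ) / (2 * n : ℕ))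

/-- Negation modulo `n` on side zero, followed by the exchange of the sides. -/
def ngP (s n y : ℕ) : ℕ :=
  if bt (s + 1) y = 0 ∧ y % 2 ^ s < n then y - y % 2 ^ s + (n - y % 2 ^ s) % n else y

noncomputable def NF (s n : ℕ) : E1 := pm1 (fun y => y ^^^ 2 ^ (s + 1)) * pm1 (ngP s n)

noncomputable def Fop (ε : Bool) (s n : ℕ) : E1 :=
  NF s n * (Dpost ε s n * (terms ε s n 12 * Dpre ε s n))

/-- The sign `1` or `-1`. -/
def sgn (ε : Bool) : ℝ := if ε then -1 else 1

theorem term_mem (ε : Bool) (s n j : ℕ) : term ε s n j ∈ Fin1 :=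
  mul_mem (dg1_mem _) (mul_mem (fft_mem _ _ _) (mul_mem (two_mem _ _ _)
    (mul_mem (fft_mem _ _ _) (dg1_mem _))))
theorem terms_mem (ε : Bool) (s n j : ℕ) : terms ε s n j ∈ Fin1 := by
  induction j with
  | zero => exact one_mem _
  | succ j ih => exact mul_mem (term_mem _ _ _ _) ih

theorem sgn_cases (ε : Bool) : sgn ε = 1 ∨ sgn ε = -1 := by cases ε <;> simp [sgn]

theorem ee_chN (neg : Bool) {n : ℕ} (hn : 0 < n) (a : ℕ) :
    ee ((chN neg n a : ℝ) / (2 * n : ℕ)) = ee (sgn neg * ((a : ℝ) ^ 2 / (2 * n))) := by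
  have hn' : (n : ℝ) ≠ 0 := by positivity
  have h := congrArg (Nat.cast : ℕ → ℝ) (Nat.div_add_mod (a ^ 2) (2 * n))
  have hlt := Nat.mod_lt (a ^ 2) (by omega : 0 < 2 * n)
  cases neg
  · refine (ee_eq_of_sub ((a ^ 2 / (2 * n) : ℕ) : ℤ) ?_).symm
    simp only [chN, sgn, Bool.false_eq_true, if_false]
    rw [Int.cast_natCast]
    push_cast at h ⊢
    rw [← h]; field_simp; ring
  · refine ee_eq_of_sub ((a ^ 2 / (2 * n) + 1 : ℕ) : ℤ) ?_
    simp only [chN, sgn, if_true]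
    rw [Int.cast_natCast, Nat.cast_sub hlt.le]
    push_cast at h ⊢
    rw [← h]; field_simp; ring

/-- The kernel of the circulant. -/
noncomputable def kap (ε : Bool) (s n τ d : ℕ) : ℂ :=
  ee ((chN (xor ε (τ == 1)) n (min d (2 ^ (s + 1) - d)) : ℝ) / (2 * n : ℕ))

noncomputable def cf (n τ : ℕ) : ℂ :=
  (1 : ℂ) / (if τ = 1 then 4 else 4 * n : ℕ) * ee (((1 - τ : ℕ) : ℝ) / (2 : ℕ))

/-- The circulant from the other side. -/
noncomputable def Kop (ε : Bool) (s n τ : ℕ) : E1 where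
  toFun g y := if bt (s + 1) y = τ then cf n τ * ∑ u ∈ range (2 ^ (s + 1)),
    kap ε s n τ ((y % 2 ^ (s + 1) + 2 ^ (s + 1) - u) % 2 ^ (s + 1)) *
      g ((y ^^^ 2 ^ (s + 1)) - y % 2 ^ (s + 1) + u) else 0
  map_add' f g := by
    funext y; simp only [Pi.add_apply]; split_ifs <;> simp [mul_add, sum_add_distrib]
  map_smul' c f := by
    funext y; simp only [Pi.smul_apply, smul_eq_mul, RingHom.id_apply]
    split_ifs
    · simp only [mul_sum]; exact sum_congr rfl fun _ _ => by ring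
    · simp

theorem Kop_apply (ε : Bool) (s n τ : ℕ) (g : ℕ → ℂ) (y : ℕ) : Kop ε s n τ g y =
    if bt (s + 1) y = τ then cf n τ * ∑ u ∈ range (2 ^ (s + 1)),
    kap ε s n τ ((y % 2 ^ (s + 1) + 2 ^ (s + 1) - u) % 2 ^ (s + 1)) *
      g ((y ^^^ 2 ^ (s + 1)) - y % 2 ^ (s + 1) + u) else 0 := rfl

theorem circ_sum (κ : ℕ → ℂ) (R : ℕ) {N u : ℕ} (hu : u < N) :
    ∑ v ∈ range N, ee ((R * v : ℕ) / (N : ℕ)) * κ ((v + N - u) % N) =
      ee ((R * u : ℕ) / (N : ℕ)) * ∑ d ∈ range N, κ d * ee ((R * d : ℕ) / (N : ℕ)) := by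
  rw [mul_sum]
  have hN : 0 < N := by omega
  have k1 : ∀ v < N, ((v + N - u) % N + u) % N = v := by
    intro v hv
    rw [Nat.mod_add_mod, show v + N - u + u = v + N by omega, Nat.add_mod_right,
      Nat.mod_eq_of_lt hv]
  refine sum_nbij' (fun v => (v + N - u) % N) (fun d => (d + u) % N)
    (fun v _ => mem_range.2 (Nat.mod_lt _ hN)) (fun v _ => mem_range.2 (Nat.mod_lt _ hN))
    (fun v hv => k1 v (mem_range.1 hv)) (fun d hd => ?_) (fun v hv => ?_)
  · have hd := mem_range.1 hd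
    have : ((d + u) % N + N - u) = (d + u) % N + (N - u) := by omega
    rw [this, Nat.mod_add_mod, show d + u + (N - u) = d + N by omega, Nat.add_mod_right,
      Nat.mod_eq_of_lt hd]
  · have e := ee_mod R ((v + N - u) % N + u) N
    rw [k1 v (mem_range.1 hv)] at e
    rw [e, mul_left_comm, ← ee_add, mul_comm]
    congr 2; push_cast; ring

theorem base_xor {n y u : ℕ} (hu : u < 2 ^ n) :
    ((y - y % 2 ^ n + u) ^^^ 2 ^ n) - u = (y ^^^ 2 ^ n) - y % 2 ^ n := by
  have hb := bt_lt n y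
  have h1 := base_bt (y := y) hu
  have h2 := Nat.mod_le y (2 ^ n)
  rcases (by omega : bt n y = 0 ∨ bt n y = 1) with h | h
  · rw [xor_of_zero h, xor_of_zero (h1.trans h)]; omega
  · have e1 := xor_of_one h
    have e2 := xor_of_one (h1.trans h)
    have e3 := Nat.mod_le (y ^^^ 2 ^ n) (2 ^ n)
    rw [xor_mod] at e3
    omega

theorem Sh_fft (ε : Bool) (s n τ : ℕ) : Sh ε s n τ * fft false (s + 1) (s + 1) =
    fft false (s + 1) (s + 1) * (1 + Kop ε s n τ) := by
  ext f y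
  have hr : rev (s + 1) (y ^^^ 2 ^ (s + 1)) = rev (s + 1) y := by rw [← rev_mod, xor_mod, rev_mod]
  rw [mul_add, mul_one, Module.End.mul_apply, LinearMap.add_apply, Pi.add_apply, Sh, two_apply,
    Pi.one_apply, one_mul, Module.End.mul_apply, fft_apply _ _ (y ^^^ _), fft_apply _ (Kop _ _ _ _ f),
    hr, xor_mod]
  congr 1
  symm
  rw [sum_congr rfl fun v hv => by
    rw [Kop_apply, base_bt (mem_range.1 hv), base_mod (mem_range.1 hv), base_xor (mem_range.1 hv)]]
  symm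
  split_ifs with h
  · simp only [mul_sum]
    rw [sum_comm]
    refine sum_congr rfl fun u hu => ?_
    have e := circ_sum (kap ε s n τ) (rev (s + 1) y) (mem_range.1 hu)
    have e2 : lam ε s n τ y = cf n τ * ∑ d ∈ range (2 ^ (s + 1)),
        kap ε s n τ d * ee ((rev (s + 1) y * d : ℕ) / (2 ^ (s + 1) : ℕ)) := by
      simp only [lam, cf, kap, prod_range_succ, prod_range_zero, lamN, lamD, one_mul, mul_sum]
      exact sum_congr rfl fun _ _ => by ring
    rw [e2]
    trans cf n τ * f ((y ^^^ 2 ^ (s + 1)) - y % 2 ^ (s + 1) + u) * (∑ v ∈ range (2 ^ (s + 1)),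
      ee ((rev (s + 1) y * v : ℕ) / (2 ^ (s + 1) : ℕ)) *
        kap ε s n τ ((v + 2 ^ (s + 1) - u) % 2 ^ (s + 1)))
    · rw [e]; ring
    · rw [mul_sum]; exact sum_congr rfl fun _ _ => by ring
  · simp

theorem Sg_sq (s n τ c : ℕ) : Sg s n τ c * Sg s n τ c = 1 := by
  ext f y
  simp only [Sg, Module.End.mul_apply, dg1_apply, ee_half_nat, Module.End.one_apply]
  rw [← mul_assoc, ← mul_pow]; simp

/-- A sign conjugate of the circulant. -/
noncomputable def Ac (ε : Bool) (s n τ c : ℕ) : E1 := Sg s n τ c * (Kop ε s n τ * Sg s n τ c)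

theorem term_eq (ε : Bool) (s n j : ℕ) :
    term ε s n j = 1 + Ac ε s n (1 - j / 4 % 2) (j % 4) := by
  rw [term, ← mul_assoc (Sh _ _ _ _), Sh_fft, mul_assoc, ← mul_assoc (fft true _ _), fft_inv,
    one_mul, add_mul, one_mul, mul_add, Sg_sq, Ac]

theorem Ac_mul (ε : Bool) (s n τ c c' : ℕ) : Ac ε s n τ c * Ac ε s n τ c' = 0 := by
  ext f y
  simp only [Ac, Sg, Module.End.mul_apply, dg1_apply, LinearMap.zero_apply, Pi.zero_apply]
  rw [Kop_apply]
  split_ifs with h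
  · rw [sum_eq_zero, mul_zero, mul_zero]
    intro u hu
    have h1 := base_bt (y := y ^^^ 2 ^ (s + 1)) (mem_range.1 hu)
    rw [xor_mod, bt_xor] at h1
    have := bt_lt (s + 1) y
    simp only [dg1_apply]
    rw [Kop_apply, if_neg (by omega)]; simp
  · simp

/-- The shear with target side `τ`. -/
noncomputable def Sr (ε : Bool) (s n τ : ℕ) : E1 :=
  1 + (Ac ε s n τ 0 + Ac ε s n τ 1 + Ac ε s n τ 2 + Ac ε s n τ 3)

theorem four_eq (ε : Bool) (s n τ : ℕ) : (1 + Ac ε s n τ 3) * ((1 + Ac ε s n τ 2) *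
    ((1 + Ac ε s n τ 1) * (1 + Ac ε s n τ 0))) = Sr ε s n τ := by
  simp only [Sr, mul_add, add_mul, one_mul, mul_one, Ac_mul, add_zero]
  abel

theorem terms_eq (ε : Bool) (s n : ℕ) :
    terms ε s n 12 = Sr ε s n 1 * (Sr ε s n 0 * Sr ε s n 1) := by
  rw [← four_eq, ← four_eq]
  simp only [terms, term_eq, mul_one, mul_assoc]

/-- The position with high part `H`, side `t`, copy `c` and index `a`. -/
def pp (s H t c a : ℕ) : ℕ := a + 2 ^ s * (c + 2 * (t + 2 * H))

section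
variable {s H t c a : ℕ}

theorem pp_mod (ha : a < 2 ^ s) : pp s H t c a % 2 ^ s = a := by
  rw [pp, Nat.add_mul_mod_self_left, Nat.mod_eq_of_lt ha]

theorem pp_div (ha : a < 2 ^ s) : pp s H t c a / 2 ^ s = c + 2 * (t + 2 * H) := by
  rw [pp, Nat.add_mul_div_left _ _ (by positivity), Nat.div_eq_of_lt ha, zero_add]

theorem pp_bt (ha : a < 2 ^ s) (hc : c < 2) : bt s (pp s H t c a) = c := by
  rw [bt, pp_div ha]; omega

theorem pp_bt' (ha : a < 2 ^ s) (hc : c < 2) (ht : t < 2) : bt (s + 1) (pp s H t c a) = t := by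
  rw [bt, pow_succ, ← Nat.div_div_eq_div_mul, pp_div ha]; omega

theorem pp_mod' (ha : a < 2 ^ s) (hc : c < 2) : pp s H t c a % 2 ^ (s + 1) = a + c * 2 ^ s := by
  rw [mod_succ, pp_mod ha, pp_bt ha hc]

theorem pp_xor (ha : a < 2 ^ s) (hc : c < 2) (ht : t < 2) :
    pp s H t c a ^^^ 2 ^ (s + 1) = pp s H (1 - t) c a := by
  have h := pp_bt' (H := H) ha hc ht
  rcases (by omega : t = 0 ∨ t = 1) with rfl | rfl
  · rw [xor_of_zero h]; unfold pp; ring
  · have := xor_of_one h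
    have e : pp s H 1 c a = pp s H 0 c a + 2 ^ (s + 1) := by unfold pp; ring
    rw [Nat.sub_self]; omega

theorem pp_eq (s y : ℕ) : y = pp s (y / 2 ^ s / 4) (bt (s + 1) y) (bt s y) (y % 2 ^ s) := by
  have := Nat.mod_add_div y (2 ^ s)
  rw [pp, bt, bt, pow_succ, ← Nat.div_div_eq_div_mul,
    show y / 2 ^ s % 2 + 2 * (y / 2 ^ s / 2 % 2 + 2 * (y / 2 ^ s / 4)) = y / 2 ^ s by omega, this]

theorem pp_cls {n τ : ℕ} (ha : a < 2 ^ s) (hc : c < 2) (ht : t < 2) :
    cls s n τ (pp s H t c a) = if a < n then c else if t = τ then 3 else 2 := by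
  rw [cls, pp_mod ha, pp_bt ha hc, pp_bt' ha hc ht]

end

theorem had (k k' : ℕ) (hk : k < 4) (hk' : k' < 4) :
    ∑ c ∈ range 4, (-1 : ℂ) ^ (k % 2 * (c % 2) + k / 2 * (c / 2)) *
      (-1) ^ (k' % 2 * (c % 2) + k' / 2 * (c / 2)) = if k = k' then 4 else 0 := by
  interval_cases k <;> interval_cases k' <;> simp [sum_range_succ] <;> norm_num

theorem kap_eq (ε : Bool) {s n a b : ℕ} (τ c : ℕ) (hn : n ≤ 2 ^ s) (ha : a < n) (hb : b < n) :
    kap ε s n τ ((a + c * 2 ^ s + 2 ^ (s + 1) - (c * 2 ^ s + b)) % 2 ^ (s + 1)) =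
      ee (sgn (xor ε (τ == 1)) * (((a : ℝ) - b) ^ 2 / (2 * n))) := by
  rw [kap, ee_chN _ (by omega)]
  congr 3
  rw [pow_succ 2 s]
  rcases le_or_gt b a with h | h
  · rw [show a + c * 2 ^ s + 2 ^ s * 2 - (c * 2 ^ s + b) = a - b + 2 ^ s * 2 by omega,
      Nat.add_mod_right, Nat.mod_eq_of_lt (by omega), min_eq_left (by omega), Nat.cast_sub h]
  · rw [Nat.mod_eq_of_lt (by omega), min_eq_right (by omega),
      show 2 ^ s * 2 - (a + c * 2 ^ s + 2 ^ s * 2 - (c * 2 ^ s + b)) = b - a by omega,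
      Nat.cast_sub h.le]
    ring

theorem Sr_apply (ε : Bool) {s n H t c a τ : ℕ} (hn : n ≤ 2 ^ s) (ha : a < n) (hc : c < 2)
    (ht : t < 2) (f : ℕ → ℂ) : Sr ε s n τ f (pp s H t c a) = f (pp s H t c a) +
      if t = τ then 4 * cf n τ * ∑ b ∈ range n,
        ee (sgn (xor ε (τ == 1)) * (((a : ℝ) - b) ^ 2 / (2 * n))) * f (pp s H (1 - t) c b)
      else 0 := by
  have ha' : a < 2 ^ s := by omega
  simp only [Sr, LinearMap.add_apply, Pi.add_apply, Module.End.one_apply, Ac, Sg,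
    Module.End.mul_apply, dg1_apply, Kop_apply, pp_bt' ha' hc ht, pp_mod' ha' hc, pp_xor ha' hc ht,
    ee_half_nat]
  congr 1
  split_ifs with h
  swap
  · simp
  subst h
  have hbase : pp s H (1 - t) c a - (a + c * 2 ^ s) = pp s H (1 - t) 0 0 := by
    have : pp s H (1 - t) c a = pp s H (1 - t) 0 0 + (a + c * 2 ^ s) := by unfold pp; ring
    omega
  rw [hbase]
  have key : ∀ c' < 2, ∀ b < 2 ^ s, ∑ j ∈ range 4, (-1 : ℂ) ^ sgN s n t j (pp s H t c a) *
      (-1) ^ sgN s n t j (pp s H (1 - t) c' b) = if b < n ∧ c' = c then 4 else 0 := by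
    intro c' hc' b hb
    simp only [sgN, pp_cls ha' hc ht, pp_cls hb hc' (by omega : 1 - t < 2), if_pos ha]
    rw [had _ _ (by omega) (by split_ifs <;> omega)]
    congr 1
    apply propext
    split_ifs <;> omega
  trans cf n t * ∑ u ∈ range (2 ^ (s + 1)),
    kap ε s n t ((a + c * 2 ^ s + 2 ^ (s + 1) - u) % 2 ^ (s + 1)) * f (pp s H (1 - t) 0 0 + u) *
      ∑ j ∈ range 4, (-1 : ℂ) ^ sgN s n t j (pp s H t c a) *
        (-1) ^ sgN s n t j (pp s H (1 - t) 0 0 + u)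
  · simp only [mul_sum, ← sum_add_distrib, sum_range_succ, sum_range_zero]
    exact sum_congr rfl fun _ _ => by ring
  rw [mul_comm 4, mul_assoc]
  congr 1
  have e0 : ∀ b, pp s H (1 - t) 0 0 + b = pp s H (1 - t) 0 b := fun b => by unfold pp; ring
  have e1 : ∀ b, pp s H (1 - t) 0 0 + (2 ^ s + b) = pp s H (1 - t) 1 b := fun b => by
    unfold pp; ring
  have hf : filter (· < n) (range (2 ^ s)) = range n := by ext b; simp; omega
  rw [show range (2 ^ (s + 1)) = range (2 ^ s + 2 ^ s) by rw [pow_succ, mul_two], sum_range_add,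
    ← sum_add_distrib, ← hf, sum_filter, mul_sum]
  refine sum_congr rfl fun b hb => ?_
  have hb := mem_range.1 hb
  rw [e1, e0, key 0 (by omega) b hb, key 1 (by omega) b hb]
  by_cases hbn : b < n
  · rw [← kap_eq ε t c hn ha hbn]
    rcases (by omega : c = 0 ∨ c = 1) with rfl | rfl <;> simp [hbn] <;> ring
  · simp [hbn]

theorem chirp_inv {n a c : ℕ} (ha : a < n) (hc : c < n) {σ : ℝ} (hσ : σ = 1 ∨ σ = -1) :
    ∑ b ∈ range n, ee (σ * (((a : ℝ) - b) ^ 2 / (2 * n))) * ee (-σ * (((b : ℝ) - c) ^ 2 / (2 * n))) =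
      if a = c then (n : ℂ) else 0 := by
  have hn : (n : ℝ) ≠ 0 := by have : 0 < n := by omega
                              positivity
  have h := sum_ee_sub ha hc (σ := -σ) (by rcases hσ with h | h <;> simp [h])
  trans ee (σ * (((a : ℝ) ^ 2 - c ^ 2) / (2 * n))) * ∑ b ∈ range n, ee (-σ * (b * (a - c) / n))
  · rw [mul_sum]
    refine sum_congr rfl fun b _ => ?_
    rw [← ee_add, ← ee_add]; congr 1; field_simp; ring
  · rw [h]; split_ifs with h'
    · simp [h']
    · simp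

theorem chirp_sum {n a : ℕ} (ha : a < n) {σ : ℝ} (hσ : σ = 1 ∨ σ = -1) (x : ℕ → ℂ) :
    ∑ b ∈ range n, ee (σ * (((a : ℝ) - b) ^ 2 / (2 * n))) *
      ∑ c ∈ range n, ee (-σ * (((b : ℝ) - c) ^ 2 / (2 * n))) * x c = n * x a := by
  simp only [mul_sum, ← mul_assoc]
  rw [sum_comm]
  simp only [← sum_mul]
  rw [sum_congr rfl fun c hc => by rw [chirp_inv ha (mem_range.1 hc) hσ]]
  simp [ha]

theorem three_apply (ε : Bool) {s n H c a : ℕ} (hn : n ≤ 2 ^ s) (ha : a < n) (hc : c < 2)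
    (g : ℕ → ℂ) :
    terms ε s n 12 g (pp s H 0 c a) = -(1 / n) * ∑ b ∈ range n,
      ee (sgn ε * (((a : ℝ) - b) ^ 2 / (2 * n))) * g (pp s H 1 c b) ∧
    terms ε s n 12 g (pp s H 1 c a) = ∑ b ∈ range n,
      ee (-sgn ε * (((a : ℝ) - b) ^ 2 / (2 * n))) * g (pp s H 0 c b) := by
  have hn0 : (n : ℂ) ≠ 0 := by have : 0 < n := by omega
                               exact_mod_cast this.ne'
  have c1 : 4 * cf n 1 = 1 := by simp [cf]
  have c0 : 4 * cf n 0 = -(1 / n) := by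
    rw [cf, ee_half_nat]; simp; field_simp
  have s1 : sgn (xor ε (1 == 1)) = -sgn ε := by cases ε <;> simp [sgn]
  have s0 : sgn (xor ε (0 == 1)) = sgn ε := by cases ε <;> simp [sgn]
  have hσ := sgn_cases ε
  have A0 : ∀ f : ℕ → ℂ, ∀ a < n, Sr ε s n 1 f (pp s H 0 c a) = f (pp s H 0 c a) := by
    intro f a ha; rw [Sr_apply ε hn ha hc (by omega)]; simp
  have A1 : ∀ f : ℕ → ℂ, ∀ a < n, Sr ε s n 1 f (pp s H 1 c a) = f (pp s H 1 c a) +
      ∑ b ∈ range n, ee (-sgn ε * (((a : ℝ) - b) ^ 2 / (2 * n))) * f (pp s H 0 c b) := by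
    intro f a ha; rw [Sr_apply ε hn ha hc (by omega), if_pos rfl, c1, s1, one_mul]
  have B1 : ∀ f : ℕ → ℂ, ∀ a < n, Sr ε s n 0 f (pp s H 1 c a) = f (pp s H 1 c a) := by
    intro f a ha; rw [Sr_apply ε hn ha hc (by omega)]; simp
  have B0 : ∀ f : ℕ → ℂ, ∀ a < n, Sr ε s n 0 f (pp s H 0 c a) = f (pp s H 0 c a) + -(1 / n) *
      ∑ b ∈ range n, ee (sgn ε * (((a : ℝ) - b) ^ 2 / (2 * n))) * f (pp s H 1 c b) := by
    intro f a ha; rw [Sr_apply ε hn ha hc (by omega), if_pos rfl, c0, s0]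
  have C0 : ∀ a < n, Sr ε s n 0 (Sr ε s n 1 g) (pp s H 0 c a) = -(1 / n) * ∑ b ∈ range n,
      ee (sgn ε * (((a : ℝ) - b) ^ 2 / (2 * n))) * g (pp s H 1 c b) := by
    intro a ha
    rw [B0 _ a ha, A0 _ a ha, sum_congr rfl fun b hb => by rw [A1 _ b (mem_range.1 hb), mul_add],
      sum_add_distrib, chirp_sum ha hσ]
    field_simp; ring
  rw [terms_eq]
  simp only [Module.End.mul_apply]
  refine ⟨by rw [A0 _ a ha, C0 a ha], ?_⟩
  have := chirp_sum ha (σ := -sgn ε) (by rcases hσ with h | h <;> simp [h]) fun b => g (pp s H 1 c b)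
  rw [neg_neg] at this
  rw [A1 _ a ha, sum_congr rfl fun b hb => by rw [C0 b (mem_range.1 hb), mul_left_comm],
    ← mul_sum, this, B1 _ a ha, A1 _ a ha]
  field_simp; ring

theorem Fop_apply (ε : Bool) {s n y : ℕ} (hn : n ≤ 2 ^ s) (hy : y % 2 ^ s < n) (f : ℕ → ℂ) :
    Fop ε s n f y = ∑ a ∈ range n, ee (sgn ε * ((y % 2 ^ s * a : ℕ) / n)) *
      f (y - y % 2 ^ s + a) := by
  obtain ⟨H, t, c, a, ht, hc, ha, rfl⟩ : ∃ H t c a, t < 2 ∧ c < 2 ∧ a < n ∧ y = pp s H t c a :=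
    ⟨_, _, _, _, bt_lt _ _, bt_lt _ _, hy, pp_eq s y⟩
  have ha' : a < 2 ^ s := by omega
  have hn0 : 0 < n := by omega
  have hnr : (n : ℝ) ≠ 0 := by positivity
  have hnc : (n : ℂ) ≠ 0 := by exact_mod_cast hn0.ne'
  have hb : ∀ t a b, pp s H t c a - a + b = pp s H t c b := fun t a b => by unfold pp; omega
  have hpre : ∀ t < 2, ∀ b < n, Dpre ε s n f (pp s H t c b) =
      ee (sgn (xor ε (t == 1)) * ((b : ℝ) ^ 2 / (2 * n))) * f (pp s H t c b) := by
    intro t ht b hb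
    rw [Dpre, dg1_apply, dpreN, pp_bt' (by omega) hc ht, pp_mod (by omega), ee_chN _ hn0]
  have s1 : sgn (xor ε true) = -sgn ε := by cases ε <;> simp [sgn]
  have s0 : sgn (xor ε false) = sgn ε := by cases ε <;> simp [sgn]
  simp only [Fop, NF, Module.End.mul_apply, pm1_apply, pp_xor ha' hc ht, pp_mod ha', hb]
  rcases (by omega : t = 0 ∨ t = 1) with rfl | rfl
  · rw [Nat.sub_zero, ngP, pp_bt' ha' hc (by omega), if_neg (by omega), Dpost, dg1_apply,
      (three_apply ε hn ha hc _).2, dpostA, dpostN, pp_bt' ha' hc (by omega), pp_mod ha',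
      if_neg (by omega), Nat.sub_self, zero_mul, add_zero, ee_chN _ hn0, mul_sum]
    refine sum_congr rfl fun b hb => ?_
    rw [hpre 0 (by omega) b (mem_range.1 hb), Nat.cast_one, one_mul, ← mul_assoc, ← mul_assoc,
      ← ee_add, ← ee_add, show (1 == 0) = false from rfl, show (0 == 1) = false from rfl, s0]
    congr 2; push_cast; field_simp; ring
  · have ha2 : (n - a) % n < n := Nat.mod_lt _ hn0
    have ha3 : (n - a) % n < 2 ^ s := by omega
    rw [Nat.sub_self, ngP, pp_bt' ha' hc (by omega), pp_mod ha', if_pos ⟨rfl, ha⟩, hb, Dpost,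
      dg1_apply, (three_apply ε hn ha2 hc _).1, dpostA, dpostN, pp_bt' ha3 hc (by omega),
      pp_mod ha3, if_pos rfl, Nat.sub_zero, one_mul, Nat.cast_add, add_div, ee_add, ee_chN _ hn0,
      show ((n : ℝ) / (2 * n : ℕ)) = 1 / 2 by push_cast; field_simp, ee_half, mul_sum, mul_sum]
    refine sum_congr rfl fun b hb => ?_
    rw [hpre 1 (by omega) b (mem_range.1 hb), show (0 == 0) = true from rfl,
      show (1 == 1) = true from rfl, s1]
    have e : ee (sgn ε * ((a * b : ℕ) / n)) = ee (-sgn ε * ((((n - a) % n : ℕ) : ℝ) ^ 2 / (2 * n))) *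
        ee (sgn ε * (((((n - a) % n : ℕ) : ℝ) - b) ^ 2 / (2 * n))) *
        ee (-sgn ε * ((b : ℝ) ^ 2 / (2 * n))) := by
      rw [← ee_add, ← ee_add]
      rcases Nat.eq_zero_or_pos a with rfl | h0
      · simp only [Nat.sub_zero, Nat.mod_self]; congr 1; push_cast; ring
      · rw [Nat.mod_eq_of_lt (by omega), Nat.cast_sub ha.le]
        rcases sgn_cases ε with h | h <;> rw [h]
        · refine ee_eq_of_sub b ?_; push_cast; field_simp; ring
        · refine ee_eq_of_sub (-b) ?_; push_cast; field_simp; ring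
    rw [e]; field_simp

end Vale.Agent.P338
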