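import Vale.Agent.P338.Zip
import Vale.Agent.P338.Fft

/-! Operations on a part of a digit. -/

namespace Vale.Agent.P338

open Function

variable {P : Tbl} {g : ℕ → ℕ} {B Zb t : ℕ} {rad : ℕ → ℕ} {D S k : ℕ} {c : Cmd}
  {R : (ℕ → ℕ) → List Bool → Prop}

/-- Transfer of a permutation pass from another digit system. -/
theorem step_via {rad' : ℕ → ℕ} {D' : ℕ} (hw : wt rad' D' = wt rad D) (π : (ℕ → ℕ) → ℕ → ℕ)
    (h : ∀ R', Step P c g (Lay rad' D' S R') (Lay rad' D' S fun y => R' (π y)) t)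
    (φ : (ℕ → ℕ) → ℕ → ℕ) (Gd : (ℕ → ℕ) → Prop)
    (hφ : ∀ x, Valid rad D x → Gd x → Valid rad D (φ x) ∧
      enc rad' (π (dec rad' (enc rad x D))) D' = enc rad (φ x) D) :
    Step P c g (Lay rad D S R) (Lay rad D S fun x c => Gd x → R (φ x) c) t := by
  refine (h fun y c => ∀ x, Valid rad D x → enc rad x D = enc rad' y D' → R x c).mono ?_ ?_ le_rfl
  · rintro l ⟨u, h1, h2, h3⟩
    exact ⟨u, hw ▸ h1, hw ▸ h2, fun y _ x hx e => e ▸ h3 x hx⟩
  · rintro l ⟨u, h1, h2, h3⟩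
    refine ⟨u, hw ▸ h1, hw ▸ h2, fun x hx hG => ?_⟩
    have hi : enc rad x D < wt rad' D' := hw ▸ enc_lt hx
    have := h3 _ (valid_dec hi) _ (hφ x hx hG).1 (hφ x hx hG).2.symm
    rwa [enc_dec hi] at this

/-- Three digits. -/
def rad3 (Z Y H : ℕ) : ℕ → ℕ := fun j => if j = 0 then Z else if j = 1 then Y else H

/-- The vector of the first cell of the group that contains `x`. -/
def sub0 (k M : ℕ) (x : ℕ → ℕ) : ℕ → ℕ := update (up k x) k (x k / M * M)

theorem Valid.sub0 {x : ℕ → ℕ} (h : Valid rad D x) (k M : ℕ) : Valid rad D (sub0 k M x) :=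
  fun j hj => by
  by_cases e : j = k
  · subst e; simpa [P338.sub0] using (Nat.div_mul_le_self _ _).trans_lt (h j hj)
  · simpa [P338.sub0, e] using h.up k j hj

theorem enc_update {x : ℕ → ℕ} (hk : k < D) (y : ℕ) : enc rad (update x k y) D =
    enc rad x k + wt rad k * (y + rad k * blk rad x (k + 1) (D - (k + 1))) := by
  rw [enc_three (ℓ := 1) hk, blk_one, bw_one, update_self,
    enc_congr (rad' := rad) (y := x) (fun _ _ => rfl) fun j hj => update_of_ne (by omega) _ _,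
    blk_congr (y := x) fun j hj => update_of_ne (by omega) _ _]

theorem sub_lay {A Y C : ℕ} (hk : k < D) (hR : rad k = A * Y * C) (ρ : ℕ → ℕ → ℕ)
    (hρ : ∀ i0, ∀ y < Y, ρ i0 y < Y)
    (h : ∀ R', Step P c g (Lay (rad3 (wt rad k * A) Y (C * bw rad (k + 1) (D - (k + 1)))) 3 S R')
      (Lay (rad3 (wt rad k * A) Y (C * bw rad (k + 1) (D - (k + 1)))) 3 S fun y => R' (update y 1
        (ρ (enc (rad3 (wt rad k * A) Y (C * bw rad (k + 1) (D - (k + 1)))) (up 2 y) 3) (y 1)))) t) :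
    Step P c g (Lay rad D S R) (Lay rad D S fun x => R (update x k (x k % A +
      A * (ρ (enc rad (sub0 k (A * Y) x) D) (x k / A % Y) + Y * (x k / (A * Y)))))) t := by
  refine (step_via (R := R) ?_ _ h (fun x => update x k (x k % A +
      A * (ρ (enc rad (sub0 k (A * Y) x) D) (x k / A % Y) + Y * (x k / (A * Y))))) (fun _ => True)
      fun x hx _ => ?_).post fun l hl => hl.mono fun x c _ _ h => h trivial
  · rw [wt_split hk, hR]; simp [wt, rad3]; ring
  have h1 := hx k hk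
  have h2 := enc_lt (hx.mono hk.le)
  have h3 := enc_update (rad := rad) (x := x) hk (x k)
  have h4 : enc rad (sub0 k (A * Y) x) D = wt rad k *
      (x k / (A * Y) * (A * Y) + rad k * blk rad x (k + 1) (D - (k + 1))) := by
    rw [sub0, enc_update hk, enc_zero (x := up k x) fun j hj => if_pos hj, zero_add,
      blk_congr (x := up k x) (y := x) fun j _ => if_neg (by omega)]
  rw [update_eq_self] at h3
  rw [hR] at h1
  have hA : 0 < A := Nat.pos_of_mul_pos_right (Nat.pos_of_mul_pos_right (Nat.zero_lt_of_lt h1))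
  have hY : 0 < Y := Nat.pos_of_mul_pos_left (Nat.pos_of_mul_pos_right (Nat.zero_lt_of_lt h1))
  have a1 := Nat.mod_lt (x k) hA
  have a2 := Nat.mod_lt (x k / A) hY
  have a3 : x k / (A * Y) < C := Nat.div_lt_of_lt_mul h1
  have a4 : x k = x k % A + A * (x k / A % Y + Y * (x k / (A * Y))) := by
    rw [← Nat.div_div_eq_div_mul, Nat.mod_add_div, Nat.mod_add_div]
  refine ⟨fun j hj => ?_, ?_⟩
  · by_cases e : j = k
    · subst e
      rw [update_self, hR, mul_assoc]
      exact lt_mul_of a1 (lt_mul_of (hρ _ _ a2) a3)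
    · simpa [e] using hx j hj
  rw [enc_update hk, h4, hR]
  rw [hR] at h3
  have h5 := blk_lt (k := k + 1) (ℓ := D - (k + 1)) hx (by omega)
  generalize blk rad x (k + 1) (D - (k + 1)) = hi at *
  generalize bw rad (k + 1) (D - (k + 1)) = H at *
  generalize x k % A = a at *
  generalize x k / A % Y = y at *
  generalize x k / (A * Y) = z at *
  generalize enc rad x k = lo at *
  generalize wt rad k = Z at *
  have b0 : lo + Z * a < Z * A := lt_mul_of h2 a1
  have b1 : enc rad x D = (lo + Z * a) + Z * A * (y + Y * (z + C * hi)) := by rw [h3, a4]; ring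
  obtain ⟨c1, c2, c3⟩ := idx_parts (h := z + C * hi) a2 b0
  have c4 := Nat.mod_eq_of_lt (lt_mul_of a3 h5)
  rw [← b1] at c1 c2 c3
  simp only [enc, wt, rad3, dec, up, update_apply, one_mul, Nat.div_one, reduceIte, Nat.reduceEqDiff,
    Nat.reduceLT, zero_add, mul_zero, add_zero, lt_self_iff_false, c1, c2, c3, c4]
  rw [show Z * A * Y * (z + C * hi) = Z * (z * (A * Y) + A * Y * C * hi) by ring]
  ring

def flipM (eW eT : PF) : Cmd :=
  rotM (.mul eW (.pow2 eT)) (.mul eW (.dbl (.pow2 eT))) (.cst 2) (.cst 1)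

def dFlip (eW eT : PF) : ℕ :=
  dRot (.mul eW (.pow2 eT)) (.mul eW (.dbl (.pow2 eT))) (.cst 2) (.cst 1)

theorem xor_eq (t y : ℕ) :
    y ^^^ 2 ^ t = y % 2 ^ t + 2 ^ t * ((y / 2 ^ t % 2 + 1) % 2 + 2 * (y / (2 ^ t * 2))) := by
  have h := bt_xor t y
  have h1 := xor_div t y
  conv_lhs => rw [← Nat.mod_add_div (y ^^^ 2 ^ t) (2 ^ t), xor_mod]
  congr 2
  rw [bt, bt] at h
  rw [← Nat.div_div_eq_div_mul]
  have h2 : (y / 2 ^ t ^^^ 1) / 2 = y / 2 ^ t / 2 := by
    have := xor_div 1 (y / 2 ^ t)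
    simpa using Nat.xor_div_two (a := y / 2 ^ t) (b := 1)
  rw [h1] at h ⊢
  omega

theorem flip_lay {eW eT : PF} {ρ τ : ℕ} (hB : Bud g B (dFlip eW eT) Zb) (hU : g 0 + 1 = 2 ^ B)
    (hk : k < D) (hR : rad k = 2 ^ ρ) (hτ : τ < ρ) (e0 : eW.eval g [] = wt rad k)
    (e1 : eT.eval g [] = τ) (hS : g 3 = S) (hZ : Zb ≤ wt rad k * S) (hn : wt rad D < 2 ^ B)
    (h0 : 0 < wt rad D) :
    Step P (flipM eW eT) g (Lay rad D S R) (Lay rad D S fun x => R (update x k (x k ^^^ 2 ^ τ)))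
      (400 * (wt rad D * S)) := by
  have hR' : rad k = 2 ^ τ * 2 * 2 ^ (ρ - τ - 1) := by
    rw [hR, ← pow_succ, ← pow_add]; congr 1; omega
  have hw : wt (rad3 (wt rad k * 2 ^ τ) 2 (2 ^ (ρ - τ - 1) * bw rad (k + 1) (D - (k + 1)))) 3 =
      wt rad D := by rw [wt_split hk, hR']; simp [wt, rad3]; ring
  have hB' : τ ≤ B := by
    have h1 : 2 ^ ρ ≤ wt rad D := by
      rw [← hR]
      refine Nat.le_of_dvd h0 ?_
      rw [wt_split hk]
      exact ((dvd_mul_left _ _).mul_left _)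
    have := (Nat.pow_lt_pow_iff_right (by norm_num : 1 < 2)).mp (h1.trans_lt hn)
    omega
  have e2 := PF.eval_pow2 (l := []) hU eT (e1 ▸ hB')
  refine (sub_lay hk hR' (fun _ y => (y + 1) % 2) (fun _ _ _ => Nat.mod_lt _ (by norm_num))
    fun R' => ?_).post fun l hl => hl.mono fun x c _ _ h => by rwa [xor_eq]
  refine (rot_lay (k := 1) (ℓ := 1) hB (by omega) (by simp [e0, e2, e1, wt, rad3])
    (by simp [e0, e2, e1, wt, rad3]; ring) hS ?_ (hw ▸ hn) (hw ▸ h0) (by simp [bw_one, rad3])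
    (fun y => update y 1 ((y 1 + 1) % 2)) (fun _ => True) fun y hy _ => ⟨fun j hj => ?_,
      fun j hj => update_of_ne (by omega) _ _, ?_⟩).mono (fun _ h => h)
    (fun l hl => hl.mono fun x c _ _ h => h trivial) (by rw [hw])
  · refine hZ.trans (Nat.mul_le_mul_right _ ?_)
    simp only [wt, rad3, one_mul, reduceIte, Nat.reduceEqDiff, mul_assoc]
    exact Nat.le_mul_of_pos_right _ (by positivity)
  · by_cases e : j = 1
    · subst e; simpa [rad3] using Nat.mod_lt (y 1 + 1) (by norm_num : 0 < 2)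
    · simpa [e] using hy j hj
  · have := hy 1 (by omega)
    simp only [rad3, reduceIte, Nat.reduceEqDiff] at this
    simp [blk_one, rotv, this]

end Vale.Agent.P338
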