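import Vale.Agent.P338.Swaps

/-! Joining pairs of digits, the exchanges for the four groups, and the mask. -/

namespace Vale.Agent.P338

open Function Finset

/-- From `2 ρ` digits of radix `Q` to `ρ` digits of radix `Q ^ 2`. -/
def join (ρ Q : ℕ) (x : ℕ → ℕ) : ℕ → ℕ := fun m =>
  if m = 0 then x 0 else if m ≤ ρ then x (2 * m - 1) + Q * x (2 * m)
  else if m = ρ + 1 then x (2 * ρ + 1) else 0

theorem join_mid {ρ Q i : ℕ} (x : ℕ → ℕ) (hi : i < ρ) :
    join ρ Q x (1 + i) = x (1 + 2 * i) + Q * x (1 + (2 * i + 1)) := by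
  rw [join, if_neg (by omega), if_pos (by omega)]
  congr 2
  · omega
  · congr 1; omega

theorem enc_pair {Z Q W ρ : ℕ} {x y : ℕ → ℕ} (h0 : y 0 = x 0)
    (h1 : ∀ i < ρ, y (1 + i) = x (1 + 2 * i) + Q * x (1 + (2 * i + 1)))
    (h2 : y (ρ + 1) = x (2 * ρ + 1)) :
    enc (radD Z Q (2 * ρ) W) x (2 * ρ + 2) = enc (radD Z (Q ^ 2) ρ W) y (ρ + 2) := by
  have key : ∀ m ≤ ρ, enc (radD Z Q (2 * ρ) W) x (1 + 2 * m) =
      enc (radD Z (Q ^ 2) ρ W) y (1 + m) := by
    intro m
    induction m with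
    | zero => intro _; simp [enc, wt, h0]
    | succ m ih =>
      intro hm
      rw [show 1 + 2 * (m + 1) = 1 + 2 * m + 1 + 1 by ring, enc, enc, ih (by omega), ← add_assoc,
        enc, h1 m hm, add_assoc 1 (2 * m), wt_radD _ _ _ _ (by omega), wt_radD _ _ _ _ (by omega),
        wt_radD _ _ _ _ (by omega)]
      ring
  rw [enc, enc.eq_2 _ y, h2, add_comm (2 * ρ) 1, add_comm ρ 1, key ρ le_rfl,
    wt_radD _ _ _ _ le_rfl, wt_radD _ _ _ _ le_rfl, ← pow_mul]

theorem wt_pair (Z Q W ρ : ℕ) :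
    wt (radD Z (Q ^ 2) ρ W) (ρ + 2) = wt (radD Z Q (2 * ρ) W) (2 * ρ + 2) := by
  rw [wt_radD', wt_radD', ← pow_mul]

theorem Valid.radD {Z Q W d : ℕ} {x : ℕ → ℕ} : Valid (radD Z Q d W) (d + 2) x ↔
    x 0 < Z ∧ (∀ i < d, x (1 + i) < Q) ∧ x (d + 1) < W := by
  constructor
  · intro h
    refine ⟨h 0 (by omega), fun i hi => ?_, ?_⟩
    · have := h (1 + i) (by omega)
      rwa [P338.radD, if_neg (by omega), if_pos (by omega)] at this
    · have := h (d + 1) (by omega)
      rwa [P338.radD, if_neg (by omega), if_neg (by omega)] at this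
  · rintro ⟨h0, h1, h2⟩ j hj
    unfold P338.radD
    split_ifs with a b
    · rwa [a]
    · have := h1 (j - 1) (by omega)
      rwa [show 1 + (j - 1) = j by omega] at this
    · rwa [show j = d + 1 by omega]

variable {Z Q W ρ S : ℕ} {R : (ℕ → ℕ) → List Bool → Prop} {l : List Bool}

theorem split_lo (y : ℕ → ℕ) {i : ℕ} (hi : i < ρ) : split ρ Q y (1 + 2 * i) = y (1 + i) % Q := by
  rw [split, if_neg (by omega), if_pos (by omega), if_pos (by omega)]
  congr 2; omega

theorem split_hi (y : ℕ → ℕ) {i : ℕ} (hi : i < ρ) :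
    split ρ Q y (1 + (2 * i + 1)) = y (1 + i) / Q := by
  rw [split, if_neg (by omega), if_pos (by omega), if_neg (by omega)]
  congr 2; omega

theorem Lay.split (hQ : 0 < Q) (h : Lay (radD Z Q (2 * ρ) W) (2 * ρ + 2) S R l) :
    Lay (radD Z (Q ^ 2) ρ W) (ρ + 2) S (fun y => R (split ρ Q y)) l := by
  refine h.view (wt_pair _ _ _ _) _ fun y hy => ?_
  obtain ⟨a, b, c⟩ := Valid.radD.mp hy
  have e : P338.split ρ Q y (2 * ρ + 1) = y (ρ + 1) := by
    rw [P338.split, if_neg (by omega), if_neg (by omega), if_pos rfl]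
  refine ⟨Valid.radD.mpr ⟨a, fun i hi => ?_, e ▸ c⟩, enc_pair rfl (fun i hi => ?_) e.symm⟩
  · obtain ⟨j, rfl | rfl⟩ := Nat.even_or_odd' i
    · rw [split_lo y (by omega)]; exact Nat.mod_lt _ hQ
    · rw [split_hi y (by omega)]
      exact Nat.div_lt_of_lt_mul (by rw [← sq]; exact b j (by omega))
  · rw [split_lo y hi, split_hi y hi, Nat.mod_add_div]

theorem Lay.join (h : Lay (radD Z (Q ^ 2) ρ W) (ρ + 2) S R l) :
    Lay (radD Z Q (2 * ρ) W) (2 * ρ + 2) S (fun x => R (join ρ Q x)) l := by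
  refine h.view (wt_pair _ _ _ _).symm _ fun x hx => ?_
  obtain ⟨a, b, c⟩ := Valid.radD.mp hx
  have e : P338.join ρ Q x (ρ + 1) = x (2 * ρ + 1) := by
    rw [P338.join, if_neg (by omega), if_neg (by omega), if_pos rfl]
  refine ⟨Valid.radD.mpr ⟨a, fun i hi => ?_, e ▸ c⟩,
    (enc_pair (x := x) (y := P338.join ρ Q x) rfl (fun i hi => join_mid x hi) e).symm⟩
  rw [join_mid x hi, sq]
  exact lt_mul_of (b _ (by omega)) (b _ (by omega))

/-- Forget the positions above `d + 1`. -/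
def cutP (d : ℕ) (x : ℕ → ℕ) : ℕ → ℕ := fun m => if m ≤ d + 1 then x m else 0

theorem split_join {x : ℕ → ℕ} (hx : ∀ i < 2 * ρ, x (1 + i) < Q) :
    split ρ Q (join ρ Q x) = cutP (2 * ρ) x := by
  funext m
  rcases Nat.eq_zero_or_pos m with rfl | h0
  · rfl
  by_cases h1 : m ≤ 2 * ρ
  · obtain ⟨i, rfl⟩ : ∃ i, m = 1 + i := ⟨m - 1, by omega⟩
    rw [cutP, if_pos (by omega)]
    obtain ⟨j, rfl | rfl⟩ := Nat.even_or_odd' i
    · rw [split_lo _ (by omega), join_mid x (by omega), Nat.add_mul_mod_self_left,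
        Nat.mod_eq_of_lt (hx _ (by omega))]
    · have := hx (2 * j) (by omega)
      rw [split_hi _ (by omega), join_mid x (by omega), Nat.add_mul_div_left _ _ (by omega),
        Nat.div_eq_of_lt this, zero_add]
  · have e : join ρ Q x (ρ + 1) = x (2 * ρ + 1) := by
      rw [join, if_neg (by omega), if_neg (by omega), if_pos rfl]
    rw [split, if_neg (by omega), if_neg h1, cutP, e]
    split_ifs with a b c <;> first | omega | rfl | rw [a]

/-- The map of positions that exchanges group `q` with the active positions. -/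
structure PiS (r q : ℕ) (π : ℕ → ℕ) : Prop where
  fw : ∀ i < r, π (1 + grp r q i) = 1 + 2 * (r + i)
  bw : ∀ i < r, π (1 + 2 * (r + i)) = 1 + grp r q i
  fix : ∀ m, (∀ i < r, m ≠ 1 + grp r q i ∧ m ≠ 1 + 2 * (r + i)) → π m = m

theorem grp_lt {r q i : ℕ} (hi : i < r) : grp r q i < 4 * r := by
  have : r * (1 - q / 2) ≤ r * 1 := Nat.mul_le_mul_left _ (by omega)
  unfold grp; omega

variable {r q : ℕ} {π : ℕ → ℕ}

theorem PiS.cases (h : PiS r q π) (m : ℕ) :
    (π (π m) = m) ∧ (m = 0 ∨ 4 * r < m → π m = m) ∧ (0 < m ∧ m ≤ 4 * r → 0 < π m ∧ π m ≤ 4 * r) := by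
  by_cases e : ∀ i < r, m ≠ 1 + grp r q i ∧ m ≠ 1 + 2 * (r + i)
  · rw [h.fix m e, h.fix m e]; simp
  · push Not at e
    obtain ⟨i, hi, e⟩ := e
    have := grp_lt (q := q) hi
    by_cases e1 : m = 1 + grp r q i
    · rw [e1, h.fw i hi, h.bw i hi]; omega
    · rw [e e1, h.bw i hi, h.fw i hi]; omega

theorem PiS.mid (h : PiS r q π) {j : ℕ} (hj : j < 4 * r) : ∃ j' < 4 * r, π (1 + j) = 1 + j' := by
  have := (h.cases (1 + j)).2.2 (by omega)
  exact ⟨π (1 + j) - 1, by omega, by omega⟩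

def loQ (r q i : ℕ) : ℕ := if q = 1 then 2 * (r + i) else grp r q i
def hiQ (r q i : ℕ) : ℕ := if q = 1 then grp r q i else 2 * (r + i)

theorem piS_tp (hq : q < 4) : PiS r q (tp (loQ r q) (hiQ r q) (if q = 0 then 0 else r)) := by
  split_ifs with h0
  · subst h0
    exact ⟨fun i _ => by simp [tp, grp], fun i _ => by simp [tp, grp], fun m _ => by simp [tp]⟩
  obtain ⟨a, b⟩ := tp_spec (lo := loQ r q) (hi := hiQ r q) (c := r)
    (fun i hi j hj => by unfold loQ grp; split_ifs <;> omega)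
    (fun i hi j hj => by unfold hiQ grp; split_ifs <;> omega)
    (fun i hi j hj => by
      interval_cases q <;> simp only [loQ, hiQ, grp, Nat.reduceEqDiff, reduceIte] <;> omega)
  by_cases h1 : q = 1
  · simp only [loQ, hiQ, if_pos h1] at a b ⊢
    exact ⟨fun i hi => (a i hi).2, fun i hi => (a i hi).1, fun m hm => b m fun i hi =>
      (hm i hi).symm⟩
  · simp only [loQ, hiQ, if_neg h1] at a b ⊢
    exact ⟨fun i hi => (a i hi).1, fun i hi => (a i hi).2, b⟩

open Classical in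
theorem grp_val (ε : Bool) (h : PiS r q π) {s ω : ℕ} {sz : ℕ → ℕ} (hs : ∀ i < 4 * r, sz i ≤ 2 ^ s)
    (U : (ℕ → ℕ) → ℂ) {x : ℕ → ℕ} (hx : Vd (4 * r) sz x) :
    Tens (fun i => 1 + r + i) (fun i => Fop ε s (sz (grp r q i))) r
      ((fun y => (if Vd (4 * r) sz (y ∘ π) then 1 else 0) * U (gam (4 * r) ω (y ∘ π))) ∘
        split (2 * r) (2 ^ s)) (join (2 * r) (2 ^ s) (x ∘ π)) =
    Tens (fun i => 1 + grp r q i) (fun i => F1 ε (sz (grp r q i))) r U (gam (4 * r) ω x) := by
  have hx' : ∀ i < 2 * (2 * r), (x ∘ π) (1 + i) < 2 ^ s := fun i hi => by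
    obtain ⟨j, hj, e⟩ := h.mid (j := i) (by omega)
    rw [comp_apply, e]
    exact (hx j hj).trans_le (hs j hj)
  rw [Tens_split ε _ (by omega) (fun i hi => hs _ (grp_lt hi)) _ _ fun i hi => by
    rw [add_assoc, join_mid _ (by omega), Nat.add_mul_mod_self_left,
      Nat.mod_eq_of_lt (hx' _ (by omega)), comp_apply, h.bw i hi]
    exact hx _ (grp_lt hi), split_join hx', ← mul_assoc]
  set M : (ℕ → ℕ) → ℂ := fun y => (if Vd (4 * r) sz y then 1 else 0) * U (gam (4 * r) ω y) with hM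
  have e1 : (M ∘ fun y => y ∘ π) ∘ cutP (2 * 2 * r) = M ∘ fun y => y ∘ π := by
    funext y
    have a : ∀ m ≤ 4 * r + 1, (cutP (2 * 2 * r) y ∘ π) m = (y ∘ π) m := fun m hm => by
      have := h.cases m
      rw [comp_apply, comp_apply, cutP, if_pos (by omega)]
    have a1 : Vd (4 * r) sz (cutP (2 * 2 * r) y ∘ π) ↔ Vd (4 * r) sz (y ∘ π) :=
      forall₂_congr fun i hi => by rw [a _ (by omega)]
    have a2 : gam (4 * r) ω (cutP (2 * 2 * r) y ∘ π) = gam (4 * r) ω (y ∘ π) := by
      funext m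
      unfold gam
      split_ifs
      · rfl
      · exact a _ (by omega)
      · rw [a _ (by omega), a _ le_rfl]
      · rfl
    change M (cutP (2 * 2 * r) y ∘ π) = M (y ∘ π)
    simp only [hM, a1, a2]
  have e2 := congrFun (Tens_comp (pos := fun i => 1 + 2 * (r + i)) (pos' := fun i => 1 + 2 * (r + i))
    (fun i => F1 ε (sz (grp r q i))) r (cutP (2 * 2 * r))
    (fun i hi x => by rw [cutP, if_pos (by omega)]) (fun i hi x y => by
      funext m
      by_cases e : m = 1 + 2 * (r + i)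
      · rw [e, update_self, cutP, if_pos (by omega), update_self]
      · rw [update_of_ne e, cutP, cutP, update_of_ne e]) (M ∘ fun y => y ∘ π)) (x ∘ π)
  have e3 := congrFun (Tens_comp (pos := fun i => 1 + 2 * (r + i)) (pos' := fun i => 1 + grp r q i)
    (fun i => F1 ε (sz (grp r q i))) r (fun y => y ∘ π)
    (fun i hi x => by rw [comp_apply, h.fw i hi]) (fun i hi x y => by
      funext m
      by_cases e : m = 1 + grp r q i
      · rw [e, update_self, comp_apply, h.fw i hi, update_self]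
      · rw [update_of_ne e, comp_apply, comp_apply, update_of_ne fun e' => e ?_]
        rw [← (h.cases m).1, e', h.bw i hi]) M) (x ∘ π)
  have e4 : (x ∘ π) ∘ π = x := funext fun m => by rw [comp_apply, comp_apply, (h.cases m).1]
  have e5 := congrFun (Tens_comp (pos := fun i => 1 + grp r q i) (pos' := fun i => 1 + grp r q i)
    (fun i => F1 ε (sz (grp r q i))) r (gam (4 * r) ω)
    (fun i hi x => by
      have := grp_lt (q := q) hi
      rw [gam, if_neg (by omega), if_pos (by omega)]) (fun i hi x y => by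
      have := grp_lt (q := q) hi
      funext m
      by_cases e : m = 1 + grp r q i
      · rw [e, update_self, gam, if_neg (by omega), if_pos (by omega), update_self]
      · rw [update_of_ne e, gam, gam, update_of_ne e, update_of_ne (by omega),
          update_of_ne (by omega)]) U) x
  rw [e1] at e2
  simp only [comp_apply (f := Tens _ _ _ _), e4] at e2 e3 e5
  refine (e2.symm.trans e3).trans (Eq.trans ?_ e5)
  exact Tens_F1_congr ε (grp r q) (fun i hi => grp_lt hi) (S := fun _ => True)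
    (fun _ _ _ _ _ => trivial) (fun y hy _ => by simp [hM, hy]) x hx trivial

end Vale.Agent.P338
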