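import Vale.Agent.P338.Stage
import Vale.Agent.P338.Conv

/-! The global situation of the multiplication algorithm. -/

namespace Vale.Agent.P338

open Function Finset

/-- A lowest digit, `d` digits of radix `Q` and a top digit. -/
def radD (Z Q d W : ℕ) : ℕ → ℕ := fun m => if m = 0 then Z else if m ≤ d then Q else W

/-- Joining the lowest and the top digit. -/
def gam (d ω : ℕ) (x : ℕ → ℕ) : ℕ → ℕ := fun m =>
  if m = 0 then 0 else if m ≤ d then x m else if m = d + 1 then x 0 * 2 ^ ω + x (d + 1) else 0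

/-- The cost of one exchange of digits. -/
noncomputable def Sw (e b len : ℕ) : ℕ :=
  pdT ^ e * (b + 1) * (len / (2 ^ wT) ^ e) + (e + 1) * mm ^ e * len

/-- The parameters and their relations; `len` is the length of the padded array. -/
structure Gx (P : Tbl) (g : ℕ → ℕ) (B Zb K n b p f f0 k e σ' s G ω N len Mu : ℕ) (sz : ℕ → ℕ) :
    Prop where
  t1 : P 1 = Tbody
  t2 : P 2 = Hbody
  mul : MulOk P p Mu
  bud : Bud g B K Zb
  gU : g 0 + 1 = 2 ^ B
  g1 : g 1 = p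
  g2 : g 2 = f
  g3 : g 3 = 2 * p
  g9 : g 9 = N
  g14 : g 14 = b
  g15 : g 15 = k
  g20 : g 20 = mm ^ k
  g24 : g 24 = s
  g25 : g 25 = e
  g26 : g 26 = G
  g27 : g 27 = ω
  g28 : g 28 = f0
  g29 : g 29 = n
  hsz : ∀ i < 4 * mm ^ k, sz i = g 23 / 2 ^ (s * i) % 2 ^ s
  pos : ∀ i < 4 * mm ^ k, 0 < sz i
  cop : ∀ i < 4 * mm ^ k, ∀ j < 4 * mm ^ k, i ≠ j → Nat.Coprime (sz i) (sz j)
  hi : ∀ i < 4 * mm ^ k, sz i + 4 * 2 ^ (σ' * mm ^ e) ≤ 2 ^ s
  hN : N = ∏ i ∈ range (4 * mm ^ k), sz i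
  hlen : len = 2 ^ G * (2 ^ s) ^ (4 * mm ^ k) * (2 * p)
  hs : s = 2 * σ' * mm ^ e
  k0 : 0 < k
  ek : e ≤ k
  hω : ω = k * (wH + wT)
  hK : K * mm ^ e ≤ 2 ^ (2 * σ')
  hK' : K ≤ σ'
  σ0 : 0 < σ'
  ωG : ω < G
  hZ : Zb ≤ 2 ^ (G - ω)
  hZ' : Zb ≤ N / 2
  big : 4 * len < 2 ^ B
  hB : 100 * p ^ 2 ≤ B
  hQ : 2 ^ (s + 1) ≤ B
  hf : f0 + s + G + p.size + 8 ≤ f
  hp : f + 4 * ((s + 1) * mm ^ k) + 4 * G + 10 ≤ p
  b0 : 0 < b
  hb : f0 + b + 3 ≤ p
  cap : n ≤ b * (N / 2 * 2 ^ (G - 1))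

variable {P : Tbl} {g : ℕ → ℕ} {B Zb K n b p f f0 k e σ' s G ω N len Mu : ℕ} {sz : ℕ → ℕ}

theorem Gx.mono (h : Gx P g B Zb K n b p f f0 k e σ' s G ω N len Mu sz) {K' : ℕ} (hK : K' ≤ K) :
    Gx P g B Zb K' n b p f f0 k e σ' s G ω N len Mu sz :=
  { h with
    bud := h.bud.mono hK
    hK := (Nat.mul_le_mul_right _ hK).trans h.hK
    hK' := hK.trans h.hK' }

/-- The parameters 4 to 8, 10 to 13, 16 to 19, 21 and 22 are free. -/
theorem Gx.upd (h : Gx P g B Zb K n b p f f0 k e σ' s G ω N len Mu sz) {i v : ℕ}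
    (hi : (4 ≤ i ∧ i ≤ 8) ∨ (10 ≤ i ∧ i ≤ 13) ∨ (16 ≤ i ∧ i ≤ 19) ∨ i = 21 ∨ i = 22)
    (hv : v < 2 ^ B) : Gx P (update g i v) B Zb K n b p f f0 k e σ' s G ω N len Mu sz :=
  { h with
    bud := h.bud.set i hv
    gU := by rw [update_of_ne (by omega), h.gU]
    g1 := by rw [update_of_ne (by omega), h.g1]
    g2 := by rw [update_of_ne (by omega), h.g2]
    g3 := by rw [update_of_ne (by omega), h.g3]
    g9 := by rw [update_of_ne (by omega), h.g9]
    g14 := by rw [update_of_ne (by omega), h.g14]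
    g15 := by rw [update_of_ne (by omega), h.g15]
    g20 := by rw [update_of_ne (by omega), h.g20]
    g24 := by rw [update_of_ne (by omega), h.g24]
    g25 := by rw [update_of_ne (by omega), h.g25]
    g26 := by rw [update_of_ne (by omega), h.g26]
    g27 := by rw [update_of_ne (by omega), h.g27]
    g28 := by rw [update_of_ne (by omega), h.g28]
    g29 := by rw [update_of_ne (by omega), h.g29]
    hsz := by rw [update_of_ne (by omega)]; exact h.hsz }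

theorem wt_radD (Z Q d W : ℕ) {m : ℕ} (hm : m ≤ d) : wt (radD Z Q d W) (1 + m) = Z * Q ^ m := by
  induction m with
  | zero => simp [wt, radD]
  | succ m ih =>
    rw [← add_assoc, wt, ih (by omega), radD, if_neg (by omega), if_pos (by omega)]; ring

theorem wt_radD' (Z Q d W : ℕ) : wt (radD Z Q d W) (d + 2) = Z * Q ^ d * W := by
  rw [wt, add_comm d 1, wt_radD _ _ _ _ le_rfl, radD, if_neg (by omega), if_neg (by omega)]

theorem wt_rad3 (Z Y H : ℕ) : wt (rad3 Z Y H) 3 = Z * Y * H := by simp [wt, rad3]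

theorem Gx.len_eq (h : Gx P g B Zb K n b p f f0 k e σ' s G ω N len Mu sz) :
    wt (radD (2 ^ (G - ω)) (2 ^ s) (4 * mm ^ k) (2 ^ ω)) (4 * mm ^ k + 2) * (2 * p) = len := by
  rw [wt_radD', h.hlen, mul_right_comm (2 ^ (G - ω)), ← pow_add, Nat.sub_add_cancel h.ωG.le]

theorem Gx.N_le (h : Gx P g B Zb K n b p f f0 k e σ' s G ω N len Mu sz) :
    N ≤ (2 ^ s) ^ (4 * mm ^ k) := by
  rw [h.hN]
  simpa using Finset.prod_le_pow_card (range (4 * mm ^ k)) sz (2 ^ s) fun i hi => by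
    have := h.hi i (mem_range.mp hi); omega

theorem Gx.p10 (h : Gx P g B Zb K n b p f f0 k e σ' s G ω N len Mu sz) : 10 ≤ p := by
  have := h.hp; omega

end Vale.Agent.P338
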