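import Vale.Agent.P338.HXor
import Vale.Agent.P338.Flip

/-! Gates and atoms of the second network. -/

namespace Vale.Agent.P338

open Function P344

noncomputable def wH : ℕ := netH.choose

noncomputable def lH : List (Ins (ZMod 4)) := netH.choose_spec.choose

noncomputable def pdH : ℕ := (lH.map Ins.cost).sum

theorem pdH_sav : Sav pdH (2 ^ wH * mm) := netH.choose_spec.choose_spec.2.1

theorem pdH_lt : pdH < 2 ^ wH * mm := pdH_sav.lt (Nat.mul_pos (by positivity) (by decide))

/-- The butterfly `α + β · (flip of bit t)` along the digits `pos 0, …, pos (r - 1)`. -/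
def Bop {A : Type} [CommRing A] (α β : A) (pos : ℕ → ℕ) (t : ℕ) :
    ℕ → ((ℕ → ℕ) → A) → (ℕ → ℕ) → A
  | 0, v => v
  | r + 1, v => fun x => α * Bop α β pos t r v x +
      β * Bop α β pos t r v (update x (pos r) (x (pos r) ^^^ 2 ^ t))

/-- The residues of the good cells are given by `v`. -/
def RepH (p : ℕ) (rad : ℕ → ℕ) (D : ℕ) (Gd : (ℕ → ℕ) → Prop) (v : (ℕ → ℕ) → RR p) :
    List Bool → Prop :=
  Lay rad D (2 * p) fun x c => Gd x → io p c = v x

theorem Bop_eq {A : Type} [CommRing A] (α β : A) (pos : ℕ → ℕ) (t r : ℕ) (v : (ℕ → ℕ) → A) :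
    Bop α β pos t r v = BopG α β t (fun i => Pi.single (pos i) 1) r v := by
  induction r with
  | zero => rfl
  | succ r ih => funext x; simp only [Bop, BopG, ih, fl_single]

variable {P : Tbl} {g rad : ℕ → ℕ} {B Zb t t' D S kb nr ρ d p : ℕ} {c : Cmd}
  {φ : (ℕ → ℕ) → ℕ → ℕ} {Gd : (ℕ → ℕ) → Prop}

theorem Gz.rep (h : Gz P c g rad D (2 * p) Gd φ t) (hc : ∀ x, Gd x → Gd (φ x))
    (v : (ℕ → ℕ) → RR p) : Step P c g (RepH p rad D Gd v) (RepH p rad D Gd fun x => v (φ x)) t :=
  (h _).post fun _ hl => hl.mono fun x _ _ _ h hx => h hx (hc x hx)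

def gtB : Co → Cmd
  | .p => addI 12 13
  | .n => .seq (negI 13) (addI 12 13)
  | .ph => .seq (hlfI 13) (addI 12 13)
  | .nh => .seq (hlfI 13) (.seq (negI 13) (addI 12 13))

def gtF (p : ℕ) : Co → List Bool → List Bool
  | .p, b => b
  | .n, b => negC b
  | .ph, b => hlfC p b
  | .nh, b => negC (hlfC p b)

theorem gtF_spec (hp : 1 ≤ p) (c : Co) {b : List Bool} (hb : b.length = 2 * p) :
    (gtF p c b).length = 2 * p ∧ io p (gtF p c b) = c.val (hf p) * io p b := by
  have h1 := length_hlfC hp hb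
  cases c <;> simp [gtF, Co.val, hb, h1, io_negC, io_hlfC hp hb]

theorem gt_cell (hp : 1 ≤ p) (c : Co) :
    Cell2 P (gtB c) p 0 (2 * p) (fun a b => addC p a (gtF p c b)) 3000 := fun τ h1 _ h3 h4 => by
  refine ⟨length_addC h3 (gtF_spec hp c h4).1, ?_⟩
  have h5 := length_hlfC hp h4
  have ad : ∀ b, b.length = 2 * p → Ok P (addI 12 13) (update τ 13 b)
      (update (update τ 13 []) 12 (addC p (τ 12) b)) (1000 * (p + 1)) := fun b hb =>
    (addI_ok (p := p) (by omega) (by omega) (by omega) (by simpa) (by simpa) (by simpa)).mono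
      (by simp) le_rfl
  cases c
  · exact (addI_ok (by omega) (by omega) (by omega) h1 h3 h4).le (by omega)
  · exact ((negI_ok (by omega)).seq (ad _ (by simpa))).le (by omega)
  · exact ((hlfI_ok (by omega) h1 hp h4).seq (ad _ h5)).le (by omega)
  · refine ((hlfI_ok (by omega) h1 hp h4).seq (((negI_ok (by omega)).mono (by simp [gtF])
      le_rfl).seq (ad _ (gtF_spec hp .nh h4).1))).le (by simp [h5]; omega)

theorem gate_step (h : HC g B Zb rad D (2 * p) kb nr ρ) (g1 : g 1 = p)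
    (hB : Bud g B (dZip (.cst 0)) Zb) (c : Co) (v v' : (ℕ → ℕ) → RR p) :
    Step2 P (zipM true (.cst 0) (gtB c)) g (fun l l' => RepH p rad D Gd v l ∧ RepH p rad D Gd v' l')
      (RepH p rad D Gd (v + c.val (hf p) • v')) (3300 * (wt rad D * (2 * p))) := by
  have hp : 1 ≤ p := by have := h.S0; omega
  refine (zip_lay (f := 0) hB g1 rfl h.g3 h.S0 (by omega) (by omega) h.pos
    (h.Z (by have := h.hD; omega) le_rfl) (gt_cell hp c)).mono (fun _ _ h => h)
    (fun l hl => hl.mono ?_) le_rfl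
  rintro x _ - - ⟨a, b, ha, hb, h1, h2, rfl⟩ hx
  rw [io_addC hp ha (gtF_spec hp c hb).1, (gtF_spec hp c hb).2, h1 hx, h2 hx]
  rfl

def baseH : Cmd := fork (flipM (eRg (.glob 16)) (.glob 17)) (zipM true (.cst 0) (cbI 12 13))

theorem baseH_step (h : HC g B Zb rad D (2 * p) kb nr ρ) (g1 : g 1 = p)
    (hB : Bud g B (dZip (.cst 0)) Zb) (hB' : Bud g B (dFlip (eRg (.glob 16)) (.glob 17)) Zb)
    (ho : g 16 < nr) (ht : g 17 < ρ)
    (hc : ∀ x, Gd x → Gd (update x (kb + g 16) (x (kb + g 16) ^^^ 2 ^ g 17)))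
    (v : (ℕ → ℕ) → RR p) : Step P baseH g (RepH p rad D Gd v) (RepH p rad D Gd fun x =>
      (1 + jR p) * hf p * v x + (1 - jR p) * hf p *
        v (update x (kb + g 16) (x (kb + g 16) ^^^ 2 ^ g 17))) (5720 * (wt rad D * (2 * p)) + 50) := by
  have hp : 1 ≤ p := by have := h.S0; omega
  have hD := h.hD
  have cb : Cell2 P (cbI 12 13) p 0 (2 * p) (cbC p) 5000 := fun τ h1 _ h3 h4 =>
    ⟨length_cbC hp h3 h4, (cbI_ok (by omega) (by omega) (by omega) h1 hp h3 h4).le (by omega)⟩
  refine (Step.fork (n := wt rad D * (2 * p)) (Rel := fun _ l' => Lay rad D (2 * p) (fun x c =>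
    Gd (update x (kb + g 16) (x (kb + g 16) ^^^ 2 ^ g 17)) →
      io p c = v (update x (kb + g 16) (x (kb + g 16) ^^^ 2 ^ g 17))) l')
    (fun l hl => ⟨hl.length.le, (flip_lay (R := fun x c => Gd x → io p c = v x) hB' h.gU (by omega)
      (h.reg _ ho) ht (h.eRg (by simp) ho.le) (by simp) h.g3 (h.Z (by omega) (by omega)) h.lt
      h.pos).mono (fun _ e => e ▸ hl) (fun _ h => ⟨h, h.length.le⟩) le_rfl⟩)
    (zip_lay (f := 0) hB g1 rfl h.g3 h.S0 (by omega) (by omega) h.pos (h.Z (by omega) le_rfl) cb)).mono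
    (fun _ h => h) (fun l hl => hl.mono ?_) (by omega)
  rintro x _ - - ⟨a, b, ha, hb, h1, h2, rfl⟩ hx
  rw [io_cbC hp ha hb, h1 hx, h2 (hc x hx)]

def eOff (l : ℕ) : PF := .add (.glob 16) (.mul (.cst l) eH)
def ewP (l : ℕ) : PF := .odd (.div (eDg (eOff l)) eT)

noncomputable def xsL (c : ℕ → ZMod 2) (ew : PF) (n : ℕ) : Cmd :=
  seqs (fun l => if c l = 0 then .skip else lett 4 (eOff l) (xshC ew)) n

/-- The flips in the first `n` blocks. -/
def xN (b d n : ℕ) (c w : ℕ → ZMod 2) (k : ℕ) : ZMod 2 :=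
  if b ≤ k ∧ k < b + n * d then c ((k - b) / d) * w ((k - b) % d) else 0

theorem xN_succ {b n : ℕ} (c w : ℕ → ZMod 2) : xN b d (n + 1) c w = xN b d n c w +
    fun k => if b + n * d ≤ k ∧ k < b + n * d + d then c n * w (k - (b + n * d)) else 0 := by
  funext k
  simp only [xN, Pi.add_apply, add_mul, one_mul]
  by_cases a : b + n * d ≤ k ∧ k < b + n * d + d
  · obtain ⟨s, rfl⟩ := Nat.exists_eq_add_of_le a.1
    have hs : s < d := by omega
    rw [if_pos a, if_pos (by omega), if_neg (by omega), zero_add, Nat.add_sub_cancel_left, add_assoc,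
      Nat.add_sub_cancel_left, div_mul_add hs, Nat.mul_add_mod_self_right, Nat.mod_eq_of_lt hs]
  · rw [if_neg a, add_zero]
    exact if_congr (by omega) rfl rfl

/-- The data shared by the atoms of one level. -/
structure LC (P : Tbl) (g : ℕ → ℕ) (B Zb : ℕ) (rad : ℕ → ℕ) (D S kb nr σ d o t K ts : ℕ)
    (Gd : (ℕ → ℕ) → Prop) : Prop where
  hc : HC g B Zb rad D S kb nr (4 * σ)
  bud : Bud g B K Zb
  ed : ∀ v l, eH.eval (update g 4 v) l = d
  ed' : eH.eval g [] = d
  g16 : g 16 = o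
  g17 : g 17 = t
  ht : t ≤ 2 * σ
  d0 : 0 < d
  o1 : d ≤ o
  o2 : o + mm * d ≤ nr
  sl : ∀ x, Gd x → ∀ i < nr, x (kb + i) + 4 * 2 ^ (3 * σ) < 2 ^ (4 * σ)
  cl : ∀ x, Gd x → ∀ i < mm * d, Gd (update x (kb + o + i) (x (kb + o + i) ^^^ 2 ^ t))
  sw : ∀ v, d ≤ v → v + d ≤ nr → Gz P swH (update g 4 v) rad D S (fun _ => True)
    (swp d (kb + v) kb) ts
  k1 : ∀ l < mm, (eOff l).deg ≤ K

variable {σ o K ts : ℕ}

theorem LC.closed (h : LC P g B Zb rad D S kb nr σ d o t K ts Gd) {n : ℕ} (hn : n ≤ mm)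
    (c w : ℕ → ZMod 2) {x : ℕ → ℕ} (hx : Gd x) : Gd (fl t (xN (kb + o) d n c w) x) :=
  fl_closed h.cl (fun k hk => if_neg (by have := Nat.mul_le_mul_right d hn; omega)) hx

theorem xsL_gz (h : LC P g B Zb rad D S kb nr σ d o t K ts Gd) {ew : PF} {n : ℕ} (hn : n ≤ mm)
    (hK : dXs ew ≤ K) (c : ℕ → ZMod 2) (w : (ℕ → ℕ) → ℕ → ℕ) (w1 : ∀ x s, w x s ≤ 1)
    (w2 : ∀ x y, (∀ k, kb + o + n * d ≤ k → x k = y k) → w x = w y)
    (w3 : ∀ v x, Valid rad D x → ∀ k, (0 < n → k ≤ kb + o + n * d) → 0 < n → ∀ s < d, ∀ a,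
      ew.eval (update g 4 v) [s, a, enc rad (up k x) D] = w x s) :
    Gz P (xsL c ew n) g rad D S Gd (fun x => fl t (xN (kb + o) d n c fun s => w x s) x)
      (mm * (4 * ts + 2100 * (wt rad D * S)) + 1) := fun R => by
  have z1 := h.hc.Z (k := D) (by have := h.hc.hD; omega) le_rfl
  have z2 := h.bud.pos
  refine (Step.seqs (t := 4 * ts + 2000 * (wt rad D * S) + 8 + 40 * Zb) (R := fun i => Lay rad D S
    fun x c' => Gd x → R (fl t (xN (kb + o) d i c fun s => w x s) x) c') n fun i hi => ?_).mono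
    (fun l hl => hl.mono fun x _ _ _ a _ => ?_) (fun _ h => h)
    (Nat.add_le_add_right (Nat.mul_le_mul hn (by omega)) _)
  swap
  · rwa [show xN _ _ _ _ _ = 0 from funext fun k => if_neg (by omega), fl_zero]
  have m1 : (i + 1) * d ≤ n * d := Nat.mul_le_mul_right _ hi
  have m2 : n * d ≤ mm * d := Nat.mul_le_mul_right _ hn
  have o2 := h.o2
  have o1 := h.o1
  rw [add_mul] at m1
  split_ifs with e
  · refine Step.skip.mono (fun _ h => h) (fun l hl => hl.mono fun x _ _ _ a hx => ?_) (by omega)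
    simpa [xN_succ, e, ← Pi.zero_def] using a hx
  have e1 : c i = 1 := (zmod2_cases _).resolve_left e
  have := xsh_gz (P := P) (h.hc.upd (i := 4) (by omega) (o + i * d)) (ew := ew) (ts := ts)
    ((h.bud.set 4 (by have := h.hc.nr_lt.trans (Nat.lt_two_pow_self (n := B)); omega)).mono hK)
    (h.ed _) (by simpa using h.g17) rfl h.ht h.d0 (by simp; omega) (by simp; omega) w w1
    (fun x y a => w2 x y fun k hk => a k (by simp; omega))
    (fun x hx k hk => w3 _ x hx k (fun _ => by simp at hk; omega) (by omega))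
    (by simpa using h.sw _ (by omega) (by omega))
  refine (Step.lett (by omega) (h.bud.mono (h.k1 i (by omega))) (by simp [eOff, h.g16, h.ed'])
    (this _)).post fun l hl => hl.mono fun x _ _ _ a hx => ?_
  rw [update_self, ← add_assoc] at a
  have a1 := a (h.sl x hx) (fl_closed h.cl (fun k hk => if_neg (by omega)) hx)
  rw [fl_fl, w2 (fl t _ x) x fun k hk => by rw [fl, if_neg (by omega)]; simp] at a1
  simpa only [xN_succ, e1, one_mul] using a1

theorem sum_dirH {b : ℕ} (hd : 0 < d) (a : Fin mm → ZMod 4) :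
    ∑ s ∈ Finset.range d, dirH b d (cN a) s = xN b d mm (cN a) fun _ => 1 := by
  funext k
  simp only [Finset.sum_apply, dirH, xN, ite_and, mul_one]
  split_ifs with h1 h2
  · simp [Nat.mod_lt _ hd]
  · rw [Finset.sum_ite_eq, cN, dif_neg (by rw [Nat.div_lt_iff_lt_mul hd]; omega), ite_self]
  · simp

theorem xN_conj {b n s : ℕ} {c : ℕ → ZMod 2} (h1 : c n = 1) (h2 : ∀ l, n < l → c l = 0) (hs : s < d)
    (u : ℕ → ZMod 2) : Pi.single (b + n * d + s) 1 + xN b d n c (fun r => u (b + n * d + r)) =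
      xN b d n c (fun r => (u + dirH b d c s) (b + n * d + r)) + dirH b d c s := by
  funext k
  have e : ∀ r < d, dirH b d c s (b + n * d + r) = if r = s then 1 else 0 := fun r hr => by
    rw [dirH, add_assoc, Nat.add_sub_cancel_left, div_mul_add hr, Nat.mul_add_mod_self_right,
      Nat.mod_eq_of_lt hr, h1]
    simp
  simp only [Pi.add_apply, xN, Pi.single_apply]
  by_cases a : b ≤ k ∧ k < b + n * d
  · rw [if_pos a, if_pos a, if_neg (by omega), e _ (Nat.mod_lt _ (by omega)), dirH]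
    simp only [a.1, true_and]
    split_ifs
    · rw [zero_add, mul_add, mul_one, add_assoc _ (c _), CharTwo.add_self_eq_zero, add_zero]
    · simp
  · rw [if_neg a, if_neg a, add_zero, zero_add]
    by_cases a' : b + n * d ≤ k ∧ k < b + n * d + d
    · obtain ⟨r, rfl⟩ := Nat.exists_eq_add_of_le a'.1
      rw [e r (by omega)]
      exact if_congr (by omega) rfl rfl
    · rw [if_neg (by omega), dirH]
      split_ifs with a2
      · exact (h2 _ ((Nat.le_div_iff_mul_le (by omega)).2 (by rw [Nat.succ_mul]; omega))).symm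
      · rfl

def atLH (l : ℕ) : List (ℕ × PF) := [(15, .sub (.glob 15) (.cst 1)), (16, eOff l)]

open Classical in
noncomputable def atH (a _b : Fin mm → ZMod 4) (pd : Bool) : Cmd :=
  if pd then (if (fun l => red4 (a l)) = 0 then .skip else
    .seq (xsL (cN a) (ewP (top fun l => red4 (a l))) (top fun l => red4 (a l)))
      (.seq (lets (atLH (top fun l => red4 (a l))) (.call 2))
        (xsL (cN a) (ewP (top fun l => red4 (a l))) (top fun l => red4 (a l)))))
  else xsL (cN a) (.cst 1) mm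

theorem atH_free (h : LC P g B Zb rad D (2 * p) kb nr σ d o t K ts Gd) (hK : dXs (.cst 1) ≤ K)
    (a b : Fin mm → ZMod 4) (v : (ℕ → ℕ) → RR p) :
    Step P (atH a b false) g (RepH p rad D Gd v)
      (RepH p rad D Gd fun x => v (fl t (∑ s ∈ Finset.range d, dirH (kb + o) d (cN a) s) x))
      (mm * (4 * ts + 2100 * (wt rad D * (2 * p))) + 1) := by
  have := (xsL_gz h le_rfl hK (cN a) (fun _ _ => 1) (fun _ _ => le_rfl) (fun _ _ _ => rfl)
    fun _ _ _ _ _ _ _ _ _ => rfl).rep (fun x hx => h.closed le_rfl _ _ hx) v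
  simpa only [atH, Bool.false_eq_true, if_false, sum_dirH h.d0, Nat.cast_one] using this

theorem atH_paid (h : LC P g B Zb rad D (2 * p) kb nr σ d o t K ts Gd) {tp : ℕ}
    (hK : ∀ l < mm, dXs (ewP l) ≤ K ∧ dLets (atLH l) ≤ K) (a b : Fin mm → ZMod 4)
    (ih : ∀ l < mm, ∀ v, Step P (.call 2) (update (update g 16 (o + l * d)) 15 (g 15 - 1))
      (RepH p rad D Gd v) (RepH p rad D Gd (Bop ((1 + jR p) * hf p) ((1 - jR p) * hf p)
        (fun i => kb + (o + l * d) + i) t d v)) tp) (v : (ℕ → ℕ) → RR p) :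
    Step P (atH a b true) g (RepH p rad D Gd v) (RepH p rad D Gd
      (BopG ((1 + jR p) * hf p) ((1 - jR p) * hf p) t (dirH (kb + o) d (cN a)) d v))
      (2 * (mm * (4 * ts + 2100 * (wt rad D * (2 * p)))) + 100 * Zb + 4 + tp) := by
  rw [atH, if_pos rfl]
  split_ifs with e
  · rw [BopG_zero (by linear_combination two_hf (p := p) (by have := h.hc.S0; omega))
      fun s _ => funext fun k => by
        simp only [dirH, cN, show ∀ l, red4 (a l) = 0 from congrFun e]; simp]
    exact Step.skip.le (by omega)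
  obtain ⟨a1, a2⟩ := top_spec e
  generalize top (fun l => red4 (a l)) = n at a1 a2
  have c1 : cN a n = 1 := by
    rw [cN, dif_pos n.2]; exact (zmod2_cases _).resolve_left a1
  have c2 : ∀ l : ℕ, n < l → cN a l = 0 := fun l hl => by
    unfold cN
    split_ifs with hl'
    · by_contra hc
      exact absurd (a2 _ hc) (not_le.2 hl)
    · rfl
  have m1 : (n + 1) * d ≤ mm * d := Nat.mul_le_mul_right _ n.2
  have o2 := h.o2
  have d0 := h.d0
  rw [add_mul] at m1
  have x1 := (xsL_gz h n.2.le (hK n n.2).1 (cN a) (fun x s => bt t (x (kb + o + n * d + s)))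
    (fun x s => Nat.le_of_lt_succ (bt_lt _ _)) (fun x y a => funext fun s => by rw [a _ (by omega)])
    fun v x hx k hk hn s hs a => by
      have h' := h.hc.upd (i := 4) (by omega) v
      have := hk hn
      have ht := h.ht
      rw [ewP, PF.eval_odd, PF.eval_div, h'.eDg (o := o + n * d) (by simp [eOff, h.g16, h.ed])
        (by omega) hx (by omega), eT, h'.pow2 (i := t) (by omega) (by simp [h.g17]) (by omega),
        add_assoc kb o]
      rfl).rep fun x hx => h.closed n.2.le _ _ hx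
  have x2 := fun v => Step.lets (atLH n) (by simp [atLH]) (by simp [atLH])
    (h.bud.mono (hK n n.2).2) (by simpa [atLH, upds, eOff, h.g16, h.ed'] using ih n n.2 v)
  refine ((x1 v).seq ((x2 _).seq (x1 _))).mono (fun _ h => h) (fun l hl => ?_)
    (by simp only [atLH, List.length_cons, List.length_nil]; omega)
  have e1 : ∀ x, (fun s => (bt t (x (kb + o + n * d + s)) : ZMod 2)) =
      fun r => bz t x (kb + o + n * d + r) := fun x => rfl
  simp only [e1, Bop_eq, ← add_assoc] at hl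
  convert hl using 2 with x
  rw [BopG_comp (γ' := dirH (kb + o) d (cN a)) (ψ := fun x => fl t (xN (kb + o) d n (cN a)
    fun r => bz t x (kb + o + n * d + r)) x) fun s hs x => by
      rw [fl_fl, fl_fl, bz_fl, xN_conj c1 c2 hs]]
  congr 1
  funext y
  rw [fl_fl, bz_fl, show (fun r => (bz t y + xN (kb + o) d n (cN a)
    fun r => bz t y (kb + o + n * d + r)) (kb + o + n * d + r)) =
      fun r => bz t y (kb + o + n * d + r) from funext fun r => by
        rw [Pi.add_apply, xN, if_neg (by omega), add_zero], CharTwo.add_self_eq_zero, fl_zero]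

end Vale.Agent.P338
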