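import Mathlib

/-! Framed networks as instruction lists: definitions. -/

namespace Vale.Agent.P338

open Matrix

/-- The number of blocks. -/
def mm : ℕ := 2 ^ 18

/-- The cost `c` saves a fixed fraction of `X`. -/
structure Sav (c X : ℕ) : Prop where
  le : 2 ^ 40 * c + X ≤ 2 ^ 40 * X

theorem Sav.lt {c X : ℕ} (h : Sav c X) (hX : 0 < X) : c < X := by
  have := h.le
  omega

theorem Sav.real {c X : ℕ} (h : Sav c X) (hX : 0 < X) : (c : ℝ) / X ≤ 1 - 1 / 2 ^ 40 := by
  have h1 : (2 : ℝ) ^ 40 * c + X ≤ 2 ^ 40 * X := by exact_mod_cast h.le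
  rw [div_le_iff₀ (by exact_mod_cast hX)]
  linarith

/-- Gate coefficients `1, -1, 1/2, -1/2`. -/
inductive Co
  | p
  | n
  | ph
  | nh

def Co.val {R : Type} [CommRing R] (hf : R) : Co → R
  | .p => 1
  | .n => -1
  | .ph => hf
  | .nh => -hf

/-- `gate i j c` adds `c` times wire `j` to wire `i`; `atom i a b _` applies the operator of the
rank-one frame `a bᵀ` to wire `i`. -/
inductive Ins (K : Type)
  | gate (i j : ℕ) (c : Co)
  | atom (i : ℕ) (a b : Fin mm → K) (paid : Bool)

def Ins.wf {K : Type} (W : ℕ) (ok : (Fin mm → K) → (Fin mm → K) → Bool → Prop) : Ins K → Prop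
  | .gate i j _ => i < W ∧ j < W ∧ i ≠ j
  | .atom i a b pd => i < W ∧ ok a b pd

def Ins.cost {K : Type} : Ins K → ℕ
  | .gate _ _ _ => 0
  | .atom _ _ _ pd => pd.toNat

def Ins.run {K R V : Type} [Mul K] [CommRing R] [AddCommGroup V] [Module R V] (hf : R)
    (Φ : Matrix (Fin mm) (Fin mm) K → Module.End R V) (u : ℕ → V) : Ins K → ℕ → V
  | .gate i j c => Function.update u i (u i + c.val hf • u j)
  | .atom i a b _ => Function.update u i (Φ (vecMulVec a b) (u i))

end Vale.Agent.P338
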