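import Vale.Agent.P338.Fft
import Vale.Agent.P338.NetDefs
import Vale.Agent.P344.Frames

/-! The operators attached to frames modulo four. -/

namespace Vale.Agent.P338

open Function Matrix P344

section alg

variable {A ι : Type} [CommRing A] [Fintype ι] [DecidableEq ι] {hf j : A} {f : ι → A}

def sgA (A : Type) [CommRing A] (s : ZMod 2) : A := if s = 0 then 1 else -1

theorem sgA_add (a b : ZMod 2) : sgA A (a + b) = sgA A a * sgA A b := by
  have : (1 + 1 : ZMod 2) = 0 := by decide
  rcases zmod2_cases a with rfl | rfl <;> rcases zmod2_cases b with rfl | rfl <;> simp [sgA, this]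

theorem sgA_sum {β : Type} (t : Finset β) (u : β → ZMod 2) :
    sgA A (∑ b ∈ t, u b) = ∏ b ∈ t, sgA A (u b) := by
  classical
  induction t using Finset.induction_on with
  | empty => simp [sgA]
  | insert b t hb ih => rw [Finset.sum_insert hb, Finset.prod_insert hb, sgA_add, ih]

/-- The idempotents attached to commuting involutions. -/
def idm (hf : A) (f : ι → A) (ξ : ι → ZMod 2) : A := ∏ i, hf * (1 + sgA A (ξ i) * f i)

theorem idm_sum (h2 : 2 * hf = 1) : ∑ ξ, idm hf f ξ = 1 := by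
  have := Finset.prod_univ_sum (fun _ : ι => (Finset.univ : Finset (ZMod 2)))
    fun i s => hf * (1 + sgA A s * f i)
  rw [Fintype.piFinset_univ] at this
  simp only [idm]
  rw [← this]
  refine Finset.prod_eq_one fun i _ => ?_
  rw [show (Finset.univ : Finset (ZMod 2)) = {0, 1} by decide, Finset.sum_pair (by decide)]
  simp only [sgA, if_true, one_ne_zero, if_false]
  linear_combination h2

omit [DecidableEq ι] in
theorem idm_mul (h2 : 2 * hf = 1) (h : ∀ i, f i * f i = 1) (ξ η : ι → ZMod 2) :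
    idm hf f ξ * idm hf f η = if ξ = η then idm hf f ξ else 0 := by
  rw [idm, idm, ← Finset.prod_mul_distrib]
  split_ifs with e
  · subst e
    refine Finset.prod_congr rfl fun i _ => ?_
    rcases zmod2_cases (ξ i) with e | e <;> simp only [e, sgA, if_true, one_ne_zero, if_false]
    · linear_combination hf * hf * h i + hf * (1 + f i) * h2
    · linear_combination hf * hf * h i + hf * (1 - f i) * h2
  · obtain ⟨i, hi⟩ := Function.ne_iff.1 e
    refine Finset.prod_eq_zero (Finset.mem_univ i) ?_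
    rcases zmod2_cases (ξ i) with e | e <;> rcases zmod2_cases (η i) with e' | e' <;>
      simp only [e, e', sgA, if_true, one_ne_zero, if_false, ne_eq, not_true] at hi ⊢ <;>
      linear_combination -hf * hf * h i

theorem idm_f (h : ∀ i, f i * f i = 1) (ξ : ι → ZMod 2) (i : ι) :
    sgA A (ξ i) * idm hf f ξ = f i * idm hf f ξ := by
  rw [idm, ← Finset.mul_prod_erase _ _ (Finset.mem_univ i), ← mul_assoc (sgA A _),
    ← mul_assoc (f i)]
  congr 1
  rcases zmod2_cases (ξ i) with e | e <;> simp only [e, sgA, if_true, one_ne_zero, if_false]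
  · linear_combination -hf * h i
  · linear_combination hf * h i

/-- The functional calculus. -/
def opH (h2 : 2 * hf = 1) (h : ∀ i, f i * f i = 1) : ((ι → ZMod 2) → A) →+* A where
  toFun φ := ∑ ξ, φ ξ * idm hf f ξ
  map_one' := by simpa using idm_sum h2
  map_zero' := by simp
  map_add' φ ψ := by simp [add_mul, Finset.sum_add_distrib]
  map_mul' φ ψ := by
    rw [Finset.sum_mul_sum]
    refine Finset.sum_congr rfl fun ξ _ => ?_
    simp only [mul_mul_mul_comm (φ ξ), idm_mul h2 h]
    simp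

theorem opH_const (h2 : 2 * hf = 1) (h : ∀ i, f i * f i = 1) (c : A) :
    opH h2 h (fun _ => c) = c := by
  simp [opH, ← Finset.mul_sum, idm_sum h2]

theorem opH_sg (h2 : 2 * hf = 1) (h : ∀ i, f i * f i = 1) (i : ι) :
    opH h2 h (fun ξ => sgA A (ξ i)) = f i := by
  simp [opH, idm_f h, ← Finset.mul_sum, idm_sum h2]

theorem opH_chr (h2 : 2 * hf = 1) (h : ∀ i, f i * f i = 1) (c : ι → ZMod 2) :
    opH h2 h (fun ξ => sgA A (∑ i, ξ i * c i)) = ∏ i, if c i = 0 then 1 else f i := by
  rw [show (fun ξ : ι → ZMod 2 => sgA A (∑ i, ξ i * c i)) = ∏ i, fun ξ => sgA A (ξ i * c i) by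
    funext ξ; simp [sgA_sum], map_prod]
  refine Finset.prod_congr rfl fun i _ => ?_
  rcases zmod2_cases (c i) with e | e
  · simpa [e, sgA] using opH_const h2 h 1
  · simpa [e] using opH_sg h2 h i

def e4A (j : A) (z : ZMod 4) : A := j ^ z.val

theorem e4A_add (hj : j * j = -1) (a b : ZMod 4) : e4A j (a + b) = e4A j a * e4A j b := by
  rw [e4A, e4A, e4A, ZMod.val_add, ← pow_add, ← pow_eq_pow_mod]
  linear_combination (j * j - 1) * hj

theorem e4A_lift2 (h2 : 2 * hf = 1) (s : ZMod 2) :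
    e4A j (lift2 s) = (1 + j) * hf + (1 - j) * hf * sgA A s := by
  rcases zmod2_cases s with rfl | rfl
  · simp only [lift2, if_true, e4A, ZMod.val_zero, pow_zero, sgA]; linear_combination -h2
  · rw [e4A, show (lift2 1).val = 1 by decide]
    simp only [sgA, one_ne_zero, if_false]; linear_combination -j * h2

theorem e4A_two (hj : j * j = -1) (s : ZMod 2) : e4A j (lift2 s + lift2 s) = sgA A s := by
  rcases zmod2_cases s with rfl | rfl
  · simp [lift2, e4A, sgA]
  · rw [e4A, show (lift2 1 + lift2 1).val = 2 by decide]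
    simp only [sgA, one_ne_zero, if_false]; linear_combination hj

theorem exists_PhiA (h2 : 2 * hf = 1) (hj : j * j = -1) (h : ∀ i, f i * f i = 1) :
    ∃ Φ : Matrix ι ι (ZMod 4) → A, Φ 0 = 1 ∧ (∀ M N, Φ (M + N) = Φ M * Φ N) ∧
      (∀ a, Φ (vecMulVec a a) =
        (1 + j) * hf + (1 - j) * hf * ∏ i, if red4 (a i) = 0 then 1 else f i) ∧
      (∀ a, Φ (vecMulVec a (a + a)) = ∏ i, if red4 (a i) = 0 then 1 else f i) ∧
      Φ 1 = ∏ i, ((1 + j) * hf + (1 - j) * hf * f i) := by
  have key : ∀ u : (ι → ZMod 2) → ZMod 2, opH h2 h (fun ξ => e4A j (lift2 (u ξ))) =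
      (1 + j) * hf + (1 - j) * hf * opH h2 h fun ξ => sgA A (u ξ) := fun u => by
    rw [show (fun ξ => e4A j (lift2 (u ξ))) = (fun _ => (1 + j) * hf) +
      (fun _ => (1 - j) * hf) * fun ξ => sgA A (u ξ) from funext fun ξ => e4A_lift2 h2 _, map_add,
      map_mul, opH_const, opH_const]
  refine ⟨fun Q => opH h2 h fun ξ => e4A j (qf Q ξ), ?_, fun M N => ?_, fun a => ?_, fun a => ?_, ?_⟩
  · simpa [qf, e4A] using opH_const h2 h 1
  · beta_reduce
    rw [← map_mul]
    congr 1
    funext ξ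
    simp [qf_add, e4A_add hj]
  · simp only [qf_vec, key, opH_chr]
  · simp only [vecMulVec_add, qf_add, qf_vec, e4A_two hj, opH_chr]
  · have : (fun ξ : ι → ZMod 2 => e4A j (qf 1 ξ)) = ∏ i, fun ξ => e4A j (lift2 (ξ i)) := by
      funext ξ
      have h3 : qf (1 : Fr ι) ξ = ∑ a, lift2 (ξ a) := by
        simp only [qf, Matrix.one_apply, ite_mul, one_mul, zero_mul, Finset.sum_ite_eq,
          Finset.mem_univ, if_true]
        exact Finset.sum_congr rfl fun a _ => by rw [sq_eq_lift2, red4_lift2]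
      rw [h3, Finset.prod_apply]
      exact Finset.induction_on Finset.univ (by simp [e4A]) fun b t hb ih => by
        rw [Finset.sum_insert hb, Finset.prod_insert hb, e4A_add hj, ih]
    beta_reduce
    rw [this, map_prod]
    exact Finset.prod_congr rfl fun i _ => by rw [key, opH_sg]

end alg

/-- Flip bit `t` of the digits in the support of `γ`. -/
def fl (t : ℕ) (γ : ℕ → ZMod 2) (x : ℕ → ℕ) (k : ℕ) : ℕ := x k ^^^ (γ k).val * 2 ^ t

/-- Bit `t` of every digit. -/
def bz (t : ℕ) (x : ℕ → ℕ) (k : ℕ) : ZMod 2 := (bt t (x k) : ℕ)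

variable {t : ℕ}

theorem fl_zero (x : ℕ → ℕ) : fl t 0 x = x := by funext k; simp [fl]

theorem fl_fl (γ γ' : ℕ → ZMod 2) (x : ℕ → ℕ) : fl t γ (fl t γ' x) = fl t (γ + γ') x := by
  funext k
  have h1 : (1 : ZMod 2).val = 1 := rfl
  have h2 : (1 + 1 : ZMod 2) = 0 := rfl
  simp only [fl, Pi.add_apply, Nat.xor_assoc]
  rcases zmod2_cases (γ k) with e | e <;> rcases zmod2_cases (γ' k) with e' | e' <;>
    simp [e, e', h1, h2]

theorem bz_fl (γ : ℕ → ZMod 2) (x : ℕ → ℕ) : bz t (fl t γ x) = bz t x + γ := by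
  funext k
  have h1 : (1 : ZMod 2).val = 1 := rfl
  have := bt_lt t (x k)
  simp only [bz, fl, Pi.add_apply]
  rcases zmod2_cases (γ k) with e | e
  · simp [e]
  · rw [e, h1, one_mul, bt_xor]
    rcases (by omega : bt t (x k) = 0 ∨ bt t (x k) = 1) with h | h <;> rw [h] <;> rfl

theorem fl_single (k : ℕ) (x : ℕ → ℕ) :
    fl t (Pi.single k 1) x = update x k (x k ^^^ 2 ^ t) := by
  funext i
  by_cases e : i = k
  · subst e; simp [fl, show (1 : ZMod 2).val = 1 from rfl]
  · simp [fl, e]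

theorem fl_closed {Gd : (ℕ → ℕ) → Prop} {b n : ℕ}
    (h : ∀ x, Gd x → ∀ i < n, Gd (update x (b + i) (x (b + i) ^^^ 2 ^ t))) {γ : ℕ → ZMod 2}
    (hγ : ∀ k, k < b ∨ b + n ≤ k → γ k = 0) {x : ℕ → ℕ} (hx : Gd x) : Gd (fl t γ x) := by
  induction n generalizing γ with
  | zero => rwa [show γ = 0 from funext fun k => hγ k (by omega), fl_zero]
  | succ n ih =>
    have := ih (fun x hx i hi => h x hx i (by omega)) (γ := update γ (b + n) 0) fun k hk => by
      rw [update_apply]; split_ifs
      exacts [rfl, hγ k (by omega)]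
    rcases zmod2_cases (γ (b + n)) with e | e
    · rwa [← e, update_eq_self] at this
    · have h2 := h _ this n (by omega)
      rw [← fl_single, fl_fl] at h2
      convert h2 using 2
      funext k
      by_cases e' : k = b + n <;> simp [e', e]

variable {R : Type} [CommRing R]

/-- The product of the operators `α + β · (flip along γ i)`. -/
def BopG (α β : R) (t : ℕ) (γ : ℕ → ℕ → ZMod 2) : ℕ → ((ℕ → ℕ) → R) → (ℕ → ℕ) → R
  | 0, v => v
  | r + 1, v => fun x => α * BopG α β t γ r v x + β * BopG α β t γ r v (fl t (γ r) x)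

theorem BopG_comp {α β : R} {γ γ' : ℕ → ℕ → ZMod 2} {ψ : (ℕ → ℕ) → ℕ → ℕ} {r : ℕ}
    (h : ∀ i < r, ∀ x, fl t (γ i) (ψ x) = ψ (fl t (γ' i) x)) (u : (ℕ → ℕ) → R) (x : ℕ → ℕ) :
    BopG α β t γ r u (ψ x) = BopG α β t γ' r (fun y => u (ψ y)) x := by
  induction r generalizing x with
  | zero => rfl
  | succ r ih =>
    simp only [BopG, h r (by omega), ih fun i hi => h i (by omega)]

theorem BopG_zero {α β : R} (h : α + β = 1) {γ : ℕ → ℕ → ZMod 2} {r : ℕ} (hγ : ∀ i < r, γ i = 0)
    (u : (ℕ → ℕ) → R) : BopG α β t γ r u = u := by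
  induction r with
  | zero => rfl
  | succ r ih =>
    funext x
    simp only [BopG, ih fun i hi => hγ i (by omega), hγ r (by omega), fl_zero, ← add_mul, h, one_mul]

/-- The direction `c` in column `s`. -/
def dirH (b d : ℕ) (c : ℕ → ZMod 2) (s k : ℕ) : ZMod 2 :=
  if b ≤ k ∧ (k - b) % d = s then c ((k - b) / d) else 0

def cN {n : ℕ} (a : Fin n → ZMod 4) (l : ℕ) : ZMod 2 := if h : l < n then red4 (a ⟨l, h⟩) else 0

theorem sum_dir {n b d s : ℕ} (hs : s < d) (a : Fin n → ZMod 4) :
    ∑ l : Fin n, (if red4 (a l) = 0 then 0 else Pi.single (b + (l * d + s)) 1 : ℕ → ZMod 2) =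
      dirH b d (cN a) s := by
  funext k
  have key : ∀ l : ℕ, k = b + (l * d + s) ↔ b ≤ k ∧ (k - b) % d = s ∧ (k - b) / d = l := fun l => by
    constructor
    · rintro rfl
      rw [Nat.add_sub_cancel_left, Nat.mul_add_mod_self_right, Nat.mod_eq_of_lt hs, mul_comm,
        Nat.mul_add_div (by omega), Nat.div_eq_of_lt hs]
      omega
    · rintro ⟨h1, h2, h3⟩
      have := Nat.div_add_mod' (k - b) d
      rw [h2, h3] at this
      omega
  have e : ∀ l : Fin n, (if red4 (a l) = 0 then 0 else Pi.single (b + (l * d + s)) 1 :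
      ℕ → ZMod 2) k = if k = b + (l * d + s) then red4 (a l) else 0 := fun l => by
    rcases zmod2_cases (red4 (a l)) with e | e <;> simp [e, Pi.single_apply]
  simp only [Finset.sum_apply, e, key, dirH, cN]
  split_ifs with h1 h2
  · rw [Finset.sum_eq_single ⟨_, h2⟩ _ (by simp), if_pos ⟨h1.1, h1.2, rfl⟩]
    exact fun l _ hl => if_neg fun h => hl (Fin.ext h.2.2.symm)
  · exact Finset.sum_eq_zero fun l _ => if_neg fun ⟨_, _, h⟩ => h2 (by rw [h]; exact l.2)
  · exact Finset.sum_eq_zero fun l _ => if_neg fun h => h1 ⟨h.1, h.2.1⟩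

theorem prod_grid {A : Type} [CommMonoid A] (n d : ℕ) (u : ℕ → A) :
    ∏ s ∈ Finset.range d, ∏ l : Fin n, u (l * d + s) = ∏ i ∈ Finset.range (n * d), u i := by
  rw [Finset.prod_comm, ← Finset.prod_range fun l => ∏ s ∈ Finset.range d, u (l * d + s)]
  induction n with
  | zero => simp
  | succ n ih => rw [Finset.prod_range_succ, ih, Nat.succ_mul, Finset.prod_range_add]

theorem exists_Phi {j hf : R} (hj : j * j = -1) (h2 : 2 * hf = 1) (n b d t : ℕ) :
    ∃ Φ : Matrix (Fin n) (Fin n) (ZMod 4) → Module.End R ((ℕ → ℕ) → R), Φ 0 = 1 ∧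
      (∀ M N, Φ (M + N) = Φ M * Φ N) ∧
      (∀ a v, Φ (vecMulVec a a) v = BopG ((1 + j) * hf) ((1 - j) * hf) t (dirH b d (cN a)) d v) ∧
      (∀ a v x, Φ (vecMulVec a (a + a)) v x =
        v (fl t (∑ s ∈ Finset.range d, dirH b d (cN a) s) x)) ∧
      ∀ v, Φ 1 v = BopG ((1 + j) * hf) ((1 - j) * hf) t (fun i => Pi.single (b + i) 1) (n * d) v := by
  let F : Multiplicative (ℕ → ZMod 2) →* Module.End R ((ℕ → ℕ) → R) :=
    { toFun γ := LinearMap.funLeft R R (fl t γ.toAdd)
      map_one' := by ext v x; simp [fl_zero]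
      map_mul' γ γ' := by ext v x; simp [fl_fl, add_comm] }
  let L := AddMonoidAlgebra.lift R _ _ F
  let o : (ℕ → ZMod 2) → AddMonoidAlgebra R (ℕ → ZMod 2) := fun γ => AddMonoidAlgebra.single γ 1
  let ι := algebraMap R (AddMonoidAlgebra R (ℕ → ZMod 2))
  have o0 : o 0 = 1 := rfl
  have oa : ∀ γ γ', o (γ + γ') = o γ * o γ' := fun γ γ' => by
    simp [o, AddMonoidAlgebra.single_mul_single]
  have os : ∀ {β : Type} (s : Finset β) (γ : β → ℕ → ZMod 2), o (∑ i ∈ s, γ i) = ∏ i ∈ s, o (γ i) :=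
    fun s γ => by
      classical
      exact Finset.induction_on s (by simp [o0]) fun b s hb ih => by
        rw [Finset.sum_insert hb, Finset.prod_insert hb, oa, ih]
  have Lo : ∀ γ v x, L (o γ) v x = v (fl t γ x) := fun γ v x => by simp [L, o, F]
  have LB : ∀ γ r v, L (∏ i ∈ Finset.range r, ((1 + ι j) * ι hf + (1 - ι j) * ι hf * o (γ i))) v =
      BopG ((1 + j) * hf) ((1 - j) * hf) t γ r v := fun γ r v => by
    induction r with
    | zero => simp [BopG]
    | succ r ih =>
      funext x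
      rw [Finset.prod_range_succ_comm, map_mul, Module.End.mul_apply, ih, BopG, ← map_one ι,
        ← map_add ι, ← map_sub ι, ← map_mul ι, ← map_mul ι, map_add L, map_mul L, L.commutes,
        L.commutes]
      simp [Lo, Module.algebraMap_end_apply]
      ring
  have hf2 : ∀ s, ∀ l : Fin n, o (Pi.single (b + (l * d + s)) 1) *
      o (Pi.single (b + (l * d + s)) 1) = 1 := fun s l => by
    rw [← oa, ← Pi.single_add, show (1 + 1 : ZMod 2) = 0 from rfl, Pi.single_zero, o0]
  choose Φ p0 pa p1 p2 p3 using fun s => exists_PhiA (hf := ι hf) (j := ι j)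
    (by rw [← map_ofNat ι 2, ← map_mul, h2, map_one]) (by rw [← map_mul, hj, map_neg, map_one])
    (hf2 s)
  have od : ∀ (a : Fin n → ZMod 4), ∀ s ∈ Finset.range d, (∏ l : Fin n,
      if red4 (a l) = 0 then 1 else o (Pi.single (b + (l * d + s)) 1)) = o (dirH b d (cN a) s) :=
    fun a s hs => by
      rw [← sum_dir (Finset.mem_range.1 hs), os]
      exact Finset.prod_congr rfl fun l _ => by split_ifs <;> rfl
  refine ⟨fun M => L (∏ s ∈ Finset.range d, Φ s M), by simp [p0], fun M N => ?_, fun a v => ?_,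
    fun a v x => ?_, fun v => ?_⟩
  · simp only [pa, Finset.prod_mul_distrib, map_mul]
  · rw [← LB]
    exact congrArg (L · v) (Finset.prod_congr rfl fun s hs => by rw [p1, od a s hs])
  · rw [← Lo _ v, os]
    exact congrArg (L · v x) (Finset.prod_congr rfl fun s hs => by rw [p2, od a s hs])
  · rw [← LB, ← prod_grid]
    simp only [p3]

end Vale.Agent.P338
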