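import Vale.Agent.P338.Swap
import Vale.Agent.P338.HPhi

/-! Conditional bit flips of a block by means of a courier block. -/

namespace Vale.Agent.P338

open Function

variable {P : Tbl} {g rad : ℕ → ℕ} {B Zb t t' D S kb nr ρ d : ℕ} {c c' : Cmd}
  {φ φ' : (ℕ → ℕ) → ℕ → ℕ} {Gd Gd' : (ℕ → ℕ) → Prop}

/-- `c` pulls the good cells back along `φ`. -/
def Gz (P : Tbl) (c : Cmd) (g rad : ℕ → ℕ) (D S : ℕ) (Gd : (ℕ → ℕ) → Prop)
    (φ : (ℕ → ℕ) → ℕ → ℕ) (t : ℕ) : Prop :=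
  ∀ R : (ℕ → ℕ) → List Bool → Prop,
    Step P c g (Lay rad D S R) (Lay rad D S fun x c => Gd x → R (φ x) c) t

theorem Gz.mono (h : Gz P c g rad D S Gd φ t) (e : ∀ x, Valid rad D x → Gd' x → Gd x ∧ φ x = φ' x)
    (ht : t ≤ t') : Gz P c g rad D S Gd' φ' t' := fun R => (h R).mono (fun _ h => h)
  (fun _ hl => hl.mono fun x _ hx _ h h' => (e x hx h').2 ▸ h (e x hx h').1) ht

theorem Gz.seq (h : Gz P c g rad D S Gd φ t) (h' : Gz P c' g rad D S Gd' φ' t') :
    Gz P (.seq c c') g rad D S (fun x => Gd' x ∧ Gd (φ' x)) (fun x => φ (φ' x)) (t + t' + 1) :=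
  fun R => ((h R).seq (h' _)).post fun _ hl => hl.mono fun _ _ _ _ h h' => h h'.1 h'.2

/-- An array with `nr` regions of radix `2 ^ ρ`. -/
structure HC (g : ℕ → ℕ) (B Zb : ℕ) (rad : ℕ → ℕ) (D S kb nr ρ : ℕ) : Prop where
  gU : g 0 + 1 = 2 ^ B
  g3 : g 3 = S
  g8 : g 8 = wt rad D * S
  g18 : g 18 = wt rad kb
  g19 : g 19 = ρ
  reg : ∀ i < nr, rad (kb + i) = 2 ^ ρ
  hD : kb + nr ≤ D
  hZ : Zb ≤ wt rad kb * S
  pos : 0 < wt rad D
  S0 : 0 < S
  r0 : 0 < ρ
  sz : 4 * (wt rad D * S) < 2 ^ B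

theorem HC.lt (h : HC g B Zb rad D S kb nr ρ) : wt rad D < 2 ^ B := by
  have := Nat.le_mul_of_pos_right (wt rad D) h.S0
  have := h.sz
  omega

theorem HC.Z (h : HC g B Zb rad D S kb nr ρ) {k : ℕ} (h1 : kb ≤ k) (h2 : k ≤ D) :
    Zb ≤ wt rad k * S := h.hZ.trans (Nat.mul_le_mul_right _ (wt_le (wt_pos h.pos h2) h1))

theorem HC.le (h : HC g B Zb rad D S kb nr ρ) {i : ℕ} (hi : i ≤ nr) : ρ * i < B := by
  have := (win_pow h.reg h.hD h.pos hi).2.trans_lt h.lt
  rwa [← pow_mul, Nat.pow_lt_pow_iff_right (by omega)] at this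

theorem HC.nr_lt (h : HC g B Zb rad D S kb nr ρ) : nr < B :=
  (Nat.le_mul_of_pos_left _ h.r0).trans_lt (h.le le_rfl)

theorem HC.upd (h : HC g B Zb rad D S kb nr ρ) {i : ℕ} (hi : (3 < i ∧ i < 8) ∨ (8 < i ∧ i < 18))
    (v : ℕ) : HC (update g i v) B Zb rad D S kb nr ρ :=
  { h with
    gU := by rw [update_of_ne (by omega), h.gU]
    g3 := by rw [update_of_ne (by omega), h.g3]
    g8 := by rw [update_of_ne (by omega), h.g8]
    g18 := by rw [update_of_ne (by omega), h.g18]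
    g19 := by rw [update_of_ne (by omega), h.g19] }

def eQp (e : PF) : PF := .pow2 (.mul (.glob 19) e)
def eRg (e : PF) : PF := .mul (.glob 18) (eQp e)
def eH : PF := .pow (.cst mm) (.sub (.glob 15) (.cst 1))
def eDg (e : PF) : PF := .dg (.var 2) (eRg (.add e (.var 0))) (.pow2 (.glob 19))

theorem HC.eQp (h : HC g B Zb rad D S kb nr ρ) {e : PF} {l : List ℕ} {i : ℕ} (he : e.eval g l = i)
    (hi : i ≤ nr) : (eQp e).eval g l = (2 ^ ρ) ^ i := by
  rw [P338.eQp, PF.eval_pow2 h.gU _ (by simpa [h.g19, he] using (h.le hi).le), ← pow_mul]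
  simp [h.g19, he]

theorem HC.eRg (h : HC g B Zb rad D S kb nr ρ) {e : PF} {l : List ℕ} {i : ℕ} (he : e.eval g l = i)
    (hi : i ≤ nr) : (eRg e).eval g l = wt rad (kb + i) := by
  rw [P338.eRg, PF.eval_mul, h.eQp he hi, (win_pow h.reg h.hD h.pos hi).1]
  simp [h.g18]

theorem HC.pow2 (h : HC g B Zb rad D S kb nr ρ) (hn : 0 < nr) {e : PF} {l : List ℕ} {i : ℕ}
    (he : e.eval g l = i) (hi : i ≤ ρ) : (PF.pow2 e).eval g l = 2 ^ i := by
  have := h.le hn
  rw [PF.eval_pow2 h.gU _ (by omega), he]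

theorem HC.eDg (h : HC g B Zb rad D S kb nr ρ) {e : PF} {s a o k : ℕ} {x : ℕ → ℕ}
    (he : e.eval g [s, a, enc rad (up k x) D] = o) (hi : o + s < nr) (hx : Valid rad D x)
    (hk : k ≤ kb + o + s) : (eDg e).eval g [s, a, enc rad (up k x) D] = x (kb + o + s) := by
  have := h.hD
  rw [P338.eDg, PF.eval_dg, h.eRg (i := o + s) (by simp [he]) hi.le,
    h.pow2 (by omega) (i := ρ) (by simp [h.g19]) le_rfl, ← h.reg _ hi, add_assoc]
  exact up_digit hx (by omega) (by omega)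

def eSum (eδ : PF) : PF := .sumN eH (.mul (eQp (.var 0)) eδ)

def eOf (ng : Bool) (eδ : PF) : PF :=
  if ng then .sub (eQp eH) (eSum eδ) else .mod (eSum eδ) (eQp eH)

/-- Add or subtract `eδ` in every digit of a block. -/
def baM (ng : Bool) (eo eδ : PF) : Cmd := rotM (eRg eo) (eRg (.add eo eH)) (eQp eH) (eOf ng eδ)

def dBa (ng : Bool) (eo eδ : PF) : ℕ := dRot (eRg eo) (eRg (.add eo eH)) (eQp eH) (eOf ng eδ)

def bump (ng : Bool) (p d : ℕ) (δ : (ℕ → ℕ) → ℕ → ℕ) (x : ℕ → ℕ) (k : ℕ) : ℕ :=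
  if p ≤ k ∧ k < p + d then (if ng then x k - δ x (k - p) else x k + δ x (k - p)) else x k

theorem ba_gz (h : HC g B Zb rad D S kb nr ρ) {ng : Bool} {eo eδ : PF} {o : ℕ}
    (hB : Bud g B (dBa ng eo eδ) Zb) (ed : ∀ l, eH.eval g l = d) (e1 : eo.eval g [] = o)
    (ho : o + d ≤ nr) (δ : (ℕ → ℕ) → ℕ → ℕ) (hδ : ∀ x, Valid rad D x → ∀ s < d, ∀ a,
      eδ.eval g [s, a, enc rad (up (kb + o + d) x) D] = δ x s) :
    Gz P (baM ng eo eδ) g rad D S
      (fun x => ∀ s < d, if ng then δ x s ≤ x (kb + o + s) else x (kb + o + s) + δ x s < 2 ^ ρ)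
      (bump ng (kb + o) d δ) (400 * (wt rad D * S)) := fun R => by
  have hD := h.hD
  have r1 : ∀ s < d, rad (kb + o + s) = 2 ^ ρ := fun s hs => add_assoc kb o s ▸ h.reg _ (by omega)
  have b1 : bw rad (kb + o) d = (2 ^ ρ) ^ d := wt_const r1
  have a1 : ∀ l, (eQp eH).eval g l = (2 ^ ρ) ^ d := fun l => h.eQp (ed l) (by omega)
  have a2 : (2 ^ ρ) ^ d < 2 ^ B := (win_pow h.reg hD h.pos (by omega)).2.trans_lt h.lt
  refine rot_lay hB (by omega) (h.eRg e1 (by omega))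
    (add_assoc kb o d ▸ h.eRg (by simp [e1, ed]) ho) h.g3 (h.Z (by omega) (by omega)) h.lt h.pos
    (fun i0 => ⟨?_, by rw [a1, b1]⟩) _ _ fun x hx hG => ?_
  · cases ng
    · simpa [eOf, a1] using (Nat.mod_lt _ (by positivity)).le
    · simp [eOf]
  have hv : Valid rad D (bump ng (kb + o) d δ x) := fun k hk => by
    unfold bump
    have := hx k hk
    split_ifs with a b
    · omega
    · have e := hG (k - (kb + o)) (by omega)
      have e' := r1 (k - (kb + o)) (by omega)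
      rw [if_neg b, Nat.add_sub_cancel' a.1] at e
      rw [Nat.add_sub_cancel' a.1] at e'
      omega
    · exact this
  refine ⟨hv, fun j hj => if_neg (by omega), ?_⟩
  have c1 := blk_lt hx (show kb + o + d ≤ D by omega)
  have c2 := blk_lt hv (show kb + o + d ≤ D by omega)
  have c3 : if ng then blk rad (bump ng (kb + o) d δ x) (kb + o) d +
      ∑ s ∈ Finset.range d, (2 ^ ρ) ^ s * δ x s = blk rad x (kb + o) d else
      blk rad (bump ng (kb + o) d δ x) (kb + o) d =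
      blk rad x (kb + o) d + ∑ s ∈ Finset.range d, (2 ^ ρ) ^ s * δ x s := by
    simp only [blk, enc_const r1, ← Finset.sum_add_distrib, ← mul_add]
    split_ifs with e <;> refine Finset.sum_congr rfl fun s hs => congrArg _ ?_ <;>
      have := hG s (Finset.mem_range.1 hs) <;> rw [Finset.mem_range] at hs <;>
      rw [bump, if_pos (by omega), Nat.add_sub_cancel_left] <;> simp only [e] at this ⊢ <;>
      simp at this ⊢
    omega
  have c4 : (eSum eδ).eval g [enc rad (up (kb + o + d) x) D] =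
      ∑ s ∈ Finset.range d, (2 ^ ρ) ^ s * δ x s := by
    have := h.nr_lt
    rw [eSum, PF.eval_sumN h.gU (fun s => (2 ^ ρ) ^ s * δ x s) (by rw [ed]; omega)
      (fun s hs a => by
        rw [ed] at hs
        rw [PF.eval_mul, h.eQp (i := s) rfl (by omega), hδ x hx s hs]) (by
        rw [ed]; split_ifs at c3 <;> omega), ed]
  rw [b1] at c1 c2
  rw [a1, rotv, if_pos c1, eOf]
  split_ifs at c3 ⊢
  · rw [PF.eval_sub, a1, c4, ← c3, add_assoc, Nat.add_sub_cancel' (by omega), Nat.add_mod_right,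
      Nat.mod_eq_of_lt c2]
  · rw [PF.eval_mod, a1, c4, Nat.add_mod_mod, ← c3, Nat.mod_eq_of_lt c2]

/-- The vector `x` with the active block and the courier block replaced. -/
def st2 (d p q : ℕ) (x Y Z : ℕ → ℕ) (k : ℕ) : ℕ :=
  if p ≤ k ∧ k < p + d then Y (k - p) else if q ≤ k ∧ k < q + d then Z (k - q) else x k

def swp (d p q : ℕ) (x : ℕ → ℕ) (k : ℕ) : ℕ := x (swI d p q k)

section st

variable {p q s : ℕ} {x Y Z Y' Z' : ℕ → ℕ}

theorem st2_hi (hs : s < d) : st2 d p q x Y Z (p + s) = Y s := by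
  rw [st2, if_pos (by omega), Nat.add_sub_cancel_left]

theorem st2_lo (h : q + d ≤ p) (hs : s < d) : st2 d p q x Y Z (q + s) = Z s := by
  rw [st2, if_neg (by omega), if_pos (by omega), Nat.add_sub_cancel_left]

theorem st2_sw (h : q + d ≤ p) : swp d p q (st2 d p q x Y Z) = st2 d p q x Z Y := by
  funext k
  rw [swp, swI]
  split_ifs with a b
  · rw [st2_lo h (by omega), st2, if_pos a]
  · rw [st2_hi (by omega), st2, if_neg a, if_pos b]
  · rw [st2, st2, if_neg a, if_neg b, if_neg a, if_neg b]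

theorem st2_bump (h : q + d ≤ p) {ng : Bool} {δ : (ℕ → ℕ) → ℕ → ℕ} (e : ∀ s < d, Z' s =
    if ng then Z s - δ (st2 d p q x Y Z) s else Z s + δ (st2 d p q x Y Z) s) :
    bump ng q d δ (st2 d p q x Y Z) = st2 d p q x Y Z' := by
  funext k
  rw [bump]
  by_cases a : q ≤ k ∧ k < q + d
  · obtain ⟨s, rfl⟩ := Nat.exists_eq_add_of_le a.1
    rw [if_pos a, st2_lo h (by omega), st2_lo h (by omega), Nat.add_sub_cancel_left, e s (by omega)]
  · rw [if_neg a, st2, st2, if_neg a, if_neg a]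

end st

theorem bt_add (t y n : ℕ) : bt t (y + 2 * 2 ^ t * n) = bt t y := by
  rw [bt, bt, show 2 * 2 ^ t * n = 2 ^ t * (2 * n) by ring, Nat.add_mul_div_left _ _ (by positivity),
    Nat.add_mul_mod_self_left]

theorem col_facts {σ y b w z : ℕ} (ht : t ≤ 2 * σ) (hy : y + 4 * 2 ^ (3 * σ) < 2 ^ (4 * σ))
    (hb : b + 4 * 2 ^ (3 * σ) < 2 ^ (4 * σ)) (hw : w ≤ 1)
    (hz : z = y + 2 ^ t * w + 2 * 2 ^ t * (b / 2 ^ (3 * σ))) :
    y + 2 ^ t * w < 2 ^ (4 * σ) ∧ z < 2 ^ (4 * σ) ∧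
      b + 2 ^ (3 * σ) * (w * (1 - bt t z)) < 2 ^ (4 * σ) ∧
      (y ^^^ w * 2 ^ t) + 2 * 2 ^ t * ((b + 2 ^ (3 * σ) * (w * (1 - bt t z))) / 2 ^ (3 * σ)) = z ∧
      w * (1 - bt t (y ^^^ w * 2 ^ t)) = w * (1 - bt t z) := by
  have h1 : b / 2 ^ (3 * σ) ≤ 2 ^ σ :=
    Nat.div_le_of_le_mul (by rw [← pow_add, show 3 * σ + σ = 4 * σ by ring]; omega)
  have h2 : 2 ^ t * 2 ^ σ ≤ 2 ^ (3 * σ) := by
    rw [← pow_add]; exact Nat.pow_le_pow_right (by omega) (by omega)
  have h3 : 2 ^ t ≤ 2 ^ (3 * σ) := Nat.pow_le_pow_right (by omega) (by omega)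
  have h4 := Nat.mul_le_mul_left (2 ^ t) h1
  have h5 : bt t z = bt t (y + 2 ^ t * w) := by rw [hz, bt_add]
  rw [Nat.add_mul_div_left _ _ (by positivity), h5, mul_add (2 * 2 ^ t)]
  rw [mul_assoc] at hz
  obtain rfl | rfl : w = 0 ∨ w = 1 := by omega
  · simp only [mul_zero, zero_mul, add_zero, Nat.xor_zero, mul_assoc, and_true] at hz ⊢
    omega
  simp only [mul_one, one_mul, mul_assoc] at hz ⊢
  have h6 := bt_xor t y
  rcases (by have := bt_lt t y; omega : bt t y = 0 ∨ bt t y = 1) with h | h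
  · rw [xor_of_zero h] at h6 ⊢
    rw [h6, h]
    omega
  · have h7 := xor_of_one h
    have h8 : bt t (y + 2 ^ t) = 0 := by
      rw [show y + 2 ^ t = (y ^^^ 2 ^ t) + 2 * 2 ^ t * 1 by omega, bt_add, h6, h]
    rw [h8, h6, h]
    omega

def eJ : PF := .half (.sub (.glob 15) (.cst 1))
def eBb : PF := .mul (.glob 19) (.pow (.cst mm) (.sub (.sub (.glob 15) (.cst 1)) eJ))
def eU : PF := .pow2 (.mul (.cst 3) (.div (.glob 19) (.cst 4)))
def eT : PF := .pow2 (.glob 17)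
def dl1 (ew : PF) : PF := .mul eT ew
def dl2 : PF := .mul (.dbl eT) (.div (eDg (.glob 4)) eU)
def dl3 (ew : PF) : PF := .mul eU (.mul ew (.sub (.cst 1) (.odd (.div (eDg (.glob 4)) eT))))

/-- Exchange the block at offset `glob 4` with the courier block. -/
noncomputable def swH : Cmd := swapM (.glob 18) (eRg (.glob 4)) eBb eJ (.div (.glob 8) (.glob 3))

theorem sw_gz (hP : P 1 = Tbody) (h : HC g B Zb rad D S kb nr ρ) {k n : ℕ}
    (hB : Bud g B (swap_lay.choose + (PF.glob 18).deg + (eRg (.glob 4)).deg + eBb.deg + eJ.deg +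
      (PF.div (.glob 8) (.glob 3)).deg) Zb)
    (g15 : g 15 = k + 1) (h1 : mm ^ k ≤ g 4) (h2 : g 4 + mm ^ k ≤ nr) (h3 : kb + nr < D)
    (hK : swap_lay.choose ≤ ρ) (hW : (2 ^ wT) ^ (k / 2) ∣ rad (D - 1))
    (hn : wt rad D * S = (2 ^ wT) ^ (k / 2) * n) :
    Gz P swH g rad D S (fun _ => True) (swp (mm ^ k) (kb + g 4) kb)
      (swap_lay.choose * (pdT ^ (k / 2) * (ρ * mm ^ (k - k / 2) + 1) * n +
        (k / 2 + 1) * mm ^ (k / 2) * (wt rad D * S))) := fun R => by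
  have m1 : mm ^ (k / 2) ≤ mm ^ (k - k / 2) :=
    Nat.pow_le_pow_right (by have := two_le_mm; omega) (by omega)
  have m2 : mm ^ (k - k / 2) ≤ mm ^ k := Nat.pow_le_pow_right (by have := two_le_mm; omega) (by omega)
  have m3 := h.nr_lt.trans (Nat.lt_two_pow_self (n := B))
  have m4 : ρ * mm ^ (k - k / 2) * mm ^ (k / 2) = ρ * mm ^ k := by
    rw [mul_assoc, ← pow_add]; congr 2; omega
  have e1 : eJ.eval g [] = k / 2 := by simp [eJ, g15]
  have r1 : ∀ s < mm ^ k, rad (kb + s) = 2 ^ ρ := fun s hs => h.reg _ (by omega)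
  have r2 : ∀ s < mm ^ k, rad (kb + g 4 + s) = 2 ^ ρ := fun s hs =>
    add_assoc kb _ s ▸ h.reg _ (by omega)
  refine swap_lay.choose_spec P hP (.glob 18) (eRg (.glob 4)) eBb eJ (.div (.glob 8) (.glob 3)) g B
    Zb rad D S kb (kb + g 4) (mm ^ k) _ _ n R _ _ hB
    h.gU h.g3 (by simp [h.g18]) (h.eRg (by simp) (by omega)) ?_ e1
    (by simp [h.g8, h.g3, Nat.mul_div_cancel _ h.S0]) (by omega) (by omega)
    (by rw [m4, pow_mul]; exact wt_const r1) (by rw [m4, pow_mul]; exact wt_const r2) ?_ hn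
    ((Nat.mul_le_mul hK m1).trans Nat.lt_two_pow_self.le) h.hZ h.pos h.sz fun x hx _ =>
    ⟨fun i hi => ?_, fun i hi => ?_, enc_congr (fun i hi => by rw [r1 i hi, r2 i hi]) fun i hi => ?_,
      enc_congr (fun i hi => by rw [r1 i hi, r2 i hi]) fun i hi => ?_⟩
  · rw [eBb, PF.eval_mul, eval_pow' h.gU (x := mm) (k := k - k / 2) rfl (by simp [e1, g15]) two_le_mm
      (by omega)]
    simp [h.g19]
  · obtain ⟨r, hr⟩ : ∃ r, D - (kb + g 4 + mm ^ k) = r + 1 :=
      ⟨D - (kb + g 4 + mm ^ k) - 1, by omega⟩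
    rw [hr, bw, wt, show kb + g 4 + mm ^ k + r = D - 1 by omega]
    exact hW.mul_left _
  · rw [swp, swI]
    split_ifs with a b
    · have := hx (kb + (i - (kb + g 4))) (by omega)
      rwa [r1 _ (by omega), ← r2 (i - (kb + g 4)) (by omega), Nat.add_sub_cancel' a.1] at this
    · have := hx (kb + g 4 + (i - kb)) (by omega)
      rwa [r2 _ (by omega), ← r1 (i - kb) (by omega), Nat.add_sub_cancel' b.1] at this
    · exact hx i hi
  · rw [swp, swI, if_neg (by omega), if_neg (by omega)]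
  · rw [swp, swI, if_neg (by omega), if_pos (by omega), Nat.add_sub_cancel_left]
  · rw [swp, swI, if_pos (by omega), Nat.add_sub_cancel_left]

/-- Flip bit `glob 17` of the digits of the block at offset `glob 4` where `ew` is one. -/
noncomputable def xshC (ew : PF) : Cmd :=
  .seq (baM true (.cst 0) (dl3 ew)) (.seq swH (.seq (baM true (.cst 0) dl2) (.seq swH
    (.seq (baM false (.cst 0) (dl3 ew)) (.seq swH (.seq (baM false (.cst 0) dl2) (.seq swH
    (baM false (.glob 4) (dl1 ew)))))))))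

def dXs (ew : PF) : ℕ := dBa true (.cst 0) (dl3 ew) + dBa true (.cst 0) dl2 +
  dBa false (.cst 0) (dl3 ew) + dBa false (.cst 0) dl2 + dBa false (.glob 4) (dl1 ew)

theorem xsh_gz (h : HC g B Zb rad D S kb nr ρ) {ew : PF} {σ ts : ℕ} (hB : Bud g B (dXs ew) Zb)
    (ed : ∀ l, eH.eval g l = d) (g17 : g 17 = t) (hρ : ρ = 4 * σ) (ht : t ≤ 2 * σ) (d0 : 0 < d)
    (h1 : d ≤ g 4) (h2 : g 4 + d ≤ nr) (w : (ℕ → ℕ) → ℕ → ℕ) (w1 : ∀ x s, w x s ≤ 1)
    (w2 : ∀ x y, (∀ k, kb + g 4 + d ≤ k → x k = y k) → w x = w y)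
    (w3 : ∀ x, Valid rad D x → ∀ k ≤ kb + g 4 + d, ∀ s < d, ∀ a,
      ew.eval g [s, a, enc rad (up k x) D] = w x s)
    (hs : Gz P swH g rad D S (fun _ => True) (swp d (kb + g 4) kb) ts) :
    Gz P (xshC ew) g rad D S (fun x => ∀ i < nr, x (kb + i) + 4 * 2 ^ (3 * σ) < 2 ^ (4 * σ))
      (fun x => fl t (fun k => if kb + g 4 ≤ k ∧ k < kb + g 4 + d then w x (k - (kb + g 4)) else 0) x)
      (4 * ts + 2000 * (wt rad D * S) + 8) := by
  have a1 : ∀ l, eT.eval g l = 2 ^ t := fun l => h.pow2 (by omega) (by simp [g17]) (by omega)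
  have a2 : ∀ l, eU.eval g l = 2 ^ (3 * σ) := fun l =>
    h.pow2 (by omega) (by simp [h.g19, hρ]) (by omega)
  have a3 : ∀ x, Valid rad D x → ∀ s < d, ∀ a, (eDg (.glob 4)).eval g
      [s, a, enc rad (up (kb + 0 + d) x) D] = x (kb + g 4 + s) := fun x hx s hs a =>
    h.eDg (by simp) (by omega) hx (by omega)
  have b1 := ba_gz (P := P) h (ng := false) (eo := .glob 4) (eδ := dl1 ew) (o := g 4)
    (hB.mono (by unfold dXs; omega)) ed (by simp) h2 (fun x s => 2 ^ t * w x s)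
    fun x hx s hs a => by rw [dl1, PF.eval_mul, a1, w3 x hx _ le_rfl s hs]
  have b2 := fun ng hB => ba_gz (P := P) h (ng := ng) (eo := .cst 0) (eδ := dl2) (o := 0) hB ed rfl
    (by omega) (fun x s => 2 * 2 ^ t * (x (kb + g 4 + s) / 2 ^ (3 * σ)))
    fun x hx s hs a => by rw [dl2, PF.eval_mul, PF.eval_dbl, PF.eval_div, a1, a2, a3 x hx s hs]
  have b3 := fun ng hB => ba_gz (P := P) h (ng := ng) (eo := .cst 0) (eδ := dl3 ew) (o := 0) hB ed rfl
    (by omega) (fun x s => 2 ^ (3 * σ) * (w x s * (1 - bt t (x (kb + g 4 + s)))))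
    fun x hx s hs a => by
      rw [dl3, PF.eval_mul, PF.eval_mul, PF.eval_sub, PF.eval_odd, PF.eval_div, a1, a2, a3 x hx s hs,
        w3 x hx _ (by omega) s hs]
      rfl
  refine ((b3 true (hB.mono (by unfold dXs; omega))).seq (hs.seq ((b2 true
    (hB.mono (by unfold dXs; omega))).seq (hs.seq ((b3 false (hB.mono (by unfold dXs; omega))).seq
    (hs.seq ((b2 false (hB.mono (by unfold dXs; omega))).seq (hs.seq b1)))))))).mono
    (fun x _ hx => ?_) (by omega)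
  have o : kb + d ≤ kb + g 4 := by omega
  have c0 : ∀ Y Z, w (st2 d (kb + g 4) kb x Y Z) = w x := fun Y Z => w2 _ _ fun k hk => by
    rw [st2, if_neg (by omega), if_neg (by omega)]
  obtain ⟨z, hz⟩ : ∃ z : ℕ → ℕ, ∀ s, z s =
    x (kb + g 4 + s) + 2 ^ t * w x s + 2 * 2 ^ t * (x (kb + s) / 2 ^ (3 * σ)) := ⟨_, fun _ => rfl⟩
  have cf := fun s (hs : s < d) => col_facts ht (add_assoc kb _ s ▸ hx (g 4 + s) (by omega))
    (hx s (by omega)) (w1 x s) (hz s)
  have c1 : bump false (kb + g 4) d (fun x s => 2 ^ t * w x s) x = st2 d (kb + g 4) kb x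
      (fun s => x (kb + g 4 + s) + 2 ^ t * w x s) fun s => x (kb + s) := by
    funext k
    simp only [bump, st2, Bool.false_eq_true, if_false]
    split_ifs with a b
    · rw [Nat.add_sub_cancel' a.1]
    · rw [Nat.add_sub_cancel' b.1]
    · rfl
  have c2 := st2_bump (x := x) (Y := fun s => x (kb + s)) (Z := fun s => x (kb + g 4 + s) +
    2 ^ t * w x s) (Z' := z) o (ng := false)
    (δ := fun x s => 2 * 2 ^ t * (x (kb + g 4 + s) / 2 ^ (3 * σ))) fun s hs => by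
      simp only [st2_hi hs, hz, Bool.false_eq_true, if_false]
  have c3 := st2_bump (x := x) (Y := z) (Z := fun s => x (kb + s))
    (Z' := fun s => x (kb + s) + 2 ^ (3 * σ) * (w x s * (1 - bt t (z s)))) o (ng := false)
    (δ := fun x s => 2 ^ (3 * σ) * (w x s * (1 - bt t (x (kb + g 4 + s))))) fun s hs => by
      simp only [st2_hi hs, c0, Bool.false_eq_true, if_false]
  have c4 := st2_bump (x := x) (Z := z) (Z' := fun s => x (kb + g 4 + s) ^^^ w x s * 2 ^ t)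
    (Y := fun s => x (kb + s) + 2 ^ (3 * σ) * (w x s * (1 - bt t (z s)))) o (ng := true)
    (δ := fun x s => 2 * 2 ^ t * (x (kb + g 4 + s) / 2 ^ (3 * σ))) fun s hs => by
      have := (cf s hs).2.2.2.1
      simp only [st2_hi hs, if_true]
      omega
  have c5 := st2_bump (x := x) (Y := fun s => x (kb + g 4 + s) ^^^ w x s * 2 ^ t)
    (Z := fun s => x (kb + s) + 2 ^ (3 * σ) * (w x s * (1 - bt t (z s)))) (Z' := fun s => x (kb + s))
    o (ng := true) (δ := fun x s => 2 ^ (3 * σ) * (w x s * (1 - bt t (x (kb + g 4 + s)))))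
    fun s hs => by simp only [st2_hi hs, c0, if_true, (cf s hs).2.2.2.2, Nat.add_sub_cancel]
  simp only [add_zero, c1, st2_sw o, c2, c3, c4, c5, Bool.false_eq_true, if_false, if_true, and_true,
    c0, hρ]
  refine ⟨⟨⟨⟨⟨fun s hs => (cf s hs).1, fun s hs => ?_⟩, fun s hs => ?_⟩, fun s hs => ?_⟩,
    fun s hs => ?_⟩, funext fun k => ?_⟩
  · rw [st2_hi hs, st2_lo o hs, ← hz]; exact (cf s hs).2.1
  · rw [st2_hi hs, st2_lo o hs]; exact (cf s hs).2.2.1
  · rw [st2_hi hs, st2_lo o hs]; exact le_of_add_le_right (cf s hs).2.2.2.1.le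
  · rw [st2_hi hs, st2_lo o hs, (cf s hs).2.2.2.2]; omega
  · simp only [st2, fl]
    split_ifs with a b
    · rw [Nat.add_sub_cancel' a.1, ZMod.val_cast_of_lt (by have := w1 x (k - (kb + g 4)); omega)]
    · simp [Nat.add_sub_cancel' b.1]
    · simp

end Vale.Agent.P338
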