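import Vale.Agent.P338.HLev

/-! Fast tensor powers of the butterfly. -/

namespace Vale.Agent.P338

open Function P344

/-- The body of procedure 2. -/
noncomputable def Hbody : Cmd := iff (.glob 15) (lett 8 (.div (.glob 8) (.cst (2 ^ wH)))
  (exec (.glob 8) (fun c => zipM true (.cst 0) (gtB c)) atH lH)) baseH

/-- The situation in which procedure 2 is called: `nr` regions of radix `2 ^ ρ` from position `kb`
on, of which the `mm ^ k` regions from offset `o` on are active. -/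
structure Cx (P : Tbl) (g : ℕ → ℕ) (B Zb : ℕ) (rad : ℕ → ℕ) (D p kb nr k o ρ σ K : ℕ)
    (Gd : (ℕ → ℕ) → Prop) : Prop where
  t1 : P 1 = Tbody
  t2 : P 2 = Hbody
  gU : g 0 + 1 = 2 ^ B
  g1 : g 1 = p
  g3 : g 3 = 2 * p
  g8 : g 8 = wt rad D * (2 * p)
  g15 : g 15 = k
  g16 : g 16 = o
  g18 : g 18 = wt rad kb
  g19 : g 19 = ρ
  p1 : 1 ≤ p
  reg : ∀ i < nr, rad (kb + i) = 2 ^ ρ
  ho : o + mm ^ k ≤ nr
  hD : kb + nr ≤ D
  hZ : Zb ≤ wt rad kb * (2 * p)
  pos : 0 < wt rad D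
  sz : 4 * (wt rad D * (2 * p)) < 2 ^ B
  net : 0 < k → ρ = 4 * σ ∧ K ≤ σ ∧ kb + nr < D ∧ mm ^ (k - 1) ≤ o ∧
    (2 ^ wH * 2 ^ wT) ^ k ∣ rad (D - 1) ∧
    (∀ x, Gd x → ∀ i < nr, x (kb + i) + 4 * 2 ^ (3 * σ) < 2 ^ (4 * σ)) ∧
    ∀ x y, Gd x → Gd (update x (D - 1) y)

variable {P : Tbl} {g rad : ℕ → ℕ} {B Zb t D kb nr ρ d p σ o K k ts : ℕ} {Gd : (ℕ → ℕ) → Prop}

theorem Cx.hc (h : Cx P g B Zb rad D p kb nr k o ρ σ K Gd) (h0 : 0 < ρ) :
    HC g B Zb rad D (2 * p) kb nr ρ :=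
  { h with S0 := by have := h.p1; omega, r0 := h0 }

structure KH (K : ℕ) : Prop where
  k1 : (PF.glob 15).deg ≤ K
  k2 : dFlip (eRg (.glob 16)) (.glob 17) ≤ K
  k3 : dZip (.cst 0) ≤ K
  k4 : (PF.div (.glob 8) (.cst (2 ^ wH))).deg ≤ K
  k5 : dExec (.glob 8) lH ≤ K
  k6 : swap_lay.choose + (PF.glob 18).deg + (eRg (.glob 4)).deg + eBb.deg + eJ.deg +
    (PF.div (.glob 8) (.glob 3)).deg ≤ K
  k7 : dXs (.cst 1) ≤ K
  k8 : lH.length * (2 * (mm * (4 * swap_lay.choose + 2100)) + 4000) + 6000 ≤ K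
  k9 : ∀ l < mm, (eOff l).deg + dXs (ewP l) + dLets (atLH l) ≤ K

theorem ubN (n : ℕ) (f : ℕ → ℕ) : ∃ K, ∀ l < n, f l ≤ K :=
  ⟨∑ l ∈ Finset.range n, f l, fun _ hl =>
    Finset.single_le_sum (fun _ _ => Nat.zero_le _) (Finset.mem_range.2 hl)⟩

theorem exists_KH : ∃ K, KH K := by
  obtain ⟨K, a1, a2, a3, a4, a5, a6, a7, a8⟩ := ub8 (PF.glob 15).deg
    (dFlip (eRg (.glob 16)) (.glob 17)) (dZip (.cst 0)) (PF.div (.glob 8) (.cst (2 ^ wH))).deg
    (dExec (.glob 8) lH) (swap_lay.choose + (PF.glob 18).deg + (eRg (.glob 4)).deg + eBb.deg +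
      eJ.deg + (PF.div (.glob 8) (.glob 3)).deg) (dXs (.cst 1))
    (lH.length * (2 * (mm * (4 * swap_lay.choose + 2100)) + 4000) + 6000)
  obtain ⟨L, b⟩ := ubN mm fun l => (eOff l).deg + dXs (ewP l) + dLets (atLH l)
  have h1 := Nat.le_add_right K L
  exact ⟨K + L, a1.trans h1, a2.trans h1, a3.trans h1, a4.trans h1, a5.trans h1, a6.trans h1,
    a7.trans h1, a8.trans h1, fun l hl => (b l hl).trans (Nat.le_add_left L K)⟩

theorem Hcall {Pre Post : List Bool → Prop} (hP : P 2 = Hbody) (hK : KH K) (hB : Bud g B K Zb)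
    (h : g 15 ≠ 0 → Step P (lett 8 (.div (.glob 8) (.cst (2 ^ wH)))
      (exec (.glob 8) (fun c => zipM true (.cst 0) (gtB c)) atH lH)) g Pre Post t)
    (h' : g 15 = 0 → Step P baseH g Pre Post t) : Step P (.call 2) g Pre Post (t + 20 * Zb + 1) :=
  Step.call (by rw [hP, Hbody]; exact Step.iff (hB.mono hK.k1) h h')

theorem net_cost {n c E W L Z : ℕ} (hW : 1 ≤ W) (hE : L ≤ E) (hZ : Z ≤ L) (h0 : 1 ≤ Z) :
    n * (2 * (c * E) + 3400 * E + 250 * (W * L) + 300 * Z + 1) ≤ n * (2 * c + 4000) * (W * E) := by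
  have c2 : E ≤ W * E := Nat.le_mul_of_pos_left _ hW
  have c3 := Nat.mul_le_mul_left W hE
  have c4 := Nat.mul_le_mul_left c c2
  rw [mul_assoc n]
  refine Nat.mul_le_mul_left _ ?_
  rw [add_mul, mul_assoc 2]
  omega

theorem netH_step {H tp E : ℕ} (hK : KH K) (hH : rad D = 2 ^ wH * H)
    (h : LC P g B Zb (update rad D H) (D + 1) (2 * p) kb nr σ d o t K (swap_lay.choose * E) Gd)
    (g1 : g 1 = p) (hD : kb + nr ≤ D) (hE : g 8 ≤ E) (hG : ∀ x y, Gd x → Gd (update x D y))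
    (ih : ∀ l < mm, ∀ v, Step P (.call 2) (update (update g 16 (o + l * d)) 15 (g 15 - 1))
      (RepH p (update rad D H) (D + 1) Gd v) (RepH p (update rad D H) (D + 1) Gd
        (Bop ((1 + jR p) * hf p) ((1 - jR p) * hf p) (fun i => kb + (o + l * d) + i) t d v)) tp)
    (v : (ℕ → ℕ) → RR p) :
    Step P (exec (.glob 8) (fun c => zipM true (.cst 0) (gtB c)) atH lH) g
      (RepH p rad (D + 1) Gd v) (RepH p rad (D + 1) Gd (Bop ((1 + jR p) * hf p) ((1 - jR p) * hf p)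
        (fun i => kb + o + i) t (mm * d) v))
      (lH.length * (2 * (mm * (4 * swap_lay.choose + 2100)) + 4000) * (2 ^ wH * E) + pdH * tp + 1) := by
  have hp : 1 ≤ p := by have := h.hc.S0; omega
  have g8 := h.hc.g8
  have z1 := h.hc.Z (k := D + 1) (by omega) le_rfl
  have z2 := h.bud.pos
  have o2 := h.o2
  obtain ⟨n1, -, n2⟩ := netH.choose_spec.choose_spec
  obtain ⟨Φ, p0, pa, p1, p2, p3⟩ := exists_Phi (jR_sq p) (two_hf hp) mm (kb + o) d t
  have n3 := n2 _ _ _ (two_hf hp) Φ p0 pa fun i x => v (update x D (i * H + x D))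
  have c1 : mm * (4 * (swap_lay.choose * E) + 2100 * (wt (update rad D H) (D + 1) * (2 * p))) ≤
      mm * (4 * swap_lay.choose + 2100) * E := by
    rw [mul_assoc mm, add_mul, mul_assoc 4]
    exact Nat.mul_le_mul_left _ (by omega)
  have key := exec_ok (P := P) (g := g) (B := B) (Zb := Zb)
    (t := 2 * (mm * (4 * swap_lay.choose + 2100) * E) + 3400 * E) (W := 2 ^ wH) (n := g 8)
    (hf := hf p) (Φ := Φ) (e := .glob 8) (gt := fun c => zipM true (.cst 0) (gtB c)) (at' := atH)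
    (tp := tp) (RepH p (update rad D H) (D + 1) Gd) (by simp) (fun v l hl => g8 ▸ hl.length)
    (fun c v v' => (gate_step h.hc g1 (h.bud.mono hK.k3) c v v').mono (fun _ _ h => h)
      (fun _ h => h) (by omega))
    lH (h.bud.mono hK.k5) n1 (fun i a b pd _ hb v => by
      cases pd
      · rw [hb, if_neg (by simp), show Φ _ v = _ from funext (p2 a v)]
        exact (atH_free h hK.k7 a _ v).le (by omega)
      · rw [hb, if_pos rfl, p1]
        exact (atH_paid h (fun l hl => by have := hK.k9 l hl; omega) a _ ih v).le (by simp; omega))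
    fun i x => v (update x D (i * H + x D))
  refine key.mono (fun l hl => ?_) (fun l hl => ?_) ?_
  · have := Lay.wires hH hl
    rw [← g8] at this
    exact this.mono fun i _ a ha => ha.mono fun x c _ _ e hx => e (hG _ _ hx)
  · refine (Wires.lay (R := fun i x c => Gd x → io p c = Φ 1 (fun x => v (update x D (i * H + x D))) x)
      hH (hl.mono fun i hi a ha => ?_)).mono fun x c _ _ e hx => ?_
    · rw [show lH.foldl (Ins.run (hf p) Φ) _ i = _ from n3 i hi] at ha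
      exact ha
    · rw [e (hG _ _ hx), p3, ← BopG_comp (γ := fun i => Pi.single (kb + o + i) 1)
        (ψ := fun y => update y D (x D / H * H + y D)) fun i hi y => by
          rw [fl_single, fl_single, update_of_ne (by omega), update_of_ne (by omega),
            update_comm (by omega)], Bop_eq]
      simp only [update_self, update_idem, Nat.div_add_mod', update_eq_self]
  · exact Nat.add_le_add_right (Nat.add_le_add_right
      (net_cost Nat.one_le_two_pow hE (g8 ▸ z1) z2) _) _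

theorem E_bound {θ : ℝ} (h0 : 0 < θ) (h1 : θ < 1) (h2 : (pdT : ℝ) ≤ 2 ^ wT * mm * θ ^ 2)
    (h3 : 1 ≤ mm * θ ^ 2) (k ρ n : ℕ) : ((pdT ^ (k / 2) * (ρ * mm ^ (k - k / 2) + 1) * n +
      (k / 2 + 1) * mm ^ (k / 2) * ((2 ^ wT) ^ (k / 2) * n) : ℕ) : ℝ) ≤
      (ρ + k + 2) * (mm * θ) ^ (k + 1) * ((2 ^ wT) ^ (k / 2) * n : ℕ) := by
  have hm : (1 : ℝ) ≤ mm := by have := two_le_mm; exact_mod_cast (by omega : 1 ≤ mm)
  have hj : ((k / 2 : ℕ) : ℝ) ≤ k := by exact_mod_cast Nat.div_le_self _ _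
  obtain ⟨j, hj'⟩ : ∃ j, j = k / 2 := ⟨_, rfl⟩
  rw [← hj'] at hj ⊢
  push_cast
  generalize (mm : ℝ) = m at *
  have a1 : 1 ≤ m * θ := h3.trans (by nlinarith [mul_pos (by linarith : 0 < m) h0])
  have a2 : m ^ j ≤ (m * θ) ^ (k + 1) := calc
    _ ≤ ((m * θ) ^ 2) ^ j := pow_le_pow_left₀ (by linarith) (by nlinarith) _
    _ ≤ _ := by rw [← pow_mul]; exact pow_le_pow_right₀ a1 (by omega)
  have a3 : (m * θ ^ 2) ^ j * m ^ (k - j) ≤ (m * θ) ^ (k + 1) := calc
    _ = m ^ k * θ ^ (2 * j) := by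
      rw [mul_pow, mul_right_comm, ← pow_add, ← pow_mul]; congr 2; omega
    _ ≤ m ^ k * θ ^ (2 * j) * (m * θ ^ 2) := le_mul_of_one_le_right (by positivity) h3
    _ = m ^ (k + 1) * θ ^ (2 * j + 2) := by ring
    _ ≤ m ^ (k + 1) * θ ^ (k + 1) := mul_le_mul_of_nonneg_left
      (pow_le_pow_of_le_one h0.le h1.le (by omega)) (by positivity)
    _ = _ := (mul_pow _ _ _).symm
  have a4 : (pdT : ℝ) ^ j ≤ (2 ^ wT) ^ j * (m * θ ^ 2) ^ j := by
    rw [← mul_pow, ← mul_assoc]; exact pow_le_pow_left₀ (by positivity) h2 _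
  have a5 : (1 : ℝ) ≤ m ^ (k - j) := one_le_pow₀ hm
  calc _ ≤ (2 ^ wT) ^ j * (m * θ ^ 2) ^ j * ((ρ + 1) * m ^ (k - j)) * n +
        (k + 1) * (m * θ) ^ (k + 1) * ((2 ^ wT) ^ j * n) := by gcongr; linarith
    _ = (ρ + 1) * ((m * θ ^ 2) ^ j * m ^ (k - j)) * ((2 ^ wT) ^ j * n) +
        (k + 1) * (m * θ) ^ (k + 1) * ((2 ^ wT) ^ j * n) := by ring
    _ ≤ (ρ + 1) * (m * θ) ^ (k + 1) * ((2 ^ wT) ^ j * n) +
        (k + 1) * (m * θ) ^ (k + 1) * ((2 ^ wT) ^ j * n) := by gcongr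
    _ = _ := by ring

theorem step_bound {θ X L K W E tp pd m k ρ : ℝ} (hX : 0 ≤ X) (hL : 0 ≤ L) (hK : 0 ≤ K) (hW : 0 ≤ W)
    (hk : 0 ≤ k) (hρ : 0 ≤ ρ) (hm : 0 ≤ m * θ) (hpd : pd ≤ W * m * θ) (htp0 : 0 ≤ tp)
    (htp : tp ≤ K * (k + 1) ^ 2 * (k * ρ + 1) * X * L) (hE : E ≤ (ρ + k + 2) * (X * (m * θ)) * L) :
    K * (W * E) + pd * tp ≤ K * (k + 1 + 1) ^ 2 * ((k + 1) * ρ + 1) * (X * (m * θ)) * (W * L) := by
  have h0 : 0 ≤ K * (X * (m * θ)) * (W * L) := by positivity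
  calc _ ≤ K * (W * ((ρ + k + 2) * (X * (m * θ)) * L)) +
        W * m * θ * (K * (k + 1) ^ 2 * (k * ρ + 1) * X * L) := by
        gcongr
        rw [mul_assoc]; positivity
    _ = (ρ + k + 2 + (k + 1) ^ 2 * (k * ρ + 1)) * (K * (X * (m * θ)) * (W * L)) := by ring
    _ ≤ ((k + 1 + 1) ^ 2 * ((k + 1) * ρ + 1)) * (K * (X * (m * θ)) * (W * L)) := by
        refine mul_le_mul_of_nonneg_right ?_ h0
        nlinarith [mul_nonneg hk hρ, mul_nonneg hk (mul_nonneg hk hρ)]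
    _ = _ := by ring

theorem lev_cost {θ : ℝ} {c w m pd Z L E K k ρ : ℕ} (hK : c + 6000 ≤ K) (h0 : 0 ≤ m * θ)
    (h2 : (pd : ℝ) ≤ 2 ^ w * m * θ) (z1 : Z ≤ L) (z2 : 1 ≤ Z) (b2 : L ≤ 2 ^ w * E)
    (b1 : (E : ℝ) ≤ (ρ + k + 2) * (m * θ) ^ (k + 1) * L) :
    ((c * (2 ^ w * E) + pd * ⌊(K * (k + 1) ^ 2 * (k * ρ + 1) * (m * θ) ^ k * L : ℝ)⌋₊ + 1 + 40 * Z +
      20 * Z + 1 : ℕ) : ℝ) ≤ K * ((k + 1 : ℕ) + 1) ^ 2 * ((k + 1 : ℕ) * ρ + 1) * (m * θ) ^ (k + 1) *
        (2 ^ w * L : ℕ) := by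
  have b3 := Nat.mul_le_mul_right (2 ^ w * E) hK
  have b5 := Nat.floor_le (show (0 : ℝ) ≤ K * (k + 1) ^ 2 * (k * ρ + 1) * (m * θ) ^ k * L
    by positivity)
  generalize ⌊(K * (k + 1) ^ 2 * (k * ρ + 1) * (m * θ) ^ k * L : ℝ)⌋₊ = tp at b5 ⊢
  rw [pow_succ] at b1
  rw [add_mul] at b3
  refine le_trans (Nat.cast_le.2 (show _ ≤ K * (2 ^ w * E) + pd * tp by omega)) ?_
  rw [pow_succ (m * θ : ℝ)]
  push_cast
  exact step_bound (by positivity) (by positivity) (by positivity) (by positivity) (by positivity)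
    (by positivity) h0 h2 (by positivity) b5 b1

theorem H_step {θ : ℝ} (hK : KH K) (h0 : 0 < θ) (h1 : θ < 1) (h2 : (pdH : ℝ) ≤ 2 ^ wH * mm * θ)
    (h3 : (pdT : ℝ) ≤ 2 ^ wT * mm * θ ^ 2) (h4 : 1 ≤ mm * θ ^ 2) (k : ℕ) :
    ∀ (g rad : ℕ → ℕ) (o : ℕ) (v : (ℕ → ℕ) → RR p), Cx P g B Zb rad D p kb nr k o ρ σ K Gd →
    Bud g B K Zb → g 17 = t → t < ρ → (0 < k → t ≤ 2 * σ) →
    (∀ x, Gd x → ∀ i < mm ^ k, Gd (update x (kb + o + i) (x (kb + o + i) ^^^ 2 ^ t))) →
    Step P (.call 2) g (RepH p rad D Gd v)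
      (RepH p rad D Gd (Bop ((1 + jR p) * hf p) ((1 - jR p) * hf p) (fun i => kb + o + i) t
        (mm ^ k) v))
      ⌊(K * (k + 1) ^ 2 * (k * ρ + 1) * (mm * θ) ^ k * (wt rad D * (2 * p) : ℕ) : ℝ)⌋₊ := by
  induction k with
  | zero =>
    intro g rad o v h hB g17 ht _ hc
    have h' := h.hc (by omega)
    have z1 := h'.Z (k := D) (by have := h.hD; omega) le_rfl
    have z2 := hB.pos
    have ho := h.ho
    obtain rfl := h.g16
    subst g17
    refine (Hcall h.t2 hK hB (fun e => absurd h.g15 e) fun _ => baseH_step h' h.g1 (hB.mono hK.k3)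
      (hB.mono hK.k2) ho ht (fun x hx => hc x hx 0 (by simp)) v).le (Nat.le_floor ?_)
    have := Nat.mul_le_mul_right (wt rad D * (2 * p)) (le_of_add_le_right hK.k8)
    simp only [Nat.cast_zero, zero_add, one_pow, mul_one, zero_mul, pow_zero]
    exact_mod_cast (by omega)
  | succ k ih =>
    intro g rad o v h hB g17 ht ht' hc
    obtain ⟨rfl, n2, n3, n4, ⟨H, hH⟩, n6, n7⟩ := h.net (by omega)
    obtain ⟨D, rfl⟩ : ∃ D', D = D' + 1 := ⟨D - 1, by omega⟩
    simp only [Nat.add_sub_cancel] at n4 hH n7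
    have ho := h.ho
    rw [pow_succ', mul_assoc, mul_assoc] at hH
    rw [pow_succ'] at ho hc
    have hw := wt_top hH
    have hW : 0 < 2 ^ wH := by positivity
    have hd1 : (2 ^ wH * 2 ^ wT) ^ k ∣ 2 ^ wT * ((2 ^ wH * 2 ^ wT) ^ k * H) :=
      (dvd_mul_right _ _).mul_left _
    generalize 2 ^ wT * ((2 ^ wH * 2 ^ wT) ^ k * H) = H' at hH hw hd1
    have w1 : ∀ k ≤ D, wt (update rad D H') k = wt rad k := fun k hk => wt_update_le hk _
    have hl : wt (update rad D H') (D + 1) * (2 * p) ≤ wt rad (D + 1) * (2 * p) := by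
      rw [hw, mul_assoc]; exact Nat.le_mul_of_pos_left _ hW
    have hd2 : (2 ^ wT) ^ (k / 2) ∣ H' :=
      ((pow_dvd_pow _ (Nat.div_le_self _ _)).trans (pow_dvd_pow_of_dvd (dvd_mul_left _ _) _)).trans hd1
    obtain ⟨n, hn⟩ : (2 ^ wT) ^ (k / 2) ∣ wt (update rad D H') (D + 1) * (2 * p) := by
      rw [wt, update_self]; exact (hd2.mul_left _).mul_right _
    have sz := h.sz
    have m0 : 0 < mm ^ k := by have := two_le_mm; positivity
    have m1 : mm ^ k ≤ mm * mm ^ k := Nat.le_mul_of_pos_left _ (by have := two_le_mm; omega)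
    have cx : ∀ g' o', g' 0 = g 0 → g' 1 = p → g' 3 = g 3 →
        g' 8 = wt (update rad D H') (D + 1) * (2 * p) → g' 15 = k → g' 16 = o' → g' 18 = g 18 →
        g' 19 = g 19 → o ≤ o' → o' + mm ^ k ≤ nr →
        Cx P g' B Zb (update rad D H') (D + 1) p kb nr k o' (4 * σ) σ K Gd :=
      fun g' o' a0 a1 a3 a8 a15 a16 a18 a19 b1 b2 =>
      { h with
        gU := a0 ▸ h.gU, g1 := a1, g3 := a3 ▸ h.g3, g8 := a8, g15 := a15, g16 := a16
        g18 := by rw [a18, w1 _ (by omega), h.g18]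
        g19 := a19 ▸ h.g19
        reg := fun i hi => by rw [update_of_ne (by omega), h.reg i hi]
        ho := b2
        hZ := by rw [w1 _ (by omega)]; exact h.hZ
        pos := Nat.pos_of_mul_pos_left (hw ▸ h.pos)
        sz := by omega
        net := fun _ => ⟨rfl, n2, n3, ((Nat.pow_le_pow_right (by have := two_le_mm; omega)
          (by omega)).trans n4).trans b1, by simpa using hd1, n6, n7⟩ }
    obtain ⟨g', hg⟩ : ∃ g', g' = update g 8 (wt (update rad D H') (D + 1) * (2 * p)) := ⟨_, rfl⟩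
    have hB' : Bud g' B K Zb := hg ▸ hB.set 8 (by omega)
    have g15 : g' 15 = k + 1 := by simp [hg, h.g15]
    have h' : HC g' B Zb (update rad D H') (D + 1) (2 * p) kb nr (4 * σ) := by
      have := ((cx (update (update g' 16 o) 15 k) o (by simp [hg]) (by simp [hg, h.g1])
        (by simp [hg]) (by simp [hg]) (by simp) (by simp) (by simp [hg]) (by simp [hg]) le_rfl
        (by omega)).hc (by omega))
      exact { this with
        gU := by simpa using this.gU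
        g3 := by simpa using this.g3
        g8 := by simpa using this.g8
        g18 := by simpa using this.g18
        g19 := by simpa using this.g19 }
    have nb := h'.nr_lt.trans (Nat.lt_two_pow_self (n := B))
    have ed : ∀ g'' l, g'' 0 = g' 0 → g'' 15 = k + 1 → eH.eval g'' l = mm ^ k := fun g'' l a b =>
      eval_pow' (a ▸ h'.gU) rfl (by simp [b]) two_le_mm (by omega)
    have hs : swap_lay.choose ≤ 4 * σ := by have := hK.k6; omega
    have key := netH_step (P := P) (g := g') (B := B) (Zb := Zb) (kb := kb) (nr := nr) (σ := σ)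
      (d := mm ^ k) (o := o) (t := t) (Gd := Gd)
      (E := pdT ^ (k / 2) * (4 * σ * mm ^ (k - k / 2) + 1) * n +
        (k / 2 + 1) * mm ^ (k / 2) * (wt (update rad D H') (D + 1) * (2 * p))) hK hH
      { hc := h', bud := hB', ed := fun v l => ed _ l (by simp) (by simpa), ed' := ed _ _ rfl g15
        g16 := by simp [hg, h.g16], g17 := by simp [hg, g17], ht := ht' (by omega), d0 := m0
        o1 := n4, o2 := ho, sl := n6, cl := hc
        sw := fun v a b => by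
          simpa using sw_gz (P := P) h.t1 (h'.upd (i := 4) (by omega) v)
            ((hB'.set 4 (by omega)).mono hK.k6) (k := k) (by simpa) (by simpa) (by simpa) n3 hs
            (by simpa) hn
        k1 := fun l hl => by have := hK.k9 l hl; omega }
      (by simp [hg, h.g1]) (by omega) (by
        rw [h'.g8]
        exact le_add_left (Nat.le_mul_of_pos_left _ (by have := two_le_mm; positivity))) n7
      (fun l hl v => by
        have m2 : (l + 1) * mm ^ k ≤ mm * mm ^ k := Nat.mul_le_mul_right _ hl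
        rw [add_mul] at m2
        refine ih _ _ _ v (cx _ _ (by simp [hg]) (by simp [hg, h.g1]) (by simp [hg]) (by simp [hg])
          (by simp [g15]) (by simp) (by simp [hg]) (by simp [hg]) (by omega) (by omega))
          ((hB'.set 16 (by omega)).set 15 (by have := hB'.lt (i := 15) (by omega); omega))
          (by simp [hg, g17]) ht (fun _ => ht' (by omega)) fun x hx i hi => ?_
        simpa only [add_assoc] using hc x hx (l * mm ^ k + i) (by omega)) v
    rw [← pow_succ', hg] at key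
    refine (Hcall h.t2 hK hB (fun _ => Step.lett (by omega) (hB.mono hK.k4) (by
        simp only [PF.eval_div, PF.eval_glob, PF.eval_cst, Nat.reduceLT, if_true, h.g8]
        rw [hw, mul_assoc, Nat.mul_div_cancel_left _ hW]) key)
      fun e => absurd e (by simp [h.g15])).le (Nat.le_floor ?_)
    have z1 := h'.Z (k := D + 1) (by omega) le_rfl
    have z2 := hB.pos
    have b1 := E_bound h0 h1 h3 h4 k (4 * σ) n
    rw [← hn] at b1
    rw [hw, mul_assoc (2 ^ wH)]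
    exact lev_cost hK.k8 (by positivity) h2 z1 z2 ((le_add_left (Nat.le_mul_of_pos_left _
      (by have := two_le_mm; positivity))).trans (Nat.le_mul_of_pos_left _ hW)) b1

theorem hnet_lay : ∃ (K : ℕ) (θ : ℝ), 0 < θ ∧ θ ≤ 1 - 1 / 2 ^ 41 ∧ ∀ (P : Tbl) (g : ℕ → ℕ) (B Zb : ℕ)
    (rad : ℕ → ℕ) (D p kb nr k o ρ σ t : ℕ) (Gd : (ℕ → ℕ) → Prop) (v : (ℕ → ℕ) → RR p),
    Cx P g B Zb rad D p kb nr k o ρ σ K Gd → Bud g B K Zb → g 17 = t → t < ρ →
    (0 < k → t ≤ 2 * σ) →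
    (∀ x, Gd x → ∀ i < mm ^ k, Gd (update x (kb + o + i) (x (kb + o + i) ^^^ 2 ^ t))) →
    Step P (.call 2) g (RepH p rad D Gd v)
      (RepH p rad D Gd (Bop ((1 + jR p) * hf p) ((1 - jR p) * hf p) (fun i => kb + o + i) t
        (mm ^ k) v))
      ⌈(K * (k + 1) ^ 2 * (k * ρ + 1) * (mm * θ) ^ k * (wt rad D * (2 * p) : ℕ) : ℝ)⌉₊ := by
  obtain ⟨K, hK⟩ := exists_KH
  have hm : (2 : ℝ) ≤ mm := by exact_mod_cast two_le_mm
  have h2 := pdH_sav.real (Nat.mul_pos (by positivity) (by decide))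
  have h3 := pdT_sav.real (Nat.mul_pos (by positivity) (by decide))
  push_cast at h2 h3
  rw [div_le_iff₀' (by positivity)] at h2 h3
  exact ⟨K, 1 - 1 / 2 ^ 41, by norm_num, le_rfl,
    fun P g B Zb rad D p kb nr k o ρ σ t Gd v a1 a2 a3 a4 a5 a6 =>
    (H_step hK (by norm_num) (by norm_num)
      (h2.trans (mul_le_mul_of_nonneg_left (by norm_num) (by positivity)))
      (h3.trans (mul_le_mul_of_nonneg_left (by norm_num) (by positivity)))
      (le_trans (by norm_num) (mul_le_mul_of_nonneg_right hm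
        (by positivity))) k g rad o v a1 a2 a3 a4 a5 a6).le (Nat.floor_le_ceil _)⟩

end Vale.Agent.P338
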