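import Vale.Agent.P338.Diag

/-! Riffles of an array with three digits. -/

namespace Vale.Agent.P338

open Function

variable {P : Tbl} {g : ℕ → ℕ} {B Zb Z Y W S : ℕ}

theorem lay3_iff {R : ℕ → ℕ → ℕ → List Bool → Prop} {l : List Bool} :
    Lay (rad3 Z Y W) 3 S (fun y => R (y 0) (y 1) (y 2)) l ↔
      ∃ u : ℕ → List Bool, l = flat (Z * Y * W) u ∧ (∀ j < Z * Y * W, (u j).length = S) ∧
        ∀ a < Z, ∀ b < Y, ∀ c < W, R a b c (u (a + Z * (b + Y * c))) := by
  have hw : wt (rad3 Z Y W) 3 = Z * Y * W := by simp [wt, rad3]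
  have he : ∀ x, enc (rad3 Z Y W) x 3 = x 0 + Z * (x 1 + Y * x 2) := fun x => by
    simp [enc, wt, rad3]; ring
  unfold Lay
  rw [hw]
  refine exists_congr fun u => and_congr_right fun _ => and_congr_right fun _ => ?_
  constructor
  · intro h a ha b hb c hc
    have := h (fun j => if j = 0 then a else if j = 1 then b else c) fun j hj => by
      simp only [rad3]; split_ifs <;> assumption
    rw [he] at this
    simpa using this
  · intro h x hx
    rw [he]
    exact h _ (by simpa [rad3] using hx 0 (by omega)) _ (by simpa [rad3] using hx 1 (by omega)) _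
      (by simpa [rad3] using hx 2 (by omega))

theorem flat_two (H : ℕ) (u : ℕ → List Bool) :
    flat (H * 2) u = flat H fun i => u (i * 2) ++ u (i * 2 + 1) := by
  rw [flat_mul]
  exact flat_congr fun i _ => by simp [flat_succ]

/-- Interleave the two halves; `eh` is the length of a half. -/
def rifM (eh : PF) : Cmd :=
  loc 4 (loc 17 (.seq (ruler 17 eh []) (.seq (tk 4 3 17) (passE (.glob 3) (.glob 3) (app 13 12)))))

def dRif (eh : PF) : ℕ := eh.deg + 2 * (PF.glob 3).deg + 8

theorem rif_ok {eh : PF} {H : ℕ} {σ : St} {u : ℕ → List Bool} (hg : Num σ g)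
    (hB : Bud g B (dRif eh) Zb) (he : eh.eval g [] = H * S) (hS : g 3 = S) (hS0 : 0 < S)
    (hH : 0 < H) (h3 : σ 3 = flat (H + H) u) (hu : ∀ j < H + H, (u j).length = S) :
    Ok P (rifM eh) σ (update σ 3 (flat H fun i => u i ++ u (H + i)))
      (300 * (H * S) + 150 * Zb) := by
  have hg' : Num (update (update σ 4 []) 17 []) g := (hg.upd _ (by omega)).upd _ (by omega)
  have r1 := ruler_ok (P := P) eh (d := 17) (regs := []) (l := []) hg' rfl (by simp) (by omega)
    hB.sz (by simp)
  rw [he] at r1
  obtain ⟨s1, s2⟩ := flat_split hu (Nat.le_add_right H H)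
  rw [Nat.add_sub_cancel] at s2
  have key := passE_ok (P := P) (body := app 13 12) (B := B) (Zb := Zb) (eG := .glob 3)
    (eG' := .glob 3) (H := H) (G := S) (G' := S) (Go := 2 * S) (fa := fun j => u (H + j)) (fb := u)
    (fo := fun i => u i ++ u (H + i)) (I := fun _ => []) (rest := []) (t := 4 * S + 9)
    (σ := update (update (update σ 17 (List.replicate (H * S) true)) 3
      (flat H fun j => u (H + j))) 4 (flat H u))
    (((hg.upd _ (by omega)).upd _ (by omega)).upd _ (by omega))
    (hB.mono (by unfold dRif; omega)) (by simp [hS]) (by simp [hS]) hS0 (by simp) (by simp) rfl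
    (fun i hi => hu _ (by omega)) (fun i hi => hu _ (by omega))
    (fun i hi => by rw [List.length_append, hu _ (by omega), hu _ (by omega)]; omega)
    fun i hi => Body0.body fun τ _ a2 a3 =>
      (app_ok τ (by omega) (by omega) (by omega)).mono (by rw [a2, a3])
        (by rw [a3, hu _ (by omega)])
  refine (Ok.loc (Ok.loc (r1.seq (((tk_ok _ (by omega) (by omega) (by omega) (by omega) (by omega)
    (by omega)).mono ?_ le_rfl).seq key)))).mono ?_ ?_
  · funext v
    simp only [update_apply, Nat.reduceEqDiff, reduceIte, List.length_replicate, h3, s1, s2,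
      List.append_nil]
    split_ifs <;> first | omega | rfl
  · funext v
    simp only [update_apply]
    split_ifs <;> subst_vars <;> first | omega | rfl
  · have := hB.pow (K' := eh.deg + 8) (by unfold dRif; omega)
    have := hB.pos
    have : S ≤ H * S := Nat.le_mul_of_pos_left _ hH
    have : H ≤ H * S := Nat.le_mul_of_pos_right _ hS0
    simp
    nlinarith

theorem rif_lay {eh : PF} {R : ℕ → ℕ → ℕ → List Bool → Prop} (hB : Bud g B (dRif eh) Zb)
    (he : eh.eval g [] = Z * Y * W * S) (hS : g 3 = S) (hS0 : 0 < S) (h0 : 0 < Z * Y * W) :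
    Step P (rifM eh) g (Lay (rad3 Z Y (2 * W)) 3 S fun y => R (y 0) (y 1) (y 2))
      (Lay (rad3 (2 * Z) Y W) 3 S fun y => R (y 0 / 2) (y 1) (y 0 % 2 * W + y 2))
      (300 * (Z * Y * W * S) + 150 * Zb) := by
  intro σ hg h
  obtain ⟨u, h1, h2, h3⟩ := lay3_iff.mp h
  have e : Z * Y * (2 * W) = Z * Y * W + Z * Y * W := by ring
  rw [e] at h1 h2
  refine ⟨_, (lay3_iff (R := fun a b c => R (a / 2) b (a % 2 * W + c))).mpr
    ⟨fun j => u (j % 2 * (Z * Y * W) + j / 2), ?_, fun j hj => h2 _ ?_, fun a ha b hb c hc => ?_⟩,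
    rif_ok hg hB he hS hS0 h0 h1 h2⟩
  · rw [show 2 * Z * Y * W = Z * Y * W * 2 by ring, flat_two]
    refine flat_congr fun i _ => ?_
    rw [show i * 2 % 2 = 0 by omega, show i * 2 / 2 = i by omega,
      show (i * 2 + 1) % 2 = 1 by omega, show (i * 2 + 1) / 2 = i by omega]
    simp
  · rw [show 2 * Z * Y * W = Z * Y * W * 2 by ring] at hj
    rcases Nat.mod_two_eq_zero_or_one j with h | h <;> rw [h] <;> omega
  · have := h3 (a / 2) (by omega) b hb (a % 2 * W + c) (by
      rcases Nat.mod_two_eq_zero_or_one a with h | h <;> rw [h] <;> omega)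
    beta_reduce
    rw [mul_assoc 2, Nat.add_mul_mod_self_left, Nat.add_mul_div_left _ _ (by omega)]
    convert this using 2
    ring

def unrifB : Cmd := .seq (tk 13 12 17) (.seq (mov 12 14) (app 13 12))

/-- The cells at even places, then the cells at odd places. -/
def unrifM : Cmd :=
  loc 14 (loc 15 (loc 16 (loc 17 (.seq (ruler 15 (.dbl (.glob 3)) []) (.seq (ruler 17 (.glob 3) [])
    (.seq (pass unrifB) (loc 5 (.seq (mov 14 5) (.seq (app 3 5) (app 5 3))))))))))

def dUnrif : ℕ := (PF.dbl (.glob 3)).deg + (PF.glob 3).deg + 8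

theorem unrif_ok {H : ℕ} {σ : St} {u v : ℕ → List Bool} (hg : Num σ g)
    (hB : Bud g B dUnrif Zb) (hS : g 3 = S) (hS0 : 0 < S)
    (hH : 0 < H) (h3 : σ 3 = flat H fun i => u i ++ v i) (hu : ∀ j < H, (u j).length = S)
    (hv : ∀ j < H, (v j).length = S) :
    Ok P unrifM σ (update σ 3 (flat H u ++ flat H v)) (300 * (H * S) + 150 * Zb) := by
  have hg' : Num (update (update (update (update σ 14 []) 15 []) 16 []) 17 []) g :=
    (((hg.upd _ (by omega)).upd _ (by omega)).upd _ (by omega)).upd _ (by omega)
  have r1 := ruler_ok (P := P) (.dbl (.glob 3)) (d := 15) (regs := []) (l := []) hg' rfl (by simp)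
    (by omega) hB.sz (by simp)
  have r2 := ruler_ok (P := P) (.glob 3) (d := 17) (regs := []) (l := [])
    (hg'.upd (v := 15) (List.replicate ((PF.dbl (.glob 3)).eval g []) true) (by omega)) rfl
    (by simp) (by omega) hB.sz (by simp)
  simp only [PF.eval_dbl, PF.eval_glob, Nat.reduceLT, reduceIte, hS] at r1 r2
  have key := pass_ok (P := P) (body := unrifB) (H := H) (G := 2 * S) (G' := 0) (Go := S)
    (fa := fun i => u i ++ v i) (fb := fun _ => []) (fo := u) (I := fun i => (flat i v).reverse)
    (rest := σ 4) (t := 15 * S + 40)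
    (σ := update (update (update (update (update (update σ 14 []) 15 []) 16 []) 17 []) 15
      (List.replicate (2 * S) true)) 17 (List.replicate S true))
    (by omega) (by simpa using h3) (by simp) (by simp) (by simp) (by simp)
    (fun i hi => by rw [List.length_append, hu _ hi, hv _ hi]; omega) (by simp)
    (fun i hi => (hu i hi).le) fun i hi τ a1 a2 a3 a4 => by
      have a5 : (τ 17).length = S := by rw [a1 17 (by unfold Out; omega)]; simp
      refine ((tk_ok _ (by omega) (by omega) (by omega) (by omega) (by omega) (by omega)).seq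
        ((mov_ok _ (by omega)).seq (app_ok _ (by omega) (by omega) (by omega)))).mono ?_ ?_
      · funext w
        simp only [update_apply, Nat.reduceEqDiff, reduceIte, a2, a3, a4, a5, List.append_nil,
          takeD_append' (hu i hi), drop_append' (hu i hi), flat_succ, List.reverse_append]
        split_ifs <;> first | omega | rfl
      · simp [a2, a3, a5, hv i hi, drop_append' (hu i hi)]; omega
  have l1 := length_flat hu
  have l2 := length_flat hv
  refine (Ok.loc (Ok.loc (Ok.loc (Ok.loc (r1.seq (r2.seq (key.seq (Ok.loc ((mov_ok _ (by omega)).seq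
    ((app_ok _ (by omega) (by omega) (by omega)).seq
    (app_ok _ (by omega) (by omega) (by omega)))))))))))).mono ?_ ?_
  · funext w
    simp only [update_apply, Nat.reduceEqDiff, reduceIte, List.append_nil, List.reverse_reverse]
    split_ifs <;> subst_vars <;> first | omega | rfl
  · have := hB.pow (K' := (PF.dbl (.glob 3)).deg + 8) (by unfold dUnrif; omega)
    have := hB.pow (K' := (PF.glob 3).deg + 8) (by unfold dUnrif; omega)
    have := hB.pos
    have : S ≤ H * S := Nat.le_mul_of_pos_left _ hH
    have : H ≤ H * S := Nat.le_mul_of_pos_right _ hS0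
    simp [l1, l2]
    nlinarith

theorem unrif_lay {R : ℕ → ℕ → ℕ → List Bool → Prop} (hB : Bud g B dUnrif Zb)
    (hS : g 3 = S) (hS0 : 0 < S) (h0 : 0 < Z * Y * W) :
    Step P unrifM g (Lay (rad3 (2 * Z) Y W) 3 S fun y => R (y 0) (y 1) (y 2))
      (Lay (rad3 Z Y (2 * W)) 3 S fun y => R (2 * y 0 + y 2 / W) (y 1) (y 2 % W))
      (300 * (Z * Y * W * S) + 150 * Zb) := by
  intro σ hg h
  obtain ⟨u, h1, h2, h3⟩ := lay3_iff.mp h
  have hW : 0 < W := Nat.pos_of_mul_pos_left h0
  rw [show 2 * Z * Y * W = Z * Y * W * 2 by ring] at h1 h2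
  rw [flat_two] at h1
  generalize hH : Z * Y * W = H at *
  have e : Z * Y * (2 * W) = H + H := by rw [← hH]; ring
  refine ⟨_, (lay3_iff (R := fun a b c => R (2 * a + c / W) b (c % W))).mpr
    ⟨fun j => if j < H then u (j * 2) else u ((j - H) * 2 + 1), ?_, fun j hj => ?_,
      fun a ha b hb c hc => ?_⟩,
    unrif_ok hg hB hS hS0 h0 h1 (fun j hj => h2 _ (by omega)) fun j hj => h2 _ (by omega)⟩
  · rw [e, flat_add]
    congr 1
    · exact flat_congr fun i hi => by rw [if_pos hi]
    · exact flat_congr fun i hi => by rw [if_neg (by omega), Nat.add_sub_cancel_left]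
  · rw [e] at hj
    beta_reduce
    split_ifs <;> exact h2 _ (by omega)
  · have hm := Nat.mod_lt c hW
    have hd : c / W < 2 := Nat.div_lt_of_lt_mul (by omega)
    have := h3 (2 * a + c / W) (by omega) b hb (c % W) hm
    have h4 : a + Z * (b + Y * (c % W)) < H := by
      rw [← hH, mul_assoc]; exact lt_mul_of ha (lt_mul_of hb hm)
    have h5 : a + Z * (b + Y * c) = a + Z * (b + Y * (c % W)) + c / W * H := by
      conv_lhs => rw [← Nat.mod_add_div c W]
      rw [← hH]; ring
    beta_reduce
    rw [h5]
    generalize c / W = d at *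
    rcases (by omega : d = 0 ∨ d = 1) with h | h <;> rw [h] at this ⊢
    · rw [if_pos (by omega)]
      convert this using 2
      ring
    · rw [if_neg (by omega), one_mul, Nat.add_sub_cancel]
      convert this using 2
      ring

end Vale.Agent.P338
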