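import Vale.Agent.P338.IoA

/-! Cutting, padding and chunking of bit strings. -/

namespace Vale.Agent.P338

open Function

variable {P : Tbl} {g : ℕ → ℕ} {B Zb S n : ℕ}

/-- Keep the first `e` bits, padding with zeros. -/
def takeM (e : PF) : Cmd :=
  loc 5 (loc 17 (.seq (ruler 17 e []) (.seq (tk 5 3 17) (.seq (clr 3) (app 5 3)))))

theorem take_ok {e : PF} (hB : Bud g B (e.deg + 8) Zb) (he : e.eval g [] = n) (l : List Bool) :
    Step P (takeM e) g (· = l) (· = l.takeD n false) (50 * n + 2 * l.length + 70 * Zb) := by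
  rintro σ hg rfl
  have r1 := ruler_ok (P := P) e (d := 17) (regs := []) (l := [])
    ((hg.upd (v := 5) [] (by omega)).upd (v := 17) [] (by omega)) rfl (by simp) (by omega)
    hB.sz (by simp)
  rw [he] at r1
  refine ⟨_, rfl, (Ok.loc (Ok.loc (r1.seq ((tk_ok _ (by omega) (by omega) (by omega) (by omega)
    (by omega) (by omega)).seq ((clr_ok _ _).seq
    (app_ok _ (by omega) (by omega) (by omega))))))).mono ?_ ?_⟩
  · funext v
    simp only [update_apply, Nat.reduceEqDiff, reduceIte, List.length_replicate, List.append_nil]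
    split_ifs <;> subst_vars <;> first | omega | rfl
  · have := hB.le
    have := hB.pos
    simp; omega

/-- Drop the first `e` bits. -/
def skipM (e : PF) : Cmd := loc 5 (loc 17 (.seq (ruler 17 e []) (tk 5 3 17)))

theorem skip_ok {e : PF} (hB : Bud g B (e.deg + 8) Zb) (he : e.eval g [] = n) (l : List Bool) :
    Step P (skipM e) g (· = l) (· = l.drop n) (50 * n + 70 * Zb) := by
  rintro σ hg rfl
  have r1 := ruler_ok (P := P) e (d := 17) (regs := []) (l := [])
    ((hg.upd (v := 5) [] (by omega)).upd (v := 17) [] (by omega)) rfl (by simp) (by omega)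
    hB.sz (by simp)
  rw [he] at r1
  refine ⟨_, rfl, (Ok.loc (Ok.loc (r1.seq (tk_ok _ (by omega) (by omega) (by omega) (by omega)
    (by omega) (by omega))))).mono ?_ ?_⟩
  · funext v
    simp only [update_apply, Nat.reduceEqDiff, reduceIte, List.length_replicate, List.append_nil]
    split_ifs <;> subst_vars <;> first | omega | rfl
  · have := hB.le
    have := hB.pos
    simp; omega

theorem takeD_nil' (n : ℕ) : ([] : List Bool).takeD n false = List.replicate n false := by
  simp

/-- Put `e` zeros in front. -/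
def padM (e : PF) : Cmd := loc 5 (loc 17 (.seq (ruler 17 e []) (tk 3 5 17)))

theorem pad_ok {e : PF} (hB : Bud g B (e.deg + 8) Zb) (he : e.eval g [] = n) (l : List Bool) :
    Step P (padM e) g (· = l) (· = List.replicate n false ++ l) (50 * n + 70 * Zb) := by
  rintro σ hg rfl
  have r1 := ruler_ok (P := P) e (d := 17) (regs := []) (l := [])
    ((hg.upd (v := 5) [] (by omega)).upd (v := 17) [] (by omega)) rfl (by simp) (by omega)
    hB.sz (by simp)
  rw [he] at r1
  refine ⟨_, rfl, (Ok.loc (Ok.loc (r1.seq (tk_ok _ (by omega) (by omega) (by omega) (by omega)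
    (by omega) (by omega))))).mono ?_ ?_⟩
  · funext v
    simp only [update_apply, Nat.reduceEqDiff, reduceIte, List.length_replicate, takeD_nil']
    split_ifs <;> subst_vars <;> first | omega | rfl
  · have := hB.le
    have := hB.pos
    simp; omega

def chkB : Cmd := .seq (tk 12 13 61) (.seq (tk 13 12 60) (app 13 12))

/-- Turn every chunk of parameter 14 bits into an item, shifted by parameter 28 bits. -/
def chkM : Cmd :=
  loc 60 (loc 61 (.seq (ruler 60 (.glob 3) []) (.seq (ruler 61 (.glob 28) [])
    (passE (.glob 14) (.cst 0) chkB))))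

def dChk : ℕ := (PF.glob 3).deg + (PF.glob 28).deg + (PF.glob 14).deg + (PF.cst 0).deg + 8

theorem chk_ok {H b f0 : ℕ} {σ : St} {w : ℕ → List Bool} (hg : Num σ g) (hB : Bud g B dChk Zb)
    (hS : g 3 = S) (hb : g 14 = b) (hf : g 28 = f0) (b0 : 0 < b) (hbS : f0 + b ≤ S) (hH : 0 < H)
    (h3 : σ 3 = flat H w) (hw : ∀ j < H, (w j).length = b) :
    Ok P chkM σ (update σ 3 (flat H fun j => (List.replicate f0 false ++ w j).takeD S false))
      (300 * (H * S) + 150 * Zb) := by
  have hg' : Num (update (update σ 60 []) 61 []) g := (hg.upd _ (by omega)).upd _ (by omega)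
  have r1 := ruler_ok (P := P) (.glob 3) (d := 60) (regs := []) (l := []) hg' rfl (by simp)
    (by omega) hB.sz (by simp)
  have r2 := ruler_ok (P := P) (.glob 28) (d := 61) (regs := []) (l := [])
    (hg'.upd (v := 60) (List.replicate ((PF.glob 3).eval g []) true) (by omega)) rfl (by simp)
    (by omega) hB.sz (by simp)
  simp only [PF.eval_glob, Nat.reduceLT, reduceIte, hS, hf] at r1 r2
  have key := passE_ok (P := P) (body := chkB) (B := B) (Zb := Zb) (eG := .glob 14)
    (eG' := .cst 0) (H := H) (G := b) (G' := 0) (Go := S) (fa := w) (fb := fun _ => [])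
    (fo := fun j => (List.replicate f0 false ++ w j).takeD S false) (I := fun _ => [])
    (rest := σ 4) (t := 22 * S + 50)
    ((hg'.upd (v := 60) (List.replicate S true) (by omega)).upd (v := 61) (List.replicate f0 true)
      (by omega)) (hB.mono (by unfold dChk; omega)) (by simp [hb]) (by simp) b0
    (by simpa using h3) (by simp) rfl hw (by simp) (by simp)
    fun j hj => Body0.body fun τ a1 a2 a3 => by
      have a4 : (τ 60).length = S := by rw [a1 60 (by unfold Out; omega)]; simp
      have a5 : (τ 61).length = f0 := by rw [a1 61 (by unfold Out; omega)]; simp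
      have a6 : (List.replicate f0 false ++ w j).drop S = [] :=
        List.drop_of_length_le (by simp [hw j hj, hbS])
      refine ((tk_ok _ (by omega) (by omega) (by omega) (by omega) (by omega) (by omega)).seq
        ((tk_ok _ (by omega) (by omega) (by omega) (by omega) (by omega) (by omega)).seq
        (app_ok _ (by omega) (by omega) (by omega)))).mono ?_ ?_
      · funext v
        simp only [update_apply, Nat.reduceEqDiff, reduceIte, a2, a3, a4, a5, a6, takeD_nil',
          List.append_nil, List.drop_nil]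
        split_ifs <;> first | omega | rfl
      · simp [a3, a4, a5]; omega
  refine (Ok.loc (Ok.loc (r1.seq (r2.seq key)))).mono ?_ ?_
  · funext v
    simp only [update_apply]
    split_ifs <;> subst_vars <;> first | omega | rfl
  · have := hB.pow (K' := (PF.glob 3).deg + 8) (by unfold dChk; omega)
    have := hB.pow (K' := (PF.glob 28).deg + 8) (by unfold dChk; omega)
    have := hB.pos
    have : S ≤ H * S := Nat.le_mul_of_pos_left _ hH
    have : H ≤ H * S := Nat.le_mul_of_pos_right _ (by omega)
    have : H * b ≤ H * S := Nat.mul_le_mul_left _ (by omega)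
    simp; nlinarith

theorem lv_replicate (n : ℕ) : lv (List.replicate n false) = 0 := by
  induction n with
  | zero => rfl
  | succ n ih => simp [List.replicate_succ, lv, ih]

theorem io_of_lv {p m : ℕ} {c : List Bool} (hc : c.length = 2 * p) (h : lv c = m) (hm : m < 2 ^ p) :
    io p c = mkR p (m : GaussianInt) := by
  rw [io_eq, ← takeD_take hc, lv_takeD, lv_drop, h, Nat.mod_eq_of_lt hm, Nat.div_eq_of_lt hm]
  congr 1

theorem chk_lay {M W b f0 p : ℕ} (hB : Bud g B dChk Zb) (hS : g 3 = 2 * p) (hb : g 14 = b)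
    (hf : g 28 = f0) (b0 : 0 < b) (hbS : f0 + b ≤ p) (hH : 0 < M * W) (l : List Bool)
    (hl : l.length = M * W * b) :
    Step P chkM g (· = l) (Lay (rad3 1 M W) 3 (2 * p) fun y c =>
      io p c = mkR p ((2 ^ f0 * (lv l / 2 ^ (b * (y 1 + M * y 2)) % 2 ^ b) : ℕ) : GaussianInt))
      (300 * (M * W * (2 * p)) + 150 * Zb) := by
  rintro σ hg rfl
  have hw : ∀ j < M * W, (((σ 3).drop (j * b)).take b).length = b := fun j hj => by
    have : (j + 1) * b ≤ M * W * b := Nat.mul_le_mul_right _ hj
    rw [List.length_take, List.length_drop, hl]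
    rw [add_mul] at this
    omega
  refine ⟨_, (lay3_iff (R := fun _ j γ c => io p c =
    mkR p ((2 ^ f0 * (lv (σ 3) / 2 ^ (b * (j + M * γ)) % 2 ^ b) : ℕ) : GaussianInt))).mpr
    ⟨_, by rw [one_mul], by simp, fun a ha j hj γ hγ => ?_⟩,
    chk_ok hg hB hS hb hf b0 (by omega) hH (exists_flat _ hl) hw⟩
  obtain rfl : a = 0 := by omega
  have h1 : lv (σ 3) / 2 ^ (b * (j + M * γ)) % 2 ^ b < 2 ^ b := Nat.mod_lt _ (by positivity)
  have h2 : 2 ^ f0 * (lv (σ 3) / 2 ^ (b * (j + M * γ)) % 2 ^ b) < 2 ^ p :=
    calc _ < 2 ^ f0 * 2 ^ b := Nat.mul_lt_mul_of_pos_left h1 (by positivity)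
      _ ≤ 2 ^ p := by rw [← pow_add]; exact Nat.pow_le_pow_right (by norm_num) hbS
  refine io_of_lv (by simp) ?_ h2
  have h3 := hw _ (lt_mul_of hj hγ)
  rw [zero_add, one_mul, lv_takeD, lv_append, lv_replicate, List.length_replicate, zero_add,
    ← List.takeD_eq_take false (by rw [List.length_take] at h3; omega), lv_takeD, lv_drop,
    mul_comm _ b, Nat.mod_eq_of_lt (h2.trans_le (Nat.pow_le_pow_right (by norm_num) (by omega)))]

end Vale.Agent.P338
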