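import Vale.Agent.P338.ItemA

/-! Items: pairs of `p`-bit strings read as Gaussian integers modulo `2 ^ p - 1`. -/

namespace Vale.Agent.P338

open Function

variable {P : Tbl}

/-- Procedure 0 multiplies `p`-bit strings within `Mu * p` steps. -/
def MulOk (P : Tbl) (p Mu : ℕ) : Prop := ∀ σ : St, (σ 0).length = p → (σ 1).length = p → σ 2 = [] →
  Ok P (.call 0) σ (update (update (update σ 0 []) 1 []) 2 (mulL (σ 0) (σ 1))) (Mu * p)

/-! Commands. Register 60 holds a list of length `p`, register 61 a list of length `f`. The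
operands `a ≠ b` lie in `[3, 30)`; the temporaries (0, 1, 2, 70 to 99) are local. -/

def addMI (a b : ℕ) : Cmd :=
  .seq (addR a b) (loc 72 (.seq (tk 72 a 60) (.seq (addR 72 a) (tk a 72 60))))

def addI (a b : ℕ) : Cmd :=
  loc 70 (loc 71 (.seq (tk 70 a 60) (.seq (tk 71 b 60) (.seq (addMI a b)
    (.seq (addMI 70 71) (app 70 a))))))

def negI (a : ℕ) : Cmd :=
  loc 74 (.seq (.loop a (.push 74 (some true)) (.push 74 (some false))) (mov 74 a))

def rotI (a : ℕ) : Cmd := loc 73 (.seq (one1 73 a) (.seq (app a 73) (app 73 a)))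

def hlfI (a : ℕ) : Cmd := loc 70 (.seq (tk 70 a 60) (.seq (rotI 70) (.seq (rotI a) (app 70 a))))

def jI (a : ℕ) : Cmd := loc 70 (.seq (tk 70 a 60) (.seq (negI a) (.seq (app a 70) (app 70 a))))

def cbI (a b : ℕ) : Cmd :=
  loc 75 (loc 76 (.seq (cpy a 75) (.seq (cpy b 76) (.seq (negI 76) (.seq (addI 75 76)
    (.seq (jI 75) (.seq (addI a b) (.seq (addI a 75) (hlfI a)))))))))

def topI (a : ℕ) : Cmd :=
  loc 73 (.seq (mov a 73) (.seq (.cas 73 (.seq (.push 73 (some false)) (.push 80 (some false)))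
    (.seq (.push 73 (some true)) (.push 80 (some true))) (.push 80 (some false))) (mov 73 a)))

def cnegI (a : ℕ) : Cmd := .cas 80 .skip (negI a) .skip

def absI (a : ℕ) : Cmd := .seq (topI a) (.seq (topI a) (cnegI a))

def rmulI (d x w : ℕ) : Cmd :=
  loc 0 (loc 1 (loc 2 (loc 80 (.seq (cpy x 0) (.seq (cpy w 1) (.seq (absI 0) (.seq (absI 1)
    (.seq (.call 0) (.seq (tk 0 2 61) (.seq (tk d 2 60) (.seq (addMI d 2)
      (.seq (cnegI d) (cnegI d)))))))))))))

def cmulI (a b : ℕ) : Cmd :=
  loc 75 (loc 76 (loc 77 (loc 78 (loc 79 (.seq (tk 75 a 60) (.seq (tk 76 b 60)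
    (.seq (rmulI 77 75 76) (.seq (rmulI 78 a b) (.seq (negI 78) (.seq (addMI 77 78)
      (.seq (rmulI 78 75 b) (.seq (rmulI 79 a 76) (.seq (addMI 78 79) (.seq (clr a) (.seq (clr b)
        (.seq (app 78 a) (app 77 a)))))))))))))))))

def xorI (a b : ℕ) : Cmd :=
  loc 90 (loc 91 (.seq (.push 90 (some false))
    (.seq (serP (fun x y _ => xor x y) (fun _ _ _ => false) a b)
      (.cas 91 (mov 91 a) (mov 91 a) .skip))))

section
variable {σ : St} {a b p f Mu : ℕ}

theorem takeD_take {c : List Bool} (h : c.length = 2 * p) : c.takeD p false = c.take p :=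
  List.takeD_eq_take _ (by omega)

theorem addMI_ok (σ : St) (h : a ≠ b) (ha : a ≠ 60 ∧ a ≠ 72 ∧ a < 90)
    (hb : b ≠ 60 ∧ b ≠ 72 ∧ b < 90) (hp : (σ 60).length = p) (h1 : (σ a).length ≤ p)
    (h2 : (σ b).length ≤ p) :
    Ok P (addMI a b) σ (update (update σ b []) a (addM p (σ a) (σ b))) (200 * (p + 1)) := by
  refine ((addR_ok σ h (by omega) (by omega)).seq (Ok.loc ((tk_ok _ (by omega) (by omega)
    (by omega) (by omega) (by omega) (by omega)).seq ((addR_ok _ (by omega) (by omega)
    (by omega)).seq (tk_ok _ (by omega) (by omega) (by omega) (by omega) (by omega)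
    (by omega)))))).mono ?_ ?_
  · funext w
    simp (disch := omega) only [update_of_ne, update_self, hp, List.append_nil, addM]
    simp only [update_apply]
    grind
  · simp (disch := omega) only [update_of_ne, update_self, hp, List.append_nil, length_addB,
      List.length_drop, List.takeD_length]
    omega

theorem addI_ok' (σ : St) (h : a ≠ b) (ha : a ≠ 60 ∧ (a < 70 ∨ 75 ≤ a) ∧ a < 90)
    (hb : b ≠ 60 ∧ (b < 70 ∨ 75 ≤ b) ∧ b < 90) (hp : (σ 60).length = p)
    (h1 : (σ a).length = 2 * p) (h2 : (σ b).length = 2 * p) :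
    Ok P (addI a b) σ (update (update σ b []) a (addC p (σ a) (σ b))) (500 * (p + 1)) := by
  have na : a ≠ 60 ∧ 60 ≠ a ∧ a ≠ 70 ∧ 70 ≠ a ∧ a ≠ 71 ∧ 71 ≠ a := by omega
  have nb : b ≠ 60 ∧ 60 ≠ b ∧ b ≠ 70 ∧ 70 ≠ b ∧ b ≠ 71 ∧ 71 ≠ b := by omega
  refine (Ok.loc (Ok.loc ((tk_ok _ (by omega) (by omega) (by omega) (by omega) (by omega)
    (by omega)).seq ((tk_ok _ (by omega) (by omega) (by omega) (by omega) (by omega)
    (by omega)).seq ((addMI_ok (p := p) _ h (by omega) (by omega) ?_ ?_ ?_).seq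
    ((addMI_ok (p := p) _ (by omega) (by omega) (by omega) ?_ ?_ ?_).seq
    (app_ok _ (by omega) (by omega) (by omega)))))))).mono ?_ ?_
  pick_goal 7
  funext w
  all_goals
    simp only [update_apply, na, nb, h, h.symm, ↓reduceIte, Nat.reduceEqDiff, hp, List.append_nil,
      length_addM, List.length_nil, takeD_take h1, takeD_take h2, len_take h1, len_take h2,
      len_drop h1, len_drop h2, le_refl, addC]
  · grind
  · omega

theorem addI_ok (h : a ≠ b) (ha : 3 ≤ a ∧ a < 30) (hb : 3 ≤ b ∧ b < 30) (hp : (σ 60).length = p)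
    (h1 : (σ a).length = 2 * p) (h2 : (σ b).length = 2 * p) :
    Ok P (addI a b) σ (update (update σ b []) a (addC p (σ a) (σ b))) (1000 * (p + 1)) :=
  (addI_ok' σ h (by omega) (by omega) hp h1 h2).le (by omega)

theorem negI_ok' (σ : St) (ha : a ≠ 74) :
    Ok P (negI a) σ (update σ a (negC (σ a))) (4 * (σ a).length + 9) := by
  have := Ok.loop_list (P := P) (v := a) (c0 := .push 74 (some true)) (c1 := .push 74 (some false))
    (σ a) (fun i => update σ 74 (negC ((σ a).take i).reverse)) 1 fun i hi => by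
      have e : (cond (σ a)[i] (Cmd.push 74 (some false)) (.push 74 (some true))) =
          .push 74 (some (!(σ a)[i])) := by cases (σ a)[i] <;> rfl
      rw [e]
      refine (Ok.push _ _ _).mono ?_ le_rfl
      funext w
      simp only [update_apply, rev_take_succ _ _ hi, negC, List.map_cons]
      grind
  have e : update (update σ 74 (negC ((σ a).take 0).reverse)) a (σ a) = update σ 74 [] := by
    funext w
    simp only [update_apply, List.take_zero, List.reverse_nil, negC, List.map_nil]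
    grind
  rw [e] at this
  refine (Ok.loc (this.seq (mov_ok _ ha.symm))).mono ?_ ?_
  · funext w
    simp (disch := omega) only [update_of_ne, update_self, List.take_length, negC,
      List.map_reverse, List.reverse_reverse, List.append_nil]
    simp only [update_apply]
    grind
  · simp (disch := omega) only [update_of_ne, update_self, List.take_length, length_negC,
      List.length_reverse, List.length_nil]
    omega

theorem negI_ok (ha : 3 ≤ a ∧ a < 30) :
    Ok P (negI a) σ (update σ a (negC (σ a))) (20 * ((σ a).length + 1)) :=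
  (negI_ok' σ (by omega)).le (by omega)

theorem rotI_ok (σ : St) (ha : a ≠ 73 ∧ a ≠ 99) :
    Ok P (rotI a) σ (update σ a (rot (σ a))) (8 * (σ a).length + 40) := by
  refine (Ok.loc ((one1_ok _ (by omega)).seq ((app_ok _ (by omega) (by omega) (by omega)).seq
    (app_ok _ (by omega) (by omega) (by omega))))).mono ?_ ?_
  · funext w
    simp (disch := omega) only [update_of_ne, update_self, List.append_nil, rot]
    simp only [update_apply]
    grind
  · simp (disch := omega) only [update_of_ne, update_self, List.length_append, List.length_tail,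
      List.length_nil, List.length_cons]
    omega

theorem length_rot_le (x : List Bool) : (rot x).length ≤ x.length + 1 := by simp [rot]

theorem hlfI_ok' (σ : St) (ha : a ≠ 60 ∧ (a < 70 ∨ 75 ≤ a) ∧ a < 90) (hp : (σ 60).length = p)
    (h1 : (σ a).length = 2 * p) :
    Ok P (hlfI a) σ (update σ a (hlfC p (σ a))) (150 * (p + 1)) := by
  refine (Ok.loc ((tk_ok _ (by omega) (by omega) (by omega) (by omega) (by omega)
    (by omega)).seq ((rotI_ok _ (by omega)).seq ((rotI_ok _ (by omega)).seq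
    (app_ok _ (by omega) (by omega) (by omega)))))).mono ?_ ?_
  · funext w
    simp (disch := omega) only [update_of_ne, update_self, List.append_nil, hp, takeD_take h1]
    simp only [update_apply, hlfC]
    grind
  · have := length_rot_le ((σ a).take p)
    simp (disch := omega) only [update_of_ne, update_self, List.append_nil, hp, takeD_take h1,
      List.length_take, List.length_drop, List.length_nil, h1] at this ⊢
    omega

theorem hlfI_ok (ha : 3 ≤ a ∧ a < 30) (hp : (σ 60).length = p) (hp1 : 1 ≤ p)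
    (h1 : (σ a).length = 2 * p) :
    Ok P (hlfI a) σ (update σ a (hlfC p (σ a))) (1000 * (p + 1)) :=
  (hlfI_ok' σ (by omega) hp h1).le (by omega)

theorem jI_ok (σ : St) (ha : a ≠ 60 ∧ (a < 70 ∨ 75 ≤ a) ∧ a < 90) (hp : (σ 60).length = p)
    (h1 : (σ a).length = 2 * p) :
    Ok P (jI a) σ (update σ a (jC p (σ a))) (100 * (p + 1)) := by
  refine (Ok.loc ((tk_ok _ (by omega) (by omega) (by omega) (by omega) (by omega)
    (by omega)).seq ((negI_ok' _ (by omega)).seq ((app_ok _ (by omega) (by omega) (by omega)).seq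
    (app_ok _ (by omega) (by omega) (by omega)))))).mono ?_ ?_
  · funext w
    simp (disch := omega) only [update_of_ne, update_self, List.append_nil, hp, takeD_take h1]
    simp only [update_apply, jC]
    grind
  · simp (disch := omega) only [update_of_ne, update_self, List.append_nil, hp, takeD_take h1,
      List.length_take, List.length_drop, List.length_nil, h1, length_negC, List.length_append]
    omega

theorem cbI_ok (h : a ≠ b) (ha : 3 ≤ a ∧ a < 30) (hb : 3 ≤ b ∧ b < 30) (hp : (σ 60).length = p)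
    (hp1 : 1 ≤ p) (h1 : (σ a).length = 2 * p) (h2 : (σ b).length = 2 * p) :
    Ok P (cbI a b) σ (update (update σ b []) a (cbC p (σ a) (σ b))) (5000 * (p + 1)) := by
  have k1 : ∀ c d : List Bool, (addC p c d).length = 2 * p := fun c d => by simp [addC]; omega
  have na : a ≠ 60 ∧ 60 ≠ a ∧ a ≠ 75 ∧ 75 ≠ a ∧ a ≠ 76 ∧ 76 ≠ a := by omega
  have nb : b ≠ 60 ∧ 60 ≠ b ∧ b ≠ 75 ∧ 75 ≠ b ∧ b ≠ 76 ∧ 76 ≠ b := by omega
  refine (Ok.loc (Ok.loc ((cpy_ok _ (by omega) (by omega) (by omega)).seq
    ((cpy_ok _ (by omega) (by omega) (by omega)).seq ((negI_ok' _ (by omega)).seq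
    ((addI_ok' (p := p) _ (by omega) (by omega) (by omega) ?_ ?_ ?_).seq
    ((jI_ok (p := p) _ (by omega) ?_ ?_).seq
    ((addI_ok' (p := p) _ (by omega) (by omega) (by omega) ?_ ?_ ?_).seq
    ((addI_ok' (p := p) _ (by omega) (by omega) (by omega) ?_ ?_ ?_).seq
    (hlfI_ok' (p := p) _ (by omega) ?_ ?_)))))))))).mono ?_ ?_
  pick_goal 14
  funext w
  all_goals
    simp only [update_apply, na, nb, h.symm, ↓reduceIte, Nat.reduceEqDiff, hp, List.append_nil,
      h1, h2, length_negC, length_jC, k1, List.length_nil, cbC]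
  · grind
  · omega

theorem topI_ok (σ : St) (ha : a ≠ 73 ∧ a ≠ 80) :
    Ok P (topI a) σ (update σ 80 (topB (σ a) :: σ 80)) (4 * (σ a).length + 20) := by
  have key : ∀ τ : St, Ok P (.cas 73 (.seq (.push 73 (some false)) (.push 80 (some false)))
      (.seq (.push 73 (some true)) (.push 80 (some true))) (.push 80 (some false))) τ
      (update τ 80 ((τ 73).headD false :: τ 80)) 4 := by
    intro τ
    rcases hs : τ 73 with _ | ⟨x, l⟩
    · exact (Ok.casn hs (Ok.push _ _ _)).mono rfl (by omega)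
    · refine Ok.casb hs ?_
      rw [List.headD_cons]
      cases x <;> refine ((Ok.push _ _ _).seq (Ok.push _ _ _)).mono ?_ le_rfl <;>
        simp [← hs]
  refine (Ok.loc ((mov_ok _ (by omega)).seq ((key _).seq (mov_ok _ (by omega))))).mono ?_ ?_
  · funext w
    simp (disch := omega) only [update_of_ne, update_self, List.append_nil, topB,
      List.reverse_reverse]
    simp only [update_apply]
    grind
  · simp (disch := omega) only [update_of_ne, update_self, List.append_nil, List.length_reverse,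
      List.length_nil]
    omega

theorem cnegI_ok (σ : St) (ha : a ≠ 74 ∧ a ≠ 80) {s : Bool} {l : List Bool} (h : σ 80 = s :: l) :
    Ok P (cnegI a) σ (update (update σ 80 l) a (cneg s (σ a))) (4 * (σ a).length + 10) := by
  refine Ok.casb h ?_
  cases s
  · refine Ok.skip.mono ?_ (by omega)
    funext w
    simp only [update_apply, cneg, cond_false]
    grind
  · simpa [ha.2, cneg] using negI_ok' (P := P) (update σ 80 l) ha.1

theorem absI_ok (σ : St) (ha : a ≠ 73 ∧ a ≠ 74 ∧ a ≠ 80) :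
    Ok P (absI a) σ (update (update σ 80 (topB (σ a) :: σ 80)) a (cneg (topB (σ a)) (σ a)))
      (12 * (σ a).length + 60) := by
  refine ((topI_ok _ (by omega)).seq ((topI_ok _ (by omega)).seq
    (cnegI_ok _ (by omega) (update_self _ _ _)))).mono ?_ ?_
  · simp (disch := omega) only [update_of_ne, update_self, update_idem]
  · simp (disch := omega) only [update_of_ne]
    omega

theorem rmulI_ok (hM : MulOk P p Mu) (σ : St) {d x w : ℕ} (hd : 75 ≤ d ∧ d < 80)
    (hx : 3 ≤ x ∧ x < 80) (hw : 3 ≤ w ∧ w < 80) (hp : (σ 60).length = p)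
    (hf : (σ 61).length = f) (hfp : f ≤ p) (h0 : σ d = []) (h1 : (σ x).length = p)
    (h2 : (σ w).length = p) :
    Ok P (rmulI d x w) σ (update σ d (rmul p f (σ x) (σ w))) ((Mu + 500) * (p + 1)) := by
  have nd : d ≠ 0 ∧ 0 ≠ d ∧ d ≠ 1 ∧ 1 ≠ d ∧ d ≠ 2 ∧ 2 ≠ d ∧ d ≠ 60 ∧ 60 ≠ d ∧ d ≠ 61 ∧ 61 ≠ d ∧ d
      ≠ 80 ∧ 80 ≠ d := by omega
  have nx : x ≠ 0 ∧ 0 ≠ x ∧ x ≠ 1 ∧ 1 ≠ x ∧ x ≠ 2 ∧ 2 ≠ x ∧ x ≠ 80 ∧ 80 ≠ x := by omega
  have nw : w ≠ 0 ∧ 0 ≠ w ∧ w ≠ 1 ∧ 1 ≠ w ∧ w ≠ 2 ∧ 2 ≠ w ∧ w ≠ 80 ∧ 80 ≠ w := by omega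
  refine (Ok.loc (Ok.loc (Ok.loc (Ok.loc ((cpy_ok _ (by omega) (by omega) (by omega)).seq
    ((cpy_ok _ (by omega) (by omega) (by omega)).seq ((absI_ok _ (by omega)).seq
    ((absI_ok _ (by omega)).seq ((hM _ ?_ ?_ ?_).seq
    ((tk_ok _ (by omega) (by omega) (by omega) (by omega) (by omega) (by omega)).seq
    ((tk_ok _ (by omega) (by omega) (by omega) (by omega) (by omega) (by omega)).seq
    ((addMI_ok (p := p) _ (by omega) (by omega) (by omega) ?_ ?_ ?_).seq
    ((cnegI_ok _ (by omega) (s := topB (σ w)) (l := [topB (σ x)]) ?_).seq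
    (cnegI_ok _ (by omega) (s := topB (σ x)) (l := []) ?_)))))))))))))).mono ?_ ?_
  pick_goal 9
  funext v
  all_goals
    simp only [update_apply, nd, nx, nw, ↓reduceIte, Nat.reduceEqDiff, hp, hf, List.append_nil,
      h0, h1, h2, length_cneg, length_mulL, List.length_nil, List.takeD_length, List.length_drop,
      length_addM, le_refl, rmul]
  · grind
  · omega
  · have : (Mu + 500) * (p + 1) = Mu * p + Mu + 500 * p + 500 := by ring
    omega

theorem cmulI_ok (hM : MulOk P p Mu) (h : a ≠ b) (ha : 3 ≤ a ∧ a < 30) (hb : 3 ≤ b ∧ b < 30)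
    (hp : (σ 60).length = p) (hf : (σ 61).length = f) (hp1 : 1 ≤ p) (hfp : f ≤ p)
    (h1 : (σ a).length = 2 * p) (h2 : (σ b).length = 2 * p) :
    Ok P (cmulI a b) σ (update (update σ b []) a (cmulC p f (σ a) (σ b)))
      ((4 * Mu + 10000) * (p + 1)) := by
  have _ := hp1
  have na : a ≠ 60 ∧ 60 ≠ a ∧ a ≠ 61 ∧ 61 ≠ a ∧ a ≠ 75 ∧ 75 ≠ a ∧ a ≠ 76 ∧ 76 ≠ a ∧ a ≠ 77 ∧ 77 ≠
      a ∧ a ≠ 78 ∧ 78 ≠ a ∧ a ≠ 79 ∧ 79 ≠ a := by omega
  have nb : b ≠ 60 ∧ 60 ≠ b ∧ b ≠ 61 ∧ 61 ≠ b ∧ b ≠ 75 ∧ 75 ≠ b ∧ b ≠ 76 ∧ 76 ≠ b ∧ b ≠ 77 ∧ 77 ≠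
      b ∧ b ≠ 78 ∧ 78 ≠ b ∧ b ≠ 79 ∧ 79 ≠ b := by omega
  refine (Ok.loc (Ok.loc (Ok.loc (Ok.loc (Ok.loc
    ((tk_ok _ (by omega) (by omega) (by omega) (by omega) (by omega) (by omega)).seq
    ((tk_ok _ (by omega) (by omega) (by omega) (by omega) (by omega) (by omega)).seq
    ((rmulI_ok (f := f) hM _ (by omega) (by omega) (by omega) ?_ ?_ hfp ?_ ?_ ?_).seq
    ((rmulI_ok (f := f) hM _ (by omega) (by omega) (by omega) ?_ ?_ hfp ?_ ?_ ?_).seq
    ((negI_ok' _ (by omega)).seq
    ((addMI_ok (p := p) _ (by omega) (by omega) (by omega) ?_ ?_ ?_).seq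
    ((rmulI_ok (f := f) hM _ (by omega) (by omega) (by omega) ?_ ?_ hfp ?_ ?_ ?_).seq
    ((rmulI_ok (f := f) hM _ (by omega) (by omega) (by omega) ?_ ?_ hfp ?_ ?_ ?_).seq
    ((addMI_ok (p := p) _ (by omega) (by omega) (by omega) ?_ ?_ ?_).seq
    ((clr_ok _ _).seq ((clr_ok _ _).seq ((app_ok _ (by omega) (by omega) (by omega)).seq
    (app_ok _ (by omega) (by omega) (by omega))))))))))))))))))).mono ?_ ?_
  pick_goal 27
  funext w
  all_goals
    simp only [update_apply, na, nb, h, h.symm, ↓reduceIte, Nat.reduceEqDiff, hp, hf,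
      List.append_nil, List.length_nil, length_addM, length_rmul, length_negC, takeD_take h1,
      takeD_take h2, len_take h1, len_take h2, len_drop h1, len_drop h2, le_refl, cmulC]
  · grind
  · have e1 : (Mu + 500) * (p + 1) = Mu * p + Mu + 500 * p + 500 := by ring
    have e2 : (4 * Mu + 10000) * (p + 1) = 4 * (Mu * p) + 4 * Mu + 10000 * p + 10000 := by ring
    omega

theorem ser_xor {x y : List Bool} (h : x.length = y.length) :
    ser (fun x y _ => xor x y) (fun _ _ _ => false) x y false = List.zipWith xor x y ++ [false] := by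
  induction x generalizing y with
  | nil =>
    obtain rfl : y = [] := List.length_eq_zero_iff.1 h.symm
    simp [ser]
  | cons a x ih =>
    rcases y with _ | ⟨b, y⟩
    · simp at h
    · simp [ser, ih (by simpa using h)]

theorem xorI_ok (h : a ≠ b) (ha : 3 ≤ a ∧ a < 30) (hb : 3 ≤ b ∧ b < 30)
    (h1 : (σ a).length = (σ b).length) :
    Ok P (xorI a b) σ (update (update σ b []) a (List.zipWith xor (σ a) (σ b)))
      (30 * ((σ a).length + 1)) := by
  refine (Ok.loc (Ok.loc ((Ok.push _ _ _).seq ((serP_ok _ _ h (by omega) (by omega) (by omega)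
    (by omega) (σ a) false _ ?_ ?_).seq (Ok.casb (b := false)
      (l := (List.zipWith xor (σ a) (σ b)).reverse) ?_ (mov_ok _ (by omega))))))).mono ?_ ?_
  all_goals
    simp (disch := omega) only [update_of_ne, update_self, List.append_nil, ser_xor h1,
      List.reverse_append, List.reverse_reverse, List.length_reverse, List.length_zipWith,
      List.length_nil, ← h1, min_self]
  · rfl
  · funext w
    simp only [update_apply]
    grind
  · omega

end

end Vale.Agent.P338
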