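import Vale.Agent.P338.PFc

/-! Items: pairs of `p`-bit strings read as Gaussian integers modulo `2 ^ p - 1` (pure part). -/

namespace Vale.Agent.P338

open Function

/-- Gaussian integers modulo `2 ^ p - 1`. -/
abbrev RR (p : ℕ) := GaussianInt ⧸ Ideal.span {(2 ^ p - 1 : GaussianInt)}

/-- The quotient map. -/
abbrev mkR (p : ℕ) : GaussianInt →+* RR p := Ideal.Quotient.mk _

/-- The signed (ones' complement) value of a `p`-bit string. -/
def sv (p : ℕ) (x : List Bool) : ℤ := if lv x < 2 ^ (p - 1) then lv x else lv x - (2 ^ p - 1)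

/-- The signed value of an item. -/
def sg (p : ℕ) (c : List Bool) : GaussianInt := ⟨sv p (c.take p), sv p (c.drop p)⟩

/-- The residue of an item. -/
def io (p : ℕ) (c : List Bool) : RR p := mkR p (sg p c)

/-- The imaginary unit and one half in the residue ring. -/
def jR (p : ℕ) : RR p := mkR p ⟨0, 1⟩
def hf (p : ℕ) : RR p := mkR p (2 ^ (p - 1))

theorem mkR_eq_iff {p : ℕ} {z w : GaussianInt} :
    mkR p z = mkR p w ↔ z.re ≡ w.re [ZMOD 2 ^ p - 1] ∧ z.im ≡ w.im [ZMOD 2 ^ p - 1] := by
  rw [eq_comm, Ideal.Quotient.eq, Ideal.mem_span_singleton,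
    show (2 ^ p - 1 : GaussianInt) = ((2 ^ p - 1 : ℤ) : GaussianInt) by push_cast; rfl,
    Zsqrtd.intCast_dvd, Int.modEq_iff_dvd, Int.modEq_iff_dvd]
  rfl

theorem jR_sq (p : ℕ) : jR p * jR p = -1 := by
  rw [jR, ← map_mul, ← map_one (mkR p), ← map_neg]
  congr 1

theorem two_pow_pred {p : ℕ} (hp : 1 ≤ p) : 2 ^ p = 2 * 2 ^ (p - 1) := by
  rw [← pow_succ']; congr 1; omega

theorem two_hf {p : ℕ} (hp : 1 ≤ p) : 2 * hf p = 1 := by
  rw [hf, ← map_ofNat (mkR p) 2, ← map_mul, ← map_one (mkR p), Ideal.Quotient.eq, ← pow_succ',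
    Nat.sub_add_cancel hp]
  exact Ideal.mem_span_singleton_self _

theorem sv_modEq (p : ℕ) (x : List Bool) : sv p x ≡ lv x [ZMOD 2 ^ p - 1] := by
  unfold sv
  split_ifs
  · rfl
  · exact Int.modEq_iff_dvd.2 (by simp)

theorem io_eq (p : ℕ) (c : List Bool) : io p c = mkR p ⟨lv (c.take p), lv (c.drop p)⟩ :=
  mkR_eq_iff.2 ⟨sv_modEq _ _, sv_modEq _ _⟩

theorem abs_sv_lt {p : ℕ} {x : List Bool} (hp : 1 ≤ p) (hx : x.length = p) :
    |sv p x| < 2 ^ (p - 1) := by
  have h1 := lv_lt x
  rw [hx, two_pow_pred hp] at h1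
  have h2 : (2 : ℤ) ^ p = 2 * 2 ^ (p - 1) := by exact_mod_cast two_pow_pred hp
  have h3 : (lv x : ℤ) < 2 * 2 ^ (p - 1) := by exact_mod_cast h1
  unfold sv
  rw [abs_lt]
  split_ifs with h
  · have : (lv x : ℤ) < 2 ^ (p - 1) := by exact_mod_cast h
    omega
  · have : (2 : ℤ) ^ (p - 1) ≤ lv x := by exact_mod_cast not_lt.1 h
    omega

theorem eq_of_modEq_abs {p : ℕ} {a b : ℤ} (hp : 1 ≤ p) (h : a ≡ b [ZMOD 2 ^ p - 1])
    (ha : |a| < 2 ^ (p - 1)) (hb : |b| < 2 ^ (p - 1)) : a = b := by
  have h2 : (2 : ℤ) ^ p = 2 * 2 ^ (p - 1) := by exact_mod_cast two_pow_pred hp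
  rw [abs_lt] at ha hb
  have := Int.eq_zero_of_abs_lt_dvd h.dvd (by rw [abs_lt]; omega)
  omega

/-- Small Gaussian integers are determined by their residue. -/
theorem sg_eq {p : ℕ} {c : List Bool} {z : GaussianInt} (hp : 1 ≤ p) (hc : c.length = 2 * p)
    (h : io p c = mkR p z) (hz : ‖(z : ℂ)‖ < 2 ^ (p - 1)) : sg p c = z := by
  obtain ⟨h1, h2⟩ := mkR_eq_iff.1 h
  have a1 := (Complex.abs_re_le_norm (z : ℂ)).trans_lt hz
  have a2 := (Complex.abs_im_le_norm (z : ℂ)).trans_lt hz
  rw [← GaussianInt.intCast_re] at a1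
  rw [← GaussianInt.intCast_im] at a2
  ext
  · exact eq_of_modEq_abs hp h1 (abs_sv_lt hp (by simp; omega)) (by exact_mod_cast a1)
  · exact eq_of_modEq_abs hp h2 (abs_sv_lt hp (by simp; omega)) (by exact_mod_cast a2)

/-- The real part of an item with a known positive small residue. -/
theorem lv_take_eq {p : ℕ} {c : List Bool} {z : GaussianInt} (hc : c.length = 2 * p)
    (h : io p c = mkR p z) (h0 : 0 < z.re) (h1 : z.re < 2 ^ p - 1) :
    (lv (c.take p) : ℤ) = z.re := by
  rw [io_eq] at h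
  have h2 := (mkR_eq_iff.1 h).1
  have h3 := lv_lt (c.take p)
  rw [List.length_take, min_eq_left (by omega)] at h3
  have h4 : (lv (c.take p) : ℤ) < 2 ^ p := by exact_mod_cast h3
  have := Int.eq_zero_of_abs_lt_dvd h2.dvd (by rw [abs_lt]; simp only; omega)
  simp only at this
  omega

/-- Addition with end-around carry. -/
def addM (p : ℕ) (x y : List Bool) : List Bool :=
  (addB ((addB x y false).takeD p false) ((addB x y false).drop p) false).takeD p false

/-- Rotation by one position. -/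
def rot (x : List Bool) : List Bool := x.tail ++ [x.headD false]

def addC (p : ℕ) (c d : List Bool) : List Bool :=
  addM p (c.take p) (d.take p) ++ addM p (c.drop p) (d.drop p)
def negC (c : List Bool) : List Bool := c.map not
def hlfC (p : ℕ) (c : List Bool) : List Bool := rot (c.take p) ++ rot (c.drop p)
def jC (p : ℕ) (c : List Bool) : List Bool := negC (c.drop p) ++ c.take p
/-- Butterfly `((1 + i) c + (1 - i) d) / 2`. -/
def cbC (p : ℕ) (c d : List Bool) : List Bool :=
  hlfC p (addC p (addC p c d) (jC p (addC p c (negC d))))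

/-- The product of two `p`-bit strings as a `2 p`-bit string. -/
def mulL (x y : List Bool) : List Bool := (lv x * lv y).bits.takeD (2 * x.length) false

/-- The most significant bit. -/
def topB (x : List Bool) : Bool := x.reverse.headD false

/-- Conditional negation. -/
def cneg (b : Bool) (x : List Bool) : List Bool := cond b (negC x) x

/-- Product of two signed `p`-bit strings, divided by `2 ^ f` and truncated. -/
def rmul (p f : ℕ) (x w : List Bool) : List Bool :=
  cneg (topB x) (cneg (topB w) (addM p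
    (((mulL (cneg (topB x) x) (cneg (topB w) w)).drop f).takeD p false)
    (((mulL (cneg (topB x) x) (cneg (topB w) w)).drop f).drop p)))

/-- Product of signed values, divided by `2 ^ f` and truncated. -/
def cmulC (p f : ℕ) (c w : List Bool) : List Bool :=
  addM p (rmul p f (c.take p) (w.take p)) (negC (rmul p f (c.drop p) (w.drop p))) ++
    addM p (rmul p f (c.take p) (w.drop p)) (rmul p f (c.drop p) (w.take p))

section
variable {p f : ℕ} {c d x y : List Bool}

@[simp] theorem length_addM : (addM p x y).length = p := by simp [addM]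

@[simp] theorem length_negC : (negC x).length = x.length := by simp [negC]

@[simp] theorem length_cneg (b : Bool) : (cneg b x).length = x.length := by
  cases b <;> simp [cneg]

@[simp] theorem length_rmul : (rmul p f x y).length = p := by simp [rmul]

@[simp] theorem length_mulL : (mulL x y).length = 2 * x.length := by simp [mulL]

theorem length_rot (h : 1 ≤ x.length) : (rot x).length = x.length := by
  simp [rot]; omega

theorem fold_modEq (p n : ℕ) : ((n % 2 ^ p + n / 2 ^ p : ℕ) : ℤ) ≡ n [ZMOD 2 ^ p - 1] := by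
  refine Int.modEq_iff_dvd.2 ⟨(n / 2 ^ p : ℕ), ?_⟩
  have : ((n % 2 ^ p + 2 ^ p * (n / 2 ^ p) : ℕ) : ℤ) = n := by rw [Nat.mod_add_div]
  rw [Nat.cast_add] at this ⊢
  rw [Nat.cast_mul, Nat.cast_pow, Nat.cast_ofNat] at this
  linear_combination -this

theorem lv_addM (hx : lv x < 2 ^ p) (hy : lv y < 2 ^ p) :
    (lv (addM p x y) : ℤ) ≡ lv x + lv y [ZMOD 2 ^ p - 1] := by
  have h := fold_modEq p (lv x + lv y)
  rw [Nat.cast_add (lv x)] at h
  simp only [addM, lv_takeD, lv_addB, lv_drop, Bool.toNat_false, add_zero]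
  rw [Nat.mod_eq_of_lt (a := _ + _ / _)]
  · exact h
  · by_cases e : lv x + lv y < 2 ^ p
    · rw [Nat.mod_eq_of_lt e, Nat.div_eq_of_lt e]; exact e
    · obtain ⟨r, hr⟩ := Nat.exists_eq_add_of_le (not_lt.1 e)
      have : r < 2 ^ p := by omega
      rw [hr, Nat.add_mod_left, Nat.add_div_left _ (by omega), Nat.mod_eq_of_lt this,
        Nat.div_eq_of_lt this]
      omega

theorem lv_lt' (h : x.length ≤ p) : lv x < 2 ^ p :=
  (lv_lt x).trans_le (Nat.pow_le_pow_right (by norm_num) h)

theorem lv_negC (x : List Bool) : lv (negC x) + lv x + 1 = 2 ^ x.length := by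
  induction x with
  | nil => simp [negC, lv]
  | cons b x ih =>
    simp only [negC, List.map_cons, lv, List.length_cons, pow_succ] at ih ⊢
    cases b <;> simp <;> omega

theorem lv_negC' (h : x.length = p) : (lv (negC x) : ℤ) = 2 ^ p - 1 - lv x := by
  have : ((lv (negC x) + lv x + 1 : ℕ) : ℤ) = (2 ^ p : ℕ) := by rw [lv_negC, h]
  push_cast at this
  omega

theorem negC_modEq (h : x.length = p) : (lv (negC x) : ℤ) ≡ -lv x [ZMOD 2 ^ p - 1] := by
  rw [lv_negC' h]
  exact Int.modEq_iff_dvd.2 ⟨-1, by ring⟩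

theorem rot_modEq (hp : 1 ≤ p) (h : x.length = p) :
    (lv (rot x) : ℤ) ≡ 2 ^ (p - 1) * lv x [ZMOD 2 ^ p - 1] := by
  have h2 : (2 : ℤ) ^ p = 2 * 2 ^ (p - 1) := by exact_mod_cast two_pow_pred hp
  rw [rot, lv_append, lv_head_tail x, List.length_tail, h]
  refine Int.modEq_iff_dvd.2 ⟨lv x.tail, ?_⟩
  simp only [lv]
  push_cast
  rw [h2]; ring

/-- The sign attached to a bit. -/
def sgnB (b : Bool) : ℤ := cond b (-1) 1

theorem cneg_modEq (b : Bool) (h : x.length = p) :
    (lv (cneg b x) : ℤ) ≡ sgnB b * lv x [ZMOD 2 ^ p - 1] := by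
  cases b
  · simp [cneg, sgnB]
  · simpa [cneg, sgnB] using negC_modEq h

theorem sv_eq (hp : 1 ≤ p) (h : x.length = p) :
    sv p x = sgnB (topB x) * lv (cneg (topB x) x) := by
  rcases List.eq_nil_or_concat' x with rfl | ⟨l, b, rfl⟩
  · simp at h; omega
  have hl : l.length = p - 1 := by simp at h; omega
  have h1 := lv_lt l
  have h2 := lv_append l [b]
  have h3 : topB (l ++ [b]) = b := by simp [topB]
  rw [hl] at h1 h2
  rw [h3, sv]
  cases b
  · rw [if_pos (by simpa [h2, lv] using h1)]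
    simp [sgnB, cneg]
  · rw [if_neg (by simp [h2, lv])]
    simp only [sgnB, cneg, cond_true, lv_negC' h]
    ring

theorem lv_mulL (hx : x.length = p) (hy : y.length = p) : lv (mulL x y) = lv x * lv y := by
  rw [mulL, lv_takeD, lv_bits, hx, Nat.mod_eq_of_lt]
  rw [two_mul, pow_add]
  exact Nat.mul_lt_mul'' (lv_lt' hx.le) (lv_lt' hy.le)

/-- The truncated product. -/
def rv (f : ℕ) (x y : List Bool) : ℤ :=
  sgnB (topB x) * (sgnB (topB y) * (lv (cneg (topB x) x) * lv (cneg (topB y) y) / 2 ^ f : ℕ))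

theorem rmul_modEq (hx : x.length = p) (hy : y.length = p) :
    (lv (rmul p f x y) : ℤ) ≡ rv f x y [ZMOD 2 ^ p - 1] := by
  refine (cneg_modEq _ (by simp)).trans (Int.ModEq.mul_left _
    ((cneg_modEq _ (by simp)).trans (Int.ModEq.mul_left _ ?_)))
  refine (lv_addM (lv_lt' (by simp)) (lv_lt' (by simp; omega))).trans ?_
  rw [lv_takeD, lv_drop p, ← Nat.cast_add, lv_drop, lv_mulL (p := p) (by simpa) (by simpa)]
  exact fold_modEq _ _

theorem rv_zero (hp : 1 ≤ p) (hx : x.length = p) (hy : y.length = p) :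
    rv 0 x y = sv p x * sv p y := by
  rw [rv, sv_eq hp hx, sv_eq hp hy]
  push_cast
  simp only [Int.ediv_one]
  ring

theorem rv_err (hp : 1 ≤ p) (hx : x.length = p) (hy : y.length = p) :
    |(rv f x y : ℝ) - sv p x * sv p y / 2 ^ f| ≤ 1 := by
  rw [rv, sv_eq hp hx, sv_eq hp hy]
  generalize lv (cneg (topB x) x) = a
  generalize lv (cneg (topB y) y) = b
  have h1 : ((a * b / 2 ^ f : ℕ) : ℝ) ≤ a * b / 2 ^ f := by
    simpa using Nat.cast_div_le (α := ℝ) (m := a * b) (n := 2 ^ f)
  have h2 : (a * b / 2 ^ f : ℝ) ≤ (a * b / 2 ^ f : ℕ) + 1 := by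
    rw [div_le_iff₀ (by positivity)]
    have := Nat.lt_div_mul_add (a := a * b) (Nat.two_pow_pos f)
    have h : ((a * b : ℕ) : ℝ) ≤ (a * b / 2 ^ f * 2 ^ f + 2 ^ f : ℕ) := by exact_mod_cast this.le
    rw [Nat.cast_add, Nat.cast_mul, Nat.cast_mul] at h
    push_cast at h ⊢
    linarith
  rw [Int.cast_mul, Int.cast_mul, Int.cast_natCast]
  generalize ((a * b / 2 ^ f : ℕ) : ℝ) = q at *
  rw [abs_le]
  cases topB x <;> cases topB y <;> simp only [sgnB, cond_true, cond_false] <;> push_cast <;>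
    simp only [one_mul, neg_mul, mul_neg, neg_neg, neg_div] <;> constructor <;> linarith

theorem io_append (h : x.length = p) : io p (x ++ y) = mkR p ⟨lv x, lv y⟩ := by
  rw [io_eq, List.take_left' h, List.drop_left' h]

theorem len_take (hc : c.length = 2 * p) : (c.take p).length = p := by simp; omega

theorem len_drop (hc : c.length = 2 * p) : (c.drop p).length = p := by simp; omega

theorem length_addC (hc : c.length = 2 * p) (hd : d.length = 2 * p) :
    (addC p c d).length = 2 * p := by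
  have _ := hc
  have _ := hd
  simp [addC]; omega

theorem length_hlfC (hp : 1 ≤ p) (hc : c.length = 2 * p) : (hlfC p c).length = 2 * p := by
  rw [hlfC, List.length_append, length_rot, length_rot, len_take hc, len_drop hc, two_mul]
  · rwa [len_drop hc]
  · rwa [len_take hc]

theorem length_jC : (jC p c).length = c.length := by
  simp [jC]; omega

theorem length_cbC (hp : 1 ≤ p) (hc : c.length = 2 * p) (hd : d.length = 2 * p) :
    (cbC p c d).length = 2 * p :=
  length_hlfC hp (length_addC (length_addC hc hd) (length_jC.trans (length_addC hc (by simpa))))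

theorem length_cmulC (hc : c.length = 2 * p) (hd : d.length = 2 * p) :
    (cmulC p f c d).length = 2 * p := by
  have _ := hc
  have _ := hd
  simp [cmulC]; omega

theorem io_addC (hp : 1 ≤ p) (hc : c.length = 2 * p) (hd : d.length = 2 * p) :
    io p (addC p c d) = io p c + io p d := by
  have _ := hp
  rw [addC, io_append length_addM, io_eq, io_eq, ← map_add]
  exact mkR_eq_iff.2 ⟨lv_addM (lv_lt' (len_take hc).le) (lv_lt' (len_take hd).le),
    lv_addM (lv_lt' (len_drop hc).le) (lv_lt' (len_drop hd).le)⟩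

theorem io_negC (hc : c.length = 2 * p) : io p (negC c) = -io p c := by
  rw [io_eq, io_eq, ← map_neg, negC, ← List.map_take, ← List.map_drop]
  exact mkR_eq_iff.2 ⟨negC_modEq (len_take hc), negC_modEq (len_drop hc)⟩

theorem io_hlfC (hp : 1 ≤ p) (hc : c.length = 2 * p) : io p (hlfC p c) = hf p * io p c := by
  rw [hlfC, io_append ((length_rot (by rwa [len_take hc])).trans (len_take hc)), io_eq, hf,
    ← map_mul, show (2 ^ (p - 1) : GaussianInt) = ((2 ^ (p - 1) : ℤ) : GaussianInt) by
      push_cast; rfl, Zsqrtd.smul_val]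
  exact mkR_eq_iff.2 ⟨rot_modEq hp (len_take hc), rot_modEq hp (len_drop hc)⟩

theorem io_jC (hc : c.length = 2 * p) : io p (jC p c) = jR p * io p c := by
  rw [jC, io_append (by simpa using len_drop hc), io_eq, jR, ← map_mul]
  exact mkR_eq_iff.2 ⟨by simpa using negC_modEq (len_drop hc), by simp⟩

theorem io_cbC (hp : 1 ≤ p) (hc : c.length = 2 * p) (hd : d.length = 2 * p) :
    io p (cbC p c d) = (1 + jR p) * hf p * io p c + (1 - jR p) * hf p * io p d := by
  have hd' : (negC d).length = 2 * p := by simpa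
  have h1 := length_addC hc hd
  have h2 := length_addC hc hd'
  rw [cbC, io_hlfC hp (length_addC h1 (length_jC.trans h2)), io_addC hp h1 (length_jC.trans h2),
    io_jC h2, io_addC hp hc hd, io_addC hp hc hd', io_negC hd]
  ring

theorem io_cmulC' (hc : c.length = 2 * p) (hd : d.length = 2 * p) : io p (cmulC p f c d) =
    mkR p ⟨rv f (c.take p) (d.take p) - rv f (c.drop p) (d.drop p),
      rv f (c.take p) (d.drop p) + rv f (c.drop p) (d.take p)⟩ := by
  rw [cmulC, io_append length_addM]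
  refine mkR_eq_iff.2 ⟨(lv_addM (lv_lt' (by simp)) (lv_lt' (by simp))).trans ?_,
    (lv_addM (lv_lt' (by simp)) (lv_lt' (by simp))).trans ?_⟩
  · exact (rmul_modEq (len_take hc) (len_take hd)).add
      ((negC_modEq length_rmul).trans (rmul_modEq (len_drop hc) (len_drop hd)).neg)
  · exact (rmul_modEq (len_take hc) (len_drop hd)).add (rmul_modEq (len_drop hc) (len_take hd))

theorem io_cmulC_zero (hp : 1 ≤ p) (hc : c.length = 2 * p) (hd : d.length = 2 * p) :
    io p (cmulC p 0 c d) = io p c * io p d := by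
  rw [io_cmulC' hc hd, io, io, ← map_mul, rv_zero hp (len_take hc) (len_take hd),
    rv_zero hp (len_drop hc) (len_drop hd), rv_zero hp (len_take hc) (len_drop hd),
    rv_zero hp (len_drop hc) (len_take hd)]
  congr 1
  ext <;> simp [sg, sub_eq_add_neg]

theorem io_cmulC (hp : 1 ≤ p) (hc : c.length = 2 * p) (hd : d.length = 2 * p) :
    ∃ z : GaussianInt, io p (cmulC p f c d) = mkR p z ∧
      ‖(z : ℂ) - (sg p c : ℂ) * (sg p d : ℂ) / 2 ^ f‖ ≤ 4 := by
  refine ⟨_, io_cmulC' hc hd, (Complex.norm_le_abs_re_add_abs_im _).trans ?_⟩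
  have a1 := abs_le.1 (rv_err (f := f) hp (len_take hc) (len_take hd))
  have a2 := abs_le.1 (rv_err (f := f) hp (len_drop hc) (len_drop hd))
  have a3 := abs_le.1 (rv_err (f := f) hp (len_take hc) (len_drop hd))
  have a4 := abs_le.1 (rv_err (f := f) hp (len_drop hc) (len_take hd))
  rw [show (2 : ℂ) ^ f = ((2 ^ f : ℝ) : ℂ) by push_cast; rfl, show (4 : ℝ) = 2 + 2 by norm_num]
  simp only [Complex.sub_re, Complex.sub_im, Complex.div_ofReal_re, Complex.div_ofReal_im,
    Complex.mul_re, Complex.mul_im, ← GaussianInt.intCast_re, ← GaussianInt.intCast_im, sg,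
    Int.cast_sub, Int.cast_add, sub_div, add_div]
  refine add_le_add (abs_le.2 ⟨?_, ?_⟩) (abs_le.2 ⟨?_, ?_⟩) <;>
    linarith [a1.1, a1.2, a2.1, a2.2, a3.1, a3.2, a4.1, a4.2]

end

end Vale.Agent.P338
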