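import Vale.Agent.P338.Defs

/-! Structured programs on stacks of bits with recursive procedures and step counts. -/

namespace Vale.Agent.P338

open Function

abbrev Sym := Option Bool

/-- Commands. `cas` and `loop` pop a bit on top of stack `v` and leave a marker in place. -/
inductive Cmd
  | skip
  | push (v : ℕ) (s : Sym)
  | drop (v : ℕ)
  | seq (a b : Cmd)
  | cas (v : ℕ) (c0 c1 cn : Cmd)
  | loop (v : ℕ) (c0 c1 : Cmd)
  | call (f : Fin 3)

abbrev Raw := ℕ → List Sym

abbrev Tbl := Fin 3 → Cmd

inductive Exec (P : Tbl) : Cmd → Raw → Raw → ℕ → Prop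
  | skip {ρ} : Exec P .skip ρ ρ 1
  | push {ρ v s} : Exec P (.push v s) ρ (update ρ v (s :: ρ v)) 1
  | drop {ρ v s l} : ρ v = s :: l → Exec P (.drop v) ρ (update ρ v l) 1
  | seq {a b ρ ρ' ρ'' t t'} : Exec P a ρ ρ' t → Exec P b ρ' ρ'' t' →
      Exec P (.seq a b) ρ ρ'' (t + t' + 1)
  | casb {v c0 c1 cn ρ ρ' l t} (b : Bool) : ρ v = some b :: l →
      Exec P (cond b c1 c0) (update ρ v l) ρ' t → Exec P (.cas v c0 c1 cn) ρ ρ' (t + 1)
  | casn {v c0 c1 cn ρ ρ' l t} : ρ v = none :: l →
      Exec P cn ρ ρ' t → Exec P (.cas v c0 c1 cn) ρ ρ' (t + 1)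
  | loopb {v c0 c1 ρ ρ' ρ'' l t t'} (b : Bool) : ρ v = some b :: l →
      Exec P (cond b c1 c0) (update ρ v l) ρ' t → Exec P (.loop v c0 c1) ρ' ρ'' t' →
      Exec P (.loop v c0 c1) ρ ρ'' (t + t' + 1)
  | loopn {v c0 c1 ρ l} : ρ v = none :: l → Exec P (.loop v c0 c1) ρ ρ 1
  | call {f ρ ρ' t} : Exec P (P f) ρ ρ' t → Exec P (.call f) ρ ρ' (t + 1)

/-- Registers holding lists of bits. -/
abbrev St := ℕ → List Bool

def emb (σ : St) (ρ : Raw) : Raw := fun v => (σ v).map some ++ none :: ρ v

/-- `c` takes registers `σ` to `σ'` within `t` steps, whatever lies below the markers. -/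
def Ok (P : Tbl) (c : Cmd) (σ σ' : St) (t : ℕ) : Prop :=
  ∀ ρ, ∃ t' ≤ t, Exec P c (emb σ ρ) (emb σ' ρ) t'

variable {P : Tbl} {σ σ' σ'' : St} {t t' : ℕ}

theorem emb_update (σ : St) (ρ : Raw) (v : ℕ) (l : List Bool) :
    emb (update σ v l) ρ = update (emb σ ρ) v (l.map some ++ none :: ρ v) := by
  funext w
  by_cases h : w = v
  · subst h; simp [emb]
  · simp [emb, h]

theorem Ok.mono {c : Cmd} {τ : St} (h : Ok P c σ σ' t) (e : σ' = τ) (ht : t ≤ t') :
    Ok P c σ τ t' := fun ρ => by
  obtain ⟨s, hs, h⟩ := h ρ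
  exact ⟨s, hs.trans ht, e ▸ h⟩

theorem Ok.le {c : Cmd} (h : Ok P c σ σ' t) (ht : t ≤ t') : Ok P c σ σ' t' := h.mono rfl ht

theorem Ok.skip : Ok P .skip σ σ 1 := fun _ => ⟨1, le_rfl, .skip⟩

theorem Ok.push (σ : St) (v : ℕ) (b : Bool) :
    Ok P (.push v (some b)) σ (update σ v (b :: σ v)) 1 := fun ρ => by
  refine ⟨1, le_rfl, ?_⟩
  rw [emb_update]
  exact Exec.push

theorem Ok.seq {a b : Cmd} (h : Ok P a σ σ' t) (h' : Ok P b σ' σ'' t') :
    Ok P (.seq a b) σ σ'' (t + t' + 1) := fun ρ => by
  obtain ⟨s, hs, h⟩ := h ρ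
  obtain ⟨s', hs', h'⟩ := h' ρ
  exact ⟨s + s' + 1, by omega, h.seq h'⟩

theorem Ok.casb {v : ℕ} {c0 c1 cn : Cmd} {b : Bool} {l : List Bool} (hv : σ v = b :: l)
    (h : Ok P (cond b c1 c0) (update σ v l) σ' t) : Ok P (.cas v c0 c1 cn) σ σ' (t + 1) :=
  fun ρ => by
  obtain ⟨s, hs, h⟩ := h ρ
  rw [emb_update] at h
  exact ⟨s + 1, by omega, .casb b (by simp [emb, hv]) h⟩

theorem Ok.casn {v : ℕ} {c0 c1 cn : Cmd} (hv : σ v = []) (h : Ok P cn σ σ' t) :
    Ok P (.cas v c0 c1 cn) σ σ' (t + 1) := fun ρ => by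
  obtain ⟨s, hs, h⟩ := h ρ
  exact ⟨s + 1, by omega, .casn (l := ρ v) (by simp [emb, hv]) h⟩

theorem Ok.loopb {v : ℕ} {c0 c1 : Cmd} {b : Bool} {l : List Bool} (hv : σ v = b :: l)
    (h : Ok P (cond b c1 c0) (update σ v l) σ' t) (h' : Ok P (.loop v c0 c1) σ' σ'' t') :
    Ok P (.loop v c0 c1) σ σ'' (t + t' + 1) := fun ρ => by
  obtain ⟨s, hs, h⟩ := h ρ
  obtain ⟨s', hs', h'⟩ := h' ρ
  rw [emb_update] at h
  exact ⟨s + s' + 1, by omega, .loopb b (by simp [emb, hv]) h h'⟩

theorem Ok.loopn {v : ℕ} {c0 c1 : Cmd} (hv : σ v = []) : Ok P (.loop v c0 c1) σ σ 1 :=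
  fun ρ => ⟨1, le_rfl, .loopn (l := ρ v) (by simp [emb, hv])⟩

theorem Ok.call {f : Fin 3} (h : Ok P (P f) σ σ' t) : Ok P (.call f) σ σ' (t + 1) := fun ρ => by
  obtain ⟨s, hs, h⟩ := h ρ
  exact ⟨s + 1, by omega, .call h⟩

/-- Loop over the bits of register `v`; `S i` is the state after `i` rounds, apart from `v`. -/
theorem Ok.loop_list {v : ℕ} {c0 c1 : Cmd} (l : List Bool) (S : ℕ → St) (T : ℕ)
    (h : ∀ i (hi : i < l.length), Ok P (cond l[i] c1 c0) (update (S i) v (l.drop (i + 1)))
      (update (S (i + 1)) v (l.drop (i + 1))) T) :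
    Ok P (.loop v c0 c1) (update (S 0) v l) (update (S l.length) v []) (l.length * (T + 1) + 1) := by
  induction l generalizing S with
  | nil => simpa using Ok.loopn (by simp)
  | cons b l ih =>
    have h0 := h 0 (by simp)
    have h1 := ih (fun i => S (i + 1)) fun i hi => h (i + 1) (by simpa using hi)
    refine (Ok.loopb (l := l) (b := b) (by simp) (by simpa using h0) h1).mono (by simp) ?_
    simp only [List.length_cons]; nlinarith

/-- Counted loop: the same body for both bits. -/
theorem Ok.rep {v : ℕ} {c : Cmd} (l : List Bool) (S : ℕ → St) (T : ℕ)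
    (h : ∀ i < l.length, ∀ r, Ok P c (update (S i) v r) (update (S (i + 1)) v r) T) :
    Ok P (.loop v c c) (update (S 0) v l) (update (S l.length) v []) (l.length * (T + 1) + 1) :=
  Ok.loop_list l S T fun i hi => by simpa using h i hi _

/-- While loop controlled by a flag register holding at most one bit; `T i` bounds round `i`. -/
theorem Ok.whl {v : ℕ} {c : Cmd} (n : ℕ) (S : ℕ → St) (T : ℕ)
    (h : ∀ i < n, Ok P c (update (S i) v [])
      (update (S (i + 1)) v (if i + 1 < n then [true] else [])) T) :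
    Ok P (.loop v c c) (update (S 0) v (if 0 < n then [true] else []))
      (update (S n) v []) (n * (T + 1) + 1) := by
  induction n generalizing S with
  | zero => simpa using Ok.loopn (by simp)
  | succ n ih =>
    have h0 := h 0 (by omega)
    have h1 := ih (fun i => S (i + 1)) fun i hi => by
      simpa using h (i + 1) (by omega)
    refine (Ok.loopb (l := []) (b := true) (by simp) (by simpa using h0) h1).mono rfl ?_
    nlinarith

/-! Basic macros. -/

/-- Empty a register. -/
def clr (v : ℕ) : Cmd := .loop v .skip .skip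

theorem clr_ok (σ : St) (v : ℕ) : Ok P (clr v) σ (update σ v []) (2 * (σ v).length + 1) := by
  have := Ok.rep (P := P) (v := v) (c := .skip) (σ v) (fun _ => σ) 1 fun i _ r => Ok.skip
  simpa [clr, mul_comm] using this

/-- A local register: `c` finds `v` empty; afterwards the old content is restored. -/
def loc (v : ℕ) (c : Cmd) : Cmd := .seq (.push v none) (.seq c (.seq (clr v) (.drop v)))

theorem Ok.loc {v : ℕ} {c : Cmd} (h : Ok P c (update σ v []) σ' t) :
    Ok P (loc v c) σ (update σ' v (σ v)) (t + 2 * (σ' v).length + 6) := fun ρ => by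
  let ρ' := update ρ v ((σ v).map some ++ none :: ρ v)
  obtain ⟨s, hs, h⟩ := h ρ'
  obtain ⟨s', hs', h'⟩ := clr_ok (P := P) σ' v ρ'
  have e1 : update (emb σ ρ) v (none :: emb σ ρ v) = emb (update σ v []) ρ' := by
    funext w
    by_cases hw : w = v
    · subst hw; simp [emb, ρ']
    · simp [emb, ρ', hw]
  have e2 : update (emb (update σ' v []) ρ') v ((σ v).map some ++ none :: ρ v) =
      emb (update σ' v (σ v)) ρ := by
    funext w
    by_cases hw : w = v
    · subst hw; simp [emb]
    · simp [emb, ρ', hw]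
  refine ⟨_, ?_, Exec.seq Exec.push (e1 ▸ h.seq (h'.seq (e2 ▸ Exec.drop (s := none) ?_)))⟩
  · omega
  · simp [emb, ρ']

theorem rev_take_succ (l : List Bool) (i : ℕ) (hi : i < l.length) :
    (l.take (i + 1)).reverse = l[i] :: (l.take i).reverse := by
  rw [List.take_add_one]; simp [hi]

/-- Move `a` onto `b`, reversing it. -/
def mov (a b : ℕ) : Cmd := .loop a (.push b (some false)) (.push b (some true))

theorem mov_ok (σ : St) {a b : ℕ} (h : a ≠ b) : Ok P (mov a b) σ
    (update (update σ a []) b ((σ a).reverse ++ σ b)) (2 * (σ a).length + 1) := by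
  have := Ok.loop_list (P := P) (v := a) (c0 := .push b (some false)) (c1 := .push b (some true))
    (σ a) (fun i => update σ b (((σ a).take i).reverse ++ σ b)) 1 fun i hi => by
      have e : (cond (σ a)[i] (Cmd.push b (some true)) (.push b (some false))) =
          .push b (some (σ a)[i]) := by cases (σ a)[i] <;> rfl
      rw [e]
      refine (Ok.push _ _ _).mono ?_ le_rfl
      rw [update_comm h.symm, update_idem, update_comm h.symm, update_self, rev_take_succ _ _ hi]
      rfl
  simp only [List.take_zero, List.reverse_nil, List.nil_append, update_eq_self,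
    List.take_length] at this
  exact this.mono (update_comm h.symm _ _ _) (by omega)

/-- Move `a` onto both `b` and `c`, reversing it. -/
def mov2 (a b c : ℕ) : Cmd :=
  .loop a (.seq (.push b (some false)) (.push c (some false)))
    (.seq (.push b (some true)) (.push c (some true)))

theorem mov2_ok (σ : St) {a b c : ℕ} (h : a ≠ b) (h' : a ≠ c) (h'' : b ≠ c) :
    Ok P (mov2 a b c) σ
    (update (update (update σ a []) b ((σ a).reverse ++ σ b)) c ((σ a).reverse ++ σ c))
    (4 * (σ a).length + 1) := by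
  have := Ok.loop_list (P := P) (v := a)
    (c0 := .seq (.push b (some false)) (.push c (some false)))
    (c1 := .seq (.push b (some true)) (.push c (some true)))
    (σ a) (fun i => update (update σ b (((σ a).take i).reverse ++ σ b)) c
      (((σ a).take i).reverse ++ σ c)) 3 fun i hi => by
      have e : (cond (σ a)[i] (Cmd.seq (.push b (some true)) (.push c (some true)))
          (.seq (.push b (some false)) (.push c (some false)))) =
          .seq (.push b (some (σ a)[i])) (.push c (some (σ a)[i])) := by cases (σ a)[i] <;> rfl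
      rw [e]
      refine ((Ok.push _ _ _).seq (Ok.push _ _ _)).mono ?_ le_rfl
      funext w
      simp only [update_apply, rev_take_succ _ _ hi]
      split_ifs <;> simp_all
  simp only [List.take_zero, List.reverse_nil, List.nil_append, update_eq_self,
    List.take_length] at this
  refine this.mono ?_ (by omega)
  funext w
  simp only [update_apply]
  split_ifs <;> simp_all

/-- Put a copy of `a` in front of `b`. -/
def cpy (a b : ℕ) : Cmd := loc 99 (.seq (mov a 99) (mov2 99 a b))

theorem cpy_ok (σ : St) {a b : ℕ} (h : a ≠ b) (ha : a ≠ 99) (hb : b ≠ 99) :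
    Ok P (cpy a b) σ (update σ b (σ a ++ σ b)) (6 * (σ a).length + 9) := by
  refine (Ok.loc ((mov_ok _ ha).seq (mov2_ok _ ha.symm hb.symm h))).mono ?_ ?_
  · funext w
    simp only [update_apply]
    split_ifs <;> simp_all
  · simp [ha, hb, ha.symm, hb.symm]; omega

/-- Move `a` in front of `b`, keeping its order. -/
def app (a b : ℕ) : Cmd := loc 99 (.seq (mov a 99) (mov 99 b))

theorem app_ok (σ : St) {a b : ℕ} (h : a ≠ b) (ha : a ≠ 99) (hb : b ≠ 99) :
    Ok P (app a b) σ (update (update σ a []) b (σ a ++ σ b)) (4 * (σ a).length + 9) := by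
  refine (Ok.loc ((mov_ok _ ha).seq (mov_ok _ hb.symm))).mono ?_ ?_
  · funext w
    simp only [update_apply]
    split_ifs <;> simp_all
  · simp [ha, hb.symm]; omega

/-- Pop one bit of `s` (zero if there is none) and push it on `d`. -/
def one1 (d s : ℕ) : Cmd := .cas s (.push d (some false)) (.push d (some true)) (.push d (some false))

theorem one1_ok (σ : St) {d s : ℕ} (h : s ≠ d) : Ok P (one1 d s) σ
    (update (update σ s (σ s).tail) d ((σ s).headD false :: σ d)) 2 := by
  rcases hs : σ s with _ | ⟨b, l⟩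
  · refine (Ok.casn hs (Ok.push _ _ _)).mono ?_ le_rfl
    rw [List.tail_nil, ← hs, update_eq_self]; simp [hs]
  · refine Ok.casb hs ?_
    cases b <;> exact (Ok.push _ _ _).mono (by simp [h.symm]) le_rfl

theorem takeD_succ' (n : ℕ) (l : List Bool) :
    l.takeD (n + 1) false = l.takeD n false ++ [(l.drop n).headD false] := by
  induction n generalizing l with
  | zero => cases l <;> simp
  | succ n ih => rw [List.takeD_succ, ih]; cases l <;> simp

/-- Move as many bits as `r` is long from `s` to the front of `d`, keeping the order and padding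
with zeros. -/
def tk (d s r : ℕ) : Cmd :=
  loc 98 (loc 97 (.seq (.loop r (.seq (.push 97 (some false)) (one1 98 s))
    (.seq (.push 97 (some true)) (one1 98 s))) (.seq (mov 97 r) (mov 98 d))))

theorem tk_ok (σ : St) {d s r : ℕ} (h1 : d ≠ s) (h2 : d ≠ r) (h3 : s ≠ r) (hd : d ≠ 97 ∧ d ≠ 98)
    (hs : s ≠ 97 ∧ s ≠ 98) (hr : r ≠ 97 ∧ r ≠ 98) : Ok P (tk d s r) σ
    (update (update σ s ((σ s).drop (σ r).length)) d ((σ s).takeD (σ r).length false ++ σ d))
    (9 * (σ r).length + 17) := by
  have := Ok.loop_list (P := P) (v := r) (c0 := .seq (.push 97 (some false)) (one1 98 s))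
    (c1 := .seq (.push 97 (some true)) (one1 98 s)) (σ r)
    (fun i => update (update (update σ 98 ((σ s).takeD i false).reverse) 97
      ((σ r).take i).reverse) s ((σ s).drop i)) 4 fun i hi => by
      have e : (cond (σ r)[i] (Cmd.seq (.push 97 (some true)) (one1 98 s))
          (.seq (.push 97 (some false)) (one1 98 s))) =
          .seq (.push 97 (some (σ r)[i])) (one1 98 s) := by cases (σ r)[i] <;> rfl
      rw [e]
      refine ((Ok.push _ _ _).seq (one1_ok _ hs.2)).mono ?_ le_rfl
      funext w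
      simp only [update_apply, rev_take_succ _ _ hi, takeD_succ', List.reverse_append]
      clear e
      obtain ⟨hd1, hd2⟩ := hd
      obtain ⟨hs1, hs2⟩ := hs
      obtain ⟨hr1, hr2⟩ := hr
      by_cases a1 : w = 98
      · simp [a1, hs2.symm, hr2.symm, h3, hs1]
      by_cases a2 : w = s
      · simp [a2, hs2, h3, hs1]
      by_cases a3 : w = 97
      · simp [a3, hs1.symm, hr1.symm]
      simp [a1, a2, a3]
  have e : update (update (update (update σ 98 ((σ s).takeD 0 false).reverse) 97
      ((σ r).take 0).reverse) s ((σ s).drop 0)) r (σ r) = update (update σ 98 []) 97 [] := by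
    funext w
    simp only [update_apply]
    split_ifs <;> simp_all
  rw [e] at this
  refine (Ok.loc (Ok.loc (this.seq ((mov_ok _ hr.1.symm).seq (mov_ok _ hd.2.symm))))).mono ?_ ?_
  · funext w
    simp only [update_apply]
    split_ifs <;> simp_all
  · simp [hd.1.symm, hd.2.symm, hr.1.symm, hr.2.symm, hs.1.symm, hs.2.symm]; omega

/-- Push a fixed list in front of a register. -/
def lit (v : ℕ) : List Bool → Cmd
  | [] => .skip
  | b :: l => .seq (lit v l) (.push v (some b))

theorem lit_ok (σ : St) (v : ℕ) (l : List Bool) :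
    Ok P (lit v l) σ (update σ v (l ++ σ v)) (2 * l.length + 1) := by
  induction l with
  | nil => simpa [lit] using Ok.skip
  | cons b l ih => exact (ih.seq (Ok.push _ _ _)).mono (by simp) (by simp; omega)

/-- Set the flag `f` if `a` is not empty. -/
def tst (f a : ℕ) : Cmd :=
  .cas a (.seq (.push a (some false)) (.push f (some true)))
    (.seq (.push a (some true)) (.push f (some true))) .skip

theorem tst_ok (σ : St) {f a : ℕ} (h : a ≠ f) : Ok P (tst f a) σ
    (update σ f (if σ a = [] then σ f else true :: σ f)) 4 := by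
  rcases hs : σ a with _ | ⟨b, l⟩
  · exact (Ok.casn hs Ok.skip).mono (by simp) (by omega)
  · refine Ok.casb hs ?_
    rw [if_neg (by simp)]
    cases b <;> refine ((Ok.push _ _ _).seq (Ok.push _ _ _)).mono ?_ le_rfl <;>
      simp [h.symm, ← hs]

/-- The registers at the start: the factors, least significant bit first, in registers 0 and 1. -/
def st0 (x y : List Bool) : St := update (update (fun _ => []) 0 x) 1 y

/-- Value of a list of bits, least significant bit first. -/
def lv : List Bool → ℕ
  | [] => 0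
  | b :: l => b.toNat + 2 * lv l

end Vale.Agent.P338
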