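import Vale.Agent.P338.NetStage
import Vale.Agent.P344.Local

/-! Framed networks as instruction lists. -/

namespace Vale.Agent.P338

open Matrix

section designs

/-- Three-element subsets. -/
def Tri (H : Type) := {S : Finset H // S.card = 3}

instance (H : Type) [Fintype H] [DecidableEq H] : Fintype (Tri H) :=
  inferInstanceAs (Fintype {S : Finset H // S.card = 3})

instance (H : Type) [DecidableEq H] : DecidableEq (Tri H) :=
  inferInstanceAs (DecidableEq {S : Finset H // S.card = 3})

theorem card_Tri (H : Type) [Fintype H] [DecidableEq H] :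
    Fintype.card (Tri H) = (Fintype.card H).choose 3 := Fintype.card_finset_len 3

theorem side_mul {T R : Type} [CommRing R] [Fintype T] [DecidableEq T] (φ : T × T → Prop)
    [DecidablePred φ] (c : T × T → R) (t s : T) :
    ((of fun t (n : {p // φ p}) => if t = n.1.2 then c n.1 else 0 : Matrix T _ R) *
      (of fun (n : {p // φ p}) t => if t = n.1.1 then 1 else 0 : Matrix _ T R)) t s =
      if φ (s, t) then c (s, t) else 0 := by
  simp only [Matrix.mul_apply, of_apply, mul_ite, mul_one, mul_zero]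
  split_ifs with h
  · refine (Finset.sum_eq_single (s := Finset.univ) (⟨(s, t), h⟩ : {p // φ p}) ?_ ?_).trans ?_
    rotate_left 2
    · simp
    · rintro ⟨⟨S', T'⟩, h'⟩ _ hne
      by_cases e : s = S'
      · by_cases e' : t = T'
        · subst e e'; exact absurd rfl hne
        · simp [e']
      · simp [e]
    · exact fun hn => absurd (Finset.mem_univ _) hn
  · refine Finset.sum_eq_zero ?_
    rintro ⟨⟨S', T'⟩, h'⟩ _
    by_cases e : s = S'
    · by_cases e' : t = T'
      · subst e e'; exact absurd h' h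
      · simp [e']
    · simp [e]

variable {H : Type} [Fintype H] [DecidableEq H]

omit [Fintype H] in
theorem inter_cases (S T : Tri H) : (T = S ∧ (S.1 ∩ T.1).card = 3) ∨
    (T ≠ S ∧ ((S.1 ∩ T.1).card = 0 ∨ (S.1 ∩ T.1).card = 1 ∨ (S.1 ∩ T.1).card = 2)) := by
  by_cases hST : T = S
  · subst hST
    exact Or.inl ⟨rfl, by rw [Finset.inter_self, T.2]⟩
  · have hle : (S.1 ∩ T.1).card ≤ 3 :=
      (Finset.card_le_card Finset.inter_subset_left).trans S.2.le
    have h3 : (S.1 ∩ T.1).card ≠ 3 := by
      intro h3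
      apply hST
      have a1 : S.1 ∩ T.1 = S.1 :=
        Finset.eq_of_subset_of_card_le Finset.inter_subset_left (by rw [h3, S.2])
      have a2 : S.1 ∩ T.1 = T.1 :=
        Finset.eq_of_subset_of_card_le Finset.inter_subset_right (by rw [h3, T.2])
      exact Subtype.ext (a2.symm.trans a1)
    exact Or.inr ⟨hST, by omega⟩

theorem sum_ind_mul {R : Type} [CommRing R] (S T : Finset H) (c : R) :
    ∑ i, (if i ∈ T then c else 0) * (if i ∈ S then 1 else 0) = (S ∩ T).card * c := by
  simp only [mul_ite, mul_one, mul_zero]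
  rw [Finset.sum_ite_mem, Finset.univ_inter, Finset.sum_ite_mem, Finset.sum_const, nsmul_eq_mul]

theorem cheap_of_P344 {μ : Type} {c : ℕ} {Q : Matrix μ μ (ZMod 4)} (h : P344.Cheap c Q) :
    Cheap true c Q := by
  induction h with
  | one v => exact Cheap.one v
  | two v => exact (Cheap.two v).of_eq rfl (by ext i j; simp [vecMulVec_apply, mul_add])
  | add _ _ ih ih' => exact ih.add ih'

/-- The design with frames modulo four. -/
def desH (hH : 8 ≤ Fintype.card H) {R : Type} [CommRing R] {hf : R} (h2 : 2 * hf = 1) :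
    Des true (ZMod 4) hf H (Tri H) {p : Tri H × Tri H // Even (p.1.1 ∩ p.2.1).card} (Option H) where
  J := 1
  P S := P344.PS S.1
  src p := p.1.1
  tgt p := p.1.2
  va p := if (p.1.1.1 ∩ p.1.2.1).card = 0 then hf else -hf
  uc := of fun o S => o.elim 1 fun i => if i ∈ S.1 then 1 else 0
  vc := of fun T o => o.elim (-hf) fun i => if i ∈ T.1 then hf else 0
  h4 _ := by decide
  two_le := by omega
  cP S := cheap_of_P344 (P344.cheap_PS _)
  cJ := cheap_of_P344 P344.cheap_full
  c1 S := cheap_of_P344 (P344.cheap_compl1 hH S.2)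
  c2 p := cheap_of_P344 (P344.cheap_compl2 hH p.1.1.2 p.1.2.2 p.2)
  hva p := by
    split_ifs
    exacts [Cf.half, Cf.half.neg]
  huc := by
    rintro (_ | i) S <;> simp only [of_apply, Option.elim]
    · exact Cf.one
    · split_ifs
      exacts [Cf.one, Cf.zero]
  hvc := by
    rintro S (_ | i) <;> simp only [of_apply, Option.elim]
    · exact Cf.half.neg
    · split_ifs
      exacts [Cf.half, Cf.zero]
  key := by
    ext T S
    rw [Matrix.add_apply, side_mul (fun p : Tri H × Tri H => Even (p.1.1 ∩ p.2.1).card)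
      (fun p => if (p.1.1 ∩ p.2.1).card = 0 then hf else -hf), Matrix.mul_apply,
      Fintype.sum_option, Matrix.one_apply]
    simp only [of_apply, Option.elim, sum_ind_mul]
    rcases inter_cases S T with ⟨h, e⟩ | ⟨h, e | e | e⟩ <;> rw [e]
    · rw [if_neg (by decide), if_pos h]; push_cast; linear_combination h2
    · rw [if_pos (by decide), if_pos rfl, if_neg h]; push_cast; ring
    · rw [if_neg (by decide), if_neg h]; push_cast; ring
    · rw [if_pos (by decide), if_neg (by decide), if_neg h]; push_cast; ring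

theorem cheap_of_kill {K : Type} [CommRing K] (Q : Matrix H H K) (s : Finset H) (u : H → H → K)
    (hu : ∀ k ∈ s, ∀ k' ∈ s, u k k' = if k = k' then 1 else 0) (hk : ∀ k ∈ s, Q *ᵥ u k = 0) :
    Cheap false (Fintype.card H - s.card) Q := by
  refine (Cheap.sum sᶜ (fun _ => 1) (fun j => vecMulVec (fun a => Q a j)
    fun b => (if j = b then 1 else 0) - if b ∈ s then u b j else 0)
    fun j _ => Cheap.free _ _).of_eq (by simp [Finset.card_compl]) ?_
  ext a b
  simp only [Matrix.sum_apply, vecMulVec_apply, mul_sub, Finset.sum_sub_distrib, mul_ite, mul_one,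
    mul_zero, Finset.sum_ite_eq', Finset.mem_compl]
  by_cases hb : b ∈ s
  · have h1 : ∑ j, Q a j * u b j = 0 := congrFun (hk b hb) a
    have h2 : ∑ j ∈ s, Q a j * u b j = Q a b := by
      rw [Finset.sum_congr rfl fun j hj => by rw [hu b hb j hj]]
      simp [hb]
    rw [← Finset.sum_add_sum_compl s, h2] at h1
    simp only [hb, not_true, if_false, if_true]
    linear_combination -h1
  · simp [hb]

def tv (S : Finset H) : Option H → ℤ := fun o => o.elim 1 fun i => if i ∈ S then 1 else 0

def tw (S : Finset H) : Option H → ℤ := fun o => o.elim (-1) fun i => if i ∈ S then 1 else 0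

theorem P_mulVec (S T : Finset H) :
    vecMulVec (tv S) (tw S) *ᵥ tv T = (((T ∩ S).card : ℤ) - 1) • tv S := by
  funext a
  simp only [mulVec, dotProduct, vecMulVec_apply, mul_assoc, ← Finset.mul_sum, Fintype.sum_option,
    tw, Pi.smul_apply, smul_eq_mul]
  simp only [tv, Option.elim, sum_ind_mul]
  ring

/-- The design with integer frames. -/
def desT (hH : 1 ≤ Fintype.card H) :
    Des false ℤ (1 : ZMod 2) (Option H) (Tri H) {p : Tri H × Tri H // (p.1.1 ∩ p.2.1).card = 1} H where
  J := (2 : ℤ) • 1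
  P S := vecMulVec (tv S.1) (tw S.1)
  src p := p.1.1
  tgt p := p.1.2
  va _ := 1
  uc := of fun i S => if i ∈ S.1 then 1 else 0
  vc := of fun T i => if i ∈ T.1 then 1 else 0
  h4 h := absurd h (by decide)
  two_le := by rw [Fintype.card_option]; omega
  cP S := Cheap.free _ _
  cJ := cheap_of_kill _ ∅ 0 (by simp) (by simp)
  c1 S := cheap_of_kill _ {none} (fun _ => tv S.1) (by simp [tv]) fun k _ => by
    rw [sub_mulVec, P_mulVec, Finset.inter_self, S.2, smul_mulVec, one_mulVec]
    norm_num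
  c2 := by
    rintro ⟨⟨S, T⟩, h⟩
    obtain ⟨i, hi, hi'⟩ : ∃ i ∈ S.1, i ∉ T.1 := by
      by_contra hc
      push Not at hc
      have : S.1 ∩ T.1 = S.1 := Finset.inter_eq_left.2 hc
      simp only [this, S.2] at h
      omega
    have k1 : ((2 : ℤ) • 1 - vecMulVec (tv T.1) (tw T.1) - vecMulVec (tv S.1) (tw S.1)) *ᵥ
        tv T.1 = 0 := by
      rw [sub_mulVec, sub_mulVec, P_mulVec, P_mulVec, Finset.inter_self, T.2, Finset.inter_comm, h,
        smul_mulVec, one_mulVec]
      norm_num
    have k2 : ((2 : ℤ) • 1 - vecMulVec (tv T.1) (tw T.1) - vecMulVec (tv S.1) (tw S.1)) *ᵥ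
        tv S.1 = 0 := by
      rw [sub_mulVec, sub_mulVec, P_mulVec, P_mulVec, Finset.inter_self, S.2, h,
        smul_mulVec, one_mulVec]
      norm_num
    refine cheap_of_kill _ {none, some i} (fun o => o.elim (tv T.1) fun _ => tv S.1 - tv T.1)
      (by simp [tv, hi, hi']) ?_
    simp only [Finset.mem_insert, Finset.mem_singleton, forall_eq_or_imp, forall_eq, Option.elim,
      mulVec_sub, k1, k2, sub_self, and_self]
  hva _ := Cf.one
  huc i S := by
    simp only [of_apply]
    split_ifs
    exacts [Cf.one, Cf.zero]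
  hvc S i := by
    simp only [of_apply]
    split_ifs
    exacts [Cf.one, Cf.zero]
  key := by
    ext T S
    rw [Matrix.add_apply, side_mul (fun p : Tri H × Tri H => (p.1.1 ∩ p.2.1).card = 1)
      (fun _ => (1 : ZMod 2)), Matrix.mul_apply, Matrix.one_apply]
    simp only [of_apply, sum_ind_mul]
    rcases inter_cases S T with ⟨h, e⟩ | ⟨h, e | e | e⟩ <;> rw [e]
    · rw [if_neg (by decide), if_pos h]; decide
    · rw [if_neg (by decide), if_neg h]; decide
    · rw [if_pos rfl, if_neg h]; decide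
    · rw [if_neg (by decide), if_neg h]; decide

end designs

theorem Sem.final {K R : Type} [CommRing K] [CommRing R] {sym : Bool} {hf : R} {n c : ℕ}
    {f : Fin n → Matrix (Fin mm) (Fin mm) K} {U : Matrix (Fin mm) (Fin mm) K}
    (h : Sem sym hf c f 1 fun i => f i + U) :
    ∃ l : List (Ins K), (∀ x ∈ l, x.wf n (Okk sym)) ∧ (l.map Ins.cost).sum ≤ c ∧
      ∀ (R' V : Type) [CommRing R'] [AddCommGroup V] [Module R' V] (ψ : R →+* R')
        (Φ : Matrix (Fin mm) (Fin mm) K → Module.End R' V), Φ 0 = 1 →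
        (∀ A B, Φ (A + B) = Φ A * Φ B) → ∀ u : ℕ → V, ∀ i < n,
        l.foldl (Ins.run (ψ hf) Φ) u i = Φ U (u i) := by
  obtain ⟨l, h1, h2, h3⟩ := h
  refine ⟨l, h1, h2, fun R' V _ _ _ ψ Φ h0 ha u i hi => ?_⟩
  have := h3 R' V ψ Φ h0 ha u (fun w => Φ (-f w) (u w)) (fun w => by
    rw [← Module.End.mul_apply, ← ha, add_neg_cancel, h0]; rfl) ⟨i, hi⟩
  rwa [sum_one_smul, ← Module.End.mul_apply, ← ha, add_neg_cancel_comm] at this

/-- The network with integer frames and data of characteristic two. -/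
theorem netT : ∃ (w : ℕ) (l : List (Ins ℤ)),
    (∀ x ∈ l, x.wf (2 ^ w) fun _ _ pd => pd = true) ∧
    Sav (l.map Ins.cost).sum (2 ^ w * mm) ∧
    ∀ (V : Type) [AddCommGroup V] [Module (ZMod 2) V]
      (Φ : Matrix (Fin mm) (Fin mm) ℤ → Module.End (ZMod 2) V), Φ 0 = 1 →
      (∀ A B, Φ (A + B) = Φ A * Φ B) → ∀ u : ℕ → V, ∀ i < 2 ^ w,
      l.foldl (Ins.run 1 Φ) u i = Φ 8 (u i) := by
  obtain ⟨w, c, e, f, hc, h⟩ := (desT (H := Fin 63) (by simp)).sem (by simp)
    (by rw [card_Tri, Fintype.card_fin]; decide) (by simp)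
    (by rw [card_Tri, Fintype.card_fin]; decide)
    (by rw [← Fintype.card_prod]; exact Fintype.card_subtype_le _)
  obtain ⟨l, h1, h2, h3⟩ := h.final
  refine ⟨w, l, h1, ⟨(Nat.add_le_add_right (Nat.mul_le_mul_left _ h2) _).trans hc⟩, fun V _ _ Φ h0 ha u i hi => ?_⟩
  have := h3 (ZMod 2) V (RingHom.id _) Φ h0 ha u i hi
  rw [RingHom.id_apply] at this
  rw [this]
  congr 2
  simp only [desT, K3, Matrix.smul_kronecker, Matrix.kronecker_smul, one_kronecker_one, smul_smul,
    submatrix_smul, Pi.smul_apply, submatrix_one_equiv]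
  rw [zsmul_one]
  norm_num

/-- The network with frames modulo four and data over a ring that contains one half. -/
theorem netH : ∃ (w : ℕ) (l : List (Ins (ZMod 4))),
    (∀ x ∈ l, x.wf (2 ^ w) fun a b pd => b = if pd then a else a + a) ∧
    Sav (l.map Ins.cost).sum (2 ^ w * mm) ∧
    ∀ (R V : Type) [CommRing R] [AddCommGroup V] [Module R V] (hf : R), 2 * hf = 1 →
      ∀ Φ : Matrix (Fin mm) (Fin mm) (ZMod 4) → Module.End R V, Φ 0 = 1 →
      (∀ A B, Φ (A + B) = Φ A * Φ B) → ∀ u : ℕ → V, ∀ i < 2 ^ w,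
      l.foldl (Ins.run hf Φ) u i = Φ 1 (u i) := by
  have h2 : 2 * (IsLocalization.Away.invSelf (2 : ℤ) : Localization.Away (2 : ℤ)) = 1 := by
    simpa using IsLocalization.Away.mul_invSelf (S := Localization.Away (2 : ℤ)) (2 : ℤ)
  obtain ⟨w, c, e, f, hc, h⟩ := (desH (H := Fin 64) (by simp) h2).sem (by simp)
    (by rw [card_Tri, Fintype.card_option, Fintype.card_fin]; decide) (by simp)
    (by rw [card_Tri, Fintype.card_fin]; decide)
    (by rw [← Fintype.card_prod]; exact Fintype.card_subtype_le _)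
  obtain ⟨l, h1, h3, h4⟩ := h.final
  refine ⟨w, l, h1, ⟨(Nat.add_le_add_right (Nat.mul_le_mul_left _ h3) _).trans hc⟩, fun R V _ _ _ hf hh Φ h0 ha u i hi => ?_⟩
  have hu : IsUnit (Int.castRingHom R 2) := by
    simpa using IsUnit.of_mul_eq_one hf hh
  let ψ : Localization.Away (2 : ℤ) →+* R := IsLocalization.Away.lift 2 hu
  have h5 := congrArg ψ h2
  rw [map_mul, map_one, map_ofNat] at h5
  have h6 : ψ (IsLocalization.Away.invSelf (2 : ℤ)) = hf := by
    linear_combination hf * h5 - ψ (IsLocalization.Away.invSelf (2 : ℤ)) * hh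
  have := h4 R V ψ Φ h0 ha u i hi
  rw [h6] at this
  rw [this]
  congr 2
  simp only [desH, K3, one_kronecker_one, submatrix_one_equiv]

end Vale.Agent.P338
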