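import Vale.Agent.P338.NetDefs

/-! Framed linear networks and their translation to instruction lists. -/

namespace Vale.Agent.P338

open Matrix
open scoped Kronecker

set_option linter.unusedSectionVars false

/-- Admissible atoms. -/
def Okk {K μ : Type} [Add K] (sym : Bool) (a b : μ → K) (pd : Bool) : Prop :=
  if sym then b = if pd then a else a + a else pd = true

/-- `Cheap sym c Q`: `Q` is a sum of admissible atoms, at most `c` of which are paid. -/
inductive Cheap {K : Type} [CommRing K] (sym : Bool) {μ : Type} : ℕ → Matrix μ μ K → Prop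
  | zero : Cheap sym 0 0
  | atom (a b : μ → K) (pd : Bool) : Okk sym a b pd → Cheap sym pd.toNat (vecMulVec a b)
  | add {a b : ℕ} {Q Q' : Matrix μ μ K} : Cheap sym a Q → Cheap sym b Q' →
      Cheap sym (a + b) (Q + Q')
  | mono {a b : ℕ} {Q : Matrix μ μ K} : Cheap sym a Q → a ≤ b → Cheap sym b Q

section cheap
variable {K : Type} [CommRing K] {sym : Bool} {μ μ' : Type}

theorem Cheap.of_eq {a b : ℕ} {Q Q' : Matrix μ μ K} (h : Cheap sym a Q) (hab : a = b)
    (hQ : Q = Q') : Cheap sym b Q' := hab ▸ hQ ▸ h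

theorem Cheap.sum {β : Type} (t : Finset β) (c : β → ℕ) (Q : β → Matrix μ μ K)
    (h : ∀ b ∈ t, Cheap sym (c b) (Q b)) : Cheap sym (∑ b ∈ t, c b) (∑ b ∈ t, Q b) := by
  classical
  induction t using Finset.induction_on with
  | empty => simpa using Cheap.zero
  | insert b t hb ih =>
    rw [Finset.sum_insert hb, Finset.sum_insert hb]
    exact (h b (by simp)).add (ih fun b' hb' => h b' (by simp [hb']))

theorem Cheap.free (a b : μ → K) : Cheap false 1 (vecMulVec a b) :=
  Cheap.atom a b true (by simp [Okk])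

theorem Cheap.one (a : μ → K) : Cheap true 1 (vecMulVec a a) :=
  Cheap.atom a a true (by simp [Okk])

theorem Cheap.two (a : μ → K) : Cheap true 0 (vecMulVec a (a + a)) :=
  Cheap.atom a (a + a) false (by simp [Okk])

theorem Cheap.neg (h4 : sym = true → (4 : K) = 0) {a : ℕ} {Q : Matrix μ μ K}
    (h : Cheap sym a Q) : Cheap sym a (-Q) := by
  induction h with
  | zero => simpa using Cheap.zero
  | atom a b pd h =>
    cases sym
    · obtain rfl : pd = true := by simpa [Okk] using h
      exact (Cheap.free (-a) b).of_eq rfl (by ext i j; simp [vecMulVec_apply])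
    · have h4 := h4 rfl
      cases pd
      · obtain rfl : b = a + a := by simpa [Okk] using h
        refine (Cheap.two a).of_eq rfl ?_
        ext i j
        simp only [vecMulVec_apply, Pi.add_apply, Matrix.neg_apply]
        linear_combination a i * a j * h4
      · obtain rfl : b = a := by simpa [Okk] using h
        refine ((Cheap.one b).add (Cheap.two b)).of_eq rfl ?_
        ext i j
        simp only [vecMulVec_apply, Pi.add_apply, Matrix.neg_apply, Matrix.add_apply]
        linear_combination b i * b j * h4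
  | add _ _ ih ih' => exact (ih.add ih').of_eq rfl (by abel)
  | mono _ hab ih => exact ih.mono hab

theorem Cheap.double (h4 : sym = true → (4 : K) = 0) {a : ℕ} {Q : Matrix μ μ K}
    (h : Cheap sym a Q) : Cheap sym a (Q + Q) := by
  induction h with
  | zero => simpa using Cheap.zero
  | atom a b pd h =>
    cases sym
    · obtain rfl : pd = true := by simpa [Okk] using h
      exact (Cheap.free (a + a) b).of_eq rfl (by ext i j; simp [vecMulVec_apply, add_mul])
    · have h4 := h4 rfl
      cases pd
      · obtain rfl : b = a + a := by simpa [Okk] using h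
        refine Cheap.zero.of_eq rfl ?_
        ext i j
        simp only [vecMulVec_apply, Pi.add_apply, Matrix.add_apply, Matrix.zero_apply]
        linear_combination (-(a i * a j)) * h4
      · obtain rfl : b = a := by simpa [Okk] using h
        refine ((Cheap.two b).mono (Nat.zero_le _)).of_eq rfl ?_
        ext i j
        simp only [vecMulVec_apply, Pi.add_apply, Matrix.add_apply]
        ring
  | add _ _ ih ih' => exact (ih.add ih').of_eq rfl (by abel)
  | mono _ hab ih => exact ih.mono hab

theorem cheap_kron_atom (h4 : sym = true → (4 : K) = 0) {a b : μ → K} {a' b' : μ' → K}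
    {pd pd' : Bool} (h : Okk sym a b pd) (h' : Okk sym a' b' pd') :
    Cheap sym (pd.toNat * pd'.toNat) (vecMulVec a b ⊗ₖ vecMulVec a' b') := by
  cases sym
  · obtain rfl : pd = true := by simpa [Okk] using h
    obtain rfl : pd' = true := by simpa [Okk] using h'
    refine (Cheap.free (fun p : μ × μ' => a p.1 * a' p.2) fun p => b p.1 * b' p.2).of_eq rfl ?_
    ext p q
    simp only [kroneckerMap_apply, vecMulVec_apply]; ring
  · have h4 := h4 rfl
    have c1 := Cheap.one fun p : μ × μ' => a p.1 * a' p.2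
    have c2 := Cheap.two fun p : μ × μ' => a p.1 * a' p.2
    cases pd <;> cases pd' <;> simp only [Okk, if_true, Bool.false_eq_true, if_false] at h h' <;>
      subst h h'
    · refine Cheap.zero.of_eq rfl ?_
      ext p q
      simp only [kroneckerMap_apply, vecMulVec_apply, Pi.add_apply, Matrix.zero_apply]
      linear_combination (-(a p.1 * a q.1 * (a' p.2 * a' q.2))) * h4
    all_goals
      first | refine c1.of_eq rfl ?_ | refine c2.of_eq rfl ?_
      ext p q
      simp only [kroneckerMap_apply, vecMulVec_apply, Pi.add_apply]; ring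

theorem Cheap.kron (h4 : sym = true → (4 : K) = 0) {a b : ℕ} {Q : Matrix μ μ K}
    {R : Matrix μ' μ' K} (h : Cheap sym a Q) (h' : Cheap sym b R) :
    Cheap sym (a * b) (Q ⊗ₖ R) := by
  induction h with
  | zero => simpa using Cheap.zero
  | atom x y pd h =>
    induction h' with
    | zero => simpa using Cheap.zero
    | atom x' y' pd' h' => exact cheap_kron_atom h4 h h'
    | add _ _ ih ih' => rw [Matrix.kronecker_add, mul_add]; exact ih.add ih'
    | mono _ hab ih => exact ih.mono (Nat.mul_le_mul_left _ hab)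
  | add _ _ ih ih' => rw [Matrix.add_kronecker, add_mul]; exact ih.add ih'
  | mono _ hab ih => exact ih.mono (Nat.mul_le_mul_right _ hab)

theorem Cheap.submatrix {a : ℕ} {Q : Matrix μ μ K} (h : Cheap sym a Q) (e : μ' → μ) :
    Cheap sym a (Q.submatrix e e) := by
  induction h with
  | zero => exact Cheap.zero
  | atom x y pd h =>
    refine Cheap.atom (x ∘ e) (y ∘ e) pd ?_
    cases sym
    · simpa [Okk] using h
    · cases pd <;> simp only [Okk, if_true, Bool.false_eq_true, if_false] at h ⊢ <;> subst h <;>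
        rfl
  | add _ _ ih ih' => exact ih.add ih'
  | mono _ hab ih => exact ih.mono hab

end cheap

/-- Zero or a gate coefficient. -/
def Cf {R : Type} [CommRing R] (hf r : R) : Prop := r = 0 ∨ ∃ c : Co, r = c.val hf

theorem Cf.neg {R : Type} [CommRing R] {hf r : R} (h : Cf hf r) : Cf hf (-r) := by
  rcases h with rfl | ⟨c, rfl⟩
  · exact Or.inl neg_zero
  · cases c
    exacts [Or.inr ⟨.n, rfl⟩, Or.inr ⟨.p, neg_neg _⟩, Or.inr ⟨.nh, rfl⟩, Or.inr ⟨.ph, neg_neg _⟩]

theorem Cf.zero {R : Type} [CommRing R] {hf : R} : Cf hf 0 := Or.inl rfl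

theorem Cf.one {R : Type} [CommRing R] {hf : R} : Cf hf 1 := Or.inr ⟨.p, rfl⟩

theorem Cf.half {R : Type} [CommRing R] {hf : R} : Cf hf hf := Or.inr ⟨.ph, rfl⟩

/-- Products of elementary gates. -/
inductive Elem {R : Type} [CommRing R] (hf : R) {W : Type} [Fintype W] [DecidableEq W] :
    Matrix W W R → Prop
  | one_add (N : Matrix W W R) (S : W → Prop) : (∀ w w', Cf hf (N w w')) →
      (∀ w w', N w w' ≠ 0 → S w ∧ ¬S w') → Elem hf (1 + N)
  | mul {A B : Matrix W W R} : Elem hf A → Elem hf B → Elem hf (B * A)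

/-- Framed networks: wires carry frames, moving costs, gates mix equal frames only. -/
inductive Prog {K R : Type} [CommRing K] [CommRing R] (sym : Bool) (hf : R) {μ W : Type}
    [Fintype W] [DecidableEq W] :
    (W → Matrix μ μ K) → Matrix W W R → (W → Matrix μ μ K) → ℕ → Prop
  | move {f f' : W → Matrix μ μ K} (c : W → ℕ) :
      (∀ w, Cheap sym (c w) (f' w - f w)) → Prog sym hf f 1 f' (∑ w, c w)
  | gate {f f' : W → Matrix μ μ K} {A : Matrix W W R} : Elem hf A →
      (∀ w w', A w w' ≠ 0 → f' w = f w') → Prog sym hf f A f' 0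
  | comp {f f' f'' : W → Matrix μ μ K} {A B : Matrix W W R} {c c' : ℕ} :
      Prog sym hf f A f' c → Prog sym hf f' B f'' c' → Prog sym hf f (B * A) f'' (c + c')

variable {K R : Type} [CommRing K] [CommRing R] {sym : Bool} {hf : R}

section
variable {μ W : Type} [Fintype W] [DecidableEq W]

theorem Prog.of_eq {f f' g g' : W → Matrix μ μ K} {A B : Matrix W W R} {c d : ℕ}
    (h : Prog sym hf f A f' c) (hf' : f = g) (hA : A = B) (hf'' : f' = g') (hc : c = d) :
    Prog sym hf g B g' d := by
  subst hf' hA hf'' hc; exact h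

theorem Prog.then_move {f f' f'' : W → Matrix μ μ K} {A : Matrix W W R} {c : ℕ}
    (h : Prog sym hf f A f' c) (d : W → ℕ) (hd : ∀ w, Cheap sym (d w) (f'' w - f' w)) :
    Prog sym hf f A f'' (c + ∑ w, d w) :=
  (h.comp (Prog.move d hd)).of_eq rfl (Matrix.one_mul _) rfl rfl

theorem Prog.then_gate {f f' : W → Matrix μ μ K} {A B : Matrix W W R} {c : ℕ}
    (h : Prog sym hf f A f' c) (hE : Elem hf B) (hB : ∀ w w', B w w' ≠ 0 → f' w = f' w') :
    Prog sym hf f (B * A) f' c :=
  h.comp (Prog.gate hE hB)

end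

section lift
variable {μ μ' W W' β ρ : Type} [Fintype W] [DecidableEq W] [Fintype W'] [DecidableEq W']
  [Fintype β] [DecidableEq β] [Fintype ρ] [DecidableEq ρ]

/-- Frames of parallel copies of a network. -/
def liftF (σ : W' ≃ (W × β) ⊕ ρ) (B : β → Matrix μ' μ' K)
    (e : β → Matrix μ μ K →+ Matrix μ' μ' K) (r : ρ → Matrix μ' μ' K)
    (f : W → Matrix μ μ K) : W' → Matrix μ' μ' K :=
  fun w => Sum.elim (fun p : W × β => B p.2 + e p.2 (f p.1)) r (σ w)

/-- Logical matrix of parallel copies of a network. -/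
def liftA (σ : W' ≃ (W × β) ⊕ ρ) (A : Matrix W W R) : Matrix W' W' R :=
  (fromBlocks (blockDiagonal fun _ : β => A) 0 0 (1 : Matrix ρ ρ R)).submatrix σ σ

theorem liftA_one (σ : W' ≃ (W × β) ⊕ ρ) : liftA σ (1 : Matrix W W R) = 1 := by
  have : (blockDiagonal fun _ : β => (1 : Matrix W W R)) = 1 := blockDiagonal_one
  rw [liftA, this, fromBlocks_one, submatrix_one_equiv]

theorem liftA_mul (σ : W' ≃ (W × β) ⊕ ρ) (A B : Matrix W W R) :
    liftA σ B * liftA σ A = liftA σ (B * A) := by
  simp only [liftA]
  rw [submatrix_mul_equiv, fromBlocks_multiply, ← blockDiagonal_mul]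
  simp

theorem Elem.lift (σ : W' ≃ (W × β) ⊕ ρ) {A : Matrix W W R} (h : Elem hf A) :
    Elem hf (liftA σ A) := by
  induction h with
  | one_add N S h1 h2 =>
    have e : liftA σ (1 + N) = 1 + (fromBlocks (blockDiagonal fun _ : β => N) 0 0
        (0 : Matrix ρ ρ R)).submatrix σ σ := by
      rw [← liftA_one σ]
      ext w w'
      simp only [liftA, Matrix.add_apply, submatrix_apply]
      rcases σ w with ⟨u, b⟩ | x <;> rcases σ w' with ⟨u', b'⟩ | x' <;>
        simp [blockDiagonal_apply, ite_add_ite]
    rw [e]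
    refine Elem.one_add _ (fun w => Sum.elim (fun p : W × β => S p.1) (fun _ => False) (σ w))
      (fun w w' => ?_) fun w w' => ?_
    · simp only [submatrix_apply]
      rcases σ w with ⟨u, b⟩ | x <;> rcases σ w' with ⟨u', b'⟩ | x' <;>
        simp only [fromBlocks_apply₁₁, fromBlocks_apply₁₂, fromBlocks_apply₂₁, fromBlocks_apply₂₂,
          blockDiagonal_apply, Matrix.zero_apply, Cf.zero]
      split_ifs
      exacts [h1 _ _, Cf.zero]
    · simp only [submatrix_apply]
      rcases σ w with ⟨u, b⟩ | x <;> rcases σ w' with ⟨u', b'⟩ | x' <;>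
        simp only [fromBlocks_apply₁₁, fromBlocks_apply₁₂, fromBlocks_apply₂₁, fromBlocks_apply₂₂,
          blockDiagonal_apply, Matrix.zero_apply, ne_eq, not_true, false_imp_iff, Sum.elim_inl]
      split_ifs
      exacts [h2 _ _, fun h => absurd rfl h]
  | mul _ _ ih ih' => rw [← liftA_mul]; exact ih.mul ih'

theorem Prog.lift (σ : W' ≃ (W × β) ⊕ ρ) (B : β → Matrix μ' μ' K)
    (e : β → Matrix μ μ K →+ Matrix μ' μ' K)
    (he : ∀ b c Q, Cheap sym c Q → Cheap sym c (e b Q)) (r : ρ → Matrix μ' μ' K)
    {f f' : W → Matrix μ μ K} {A : Matrix W W R} {c : ℕ} (h : Prog sym hf f A f' c) :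
    Prog sym hf (liftF σ B e r f) (liftA σ A) (liftF σ B e r f') (Fintype.card β * c) := by
  induction h with
  | @move f f' c hc =>
    refine (Prog.move (f := liftF σ B e r f) (f' := liftF σ B e r f')
      (fun w => Sum.elim (fun p : W × β => c p.1) (fun _ => 0) (σ w)) ?_).of_eq rfl
      (liftA_one σ).symm rfl ?_
    · intro w
      simp only [liftF]
      rcases σ w with ⟨u, b⟩ | x
      · simp only [Sum.elim_inl, add_sub_add_left_eq_sub, ← map_sub]
        exact he _ _ _ (hc u)
      · simpa using Cheap.zero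
    · rw [Equiv.sum_comp σ (fun x => Sum.elim (fun p : W × β => c p.1) (fun _ => 0) x)]
      simp [Fintype.sum_prod_type, Finset.mul_sum]
  | @gate f f' A hE hA =>
    refine (Prog.gate (hE.lift σ) ?_).of_eq rfl rfl rfl (by simp)
    intro w w'
    simp only [liftA, liftF, submatrix_apply]
    rcases σ w with ⟨u, b⟩ | x <;> rcases σ w' with ⟨u', b'⟩ | x'
    · simp only [fromBlocks_apply₁₁, blockDiagonal_apply, Sum.elim_inl]
      by_cases hb : b = b'
      · subst hb
        simp only [if_true]
        intro h; rw [hA u u' h]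
      · simp [hb]
    · simp
    · simp
    · simp only [fromBlocks_apply₂₂, Sum.elim_inr]
      intro h
      rw [Matrix.one_apply] at h
      by_cases hx : x = x'
      · rw [hx]
      · simp [hx] at h
  | @comp f f' f'' A A' c c' _ _ ih ih' =>
    exact (ih.comp ih').of_eq rfl (liftA_mul _ _ _) rfl (by ring)

end lift

section sound
variable {n : ℕ}

/-- An instruction list realises the logical matrix `A` between the frames `f` and `f'`. -/
def Sem (sym : Bool) (hf : R) (c : ℕ) (f : Fin n → Matrix (Fin mm) (Fin mm) K)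
    (A : Matrix (Fin n) (Fin n) R) (f' : Fin n → Matrix (Fin mm) (Fin mm) K) : Prop :=
  ∃ l : List (Ins K), (∀ x ∈ l, x.wf n (Okk sym)) ∧ (l.map Ins.cost).sum ≤ c ∧
    ∀ (R' V : Type) [CommRing R'] [AddCommGroup V] [Module R' V] (ψ : R →+* R')
      (Φ : Matrix (Fin mm) (Fin mm) K → Module.End R' V), Φ 0 = 1 →
      (∀ A B, Φ (A + B) = Φ A * Φ B) → ∀ (u : ℕ → V) (x : Fin n → V),
      (∀ w : Fin n, u w = Φ (f w) (x w)) →
      ∀ w : Fin n, l.foldl (Ins.run (ψ hf) Φ) u w = Φ (f' w) (∑ w', ψ (A w w') • x w')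

variable {f f' f'' : Fin n → Matrix (Fin mm) (Fin mm) K} {A B : Matrix (Fin n) (Fin n) R}
  {c c' : ℕ}

theorem Sem.of_eq {g : Fin n → Matrix (Fin mm) (Fin mm) K} (h : Sem sym hf c f A f') (hc : c ≤ c')
    (hA : A = B) (hg : f' = g) : Sem sym hf c' f B g := by
  obtain ⟨l, h1, h2, h3⟩ := h
  subst hA hg
  exact ⟨l, h1, h2.trans hc, h3⟩

theorem sum_one_smul {R' V : Type} [CommRing R'] [AddCommGroup V] [Module R' V] (ψ : R →+* R')
    (x : Fin n → V) (w : Fin n) : ∑ w', ψ ((1 : Matrix (Fin n) (Fin n) R) w w') • x w' = x w := by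
  simp [Matrix.one_apply, apply_ite ψ]

theorem Sem.refl : Sem sym hf 0 f 1 f :=
  ⟨[], by simp, by simp, fun R' V _ _ _ ψ Φ _ _ u x hu w => by
    rw [sum_one_smul]; exact hu w⟩

theorem Sem.comp (h : Sem sym hf c f A f') (h' : Sem sym hf c' f' B f'') :
    Sem sym hf (c + c') f (B * A) f'' := by
  obtain ⟨l, h1, h2, h3⟩ := h
  obtain ⟨l', h1', h2', h3'⟩ := h'
  refine ⟨l ++ l', fun x hx => (List.mem_append.1 hx).elim (h1 x) (h1' x), ?_,
    fun R' V _ _ _ ψ Φ h0 ha u x hu w => ?_⟩
  · rw [List.map_append, List.sum_append]; omega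
  · rw [List.foldl_append, h3' R' V ψ Φ h0 ha _ _ (h3 R' V ψ Φ h0 ha u x hu)]
    congr 1
    simp only [Matrix.mul_apply, map_sum, map_mul, Finset.smul_sum, Finset.sum_smul, smul_smul]
    exact Finset.sum_comm

theorem Sem.regate (h : Sem sym hf c (fun _ => (0 : Matrix (Fin mm) (Fin mm) K)) A fun _ => 0)
    (hA : ∀ w w', A w w' ≠ 0 → f' w = f w') : Sem sym hf c f A f' := by
  obtain ⟨l, h1, h2, h3⟩ := h
  refine ⟨l, h1, h2, fun R' V _ _ _ ψ Φ h0 ha u x hu w => ?_⟩
  rw [h3 R' V ψ Φ h0 ha u (fun w => u w) (fun w => by rw [h0]; rfl), h0, map_sum]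
  simp only [Module.End.one_apply, map_sum]
  refine Finset.sum_congr rfl fun w' _ => ?_
  by_cases e : A w w' = 0
  · simp [e]
  · rw [hu, map_smul, hA w w' e]

theorem Sem.gate {i j : Fin n} (hij : i ≠ j) {r : R} (hr : Cf hf r) :
    Sem sym hf 0 (fun _ => (0 : Matrix (Fin mm) (Fin mm) K)) (1 + single i j r) fun _ => 0 := by
  rcases hr with rfl | ⟨c, rfl⟩
  · exact Sem.refl.of_eq le_rfl (by simp) rfl
  refine ⟨[.gate i j c], ?_, le_rfl, fun R' V _ _ _ ψ Φ h0 ha u x hu w => ?_⟩
  · simp only [List.mem_singleton, forall_eq, Ins.wf]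
    exact ⟨i.2, j.2, fun h => hij (Fin.ext h)⟩
  · have e : ψ (c.val hf) = c.val (ψ hf) := by cases c <;> simp [Co.val]
    simp only [h0, Module.End.one_apply] at hu
    simp only [h0, Module.End.one_apply, List.foldl_cons, List.foldl_nil, Ins.run,
      Matrix.add_apply, map_add, add_smul, Finset.sum_add_distrib, sum_one_smul]
    by_cases hw : w = i
    · subst hw
      simp [hu, single_apply, apply_ite ψ, e]
    · have : (w : ℕ) ≠ i := fun h => hw (Fin.ext h)
      simp [hu, this, Ne.symm hw]

theorem Elem.sound (h : Elem hf A) :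
    Sem sym hf 0 (fun _ => (0 : Matrix (Fin mm) (Fin mm) K)) A fun _ => 0 := by
  induction h with
  | one_add N S h1 h2 =>
    have key : ∀ s : Finset (Fin n × Fin n), Sem sym hf 0
        (fun _ => (0 : Matrix (Fin mm) (Fin mm) K)) (1 + ∑ p ∈ s, single p.1 p.2 (N p.1 p.2))
        fun _ => 0 := by
      intro s
      induction s using Finset.induction_on with
      | empty => exact Sem.refl.of_eq le_rfl (by simp) rfl
      | insert p s hp ih =>
        rw [Finset.sum_insert hp]
        by_cases e : N p.1 p.2 = 0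
        · exact ih.of_eq le_rfl (by simp [e]) rfl
        obtain ⟨k1, k2⟩ := h2 _ _ e
        refine (ih.comp (Sem.gate (i := p.1) (j := p.2) (fun h => k2 (h ▸ k1)) (h1 p.1 p.2))).of_eq
          le_rfl ?_ rfl
        have : single p.1 p.2 (N p.1 p.2) * ∑ q ∈ s, single q.1 q.2 (N q.1 q.2) = 0 := by
          rw [Finset.mul_sum]
          refine Finset.sum_eq_zero fun q _ => ?_
          by_cases e' : N q.1 q.2 = 0
          · simp [e']
          · have hne : p.2 ≠ q.1 := fun h => k2 (h ▸ (h2 _ _ e').1)
            rw [single_mul_single_of_ne (h := hne)]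
        rw [add_mul, mul_add (single _ _ _), this]
        simp only [one_mul, mul_one, add_zero]
        abel
    refine (key Finset.univ).of_eq le_rfl ?_ rfl
    rw [Fintype.sum_prod_type]
    exact congrArg _ (matrix_eq_sum_single N).symm
  | mul _ _ ih ih' => exact ih.comp ih'

theorem Cheap.sound {Q : Matrix (Fin mm) (Fin mm) K} (h : Cheap sym c Q) (i : Fin n)
    (f : Fin n → Matrix (Fin mm) (Fin mm) K) :
    Sem sym hf c f 1 (Function.update f i (f i + Q)) := by
  induction h generalizing f with
  | zero => exact Sem.refl.of_eq le_rfl rfl (by simp)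
  | atom a b pd h =>
    refine ⟨[.atom i a b pd], ?_, by simp [Ins.cost], fun R' V _ _ _ ψ Φ h0 ha u x hu w => ?_⟩
    · simp only [List.mem_singleton, forall_eq, Ins.wf]
      exact ⟨i.2, h⟩
    · simp only [List.foldl_cons, List.foldl_nil, Ins.run, sum_one_smul]
      by_cases hw : w = i
      · subst hw
        simp [hu, add_comm (f w), ha]
      · have : (w : ℕ) ≠ i := fun h => hw (Fin.ext h)
        simp [hu, this, hw]
  | add _ _ ih ih' => exact ((ih f).comp (ih' _)).of_eq le_rfl (by simp) (by simp [add_assoc])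
  | mono _ hab ih => exact (ih f).of_eq hab rfl rfl

theorem Prog.sound (h : Prog sym hf f A f' c) : Sem sym hf c f A f' := by
  induction h with
  | @move f f' c hc =>
    have key : ∀ s : Finset (Fin n),
        Sem sym hf (∑ w ∈ s, c w) f 1 fun w => if w ∈ s then f' w else f w := by
      intro s
      induction s using Finset.induction_on with
      | empty => exact Sem.refl.of_eq (Nat.zero_le _) rfl (by simp)
      | insert i s hi ih =>
        refine (ih.comp ((hc i).sound i _)).of_eq (by rw [Finset.sum_insert hi]; omega)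
          (by simp) ?_
        funext w
        by_cases hw : w = i
        · subst hw; simp [hi]
        · simp [hw]
    exact (key Finset.univ).of_eq le_rfl rfl (by simp)
  | gate hE hA => exact hE.sound.regate hA
  | comp _ _ ih ih' => exact ih.comp ih'

end sound

end Vale.Agent.P338
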