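import Vale.Agent.P338.NetProg

/-! The two framed shear networks of a design. -/

namespace Vale.Agent.P338

open Matrix

set_option linter.unusedSectionVars false

section blocks
variable {R D A : Type} [CommRing R] {hf : R} [Fintype D] [DecidableEq D] [Fintype A]
  [DecidableEq A]

/-- Ancillas receive a combination of data. -/
def low (U : Matrix A D R) : Matrix (D ⊕ A) (D ⊕ A) R := fromBlocks 1 0 U 1

/-- Data receive a combination of ancillas. -/
def upN (V : Matrix D A R) : Matrix (D ⊕ A) (D ⊕ A) R := fromBlocks 1 V 0 1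

theorem low_mul_low (U U' : Matrix A D R) : low U * low U' = low (U' + U) := by
  simp [low, fromBlocks_multiply, add_comm]

theorem up_mul_up (V V' : Matrix D A R) : upN V * upN V' = upN (V + V') := by
  simp [upN, fromBlocks_multiply, add_comm]

theorem comm_fwd (U : Matrix A D R) (V : Matrix D A R) (h : U * V = 0) :
    low (-U) * (upN V * (low U * upN (-V))) = fromBlocks (1 + V * U) 0 0 1 := by
  simp [low, upN, fromBlocks_multiply, h, Matrix.mul_add, ← Matrix.mul_assoc]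

theorem comm_bwd (U : Matrix A D R) (V : Matrix D A R) (h : U * V = 0) :
    upN V * (low (-U) * (upN (-V) * low U)) = fromBlocks (1 - V * U) 0 0 1 := by
  simp [low, upN, fromBlocks_multiply, h, Matrix.mul_add, ← Matrix.mul_assoc, sub_eq_add_neg]

/-- An elementary matrix that respects the frames. -/
def Resp {W X : Type} [Fintype W] [DecidableEq W] (hf : R) (f : W → X) (G : Matrix W W R) : Prop :=
  Elem hf G ∧ ∀ w w', G w w' ≠ 0 → f w = f w'

theorem resp_low {X : Type} (f : D ⊕ A → X) (U : Matrix A D R) (hc : ∀ a d, Cf hf (U a d))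
    (h : ∀ a d, U a d ≠ 0 → f (Sum.inr a) = f (Sum.inl d)) : Resp hf f (low U) := by
  constructor
  · have e : low U = 1 + fromBlocks 0 0 U 0 := by
      rw [← fromBlocks_one, fromBlocks_add]; simp [low]
    rw [e]
    refine Elem.one_add _ (fun w => w.isRight = true) ?_ ?_
    · rintro (d | a) (d' | a')
      exacts [Cf.zero, Cf.zero, hc a d', Cf.zero]
    · rintro (d | a) (d' | a') <;> simp
  · rintro (d | a) (d' | a') hw
    · by_cases e : d = d'
      · rw [e]
      · simp [low, Matrix.one_apply_ne e] at hw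
    · simp [low] at hw
    · exact h a d' hw
    · by_cases e : a = a'
      · rw [e]
      · simp [low, Matrix.one_apply_ne e] at hw

theorem resp_up {X : Type} (f : D ⊕ A → X) (V : Matrix D A R) (hc : ∀ d a, Cf hf (V d a))
    (h : ∀ a d, V d a ≠ 0 → f (Sum.inr a) = f (Sum.inl d)) : Resp hf f (upN V) := by
  constructor
  · have e : upN V = 1 + fromBlocks 0 V 0 0 := by
      rw [← fromBlocks_one, fromBlocks_add]; simp [upN]
    rw [e]
    refine Elem.one_add _ (fun w => w.isLeft = true) ?_ ?_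
    · rintro (d | a) (d' | a')
      exacts [Cf.zero, hc d a', Cf.zero, Cf.zero]
    · rintro (d | a) (d' | a') <;> simp
  · rintro (d | a) (d' | a') hw
    · by_cases e : d = d'
      · rw [e]
      · simp [upN, Matrix.one_apply_ne e] at hw
    · exact (h a' d hw).symm
    · simp [upN] at hw
    · by_cases e : a = a'
      · rw [e]
      · simp [upN, Matrix.one_apply_ne e] at hw

end blocks

/-- The data of a design: frames on `H`, points `T`, side wires `N`, central wires `C`. -/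
structure Des (sym : Bool) (K : Type) {R : Type} [CommRing K] [CommRing R] (hf : R)
    (H T N C : Type) [Fintype H] [Fintype T] [DecidableEq T] [Fintype N] [Fintype C] where
  J : Matrix H H K
  P : T → Matrix H H K
  src : N → T
  tgt : N → T
  va : N → R
  uc : Matrix C T R
  vc : Matrix T C R
  h4 : sym = true → (4 : K) = 0
  two_le : 2 ≤ Fintype.card H
  cP : ∀ t, Cheap sym 1 (P t)
  cJ : Cheap sym (Fintype.card H) J
  c1 : ∀ t, Cheap sym (Fintype.card H - 1) (J - P t)
  c2 : ∀ n, Cheap sym (Fintype.card H - 2) (J - P (tgt n) - P (src n))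
  hva : ∀ n, Cf hf (va n)
  huc : ∀ c t, Cf hf (uc c t)
  hvc : ∀ t c, Cf hf (vc t c)
  key : (of fun t n => if t = tgt n then va n else 0 : Matrix T N R) *
    (of fun n t => if t = src n then 1 else 0 : Matrix N T R) + vc * uc = 1

abbrev Wl (T N C : Type) := (T ⊕ T) ⊕ (N ⊕ C)

variable {sym : Bool} {K R : Type} [CommRing K] [CommRing R] {hf : R} {H T N C : Type}
  [Fintype H] [Fintype T] [DecidableEq T] [Fintype N] [DecidableEq N] [Fintype C] [DecidableEq C]

def fr {X : Type} (fx fy : T → X) (fa : N → X) (fc : X) : Wl T N C → X :=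
  Sum.elim (Sum.elim fx fy) (Sum.elim fa fun _ => fc)

def cst (a b c d : ℕ) : Wl T N C → ℕ :=
  Sum.elim (Sum.elim (fun _ => a) (fun _ => b)) (Sum.elim (fun _ => c) fun _ => d)

theorem sum_cst (a b c d : ℕ) : ∑ w : Wl T N C, cst a b c d w =
    Fintype.card T * a + Fintype.card T * b + Fintype.card N * c + Fintype.card C * d := by
  simp only [cst, Fintype.sum_sum_type, Sum.elim_inl, Sum.elim_inr, Finset.sum_const,
    Finset.card_univ, smul_eq_mul]
  ring

variable (H T N C) in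
/-- Cost of one invocation. -/
def cloc : ℕ := 2 * (Fintype.card T * (Fintype.card H - 1)) +
  Fintype.card N * Fintype.card H + 3 * (Fintype.card C * Fintype.card H)

namespace Des

variable (G : Des sym K hf H T N C)

def fA : Wl T N C → Matrix H H K := fr G.P (fun _ => 0) (fun _ => 0) 0
def fB : Wl T N C → Matrix H H K := fr G.P (fun _ => 0) (fun p => G.P (G.src p)) 0
def fC : Wl T N C → Matrix H H K := fr (fun _ => G.J) (fun _ => 0) (fun p => G.P (G.src p)) G.J
def fD : Wl T N C → Matrix H H K := fr (fun _ => G.J) (fun _ => 0) (fun p => G.P (G.src p)) 0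
def fE : Wl T N C → Matrix H H K :=
  fr (fun _ => G.J) (fun t => G.J - G.P t) (fun p => G.J - G.P (G.tgt p)) 0
def fF : Wl T N C → Matrix H H K := fr (fun _ => G.J) (fun t => G.J - G.P t) (fun _ => G.J) G.J

theorem schedule {G1 G2 G3 G4 G5 G6 : Matrix (Wl T N C) (Wl T N C) R}
    (h1 : Resp hf G.fA G1) (h2 : Resp hf G.fB G2) (h3 : Resp hf G.fC G3) (h4 : Resp hf G.fD G4)
    (h5 : Resp hf G.fE G5) (h6 : Resp hf G.fF G6) :
    Prog sym hf G.fA (G6 * (G5 * (G4 * (G3 * (G2 * G1))))) G.fF (cloc H T N C) := by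
  have p1 := ((Prog.gate (sym := sym) h1.1 h1.2).then_move (f'' := G.fB) (cst 0 0 1 0) (by
    rintro ((S | T) | (p | i)) <;> simp only [fA, fB, fr, cst, Sum.elim_inl, Sum.elim_inr,
      sub_self, sub_zero]
    exacts [Cheap.zero, Cheap.zero, G.cP _, Cheap.zero])).then_gate h2.1 h2.2
  have p2 := (p1.then_move (f'' := G.fC) (cst (Fintype.card H - 1) 0 0 (Fintype.card H)) (by
    rintro ((S | T) | (p | i)) <;> simp only [fB, fC, fr, cst, Sum.elim_inl, Sum.elim_inr,
      sub_self, sub_zero]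
    exacts [G.c1 S, Cheap.zero, Cheap.zero, G.cJ])).then_gate h3.1 h3.2
  have p3 := (p2.then_move (f'' := G.fD) (cst 0 0 0 (Fintype.card H)) (by
    rintro ((S | T) | (p | i)) <;> simp only [fC, fD, fr, cst, Sum.elim_inl, Sum.elim_inr,
      sub_self, zero_sub]
    exacts [Cheap.zero, Cheap.zero, Cheap.zero, G.cJ.neg G.h4])).then_gate h4.1 h4.2
  have p4 := (p3.then_move (f'' := G.fE) (cst 0 (Fintype.card H - 1) (Fintype.card H - 2) 0) (by
    rintro ((S | T) | (p | i)) <;> simp only [fD, fE, fr, cst, Sum.elim_inl, Sum.elim_inr,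
      sub_self, sub_zero]
    exacts [Cheap.zero, G.c1 T, G.c2 p, Cheap.zero])).then_gate h5.1 h5.2
  have p5 := (p4.then_move (f'' := G.fF) (cst 0 0 1 (Fintype.card H)) (by
    rintro ((S | T) | (p | i)) <;> simp only [fE, fF, fr, cst, Sum.elim_inl, Sum.elim_inr,
      sub_self, sub_zero, sub_sub_cancel]
    exacts [Cheap.zero, Cheap.zero, G.cP _, G.cJ])).then_gate h6.1 h6.2
  refine p5.of_eq rfl rfl rfl ?_
  simp only [sum_cst, cloc]
  obtain ⟨k, hk⟩ : ∃ k, Fintype.card H = k + 2 := ⟨Fintype.card H - 2, by have := G.two_le; omega⟩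
  rw [hk]
  simp only [Nat.add_sub_cancel, show k + 2 - 1 = k + 1 by omega]
  ring

def Ua : Matrix (N ⊕ C) (T ⊕ T) R := fromBlocks (of fun n t => if t = G.src n then 1 else 0) 0 0 0
def Uc : Matrix (N ⊕ C) (T ⊕ T) R := fromBlocks 0 0 G.uc 0
def Va : Matrix (T ⊕ T) (N ⊕ C) R :=
  fromBlocks 0 0 (of fun t n => if t = G.tgt n then G.va n else 0) 0
def Vc : Matrix (T ⊕ T) (N ⊕ C) R := fromBlocks 0 0 0 G.vc

theorem UV_zero : (G.Ua + G.Uc) * (G.Va + G.Vc) = 0 := by
  simp [Ua, Uc, Va, Vc, fromBlocks_add, fromBlocks_multiply]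

theorem VU_eq : (G.Va + G.Vc) * (G.Ua + G.Uc) = fromBlocks 0 0 1 0 := by
  simp [Ua, Uc, Va, Vc, fromBlocks_add, fromBlocks_multiply, G.key]

theorem cfUa (a : N ⊕ C) (d : T ⊕ T) : Cf hf (G.Ua a d) := by
  rcases a with p | i <;> rcases d with S | T <;> simp [Ua, Cf.zero]
  split_ifs
  exacts [Cf.one, Cf.zero]

theorem cfUc (a : N ⊕ C) (d : T ⊕ T) : Cf hf (G.Uc a d) := by
  rcases a with p | i <;> rcases d with S | T <;> simp [Uc, Cf.zero, G.huc]

theorem cfVa (d : T ⊕ T) (a : N ⊕ C) : Cf hf (G.Va d a) := by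
  rcases a with p | i <;> rcases d with S | T <;> simp [Va, Cf.zero]
  split_ifs
  exacts [G.hva _, Cf.zero]

theorem cfVc (d : T ⊕ T) (a : N ⊕ C) : Cf hf (G.Vc d a) := by
  rcases a with p | i <;> rcases d with S | T <;> simp [Vc, Cf.zero, G.hvc]

theorem cfU (a : N ⊕ C) (d : T ⊕ T) : Cf hf ((G.Ua + G.Uc) a d) := by
  have h1 := G.cfUa a d
  have h2 := G.cfUc a d
  rcases a with p | i <;> rcases d with S | T <;> simp_all [Ua, Uc]

theorem cfV (d : T ⊕ T) (a : N ⊕ C) : Cf hf ((G.Va + G.Vc) d a) := by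
  have h1 := G.cfVa d a
  have h2 := G.cfVc d a
  rcases a with p | i <;> rcases d with S | T <;> simp_all [Va, Vc]

theorem relA (a : N ⊕ C) (d : T ⊕ T) (h : (G.Va + G.Vc) d a ≠ 0) :
    G.fA (Sum.inr a) = G.fA (Sum.inl d) := by
  rcases a with p | i <;> rcases d with S | T <;> simp [Va, Vc, fA, fr] at h ⊢

theorem relB (a : N ⊕ C) (d : T ⊕ T) (h : G.Ua a d ≠ 0) :
    G.fB (Sum.inr a) = G.fB (Sum.inl d) := by
  rcases a with p | i <;> rcases d with S | T <;> simp [Ua, fB, fr] at h ⊢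
  rw [h.1]

theorem relC (a : N ⊕ C) (d : T ⊕ T) (h : G.Uc a d ≠ 0) :
    G.fC (Sum.inr a) = G.fC (Sum.inl d) := by
  rcases a with p | i <;> rcases d with S | T <;> simp [Uc, fC, fr] at h ⊢

theorem relD (a : N ⊕ C) (d : T ⊕ T) (h : G.Vc d a ≠ 0) :
    G.fD (Sum.inr a) = G.fD (Sum.inl d) := by
  rcases a with p | i <;> rcases d with S | T <;> simp [Vc, fD, fr] at h ⊢

theorem relE (a : N ⊕ C) (d : T ⊕ T) (h : G.Va d a ≠ 0) :
    G.fE (Sum.inr a) = G.fE (Sum.inl d) := by
  rcases a with p | i <;> rcases d with S | T <;> simp [Va, fE, fr] at h ⊢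
  rw [h.1]

theorem relF (a : N ⊕ C) (d : T ⊕ T) (h : (G.Ua + G.Uc) a d ≠ 0) :
    G.fF (Sum.inr a) = G.fF (Sum.inl d) := by
  rcases a with p | i <;> rcases d with S | T <;> simp [Ua, Uc, fF, fr] at h ⊢

/-- `y += x`. -/
theorem shear_fwd :
    Prog sym hf G.fA (fromBlocks (fromBlocks 1 0 1 1) 0 0 1) G.fF (cloc H T N C) := by
  have p := G.schedule (G1 := upN (-(G.Va + G.Vc))) (G2 := low G.Ua) (G3 := low G.Uc)
    (G4 := upN G.Vc) (G5 := upN G.Va) (G6 := low (-(G.Ua + G.Uc)))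
    (resp_up _ _ (fun d a => (G.cfV d a).neg) fun a d h => G.relA a d (neg_ne_zero.mp h))
    (resp_low _ _ G.cfUa G.relB) (resp_low _ _ G.cfUc G.relC)
    (resp_up _ _ G.cfVc G.relD) (resp_up _ _ G.cfVa G.relE)
    (resp_low _ _ (fun a d => (G.cfU a d).neg) fun a d h => G.relF a d (neg_ne_zero.mp h))
  refine p.of_eq rfl ?_ rfl rfl
  rw [← Matrix.mul_assoc (upN G.Va), up_mul_up, ← Matrix.mul_assoc (low G.Uc), low_mul_low,
    comm_fwd _ _ G.UV_zero, VU_eq, ← fromBlocks_one, fromBlocks_add]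
  simp

/-- `x -= y`. -/
theorem shear_bwd :
    Prog sym hf G.fA (fromBlocks (fromBlocks 1 (-1) 0 1) 0 0 1) G.fF (cloc H T N C) := by
  have p := G.schedule (G1 := low (G.Va + G.Vc)ᵀ) (G2 := upN (-G.Uaᵀ)) (G3 := upN (-G.Ucᵀ))
    (G4 := low (-G.Vcᵀ)) (G5 := low (-G.Vaᵀ)) (G6 := upN (G.Ua + G.Uc)ᵀ)
    (resp_low _ _ (fun a d => G.cfV d a) G.relA)
    (resp_up _ _ (fun d a => (G.cfUa a d).neg) fun a d h => G.relB a d (neg_ne_zero.mp h))
    (resp_up _ _ (fun d a => (G.cfUc a d).neg) fun a d h => G.relC a d (neg_ne_zero.mp h))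
    (resp_low _ _ (fun a d => (G.cfVc d a).neg) fun a d h => G.relD a d (neg_ne_zero.mp h))
    (resp_low _ _ (fun a d => (G.cfVa d a).neg) fun a d h => G.relE a d (neg_ne_zero.mp h))
    (resp_up _ _ (fun d a => G.cfU a d) G.relF)
  refine p.of_eq rfl ?_ rfl rfl
  have e1 : (-G.Vcᵀ + -G.Vaᵀ : Matrix (N ⊕ C) (T ⊕ T) R) = -(G.Va + G.Vc)ᵀ := by
    rw [transpose_add]; abel
  have e2 : (-G.Ucᵀ + -G.Uaᵀ : Matrix (T ⊕ T) (N ⊕ C) R) = -(G.Ua + G.Uc)ᵀ := by
    rw [transpose_add]; abel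
  rw [← Matrix.mul_assoc (low (-G.Vaᵀ)), low_mul_low, ← Matrix.mul_assoc (upN (-G.Ucᵀ)), up_mul_up,
    e1, e2, comm_bwd _ _ (by rw [← transpose_mul, UV_zero, transpose_zero]), ← transpose_mul,
    VU_eq, fromBlocks_transpose, ← fromBlocks_one, sub_eq_add_neg, fromBlocks_neg, fromBlocks_add]
  simp

end Des

end Vale.Agent.P338
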