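import Vale.Agent.P338.NetShear

/-! The three-stage exchange network of a design. -/

namespace Vale.Agent.P338

open Matrix
open scoped Kronecker

set_option linter.unusedSectionVars false

section stage
variable {T An β ρ D AG R : Type} [CommRing R]

/-- Regrouping of wires into invocations. -/
def sigma0 : ((T × β) ⊕ (T × β)) ⊕ ((An × β) ⊕ ρ) ≃ (((T ⊕ T) ⊕ An) × β) ⊕ ρ where
  toFun
    | .inl (.inl p) => .inl (.inl (.inl p.1), p.2)
    | .inl (.inr p) => .inl (.inl (.inr p.1), p.2)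
    | .inr (.inl p) => .inl (.inr p.1, p.2)
    | .inr (.inr r) => .inr r
  invFun
    | .inl (.inl (.inl t), b) => .inl (.inl (t, b))
    | .inl (.inl (.inr t), b) => .inl (.inr (t, b))
    | .inl (.inr a, b) => .inr (.inl (a, b))
    | .inr r => .inr (.inr r)
  left_inv := by rintro ((p | p) | (p | r)) <;> rfl
  right_inv := by rintro (⟨(t | t) | a, b⟩ | r) <;> rfl

def sigma1 (s : D ≃ T × β) (τ : AG ≃ (An × β) ⊕ ρ) :
    (D ⊕ D) ⊕ AG ≃ (((T ⊕ T) ⊕ An) × β) ⊕ ρ :=
  (Equiv.sumCongr (Equiv.sumCongr s s) τ).trans sigma0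

/-- Scalar two-by-two block on the data, identity on ancillas. -/
def blkN (T An : Type) [DecidableEq T] [DecidableEq An] (a b c d : R) :
    Matrix ((T ⊕ T) ⊕ An) ((T ⊕ T) ⊕ An) R :=
  fromBlocks (fromBlocks (a • 1) (b • 1) (c • 1) (d • 1)) 0 0 1

variable [DecidableEq T] [DecidableEq An] [DecidableEq β] [DecidableEq ρ] [DecidableEq D]
  [DecidableEq AG]

theorem liftA_sigma0 (a b c d : R) :
    liftA (sigma0 (T := T) (An := An) (β := β) (ρ := ρ)) (blkN T An a b c d) =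
      blkN (T × β) ((An × β) ⊕ ρ) a b c d := by
  ext w w'
  rcases w with ((⟨t, x⟩ | ⟨t, x⟩) | (⟨t, x⟩ | r)) <;>
    rcases w' with ((⟨t', x'⟩ | ⟨t', x'⟩) | (⟨t', x'⟩ | r')) <;>
    simp [liftA, sigma0, blkN, blockDiagonal_apply, Matrix.one_apply, ite_and] <;>
    split_ifs <;> rfl

theorem liftA_sigma1 (s : D ≃ T × β) (τ : AG ≃ (An × β) ⊕ ρ) (a b c d : R) :
    liftA (sigma1 s τ) (blkN T An a b c d) = blkN D AG a b c d := by
  have : liftA (sigma1 s τ) (blkN T An a b c d) = (liftA sigma0 (blkN T An a b c d)).submatrix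
      (Equiv.sumCongr (Equiv.sumCongr s s) τ) (Equiv.sumCongr (Equiv.sumCongr s s) τ) := rfl
  rw [this, liftA_sigma0]
  ext w w'
  rcases w with ((t | t) | r) <;> rcases w' with ((t' | t') | r') <;>
    simp [blkN, Matrix.one_apply]

theorem blkN_mul [Fintype T] [Fintype An] (a b c d a' b' c' d' : R) :
    blkN T An a b c d * blkN T An a' b' c' d' =
      blkN T An (a * a' + b * c') (a * b' + b * d') (c * a' + d * c') (c * b' + d * d') := by
  simp [blkN, fromBlocks_multiply, add_smul, smul_smul, mul_comm]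

theorem blkN_one : blkN T An (1 : R) 0 0 1 = 1 := by
  simp [blkN]

theorem elem_blk [Fintype T] [Fintype An] {hf : R} {b c : R} (hb : Cf hf b) (hc : Cf hf c)
    (h : b = 0 ∨ c = 0) : Elem hf (blkN T An 1 b c 1) := by
  have e : blkN T An 1 b c 1 = 1 + fromBlocks (fromBlocks 0 (b • 1) (c • 1) 0) 0 0 0 := by
    rw [← blkN_one (T := T) (An := An), blkN, blkN, fromBlocks_add, fromBlocks_add]
    simp
  rw [e]
  refine Elem.one_add _ (fun w => Sum.elim (Sum.elim (fun _ => c = 0) fun _ => c ≠ 0)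
    (fun _ => False) w) ?_ ?_
  · rintro ((t | t) | a) ((t' | t') | a') <;> simp [Cf.zero, Matrix.one_apply] <;> split_ifs
    exacts [hb, Cf.zero, hc, Cf.zero]
  · rintro ((t | t) | a) ((t' | t') | a') <;> simp [Matrix.one_apply]
    exact fun _ hb => h.resolve_left hb

end stage

variable {sym : Bool} {K R : Type} [CommRing K] [CommRing R] {hf : R} {H T N C : Type}
  [Fintype H] [Fintype T] [DecidableEq T] [Fintype N] [DecidableEq N] [Fintype C] [DecidableEq C]

def K3 (A B C : Matrix H H K) : Matrix (H × H × H) (H × H × H) K := A ⊗ₖ (B ⊗ₖ C)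

theorem cheap_K3 (h4 : sym = true → (4 : K) = 0) {a b c : ℕ} {A B C : Matrix H H K}
    (hA : Cheap sym a A) (hB : Cheap sym b B) (hC : Cheap sym c C) :
    Cheap sym (a * (b * c)) (K3 A B C) := hA.kron h4 (hB.kron h4 hC)

abbrev Dt (T : Type) := T × T × T

def Ap (T N C : Type) := (N ⊕ C) × (T × T)

instance : Fintype (Ap T N C) := inferInstanceAs (Fintype ((N ⊕ C) × (T × T)))

instance : DecidableEq (Ap T N C) := inferInstanceAs (DecidableEq ((N ⊕ C) × (T × T)))

abbrev Wg (T N C : Type) := (Dt T ⊕ Dt T) ⊕ (Ap T N C ⊕ (Ap T N C ⊕ Ap T N C))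

instance : DecidableEq (Wg T N C) := instDecidableEqSum

def s1 : Dt T ≃ T × (T × T) := Equiv.refl _

def s2 : Dt T ≃ T × (T × T) where
  toFun d := (d.2.1, (d.1, d.2.2))
  invFun d := (d.2.1, (d.1, d.2.2))
  left_inv _ := rfl
  right_inv _ := rfl

def s3 : Dt T ≃ T × (T × T) where
  toFun d := (d.2.2, (d.1, d.2.1))
  invFun d := (d.2.1, (d.2.2, d.1))
  left_inv _ := rfl
  right_inv _ := rfl

def t1 : Ap T N C ⊕ (Ap T N C ⊕ Ap T N C) ≃ ((N ⊕ C) × (T × T)) ⊕ (Ap T N C ⊕ Ap T N C) :=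
  Equiv.refl _

def t2 : Ap T N C ⊕ (Ap T N C ⊕ Ap T N C) ≃ ((N ⊕ C) × (T × T)) ⊕ (Ap T N C ⊕ Ap T N C) where
  toFun
    | .inl a => .inr (.inl a)
    | .inr (.inl a) => .inl a
    | .inr (.inr a) => .inr (.inr a)
  invFun
    | .inl a => .inr (.inl a)
    | .inr (.inl a) => .inl a
    | .inr (.inr a) => .inr (.inr a)
  left_inv := by rintro (a | a | a) <;> rfl
  right_inv := by rintro (a | a | a) <;> rfl

def t3 : Ap T N C ⊕ (Ap T N C ⊕ Ap T N C) ≃ ((N ⊕ C) × (T × T)) ⊕ (Ap T N C ⊕ Ap T N C) where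
  toFun
    | .inl a => .inr (.inl a)
    | .inr (.inl a) => .inr (.inr a)
    | .inr (.inr a) => .inl a
  invFun
    | .inl a => .inr (.inr a)
    | .inr (.inl a) => .inl a
    | .inr (.inr a) => .inr (.inl a)
  left_inv := by rintro (a | a | a) <;> rfl
  right_inv := by rintro (a | a | a) <;> rfl

def gcst (a b c d e : ℕ) : Wg T N C → ℕ :=
  Sum.elim (Sum.elim (fun _ => a) fun _ => b)
    (Sum.elim (fun _ => c) (Sum.elim (fun _ => d) fun _ => e))

theorem sum_gcst (a b c d e : ℕ) : ∑ w : Wg T N C, gcst a b c d e w =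
    Fintype.card (Dt T) * (a + b) + Fintype.card (Ap T N C) * (c + d + e) := by
  simp only [gcst, Fintype.sum_sum_type, Sum.elim_inl, Sum.elim_inr, Finset.sum_const,
    Finset.card_univ, smul_eq_mul]
  ring

theorem K3_ext {A B : Matrix (H × H × H) (H × H × H) K}
    (h : ∀ a1 a2 a3 b1 b2 b3, A (a1, a2, a3) (b1, b2, b3) = B (a1, a2, a3) (b1, b2, b3)) :
    A = B := by
  ext ⟨a1, a2, a3⟩ ⟨b1, b2, b3⟩; exact h _ _ _ _ _ _

theorem K3_apply (A B C : Matrix H H K) (a1 a2 a3 b1 b2 b3 : H) :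
    K3 A B C (a1, a2, a3) (b1, b2, b3) = A a1 b1 * (B a2 b2 * C a3 b3) := rfl

namespace Des

variable (G : Des sym K hf H T N C)

def e1 (b : T × T) : Matrix H H K →+ Matrix (H × H × H) (H × H × H) K :=
  AddMonoidHom.mk' (fun Q => K3 Q (G.P b.1) (G.P b.2)) fun Q Q' => by
    simp only [K3, Matrix.add_kronecker]

def e2 (b : T × T) : Matrix H H K →+ Matrix (H × H × H) (H × H × H) K :=
  AddMonoidHom.mk' (fun Q => K3 (G.P b.1) Q (G.P b.2)) fun Q Q' => by
    simp only [K3, Matrix.add_kronecker, Matrix.kronecker_add]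

def e3 (b : T × T) : Matrix H H K →+ Matrix (H × H × H) (H × H × H) K :=
  AddMonoidHom.mk' (fun Q => K3 (G.P b.1) (G.P b.2) Q) fun Q Q' => by
    simp only [K3, Matrix.kronecker_add]

def B2 (b : T × T) : Matrix (H × H × H) (H × H × H) K := K3 (G.J - G.P b.1) G.J (G.P b.2)

def B3 (b : T × T) : Matrix (H × H × H) (H × H × H) K :=
  K3 G.J G.J G.J - K3 (G.P b.1) (G.P b.2) G.J

def G1 (f : Wl T N C → Matrix H H K) : Wg T N C → Matrix (H × H × H) (H × H × H) K :=
  liftF (sigma1 s1 t1) (fun _ => 0) G.e1 (fun _ => 0) f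

def G2 (f : Wl T N C → Matrix H H K) : Wg T N C → Matrix (H × H × H) (H × H × H) K :=
  liftF (sigma1 s2 t2) G.B2 G.e2 (Sum.elim (fun _ => K3 G.J G.J G.J) fun _ => 0) f

def G3 (f : Wl T N C → Matrix H H K) : Wg T N C → Matrix (H × H × H) (H × H × H) K :=
  liftF (sigma1 s3 t3) G.B3 G.e3 (fun _ => K3 G.J G.J G.J) f

theorem fA_inr (a : N ⊕ C) : G.fA (Sum.inr a) = 0 := by rcases a with a | a <;> rfl

theorem fF_inr (a : N ⊕ C) : G.fF (Sum.inr a) = G.J := by rcases a with a | a <;> rfl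

theorem stage1 : Prog sym hf (G.G1 G.fA) (blkN (Dt T) _ 1 0 1 1) (G.G1 G.fF)
    (Fintype.card (T × T) * cloc H T N C) := by
  have h : Prog sym hf G.fA (blkN _ _ 1 0 1 1) G.fF (cloc H T N C) :=
    G.shear_fwd.of_eq rfl (by simp [blkN]) rfl rfl
  refine (h.lift (sigma1 s1 t1) (fun _ => 0) G.e1 (fun b c Q hQ => ?_) (fun _ => 0)).of_eq rfl
    (liftA_sigma1 _ _ _ _ _ _) rfl rfl
  exact (cheap_K3 G.h4 hQ (G.cP b.1) (G.cP b.2)).of_eq (by ring) rfl

theorem stage2 : Prog sym hf (G.G2 G.fA) (blkN (Dt T) _ 1 (-1) 0 1) (G.G2 G.fF)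
    (Fintype.card (T × T) * cloc H T N C) := by
  have h : Prog sym hf G.fA (blkN _ _ 1 (-1) 0 1) G.fF (cloc H T N C) :=
    G.shear_bwd.of_eq rfl (by simp [blkN]) rfl rfl
  refine (h.lift (sigma1 s2 t2) G.B2 G.e2 (fun b c Q hQ => ?_) _).of_eq rfl
    (liftA_sigma1 _ _ _ _ _ _) rfl rfl
  exact (cheap_K3 G.h4 (G.cP b.1) hQ (G.cP b.2)).of_eq (by ring) rfl

theorem stage3 : Prog sym hf (G.G3 G.fA) (blkN (Dt T) _ 1 0 1 1) (G.G3 G.fF)
    (Fintype.card (T × T) * cloc H T N C) := by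
  have h : Prog sym hf G.fA (blkN _ _ 1 0 1 1) G.fF (cloc H T N C) :=
    G.shear_fwd.of_eq rfl (by simp [blkN]) rfl rfl
  refine (h.lift (sigma1 s3 t3) G.B3 G.e3 (fun b c Q hQ => ?_) _).of_eq rfl
    (liftA_sigma1 _ _ _ _ _ _) rfl rfl
  exact (cheap_K3 G.h4 (G.cP b.1) (G.cP b.2) hQ).of_eq (by ring) rfl

theorem move1 (w : Wg T N C) :
    Cheap sym (gcst ((Fintype.card H - 1) * ((Fintype.card H - 1) * 1))
      ((Fintype.card H - 1) * ((Fintype.card H - 1) * 1))
      (Fintype.card H * ((Fintype.card H - 1) * Fintype.card H) +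
        Fintype.card H * (1 * (Fintype.card H - 1)))
      ((Fintype.card H - 1) * (Fintype.card H * 1)) 0 w) (G.G2 G.fA w - G.G1 G.fF w) := by
  have c1 := G.c1
  have cP := G.cP
  have cF := G.cJ
  have h4 := G.h4
  rcases w with ((⟨x, y, z⟩ | ⟨x, y, z⟩) | (⟨a, y, z⟩ | ⟨a, x, z⟩ | a))
  · refine (cheap_K3 h4 (c1 x) (c1 y) (cP z)).of_eq rfl (K3_ext fun _ _ _ _ _ _ => ?_)
    change _ = (G.B2 (x, z) + K3 (G.P x) (G.P y) (G.P z) - (0 + K3 G.J (G.P y) (G.P z))) _ _
    simp only [B2, K3_apply, Matrix.add_apply, Matrix.sub_apply, Matrix.zero_apply]; ring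
  · refine (cheap_K3 h4 (c1 x) (c1 y) (cP z)).of_eq rfl (K3_ext fun _ _ _ _ _ _ => ?_)
    change _ = (G.B2 (x, z) + K3 (G.P x) 0 (G.P z) - (0 + K3 (G.J - G.P x) (G.P y) (G.P z))) _ _
    simp only [B2, K3_apply, Matrix.add_apply, Matrix.sub_apply, Matrix.zero_apply]; ring
  · refine ((cheap_K3 h4 cF (c1 y) cF).add (cheap_K3 h4 cF (cP y) (c1 z))).of_eq rfl
      (K3_ext fun _ _ _ _ _ _ => ?_)
    change _ = (K3 G.J G.J G.J - (0 + K3 (G.fF (Sum.inr a)) (G.P y) (G.P z))) _ _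
    simp only [fF_inr, K3_apply, Matrix.add_apply, Matrix.sub_apply, Matrix.zero_apply]; ring
  · refine (cheap_K3 h4 (c1 x) cF (cP z)).of_eq rfl (K3_ext fun _ _ _ _ _ _ => ?_)
    change _ = (G.B2 (x, z) + K3 (G.P x) (G.fA (Sum.inr a)) (G.P z) - 0) _ _
    simp only [fA_inr, B2, K3_apply, Matrix.add_apply, Matrix.sub_apply, Matrix.zero_apply]; ring
  · exact Cheap.zero.of_eq rfl (sub_self _).symm

theorem move2 (w : Wg T N C) :
    Cheap sym (gcst ((Fintype.card H - 1) * (Fintype.card H * (Fintype.card H - 1)) +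
        1 * ((Fintype.card H - 1) * (Fintype.card H - 1)))
      ((Fintype.card H - 1) * (Fintype.card H * (Fintype.card H - 1)) +
        1 * ((Fintype.card H - 1) * (Fintype.card H - 1))) 0
      (Fintype.card H * (Fintype.card H * (Fintype.card H - 1)))
      ((Fintype.card H - 1) * (Fintype.card H * Fintype.card H) +
        1 * ((Fintype.card H - 1) * Fintype.card H)) w) (G.G3 G.fA w - G.G2 G.fF w) := by
  have c1 := G.c1
  have cP := G.cP
  have cF := G.cJ
  have h4 := G.h4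
  rcases w with ((⟨x, y, z⟩ | ⟨x, y, z⟩) | (a | ⟨a, x, z⟩ | ⟨a, x, y⟩))
  · refine ((cheap_K3 h4 (c1 x) cF (c1 z)).add (cheap_K3 h4 (cP x) (c1 y) (c1 z))).of_eq rfl
      (K3_ext fun _ _ _ _ _ _ => ?_)
    change _ = (G.B3 (x, y) + K3 (G.P x) (G.P y) (G.P z) -
      (G.B2 (x, z) + K3 (G.P x) G.J (G.P z))) _ _
    simp only [B2, B3, K3_apply, Matrix.add_apply, Matrix.sub_apply]; ring
  · refine ((cheap_K3 h4 (c1 x) cF (c1 z)).add (cheap_K3 h4 (cP x) (c1 y) (c1 z))).of_eq rfl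
      (K3_ext fun _ _ _ _ _ _ => ?_)
    change _ = (G.B3 (x, y) + K3 (G.P x) (G.P y) 0 -
      (G.B2 (x, z) + K3 (G.P x) (G.J - G.P y) (G.P z))) _ _
    simp only [B2, B3, K3_apply, Matrix.add_apply, Matrix.sub_apply, Matrix.zero_apply]; ring
  · exact Cheap.zero.of_eq rfl (sub_self _).symm
  · refine (cheap_K3 h4 cF cF (c1 z)).of_eq rfl (K3_ext fun _ _ _ _ _ _ => ?_)
    change _ = (K3 G.J G.J G.J - (G.B2 (x, z) + K3 (G.P x) (G.fF (Sum.inr a)) (G.P z))) _ _
    simp only [fF_inr, B2, K3_apply, Matrix.add_apply, Matrix.sub_apply]; ring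
  · refine ((cheap_K3 h4 (c1 x) cF cF).add (cheap_K3 h4 (cP x) (c1 y) cF)).of_eq rfl
      (K3_ext fun _ _ _ _ _ _ => ?_)
    change _ = (G.B3 (x, y) + K3 (G.P x) (G.P y) (G.fA (Sum.inr a)) - 0) _ _
    simp only [fA_inr, B3, K3_apply, Matrix.add_apply, Matrix.sub_apply, Matrix.zero_apply]; ring

/-- Frames after undoing the exchange. -/
def G4 : Wg T N C → Matrix (H × H × H) (H × H × H) K :=
  Sum.elim (Sum.elim (fun d => G.G3 G.fF (Sum.inl (Sum.inr d)))
    fun d => G.G3 G.fF (Sum.inl (Sum.inl d))) fun a => G.G3 G.fF (Sum.inr a)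

theorem unswap : Prog sym hf (G.G3 G.fF) (blkN (Dt T) _ 0 1 (-1) 0) G.G4 0 := by
  refine Prog.gate ?_ ?_
  · have a1 := elem_blk (T := Dt T) (An := Ap T N C ⊕ (Ap T N C ⊕ Ap T N C)) (hf := hf)
      Cf.one Cf.zero (Or.inr rfl)
    have a2 := elem_blk (T := Dt T) (An := Ap T N C ⊕ (Ap T N C ⊕ Ap T N C)) (hf := hf)
      Cf.zero Cf.one.neg (Or.inl rfl)
    have a3 := (a1.mul a2).mul a1
    simp only [blkN_mul] at a3
    norm_num at a3
    exact a3
  rintro ((d | d) | a) ((d' | d') | a') hw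
  · simp [blkN] at hw
  · have : d = d' := by
      by_contra e; simp [blkN, Matrix.one_apply_ne e] at hw
    subst this; rfl
  · simp [blkN] at hw
  · have : d = d' := by
      by_contra e; simp [blkN, Matrix.one_apply_ne e] at hw
    subst this; rfl
  · simp [blkN] at hw
  · simp [blkN] at hw
  · simp [blkN] at hw
  · simp [blkN] at hw
  · have : a = a' := by
      by_contra e; simp [blkN, Matrix.one_apply_ne e] at hw
    subst this; rfl

theorem move3 (w : Wg T N C) :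
    Cheap sym (gcst 1 0 0 0 0 w) (G.G1 G.fA w + K3 G.J G.J G.J - G.G4 w) := by
  have cP := G.cP
  rcases w with ((⟨x, y, z⟩ | ⟨x, y, z⟩) | (⟨a, y, z⟩ | a | ⟨a, x, y⟩))
  · refine ((cheap_K3 G.h4 (cP x) (cP y) (cP z)).double G.h4).of_eq rfl
      (K3_ext fun _ _ _ _ _ _ => ?_)
    change _ = (0 + K3 (G.P x) (G.P y) (G.P z) + K3 G.J G.J G.J -
      (G.B3 (x, y) + K3 (G.P x) (G.P y) (G.J - G.P z))) _ _
    simp only [B3, K3_apply, Matrix.add_apply, Matrix.sub_apply, Matrix.zero_apply]; ring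
  · refine Cheap.zero.of_eq rfl (K3_ext fun _ _ _ _ _ _ => ?_)
    change _ = (0 + K3 0 (G.P y) (G.P z) + K3 G.J G.J G.J -
      (G.B3 (x, y) + K3 (G.P x) (G.P y) G.J)) _ _
    simp only [B3, K3_apply, Matrix.add_apply, Matrix.sub_apply, Matrix.zero_apply]; ring
  · refine Cheap.zero.of_eq rfl (K3_ext fun _ _ _ _ _ _ => ?_)
    change _ = (0 + K3 (G.fA (Sum.inr a)) (G.P y) (G.P z) + K3 G.J G.J G.J - K3 G.J G.J G.J) _ _
    simp only [fA_inr, K3_apply, Matrix.add_apply, Matrix.sub_apply, Matrix.zero_apply]; ring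
  · refine Cheap.zero.of_eq rfl (K3_ext fun _ _ _ _ _ _ => ?_)
    change _ = (0 + K3 G.J G.J G.J - K3 G.J G.J G.J) _ _
    simp only [Matrix.add_apply, Matrix.sub_apply, Matrix.zero_apply]; ring
  · refine Cheap.zero.of_eq rfl (K3_ext fun _ _ _ _ _ _ => ?_)
    change _ = (0 + K3 G.J G.J G.J - (G.B3 (x, y) + K3 (G.P x) (G.P y) (G.fF (Sum.inr a)))) _ _
    simp only [fF_inr, B3, K3_apply, Matrix.add_apply, Matrix.sub_apply, Matrix.zero_apply]; ring

theorem network : ∃ (f : Wg T N C → Matrix (H × H × H) (H × H × H) K) (c : ℕ),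
    Prog sym hf f 1 (fun w => f w + K3 G.J G.J G.J) c ∧
      c + Fintype.card T ^ 3 = Fintype.card H ^ 3 * Fintype.card (Wg T N C) +
        6 * Fintype.card T ^ 2 * (Fintype.card C * Fintype.card H) := by
  have p := (((((G.stage1.then_move _ G.move1).comp G.stage2).then_move _
    G.move2).comp G.stage3).comp G.unswap).then_move
    (f'' := fun w => G.G1 G.fA w + K3 G.J G.J G.J) _ G.move3
  refine ⟨G.G1 G.fA, _, p.of_eq rfl ?_ rfl rfl, ?_⟩
  · simp only [blkN_mul]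
    norm_num [blkN_one]
  · have hAp : Fintype.card (Ap T N C) =
        (Fintype.card N + Fintype.card C) * (Fintype.card T * Fintype.card T) := by
      rw [← Fintype.card_sum, ← Fintype.card_prod, ← Fintype.card_prod]; rfl
    simp only [sum_gcst, cloc, Fintype.card_sum, Fintype.card_prod, hAp]
    obtain ⟨k, hk⟩ : ∃ k, Fintype.card H = k + 1 :=
      ⟨Fintype.card H - 1, by have := G.two_le; omega⟩
    rw [hk]
    simp only [Nat.add_sub_cancel]
    ring

/-- The network on `2 ^ w` wires with frames on `Fin mm`. -/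
theorem sem (hH : Fintype.card H = 64) (hv : 4 * (6 * (Fintype.card C * 64)) ≤ 3 * Fintype.card T)
    (hC : 0 < Fintype.card C) (hT : Fintype.card T ≤ 2 ^ 16)
    (hN : Fintype.card N ≤ Fintype.card T * Fintype.card T) :
    ∃ (w c : ℕ) (e : Fin mm ≃ H × H × H) (f : Fin (2 ^ w) → Matrix (Fin mm) (Fin mm) K),
      2 ^ 40 * c + 2 ^ w * mm ≤ 2 ^ 40 * (2 ^ w * mm) ∧
      Sem sym hf c f 1 fun i => f i + (K3 G.J G.J G.J).submatrix e e := by
  obtain ⟨f, c, hp, hc⟩ := G.network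
  have hm : Fintype.card H ^ 3 = mm := by rw [hH, mm]; norm_num
  obtain ⟨r, hr⟩ := Nat.exists_eq_add_of_le (Nat.lt_size_self (Fintype.card (Wg T N C))).le
  have hW : Fintype.card (Wg T N C) = 2 * Fintype.card T ^ 3 +
      3 * ((Fintype.card N + Fintype.card C) * Fintype.card T ^ 2) := by
    have hAp : Fintype.card (Ap T N C) =
        (Fintype.card N + Fintype.card C) * (Fintype.card T * Fintype.card T) := by
      rw [← Fintype.card_sum, ← Fintype.card_prod, ← Fintype.card_prod]; rfl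
    simp only [Fintype.card_sum, Fintype.card_prod, hAp]
    ring
  have hW2 : 2 ^ (Fintype.card (Wg T N C)).size ≤ 2 * Fintype.card (Wg T N C) := by
    have h0 : 0 < Fintype.card (Wg T N C) := by
      have : 0 < Fintype.card T ^ 3 := pow_pos (by omega) 3
      omega
    obtain ⟨j, hj⟩ : ∃ j, (Fintype.card (Wg T N C)).size = j + 1 :=
      ⟨_, (Nat.succ_pred_eq_of_pos (Nat.size_pos.mpr h0)).symm⟩
    have := (Nat.lt_size (m := j) (n := Fintype.card (Wg T N C))).mp (by omega)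
    rw [hj, pow_succ]; omega
  set w := (Fintype.card (Wg T N C)).size with hw
  let e : Fin mm ≃ H × H × H := Fintype.equivOfCardEq (by
    simp only [Fintype.card_fin, Fintype.card_prod, ← hm]; ring)
  let σ : Fin (2 ^ w) ≃ (Wg T N C × Unit) ⊕ Fin r := Fintype.equivOfCardEq (by
    rw [Fintype.card_fin, Fintype.card_sum, Fintype.card_prod, Fintype.card_fin, Fintype.card_unit,
      mul_one, hr])
  let φ : Matrix (H × H × H) (H × H × H) K →+ Matrix (Fin mm) (Fin mm) K :=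
    AddMonoidHom.mk' (fun Q => Q.submatrix e e) fun _ _ => rfl
  have h1 := hp.lift σ (fun _ => 0) (fun _ => φ) (fun _ _ _ h => h.submatrix e) fun _ => 0
  have h2 := h1.then_move (f'' := fun i => liftF σ (fun _ => 0) (fun _ => φ) (fun _ => 0) f i +
      (K3 G.J G.J G.J).submatrix e e)
    (fun i => Sum.elim (fun _ => 0) (fun _ => mm) (σ i)) fun i => by
      simp only [liftF]
      rcases σ i with ⟨u, b⟩ | x
      · refine Cheap.zero.of_eq rfl ?_
        simp only [Sum.elim_inl, map_add]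
        exact (sub_eq_zero.2 (add_assoc _ _ _)).symm
      · refine ((cheap_K3 G.h4 G.cJ G.cJ G.cJ).submatrix e).of_eq ?_ (by simp)
        rw [Sum.elim_inr, ← hm]; ring
  refine ⟨w, _, e, _, ?_, h2.sound.of_eq le_rfl (liftA_one σ) rfl⟩
  rw [Equiv.sum_comp σ (fun x => Sum.elim (fun _ => 0) (fun _ => mm) x)]
  simp only [Fintype.sum_sum_type, Sum.elim_inl, Sum.elim_inr, Finset.sum_const_zero,
    Finset.sum_const, Finset.card_univ, Fintype.card_fin, smul_eq_mul, Fintype.card_unit]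
  rw [hm, hH] at hc
  have h4 := Nat.mul_le_mul_left (Fintype.card T ^ 2) hv
  have h5 : (Fintype.card N + Fintype.card C) * Fintype.card T ^ 2 ≤
      ((2 ^ 16 + 1) * Fintype.card T) * Fintype.card T ^ 2 := by
    have := Nat.mul_le_mul_right (Fintype.card T) hT
    exact Nat.mul_le_mul_right _ (by omega)
  have h6 : (2 ^ 16 + 1) * Fintype.card T * Fintype.card T ^ 2 = 65537 * Fintype.card T ^ 3 := by ring
  have h7 : Fintype.card T ^ 2 * (3 * Fintype.card T) = 3 * Fintype.card T ^ 3 := by ring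
  have h8 : Fintype.card T ^ 2 * (4 * (6 * (Fintype.card C * 64))) =
    4 * (6 * Fintype.card T ^ 2 * (Fintype.card C * 64)) := by ring
  have h9 : mm = 262144 := by rw [mm]; norm_num
  rw [h9] at hc ⊢
  generalize 2 ^ w = X at *
  omega

end Des

end Vale.Agent.P338
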