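import Vale.Agent.P338.Ee

/-! Operators along one digit of a digit vector, and their tensor products. -/

namespace Vale.Agent.P338

open Finset Function Complex

abbrev E1 := Module.End ℂ (ℕ → ℂ)
abbrev EE := Module.End ℂ ((ℕ → ℕ) → ℂ)

/-- The operator `f ↦ (y ↦ α y f y + β y f (π y))`. -/
def two (α β : ℕ → ℂ) (π : ℕ → ℕ) : E1 where
  toFun f y := α y * f y + β y * f (π y)
  map_add' f g := by funext y; simp; ring
  map_smul' c f := by funext y; simp; ring

@[simp] theorem two_apply (α β : ℕ → ℂ) (π : ℕ → ℕ) (f : ℕ → ℂ) (y : ℕ) :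
    two α β π f y = α y * f y + β y * f (π y) := rfl

def dg1 (α : ℕ → ℂ) : E1 := two α 0 id

@[simp] theorem dg1_apply (α f : ℕ → ℂ) (y : ℕ) : dg1 α f y = α y * f y := by simp [dg1]

def pm1 (π : ℕ → ℕ) : E1 := two 0 1 π

@[simp] theorem pm1_apply (π : ℕ → ℕ) (f : ℕ → ℂ) (y : ℕ) : pm1 π f y = f (π y) := by simp [pm1]

/-- An operator acting along digit `k`. -/
def ax (k : ℕ) : E1 →* EE where
  toFun A :=
    { toFun := fun u x => A (fun y => u (update x k y)) (x k)
      map_add' := fun u v => by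
        funext x
        exact congrFun (A.map_add (fun y => u (update x k y)) fun y => v (update x k y)) (x k)
      map_smul' := fun c u => by
        funext x
        exact congrFun (A.map_smul c fun y => u (update x k y)) (x k) }
  map_one' := by ext u x; simp
  map_mul' A B := by ext u x; simp

theorem ax_apply (k : ℕ) (A : E1) (u : (ℕ → ℕ) → ℂ) (x : ℕ → ℕ) :
    ax k A u x = A (fun y => u (update x k y)) (x k) := rfl

/-- Operators whose rows have finite support. -/
def Fin1 : Submonoid E1 where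
  carrier := {A | ∀ y, ∃ (s : Finset ℕ) (c : ℕ → ℂ), ∀ f, A f y = ∑ z ∈ s, c z * f z}
  one_mem' := fun y => ⟨{y}, fun _ => 1, fun f => by simp⟩
  mul_mem' := by
    intro A B hA hB y
    obtain ⟨s, c, h⟩ := hA y
    choose t d ht using hB
    refine ⟨s.biUnion t, fun w => ∑ z ∈ s, if w ∈ t z then c z * d z w else 0, fun f => ?_⟩
    rw [Module.End.mul_apply, h]
    simp only [sum_mul]
    rw [sum_comm]
    refine sum_congr rfl fun z hz => ?_
    rw [ht, mul_sum]
    simp only [ite_mul, zero_mul]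
    rw [← sum_filter, filter_mem_eq_inter, inter_eq_right.2 (subset_biUnion_of_mem t hz)]
    exact sum_congr rfl fun w _ => by ring

theorem two_mem (α β : ℕ → ℂ) (π : ℕ → ℕ) : two α β π ∈ Fin1 := by
  intro y
  by_cases h : π y = y
  · exact ⟨{y}, fun _ => α y + β y, fun f => by simp [h]; ring⟩
  · refine ⟨{y, π y}, fun z => if z = y then α y else β y, fun f => ?_⟩
    rw [sum_pair (Ne.symm h)]; simp [h]

theorem dg1_mem (α : ℕ → ℂ) : dg1 α ∈ Fin1 := two_mem _ _ _
theorem pm1_mem (π : ℕ → ℕ) : pm1 π ∈ Fin1 := two_mem _ _ _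

theorem ax_comm {k k' : ℕ} (h : k ≠ k') {A B : E1} (hA : A ∈ Fin1) (hB : B ∈ Fin1) :
    Commute (ax k A) (ax k' B) := by
  ext u x
  obtain ⟨s, c, hs⟩ := hA (x k)
  obtain ⟨t, d, ht⟩ := hB (x k')
  simp only [Module.End.mul_apply, ax_apply, hs, ht, update_of_ne h, update_of_ne h.symm, mul_sum]
  rw [sum_comm]
  refine sum_congr rfl fun z _ => sum_congr rfl fun w _ => ?_
  rw [update_comm h]; ring

/-- An operator with finite rows commutes with a change of the other digits. -/
theorem ax_comp {k k' : ℕ} (A : E1) (φ : (ℕ → ℕ) → ℕ → ℕ) (h1 : ∀ x, φ x k' = x k)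
    (h2 : ∀ x y, φ (update x k y) = update (φ x) k' y) (u : (ℕ → ℕ) → ℂ) :
    ax k A (u ∘ φ) = ax k' A u ∘ φ := by
  funext x
  simp only [ax_apply, comp_apply, h1, h2]

/-- The tensor product of `A 0, …, A (r - 1)` along the digits `pos 0, …, pos (r - 1)`. -/
def Tens (pos : ℕ → ℕ) (A : ℕ → E1) : ℕ → EE
  | 0 => 1
  | r + 1 => ax (pos r) (A r) * Tens pos A r

theorem Tens_congr {pos pos' : ℕ → ℕ} {A B : ℕ → E1} {r : ℕ} (hp : ∀ i < r, pos i = pos' i)
    (h : ∀ i < r, A i = B i) : Tens pos A r = Tens pos' B r := by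
  induction r with
  | zero => rfl
  | succ r ih =>
    rw [Tens, Tens, hp r (by omega), h r (by omega),
      ih (fun i hi => hp i (by omega)) fun i hi => h i (by omega)]

theorem Tens_one (pos : ℕ → ℕ) (r : ℕ) : Tens pos (fun _ => 1) r = 1 := by
  induction r with
  | zero => rfl
  | succ r ih => rw [Tens, ih, map_one, one_mul]

theorem ax_comm_Tens {pos : ℕ → ℕ} {A : ℕ → E1} (hA : ∀ i, A i ∈ Fin1) {k : ℕ} {B : E1}
    (hB : B ∈ Fin1) {r : ℕ} (h : ∀ i < r, k ≠ pos i) : Commute (ax k B) (Tens pos A r) := by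
  induction r with
  | zero => exact Commute.one_right _
  | succ r ih =>
    exact (ax_comm (h r (by omega)) hB (hA r)).mul_right (ih fun i hi => h i (by omega))

theorem Tens_mul {pos : ℕ → ℕ} (hp : Injective pos) {A B : ℕ → E1} (hA : ∀ i, A i ∈ Fin1)
    (hB : ∀ i, B i ∈ Fin1) (r : ℕ) :
    Tens pos (fun i => A i * B i) r = Tens pos A r * Tens pos B r := by
  induction r with
  | zero => simp [Tens]
  | succ r ih =>
    have hc := ax_comm_Tens (pos := pos) hA (k := pos r) (hB r) (r := r)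
      fun i hi h => by have := hp h; omega
    rw [Tens, Tens, Tens, ih, map_mul, mul_assoc, mul_assoc, ← mul_assoc (ax (pos r) (B r)), hc.eq,
      mul_assoc]

theorem Tens_dg1 {pos : ℕ → ℕ} (α : ℕ → ℕ → ℂ) (r : ℕ) (u : (ℕ → ℕ) → ℂ) (x : ℕ → ℕ) :
    Tens pos (fun i => dg1 (α i)) r u x = (∏ i ∈ range r, α i (x (pos i))) * u x := by
  induction r with
  | zero => simp [Tens]
  | succ r ih =>
    rw [Tens, Module.End.mul_apply, ax_apply, dg1_apply, update_eq_self, ih, prod_range_succ]; ring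

theorem Tens_comp {pos pos' : ℕ → ℕ} (A : ℕ → E1) (r : ℕ) (φ : (ℕ → ℕ) → ℕ → ℕ)
    (h1 : ∀ i < r, ∀ x, φ x (pos' i) = x (pos i))
    (h2 : ∀ i < r, ∀ x y, φ (update x (pos i) y) = update (φ x) (pos' i) y) (u : (ℕ → ℕ) → ℂ) :
    Tens pos A r (u ∘ φ) = Tens pos' A r u ∘ φ := by
  induction r with
  | zero => rfl
  | succ r ih =>
    rw [Tens, Tens, Module.End.mul_apply, Module.End.mul_apply,
      ih (fun i hi => h1 i (by omega)) fun i hi => h2 i (by omega)]
    exact ax_comp _ φ (h1 r (by omega)) (h2 r (by omega)) _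

end Vale.Agent.P338
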