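import Vale.Agent.P338.Lang

/-! A class of polynomial-time expressions on natural numbers (pure part). -/

namespace Vale.Agent.P338

/-- Expressions: `glob i` reads register `30 + i`, `var i` is a de Bruijn index. -/
inductive PF
  | glob (i : ℕ)
  | var (i : ℕ)
  | cst (c : ℕ)
  | add (a b : PF)
  | sub (a b : PF)
  | half (a : PF)
  | cat (a b : PF)
  | ite (c a b : PF)
  | lt (a : PF) (k : ℕ) (b : PF)
  | dr (k : ℕ) (a : PF)
  | rc (y bnd base step : PF)

/-- Bounded recursion on binary notation. -/
def rcF (bnd base : ℕ) (step : ℕ → ℕ → ℕ) : ℕ → ℕ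
  | 0 => base
  | p + 1 => min (step (p + 1) (rcF bnd base step ((p + 1) / 2))) bnd

namespace PF

def eval : PF → (ℕ → ℕ) → List ℕ → ℕ
  | glob i, g, _ => if i < 30 then g i else 0
  | var i, _, l => l.getD i 0
  | cst c, _, _ => c
  | add a b, g, l => a.eval g l + b.eval g l
  | sub a b, g, l => a.eval g l - b.eval g l
  | half a, g, l => a.eval g l / 2
  | cat a b, g, l => b.eval g l + 2 ^ (b.eval g l).size * a.eval g l
  | ite c a b, g, l => if c.eval g l = 0 then b.eval g l else a.eval g l
  | lt a k b, g, l => b.eval g (a.eval g l :: l.drop k)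
  | dr k a, g, l => a.eval g (l.drop k)
  | rc y bnd base step, g, l =>
      rcF (bnd.eval g l) (base.eval g l) (fun p acc => step.eval g (p :: acc :: l)) (y.eval g l)

variable {g : ℕ → ℕ} {l : List ℕ} {B : ℕ}

@[simp] theorem eval_glob (i : ℕ) : (glob i).eval g l = if i < 30 then g i else 0 := (rfl)
@[simp] theorem eval_var (i : ℕ) : (var i).eval g l = l.getD i 0 := (rfl)
@[simp] theorem eval_cst (c : ℕ) : (cst c).eval g l = c := (rfl)
@[simp] theorem eval_add (a b : PF) : (add a b).eval g l = a.eval g l + b.eval g l := (rfl)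
@[simp] theorem eval_sub (a b : PF) : (sub a b).eval g l = a.eval g l - b.eval g l := (rfl)
@[simp] theorem eval_half (a : PF) : (half a).eval g l = a.eval g l / 2 := (rfl)
@[simp] theorem eval_cat (a b : PF) :
    (cat a b).eval g l = b.eval g l + 2 ^ (b.eval g l).size * a.eval g l := (rfl)
@[simp] theorem eval_ite (c a b : PF) :
    (ite c a b).eval g l = if c.eval g l = 0 then b.eval g l else a.eval g l := (rfl)
@[simp] theorem eval_lt (a b : PF) (k : ℕ) :
    (lt a k b).eval g l = b.eval g (a.eval g l :: l.drop k) := (rfl)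
@[simp] theorem eval_dr (a : PF) (k : ℕ) : (dr k a).eval g l = a.eval g (l.drop k) := (rfl)
@[simp] theorem eval_rc (y bnd base step : PF) : (rc y bnd base step).eval g l =
    rcF (bnd.eval g l) (base.eval g l) (fun p acc => step.eval g (p :: acc :: l)) (y.eval g l) :=
  (rfl)

theorem rcF_eq {bnd base : ℕ} {step : ℕ → ℕ → ℕ} (f : ℕ → ℕ) (y : ℕ) (h0 : f 0 = base)
    (hs : ∀ p, 0 < p → p ≤ y → step p (f (p / 2)) = f p) (hb : ∀ p ≤ y, f p ≤ bnd) :
    rcF bnd base step y = f y := by
  induction y using Nat.strong_induction_on with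
  | _ y ih =>
    rcases y with _ | y
    · rw [rcF, h0]
    · rw [rcF, ih _ (by omega) (fun p h1 h2 => hs p h1 (by omega)) (fun p h => hb p (by omega)),
        hs _ (by omega) le_rfl, min_eq_left (hb _ le_rfl)]

/-- Apply a function of `var 0`, `var 1` to two arguments. -/
def ap2 (f a b : PF) : PF := lt b 0 (lt (dr 1 a) 0 f)

@[simp] theorem eval_ap2 (f a b : PF) :
    (ap2 f a b).eval g l = f.eval g (a.eval g l :: b.eval g l :: l) := by simp [ap2]

def dbl (a : PF) : PF := lt a 0 (add (var 0) (var 0))

@[simp] theorem eval_dbl (a : PF) : (dbl a).eval g l = 2 * a.eval g l := by simp [dbl]; ring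

def odd (a : PF) : PF := lt a 0 (sub (var 0) (dbl (half (var 0))))

@[simp] theorem eval_odd (a : PF) : (odd a).eval g l = a.eval g l % 2 := by simp [odd]; omega

def mul (a b : PF) : PF :=
  ap2 (rc (var 1) (cat (var 0) (var 1)) (cst 0)
    (add (dbl (var 1)) (ite (odd (var 0)) (var 2) (cst 0)))) a b

@[simp] theorem eval_mul (a b : PF) : (mul a b).eval g l = a.eval g l * b.eval g l := by
  simp only [mul, eval_ap2, eval_rc, eval_var, eval_cat, eval_cst, eval_add, eval_ite,
    eval_dbl, eval_odd, List.getD_cons_zero, List.getD_cons_succ]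
  generalize a.eval g l = x
  generalize b.eval g l = y
  refine rcF_eq (fun p => x * p) y rfl (fun p _ _ => ?_) fun p hp => ?_
  · rcases Nat.mod_two_eq_zero_or_one p with h | h
    · rw [if_pos h]; conv_rhs => rw [← Nat.div_add_mod p 2, h]
      ring
    · rw [if_neg (by omega)]; conv_rhs => rw [← Nat.div_add_mod p 2, h]
      ring
  · have := Nat.lt_size_self y
    nlinarith

/-- `1` if `a < b`, else `0`. -/
def ltE (a b : PF) : PF := ite (sub b a) (cst 1) (cst 0)

@[simp] theorem eval_ltE (a b : PF) :
    (ltE a b).eval g l = if a.eval g l < b.eval g l then 1 else 0 := by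
  simp only [ltE, eval_ite, eval_sub, eval_cst]; split_ifs <;> first | rfl | omega

/-- `if a < b then x else y`. -/
def ifLt (a b x y : PF) : PF := ite (sub b a) x y

@[simp] theorem eval_ifLt (a b x y : PF) : (ifLt a b x y).eval g l =
    if a.eval g l < b.eval g l then x.eval g l else y.eval g l := by
  simp only [ifLt, eval_ite, eval_sub]; split_ifs <;> first | rfl | omega

/-- `if a = b then x else y`. -/
def ifEq (a b x y : PF) : PF := ite (add (sub a b) (sub b a)) y x

@[simp] theorem eval_ifEq (a b x y : PF) : (ifEq a b x y).eval g l =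
    if a.eval g l = b.eval g l then x.eval g l else y.eval g l := by
  simp only [ifEq, eval_ite, eval_sub, eval_add]; split_ifs <;> first | rfl | omega

def div (a b : PF) : PF :=
  ap2 (rc (var 0) (var 0) (cst 0)
    (ite (var 3) (add (dbl (var 1))
      (ifLt (sub (var 0) (mul (dbl (var 1)) (var 3))) (var 3) (cst 0) (cst 1))) (cst 0))) a b

@[simp] theorem eval_div (a b : PF) : (div a b).eval g l = a.eval g l / b.eval g l := by
  simp only [div, eval_ap2, eval_rc, eval_var, eval_cst, eval_add, eval_ite, eval_sub,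
    eval_dbl, eval_mul, eval_ifLt, List.getD_cons_zero,
    List.getD_cons_succ]
  generalize a.eval g l = x
  generalize b.eval g l = y
  refine rcF_eq (fun p => p / y) x (by simp) (fun p _ _ => ?_) fun p hp =>
    (Nat.div_le_self _ _).trans hp
  rcases Nat.eq_zero_or_pos y with rfl | hy
  · simp
  rw [if_neg hy.ne']
  have h1 := Nat.div_add_mod (p / 2) y
  have h2 := Nat.mod_lt (p / 2) hy
  generalize p / 2 / y = q at *
  generalize p / 2 % y = r at *
  have h3 : 2 * q * y = 2 * (y * q) := by ring
  symm
  split_ifs with h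
  · rw [Nat.div_eq_iff hy]
    have : (2 * q + 0) * y = 2 * (y * q) := by ring
    omega
  · rw [Nat.div_eq_iff hy]
    have : (2 * q + 1) * y = 2 * (y * q) + y := by ring
    omega

def mod (a b : PF) : PF := ap2 (sub (var 0) (mul (var 1) (div (var 0) (var 1)))) a b

@[simp] theorem eval_mod (a b : PF) : (mod a b).eval g l = a.eval g l % b.eval g l := by
  simp only [mod, eval_ap2, eval_sub, eval_var,
    eval_mul, eval_div, List.getD_cons_zero, List.getD_cons_succ]
  rw [Nat.mod_def]

theorem size_half {p : ℕ} (hp : 0 < p) : (p / 2).size + 1 = p.size := by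
  conv_rhs => rw [← Nat.bit_bodd_div2 p]
  rw [Nat.size_bit (by rw [Nat.bit_bodd_div2]; omega), Nat.div2_val]

theorem size_le_self (p : ℕ) : p.size ≤ p := Nat.size_le.mpr Nat.lt_two_pow_self

/-- The number of binary digits. -/
def size (a : PF) : PF := lt a 0 (rc (var 0) (var 0) (cst 0) (add (var 1) (cst 1)))

@[simp] theorem eval_size (a : PF) : (size a).eval g l = (a.eval g l).size := by
  simp only [size, eval_lt, eval_rc, eval_var, eval_cst, eval_add,
    List.getD_cons_zero, List.getD_cons_succ]
  exact rcF_eq Nat.size _ (by simp) (fun p hp _ => size_half hp) fun p hp =>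
    (size_le_self p).trans hp

/-- `2 ^ a`, for `a` at most the number of digits of `glob 0`. -/
def pow2 (a : PF) : PF :=
  lt a 0 (rc (glob 0) (cat (cst 1) (glob 0)) (cst 1)
    (ifLt (var 2) (size (var 0)) (var 1) (dbl (var 1))))

@[simp] theorem eval_pow2' (a : PF) :
    (pow2 a).eval g l = 2 ^ min (a.eval g l) (g 0).size := by
  simp only [pow2, eval_lt, eval_rc, eval_var, eval_cst, eval_cat, eval_glob,
    eval_ifLt, eval_size, eval_dbl, List.getD_cons_zero, List.getD_cons_succ,
    show (0 : ℕ) < 30 by norm_num, if_true]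
  generalize a.eval g l = x
  refine rcF_eq (fun p => 2 ^ min x p.size) _ (by simp) (fun p hp _ => ?_) fun p hp => ?_
  · have := size_half hp
    split_ifs with h
    · congr 1; omega
    · rw [← pow_succ']; congr 1; omega
  · have h1 : 2 ^ min x p.size ≤ 2 ^ (g 0).size :=
      Nat.pow_le_pow_right (by norm_num) ((min_le_right _ _).trans (Nat.size_le_size hp))
    omega

theorem size_U (hU : g 0 + 1 = 2 ^ B) : (g 0).size = B := by
  apply le_antisymm (Nat.size_le.mpr (by omega))
  rcases B with _ | B
  · simp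
  · exact Nat.lt_size.mpr (by rw [pow_succ] at hU; have := Nat.one_le_two_pow (n := B); omega)

theorem eval_pow2 (hU : g 0 + 1 = 2 ^ B) (a : PF) (h : a.eval g l ≤ B) :
    (pow2 a).eval g l = 2 ^ a.eval g l := by
  rw [eval_pow2', size_U hU, min_eq_left h]

/-- Iteration: `step` sees the round number as `var 0` and the accumulator as `var 1`. -/
def rep (n base step : PF) : PF :=
  rc (sub (pow2 n) (cst 1)) (glob 0) base (lt (sub (size (var 0)) (cst 1)) 1 step)

theorem size_ones (i : ℕ) : (2 ^ i - 1).size = i :=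
  size_U (g := fun _ => 2 ^ i - 1) (Nat.sub_add_cancel Nat.one_le_two_pow)

theorem eval_rep (hU : g 0 + 1 = 2 ^ B) {n base step : PF} (f : ℕ → ℕ) (hn : n.eval g l ≤ B)
    (h0 : base.eval g l = f 0)
    (hs : ∀ i < n.eval g l, step.eval g (i :: f i :: l) = f (i + 1))
    (hb : ∀ i ≤ n.eval g l, f i < 2 ^ B) : (rep n base step).eval g l = f (n.eval g l) := by
  simp only [rep, eval_lt, eval_rc, eval_var, eval_cst, eval_sub, eval_glob,
    eval_pow2 hU n hn, eval_size, List.getD_cons_zero, List.drop_succ_cons,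
    List.drop_zero, show (0 : ℕ) < 30 by norm_num, if_true, h0]
  generalize n.eval g l = N at *
  induction N with
  | zero => simp [rcF]
  | succ N ih =>
    have h1 : 2 ^ (N + 1) - 1 = (2 ^ (N + 1) - 2) + 1 := by
      have := Nat.one_le_two_pow (n := N); rw [pow_succ]; omega
    have h2 : (2 ^ (N + 1) - 1) / 2 = 2 ^ N - 1 := by
      have := Nat.one_le_two_pow (n := N); rw [pow_succ]; omega
    rw [h1, rcF, ← h1, h2, ih (by omega) (fun i hi => hs i (by omega)) (fun i hi => hb i (by omega)),
      size_ones, Nat.add_sub_cancel, hs N (by omega), min_eq_left]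
    have := hb (N + 1) le_rfl
    omega

/-- Sum over `i < n`; `t` sees `i` as `var 0`, an accumulator as `var 1`. -/
def sumN (n t : PF) : PF := rep n (cst 0) (add (var 1) t)

theorem eval_sumN (hU : g 0 + 1 = 2 ^ B) {n t : PF} (f : ℕ → ℕ) (hn : n.eval g l ≤ B)
    (hs : ∀ i < n.eval g l, ∀ a, t.eval g (i :: a :: l) = f i)
    (hb : ∑ i ∈ Finset.range (n.eval g l), f i < 2 ^ B) :
    (sumN n t).eval g l = ∑ i ∈ Finset.range (n.eval g l), f i := by
  refine eval_rep hU (fun k => ∑ i ∈ Finset.range k, f i) hn (by simp) (fun i hi => ?_)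
    fun i hi => lt_of_le_of_lt (Finset.sum_le_sum_of_subset (by simpa using hi)) hb
  simp [hs i hi, Finset.sum_range_succ]

/-- Product over `i < n`; `t` sees `i` as `var 0`, an accumulator as `var 1`. -/
def prodN (n t : PF) : PF := rep n (cst 1) (mul (var 1) t)

theorem eval_prodN (hU : g 0 + 1 = 2 ^ B) {n t : PF} (f : ℕ → ℕ) (hn : n.eval g l ≤ B)
    (hs : ∀ i < n.eval g l, ∀ a, t.eval g (i :: a :: l) = f i)
    (hb : ∀ k ≤ n.eval g l, ∏ i ∈ Finset.range k, f i < 2 ^ B) :
    (prodN n t).eval g l = ∏ i ∈ Finset.range (n.eval g l), f i := by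
  refine eval_rep hU (fun k => ∏ i ∈ Finset.range k, f i) hn (by simp) (fun i hi => ?_) hb
  simp [hs i hi, Finset.prod_range_succ]

/-- `a ^ n`. -/
def pow (a n : PF) : PF := prodN n (dr 2 a)

theorem eval_pow (hU : g 0 + 1 = 2 ^ B) {a n : PF} (hn : n.eval g l ≤ B) (hB : 0 < B)
    (hb : a.eval g l ^ n.eval g l < 2 ^ B) : (pow a n).eval g l = a.eval g l ^ n.eval g l := by
  rw [pow, eval_prodN hU (fun _ => a.eval g l) hn (by simp)]
  · simp
  · intro k hk
    simp only [Finset.prod_const, Finset.card_range]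
    rcases Nat.eq_zero_or_pos (a.eval g l) with h | h
    · rw [h]
      rcases k with _ | k
      · simpa using hB.ne'
      · simp
    · exact lt_of_le_of_lt (Nat.pow_le_pow_right h hk) hb

/-- The digit of `i` of weight `w` and radix `q`. -/
def dg (i w q : PF) : PF := mod (div i w) q

@[simp] theorem eval_dg (i w q : PF) :
    (dg i w q).eval g l = i.eval g l / w.eval g l % q.eval g l := by simp [dg]

/-- Table lookup among the first `n` entries of `f`. -/
def tbl (f : ℕ → PF) (i : PF) : ℕ → PF
  | 0 => cst 0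
  | n + 1 => ifEq i (cst n) (f n) (tbl f i n)

theorem eval_tbl (f : ℕ → PF) (i : PF) (n : ℕ) (h : i.eval g l < n) :
    (tbl f i n).eval g l = (f (i.eval g l)).eval g l := by
  induction n with
  | zero => omega
  | succ n ih =>
    simp only [tbl, eval_ifEq, eval_cst]
    split_ifs with e
    · rw [e]
    · exact ih (by omega)

/-- Sum of the first `n` expressions of a family. -/
def sumL (f : ℕ → PF) : ℕ → PF
  | 0 => cst 0
  | n + 1 => add (sumL f n) (f n)

@[simp] theorem eval_sumL (f : ℕ → PF) (n : ℕ) :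
    (sumL f n).eval g l = ∑ i ∈ Finset.range n, (f i).eval g l := by
  induction n with
  | zero => simp [sumL]
  | succ n ih => simp [sumL, ih, Finset.sum_range_succ]

end PF

end Vale.Agent.P338
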