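import Vale.Agent.P338.PF

/-! Binary arithmetic on registers. -/

namespace Vale.Agent.P338

open Function

variable {P : Tbl}

/-- Bit-serial operation with a carry; the last bit of the result is the final carry. -/
def ser (f g : Bool → Bool → Bool → Bool) : List Bool → List Bool → Bool → List Bool
  | [], [], c => [c]
  | [], y :: b, c => f false y c :: ser f g [] b (g false y c)
  | x :: a, b, c => f x (b.headD false) c :: ser f g a b.tail (g x (b.headD false) c)

def xor3 (x y c : Bool) : Bool := xor (xor x y) c

def maj (x y c : Bool) : Bool := (x && y) || (xor x y && c)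

def bor (x y c : Bool) : Bool := maj (!x) y c

/-- Addition with carry, least significant bit first; the result has one extra bit. -/
def addB : List Bool → List Bool → Bool → List Bool := ser xor3 maj

theorem length_ser (f g : Bool → Bool → Bool → Bool) (a b : List Bool) (c : Bool) :
    (ser f g a b c).length = max a.length b.length + 1 := by
  induction a generalizing b c with
  | nil =>
    induction b generalizing c with
    | nil => simp [ser]
    | cons y b ih => simp [ser, ih]
  | cons x a ih => simp only [ser, List.length_cons, ih, List.length_tail]; omega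

theorem length_addB (a b : List Bool) (c : Bool) :
    (addB a b c).length = max a.length b.length + 1 := length_ser _ _ a b c

theorem lv_head_tail (b : List Bool) : lv b = (b.headD false).toNat + 2 * lv b.tail := by
  cases b <;> simp [lv]

theorem lv_addB (a b : List Bool) (c : Bool) : lv (addB a b c) = lv a + lv b + c.toNat := by
  unfold addB
  induction a generalizing b c with
  | nil =>
    induction b generalizing c with
    | nil => simp [ser, lv]
    | cons y b ih =>
      simp only [ser, lv, ih]
      cases y <;> cases c <;> simp [xor3, maj] <;> omega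
  | cons x a ih =>
    simp only [ser, lv, ih]
    rw [lv_head_tail b]
    generalize b.headD false = y
    cases x <;> cases y <;> cases c <;> simp [xor3, maj] <;> omega

theorem bits_cons (b : Bool) (n : ℕ) (h : n = 0 → b = true) :
    (b.toNat + 2 * n).bits = b :: n.bits := by
  rw [← Nat.bits_append_bit n b h, Nat.bit_val, add_comm]

theorem bits_pos {m : ℕ} (h : 0 < m) : m.bits = decide (m % 2 = 1) :: (m / 2).bits := by
  rw [← bits_cons _ _ (fun h' => by simp; omega)]
  congr 1
  rcases Nat.mod_two_eq_zero_or_one m with e | e <;> simp [e] <;> omega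

theorem lv_bits (n : ℕ) : lv n.bits = n := by
  induction n using Nat.strong_induction_on with
  | _ n ih =>
    rcases Nat.eq_zero_or_pos n with rfl | h
    · simp [lv]
    · rw [bits_pos h, lv, ih _ (by omega)]
      rcases Nat.mod_two_eq_zero_or_one n with e | e <;> simp [e] <;> omega

theorem lv_append (a b : List Bool) : lv (a ++ b) = lv a + 2 ^ a.length * lv b := by
  induction a with
  | nil => simp [lv]
  | cons x a ih => simp only [List.cons_append, lv, ih, List.length_cons]; ring

theorem lv_lt (a : List Bool) : lv a < 2 ^ a.length := by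
  induction a with
  | nil => simp [lv]
  | cons x a ih =>
    simp only [lv, List.length_cons, pow_succ]
    cases x <;> simp <;> omega

theorem lv_inj {a b : List Bool} (h : a.length = b.length) (h' : lv a = lv b) : a = b := by
  induction a generalizing b with
  | nil => exact (List.length_eq_zero_iff.mp h.symm).symm
  | cons x a ih =>
    rcases b with _ | ⟨y, b⟩
    · simp at h
    · simp only [lv] at h'
      have : x = y ∧ lv a = lv b := by
        cases x <;> cases y <;> simp at h' ⊢ <;> omega
      rw [this.1, ih (by simpa using h) this.2]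

theorem lv_takeD (n : ℕ) (a : List Bool) : lv (a.takeD n false) = lv a % 2 ^ n := by
  induction n generalizing a with
  | zero => simp [lv, Nat.mod_one]
  | succ n ih =>
    rw [List.takeD_succ, lv, ih, lv_head_tail a, pow_succ', Nat.mod_mul]
    have e : a.head?.getD false = a.headD false := by cases a <;> rfl
    rw [e]
    generalize a.headD false = y
    generalize lv a.tail = m
    have h1 : (y.toNat + 2 * m) % 2 = y.toNat := by cases y <;> simp
    have h2 : (y.toNat + 2 * m) / 2 = m := by cases y <;> (simp; try omega)
    rw [h1, h2]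

theorem lv_tail (a : List Bool) : lv a.tail = lv a / 2 := by
  rw [lv_head_tail a]
  cases a.headD false <;> (simp; try omega)

theorem lv_drop (n : ℕ) (a : List Bool) : lv (a.drop n) = lv a / 2 ^ n := by
  induction n with
  | zero => simp
  | succ n ih => rw [← List.tail_drop, lv_tail, ih, pow_succ, Nat.div_div_eq_div_mul]

theorem bits_half (n : ℕ) : (n / 2).bits = n.bits.tail := by
  rw [← Nat.div2_bits_eq_tail, Nat.div2_val]

theorem bits_div_pow (y k : ℕ) : (y / 2 ^ k).bits = y.bits.drop k := by
  induction k with
  | zero => simp
  | succ k ih => rw [pow_succ, ← Nat.div_div_eq_div_mul, bits_half, ih, List.tail_drop]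

theorem bits_lv_true (l : List Bool) : (lv (l ++ [true])).bits = l ++ [true] := by
  induction l with
  | nil => simp [lv]
  | cons x l ih =>
    rw [List.cons_append, lv, bits_cons, ih]
    intro h
    rw [h] at ih
    simp at ih

theorem bits_eq_nil {n : ℕ} : n.bits = [] ↔ n = 0 :=
  ⟨fun h => by rw [← lv_bits n, h, lv], fun h => by simp [h]⟩

theorem len_bits (n : ℕ) : n.bits.length = n.size := Nat.size_eq_bits_len n

theorem size_lv_le (a : List Bool) : (lv a).size ≤ a.length := Nat.size_le.mpr (lv_lt a)

theorem ser_sub (a b : List Bool) (c : Bool) : ∃ s o, ser xor3 bor a b c = s ++ [o] ∧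
    lv s + lv b + c.toNat = lv a + 2 ^ s.length * o.toNat := by
  induction a generalizing b c with
  | nil =>
    induction b generalizing c with
    | nil => exact ⟨[], c, by simp [ser], by simp [lv]⟩
    | cons y b ih =>
      obtain ⟨s, o, h1, h2⟩ := ih (bor false y c)
      refine ⟨xor3 false y c :: s, o, by simp [ser, h1], ?_⟩
      simp only [lv, List.length_cons, pow_succ', mul_assoc] at h2 ⊢
      generalize 2 ^ s.length * o.toNat = w at *
      cases y <;> cases c <;> simp [xor3, bor, maj] at h2 ⊢ <;> omega
  | cons x a ih =>
    obtain ⟨s, o, h1, h2⟩ := ih b.tail (bor x (b.headD false) c)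
    refine ⟨xor3 x (b.headD false) c :: s, o, by simp only [ser, h1, List.cons_append], ?_⟩
    rw [lv_head_tail b]
    simp only [lv, List.length_cons, pow_succ', mul_assoc] at h2 ⊢
    generalize 2 ^ s.length * o.toNat = w at *
    generalize b.headD false = y at *
    cases x <;> cases y <;> cases c <;> simp [xor3, bor, maj] at h2 ⊢ <;> omega

theorem Ok.seq_loopb {v : ℕ} {c0 c1 k : Cmd} {b : Bool} {l : List Bool} {σ σ' σ'' : St} {t t' : ℕ}
    (hv : σ v = b :: l) (h : Ok P (cond b c1 c0) (update σ v l) σ' t)
    (h' : Ok P (.seq (.loop v c0 c1) k) σ' σ'' t') :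
    Ok P (.seq (.loop v c0 c1) k) σ σ'' (t + t' + 1) := fun ρ => by
  obtain ⟨s, hs, h⟩ := h ρ
  obtain ⟨s', hs', h'⟩ := h' ρ
  rw [emb_update] at h
  cases h' with
  | seq h1 h2 => exact ⟨_, by omega, (Exec.loopb b (by simp [emb, hv]) h h1).seq h2⟩

/-- One position of a bit-serial operation: carry in register 90, output in register 91. -/
def serC (f g : Bool → Bool → Bool → Bool) (x y : Bool) : Cmd :=
  .cas 90 (.seq (.push 91 (some (f x y false))) (.push 90 (some (g x y false))))
    (.seq (.push 91 (some (f x y true))) (.push 90 (some (g x y true)))) .skip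

theorem serC_ok (f g : Bool → Bool → Bool → Bool) (x y c : Bool) (σ : St) (h : σ 90 = [c]) :
    Ok P (serC f g x y) σ (update (update σ 91 (f x y c :: σ 91)) 90 [g x y c]) 4 := by
  refine Ok.casb h ?_
  cases c <;> refine ((Ok.push _ _ _).seq (Ok.push _ _ _)).mono ?_ le_rfl <;>
    funext w <;> simp only [update_apply] <;> grind

def serX (f g : Bool → Bool → Bool → Bool) (b : ℕ) (x : Bool) : Cmd :=
  .cas b (serC f g x false) (serC f g x true) (serC f g x false)

theorem serX_ok (f g : Bool → Bool → Bool → Bool) {b : ℕ} (hb : b ≠ 90) (hb' : b ≠ 91)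
    (x c : Bool) (σ : St) (h : σ 90 = [c]) :
    Ok P (serX f g b x) σ (update (update (update σ b (σ b).tail) 91
      (f x ((σ b).headD false) c :: σ 91)) 90 [g x ((σ b).headD false) c]) 5 := by
  rcases hs : σ b with _ | ⟨y, l⟩
  · refine (Ok.casn hs (serC_ok f g x false c σ h)).mono ?_ le_rfl
    rw [List.tail_nil, ← hs, update_eq_self]; simp [hs]
  · refine Ok.casb hs ?_
    have := serC_ok (P := P) f g x y c (update σ b l) (by simp [hb.symm, h])
    cases y <;> simpa [hb'.symm] using this

/-- The bit-serial operation; the reversed result is put on register 91. -/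
def serP (f g : Bool → Bool → Bool → Bool) (a b : ℕ) : Cmd :=
  .seq (.loop a (serX f g b false) (serX f g b true))
    (.seq (.loop b (serC f g false false) (serC f g false true)) (mov 90 91))

theorem serP2_ok (f g : Bool → Bool → Bool → Bool) {b : ℕ} (hb : b ≠ 90) (hb' : b ≠ 91)
    (l : List Bool) (c : Bool) (σ : St) (hl : σ b = l) (h : σ 90 = [c]) :
    Ok P (.seq (.loop b (serC f g false false) (serC f g false true)) (mov 90 91)) σ
      (update (update (update σ b []) 90 []) 91 ((ser f g [] l c).reverse ++ σ 91))
      (5 * l.length + 5) := by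
  induction l generalizing c σ with
  | nil =>
    refine ((Ok.loopn hl).seq (mov_ok σ (by norm_num))).mono ?_ (by simp [h])
    funext w
    simp only [update_apply, ser, h]
    grind
  | cons y l ih =>
    have h1 := serC_ok (P := P) f g false y c (update σ b l) (by simp [hb.symm, h])
    have h2 := ih (g false y c) (update (update (update σ b l) 91
      (f false y c :: update σ b l 91)) 90 [g false y c]) (by simp [hb, hb']) (by simp)
    refine (Ok.seq_loopb hl (by cases y <;> exact h1) h2).mono ?_ (by simp; omega)
    funext w
    simp only [update_apply, ser]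
    grind

theorem serP_ok (f g : Bool → Bool → Bool → Bool) {a b : ℕ} (hab : a ≠ b) (ha : a ≠ 90)
    (ha' : a ≠ 91) (hb : b ≠ 90) (hb' : b ≠ 91)
    (l : List Bool) (c : Bool) (σ : St) (hl : σ a = l) (h : σ 90 = [c]) :
    Ok P (serP f g a b) σ
      (update (update (update (update σ a []) b []) 90 []) 91 ((ser f g l (σ b) c).reverse ++ σ 91))
      (6 * l.length + 5 * (σ b).length + 7) := by
  induction l generalizing c σ with
  | nil =>
    refine ((Ok.loopn hl).seq (serP2_ok f g hb hb' _ c σ rfl h)).mono ?_ (by simp; omega)
    rw [← hl, update_eq_self]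
  | cons x l ih =>
    have h1 := serX_ok (P := P) f g hb hb' x c (update σ a l) (by simp [ha.symm, h])
    have e : cond x (serX f g b true) (serX f g b false) = serX f g b x := by cases x <;> rfl
    have h2 := ih _ _ (by simp [ha, ha', hab]) (update_self _ _ _) |> Ok.seq_loopb hl (e ▸ h1)
    refine h2.mono ?_ ?_
    · funext w
      simp only [update_apply, ser]
      grind
    · simp [hb, hb', hab.symm]; omega

/-- `a := a + b`, `b` is emptied. Temporaries 90 to 99 are local. -/
def addR (a b : ℕ) : Cmd :=
  loc 90 (loc 91 (.seq (.push 90 (some false)) (.seq (serP xor3 maj a b) (mov 91 a))))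

theorem addR_ok (σ : St) {a b : ℕ} (h : a ≠ b) (ha : a < 90 ∨ 100 ≤ a) (hb : b < 90 ∨ 100 ≤ b) :
    Ok P (addR a b) σ (update (update σ b []) a (addB (σ a) (σ b) false))
      (40 * ((σ a).length + (σ b).length + 1)) := by
  have a0 : a ≠ 90 := by omega
  have a1 : a ≠ 91 := by omega
  have b0 : b ≠ 90 := by omega
  have b1 : b ≠ 91 := by omega
  refine (Ok.loc (Ok.loc ((Ok.push _ _ _).seq ((serP_ok xor3 maj h a0 a1 b0 b1 (σ a) false _
    (by simp [a0, a1]) (by simp)).seq (mov_ok _ a1.symm))))).mono ?_ ?_
  · funext w
    simp only [update_apply, addB]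
    grind
  · simp [a0, a1, b0, b1, a0.symm, a1.symm, b0.symm, b1.symm, length_ser]
    omega

/-- Remove the leading zeros. -/
def strip (a : ℕ) : Cmd :=
  loc 91 (.seq (mov a 91) (.loop 91 .skip (.seq (.push 91 (some true)) (mov 91 a))))

theorem strip_loop {a : ℕ} (ha : a ≠ 91) (r : List Bool) (σ : St) (hr : σ 91 = r) (h : σ a = []) :
    Ok P (.loop 91 .skip (.seq (.push 91 (some true)) (mov 91 a))) σ
      (update (update σ 91 []) a (lv r.reverse).bits) (2 * r.length + 5) := by
  induction r generalizing σ with
  | nil =>
    refine (Ok.loopn hr).mono ?_ (by omega)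
    funext w
    simp only [update_apply, List.reverse_nil, lv, Nat.zero_bits]
    grind
  | cons x r ih =>
    cases x
    · refine (Ok.loopb hr Ok.skip (ih _ (by simp) (by simp [ha, h]))).mono ?_ (by simp; omega)
      simp [lv_append, lv]
    · refine (Ok.loopb hr ((Ok.push _ _ _).seq (mov_ok _ ha.symm))
        (Ok.loopn (by simp [ha.symm]))).mono ?_ (by simp; omega)
      funext w
      simp only [update_apply, List.reverse_cons, bits_lv_true]
      grind

theorem strip_ok' (σ : St) {a : ℕ} (ha : a ≠ 91) :
    Ok P (strip a) σ (update σ a (lv (σ a)).bits) (4 * (σ a).length + 13) := by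
  refine (Ok.loc ((mov_ok _ ha).seq (strip_loop ha (σ a).reverse _ (by simp [ha])
    (by simp [ha])))).mono ?_ ?_
  · funext w
    simp only [update_apply, List.reverse_reverse]
    grind
  · simp [ha, ha.symm]; omega

theorem strip_ok (σ : St) {a : ℕ} (ha : a < 90 ∨ 100 ≤ a) :
    Ok P (strip a) σ (update σ a (lv (σ a)).bits) (20 * ((σ a).length + 1)) :=
  (strip_ok' σ (by omega)).le (by omega)

/-- `a := a + b` without leading zeros, `b` is emptied. -/
def addS (a b : ℕ) : Cmd := .seq (addR a b) (strip a)

theorem addS_ok (σ : St) {a b : ℕ} (h : a ≠ b) (ha : 100 ≤ a) (hb : 100 ≤ b) :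
    Ok P (addS a b) σ (update (update σ b []) a (lv (σ a) + lv (σ b)).bits)
      (60 * ((σ a).length + (σ b).length + 1)) := by
  refine ((addR_ok σ h (.inr ha) (.inr hb)).seq (strip_ok' _ (by omega))).mono ?_ ?_
  · simp [lv_addB]
  · simp [length_addB]; omega

/-- `a := a - b` (truncated) without leading zeros, `b` is emptied. -/
def subS (a b : ℕ) : Cmd :=
  .seq (loc 90 (loc 91 (.seq (.push 90 (some false))
    (.seq (serP xor3 bor a b) (.cas 91 (mov 91 a) (clr 91) .skip))))) (strip a)

theorem subS_ok (σ : St) {a b : ℕ} (h : a ≠ b) (ha : 100 ≤ a) (hb : 100 ≤ b) :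
    Ok P (subS a b) σ (update (update σ b []) a (lv (σ a) - lv (σ b)).bits)
      (60 * ((σ a).length + (σ b).length + 1)) := by
  have a0 : a ≠ 90 := by omega
  have a1 : a ≠ 91 := by omega
  have b0 : b ≠ 90 := by omega
  have b1 : b ≠ 91 := by omega
  obtain ⟨s, o, h1, h2⟩ := ser_sub (σ a) (σ b) false
  have h3 := length_ser xor3 bor (σ a) (σ b) false
  rw [h1] at h3
  simp only [List.length_append, List.length_singleton] at h3
  have h4 := lv_lt s
  have key : ∀ τ : St, τ 91 = o :: s.reverse → τ a = [] → Ok P (.cas 91 (mov 91 a) (clr 91) .skip) τ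
      (update (update τ 91 []) a (cond o [] s)) (2 * s.length + 2) := by
    intro τ e1 e2
    refine Ok.casb e1 ?_
    cases o
    · exact (mov_ok _ a1.symm).mono (by simp [a1, e2]) (by simp)
    · refine (clr_ok _ _).mono ?_ (by simp)
      funext w
      simp only [update_apply]
      grind
  have e : lv (cond o [] s) = lv (σ a) - lv (σ b) := by
    cases o <;> simp [lv] at h2 ⊢ <;> omega
  have e' : (cond o [] s).length ≤ s.length := by cases o <;> simp
  refine ((Ok.loc (Ok.loc ((Ok.push _ _ _).seq ((serP_ok xor3 bor h a0 a1 b0 b1 (σ a) false _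
    (by simp [a0, a1]) (by simp)).seq (key _ (by simp [b0, b1, h1])
      (by simp [a0, a1, h])))))).seq (strip_ok' _ a1)).mono ?_ ?_
  · funext w
    simp only [update_apply, ← e]
    grind
  · simp [a0, a1, b0, b1, a0.symm, a1.symm, b0.symm, b1.symm]
    omega

/-- Halve the length of register 92 into register 93; register 94 is set if the length is odd. -/
def hlvX : Cmd := .seq (.push 93 (some true)) (.cas 92 .skip .skip (.push 94 (some true)))

theorem hlv_loop (n : ℕ) (σ : St) (h : (σ 92).length = n) (h' : σ 94 = []) :
    Ok P (.loop 92 hlvX hlvX) σ (update (update (update σ 92 []) 93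
      (List.replicate ((n + 1) / 2) true ++ σ 93)) 94 (if n % 2 = 1 then [true] else []))
      (5 * ((n + 1) / 2) + 1) := by
  induction n using Nat.strong_induction_on generalizing σ with
  | _ n ih =>
    rcases hs : σ 92 with _ | ⟨x, _ | ⟨y, l⟩⟩
    · rw [hs] at h
      subst h
      refine (Ok.loopn hs).mono ?_ (by simp)
      funext w
      simp only [update_apply]
      grind
    · rw [hs] at h
      subst h
      refine (Ok.loopb hs (by
        simp only [Bool.cond_self]
        exact (Ok.push _ _ _).seq (Ok.casn (by simp) (Ok.push _ _ _)))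
        (Ok.loopn (by simp))).mono ?_ (by simp)
      funext w
      simp only [update_apply, show ([x].length + 1) / 2 = 1 by simp, List.replicate_one]
      grind
    · rw [hs] at h
      subst h
      refine (Ok.loopb hs (by
        simp only [Bool.cond_self]
        exact (Ok.push _ _ _).seq (Ok.casb (b := y) (l := l) (by simp)
          (by simp only [Bool.cond_self]; exact Ok.skip)))
        (ih l.length (by simp) _ (by simp) (by simp [h']))).mono ?_ (by simp; omega)
      have e1 : ((x :: y :: l).length + 1) / 2 = (l.length + 1) / 2 + 1 := by simp; omega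
      have e2 : (x :: y :: l).length % 2 = l.length % 2 := by simp; omega
      rw [e1, e2, List.replicate_succ']
      funext w
      simp only [update_apply]
      grind

def hlvB : Cmd := .seq (.loop 92 hlvX hlvX)
  (.seq (.cas 94 .skip (.push 91 (some false)) (.push 91 (some true))) (mov 93 92))

theorem hlvB_ok (σ : St) (h3 : σ 93 = []) (h4 : σ 94 = []) :
    Ok P hlvB σ (update (update σ 92 (List.replicate (((σ 92).length + 1) / 2) true)) 91
      (decide (((σ 92).length + 1) % 2 = 1) :: σ 91)) (7 * (((σ 92).length + 1) / 2) + 6) := by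
  have h := hlv_loop (P := P) _ σ rfl h4
  by_cases e : (σ 92).length % 2 = 1
  · rw [if_pos e] at h
    refine (h.seq ((Ok.casb (b := true) (l := []) (by simp) (Ok.push _ _ _)).seq
      (mov_ok _ (by norm_num)))).mono ?_ (by simp [h3]; omega)
    rw [show decide (((σ 92).length + 1) % 2 = 1) = false by simp; omega]
    funext w
    simp only [update_apply, h3]
    grind
  · rw [if_neg e] at h
    refine (h.seq ((Ok.casn (by simp) (Ok.push _ _ _)).seq
      (mov_ok _ (by norm_num)))).mono ?_ (by simp [h3]; omega)
    rw [show decide (((σ 92).length + 1) % 2 = 1) = true by simp; omega]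
    funext w
    simp only [update_apply, h3]
    grind

theorem binlen_loop (n : ℕ) (σ : St) (h : (σ 92).length = n) (h3 : σ 93 = []) (h4 : σ 94 = []) :
    Ok P (.loop 92 hlvB hlvB) σ (update (update σ 92 []) 91 (n.bits.reverse ++ σ 91))
      (16 * n + 1) := by
  induction n using Nat.strong_induction_on generalizing σ with
  | _ n ih =>
    rcases hs : σ 92 with _ | ⟨x, l⟩
    · rw [hs] at h
      subst h
      refine (Ok.loopn hs).mono ?_ (by simp)
      funext w
      simp only [update_apply, List.length_nil, Nat.zero_bits]
      grind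
    · rw [hs] at h
      subst h
      refine (Ok.loopb hs (by
        simp only [Bool.cond_self]
        exact hlvB_ok _ (by simp [h3]) (by simp [h4]))
        (ih ((l.length + 1) / 2) (by simp; omega) _ (by simp) (by simp [h3])
          (by simp [h4]))).mono ?_ (by simp; omega)
      rw [bits_pos (m := (x :: l).length) (by simp)]
      funext w
      simp only [update_apply, List.length_cons]
      grind

/-- `d :=` the length of `a` in binary; `a` is kept. -/
def binlen (d a : ℕ) : Cmd :=
  loc 91 (loc 92 (loc 93 (loc 94
    (.seq (cpy a 92) (.seq (.loop 92 hlvB hlvB) (.seq (clr d) (mov 91 d)))))))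

theorem binlen_ok (σ : St) {d a : ℕ} (h : d ≠ a) (hd : d < 90) (ha : a < 90) :
    Ok P (binlen d a) σ (update σ d (σ a).length.bits)
      (60 * ((σ a).length + 1) + 2 * (σ d).length) := by
  have a1 : a ≠ 91 := by omega
  have a2 : a ≠ 92 := by omega
  have a3 : a ≠ 93 := by omega
  have a4 : a ≠ 94 := by omega
  have d1 : d ≠ 91 := by omega
  have d2 : d ≠ 92 := by omega
  have d3 : d ≠ 93 := by omega
  have d4 : d ≠ 94 := by omega
  have := PF.size_le_self (σ a).length
  refine (Ok.loc (Ok.loc (Ok.loc (Ok.loc ((cpy_ok _ a2 (by omega) (by norm_num)).seq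
    ((binlen_loop (σ a).length _ (by simp [a1, a2, a3, a4]) (by simp) (by simp)).seq
      ((clr_ok _ _).seq (mov_ok _ d1.symm)))))))).mono ?_ ?_
  · funext w
    simp only [update_apply]
    grind
  · simp [a1, a2, a3, a4, d1, d2, d3, d4, d1.symm, d2.symm, d3.symm, d4.symm, len_bits]
    omega

/-- Double the length of a register of ones. -/
def dblU (d : ℕ) : Cmd := .seq (mov d 92) (.loop 92 (lit d [true, true]) (lit d [true, true]))

theorem dblU_ok (σ : St) {d p : ℕ} (hd : d ≠ 92) (h : σ d = List.replicate p true)
    (h' : σ 92 = []) : Ok P (dblU d) σ (update σ d (List.replicate (2 * p) true)) (8 * p + 3) := by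
  have := Ok.rep (P := P) (v := 92) (c := lit d [true, true]) (List.replicate p true)
    (fun i => update σ d (List.replicate (2 * i) true)) 5 fun i _ r => by
      refine (lit_ok _ _ _).mono ?_ (by simp)
      funext w
      simp only [update_apply, mul_add, mul_one, List.replicate_succ]
      grind
  refine ((mov_ok σ hd).seq (t' := p * 6 + 1) (σ'' := update σ d (List.replicate (2 * p) true))
    ?_).le (by simp [h]; omega)
  simp only [List.length_replicate, mul_zero, List.replicate_zero] at this
  rw [h, h', List.reverse_replicate, List.append_nil]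
  refine this.mono ?_ le_rfl
  funext w
  simp only [update_apply]
  grind

/-- Binary (register 91, most significant bit on top) to unary. -/
def unary (d : ℕ) : Cmd := .loop 91 (dblU d) (.seq (dblU d) (.push d (some true)))

theorem unary_ok {d : ℕ} (hd : d ≠ 91) (hd' : d ≠ 92) (r : List Bool) (p : ℕ) (σ : St)
    (hr : σ 91 = r) (h : σ d = List.replicate p true) (h' : σ 92 = []) :
    Ok P (unary d) σ (update (update σ 91 []) d
      (List.replicate (lv r.reverse + 2 ^ r.length * p) true))
      (8 * (lv r.reverse + 2 ^ r.length * p - p) + 6 * r.length + 1) := by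
  induction r generalizing p σ with
  | nil =>
    refine (Ok.loopn hr).mono ?_ (by omega)
    funext w
    simp only [update_apply, List.reverse_nil, lv]
    grind
  | cons x r ih =>
    have h1 : Ok P (cond x (.seq (dblU d) (.push d (some true))) (dblU d)) (update σ 91 r)
        (update (update σ 91 r) d (List.replicate (2 * p + x.toNat) true)) (8 * p + 5) := by
      have := dblU_ok (P := P) (update σ 91 r) hd' (p := p) (by simp [hd, h]) (by simp [h'])
      cases x
      · exact this.le (by omega)
      · exact (this.seq (Ok.push _ _ _)).mono (by simp [List.replicate_succ]) (by omega)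
    have e : lv (x :: r).reverse + 2 ^ (x :: r).length * p =
        lv r.reverse + 2 ^ r.length * (2 * p + x.toNat) := by
      simp [lv_append, lv]; ring
    have e' : 2 * p + x.toNat ≤ 2 ^ r.length * (2 * p + x.toNat) :=
      Nat.le_mul_of_pos_left _ (by positivity)
    refine (Ok.loopb hr h1 (ih (2 * p + x.toNat) _ (by simp [hd.symm]) (by simp)
      (by simp [hd'.symm, h']))).mono ?_ ?_
    · rw [e]
      funext w
      simp only [update_apply]
      grind
    · rw [e, List.length_cons]; omega

end Vale.Agent.P338
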