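import Vale.Agent.P338.PFa

/-! Binary arithmetic on registers and compilation of expressions. -/

namespace Vale.Agent.P338

open Function

variable {P : Tbl}

/-- The registers 30 to 59 hold the numbers `g 0, …, g 29`. -/
def Num (σ : St) (g : ℕ → ℕ) : Prop := ∀ i < 30, σ (30 + i) = (g i).bits

def PF.dg0 : PF → ℕ
  | .glob _ => 4
  | .var _ => 4
  | .cst c => c.size + 1
  | .add a b => a.dg0 + b.dg0 + 8
  | .sub a b => a.dg0 + b.dg0 + 8
  | .half a => a.dg0 + 2
  | .cat a b => a.dg0 + b.dg0 + 8
  | .ite c a b => c.dg0 + a.dg0 + b.dg0 + 4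
  | .lt a _ b => a.dg0 + (a.dg0 + 2) * b.dg0 + 5
  | .dr _ a => a.dg0
  | .rc y bnd base step => 2 * (y.dg0 + bnd.dg0 + base.dg0) +
      (y.dg0 + bnd.dg0 + base.dg0 + 2) * step.dg0 + 10

theorem pw_le (B : ℕ) {m n : ℕ} (h : m ≤ n) : (B + 2) ^ m ≤ (B + 2) ^ n :=
  Nat.pow_le_pow_right (by omega) h

theorem pw_one (B m : ℕ) : 1 ≤ (B + 2) ^ m := Nat.one_le_pow _ _ (by omega)

theorem pw_mul (B m k : ℕ) : 2 ^ k * (B + 2) ^ m ≤ (B + 2) ^ (m + k) := by
  rw [pow_add, mul_comm]
  exact Nat.mul_le_mul_left _ (Nat.pow_le_pow_left (by omega) k)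

theorem pw_four (B : ℕ) : 8 * B + 16 ≤ (B + 2) ^ 4 := by
  have := pw_mul B 1 3
  simp only [pow_one] at this
  omega

theorem pw_lift (B k : ℕ) : ∃ B', B ≤ B' ∧ (B + 2) ^ k ≤ B' ∧
    ∀ m, (B' + 2) ^ m = (B + 2) ^ ((k + 2) * m) := by
  have h1 : _ ≤ (B + 2) ^ (k + 2) := pw_mul B (k + 1) 1
  have h2 := pw_mul B k 1
  have h3 := pw_le B (show 1 ≤ k + 1 by omega)
  have h4 := pw_one B k
  simp only [pow_one] at h1 h2 h3
  refine ⟨(B + 2) ^ (k + 2) - 2, by omega, by omega, fun m => ?_⟩
  rw [Nat.sub_add_cancel (by omega), pow_mul]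

theorem size_add_le (x y : ℕ) : (x + y).size ≤ x.size + y.size + 1 := by
  have h1 := Nat.lt_size_self x
  have h2 := Nat.lt_size_self y
  have h3 : 2 ^ x.size ≤ 2 ^ (x.size + y.size) := Nat.pow_le_pow_right (by omega) (by omega)
  have h4 : 2 ^ y.size ≤ 2 ^ (x.size + y.size) := Nat.pow_le_pow_right (by omega) (by omega)
  rw [Nat.size_le, pow_succ]
  omega

theorem lv_cat (x y : ℕ) : lv (y.bits ++ x.bits) = y + 2 ^ y.size * x := by
  rw [lv_append, lv_bits, lv_bits, len_bits]

theorem size_rcF_le {bnd base Y : ℕ} (step : ℕ → ℕ → ℕ) (h1 : bnd.size ≤ Y) (h2 : base.size ≤ Y)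
    (p : ℕ) : (rcF bnd base step p).size ≤ Y := by
  rcases p with _ | p
  · rwa [rcF]
  · rw [rcF]
    exact (Nat.size_le_size (min_le_right _ _)).trans h1

theorem PF.size_dg0 (e : PF) {g : ℕ → ℕ} {l : List ℕ} {B : ℕ} (hB : ∀ i < 30, (g i).size ≤ B)
    (hl : ∀ x ∈ l, x.size ≤ B) : (e.eval g l).size ≤ (B + 2) ^ e.dg0 := by
  induction e generalizing l B with
  | glob i =>
    have := pw_four B
    simp only [eval_glob, dg0]
    split_ifs with h
    · have := hB i h; omega
    · simp
  | var i =>
    have := pw_four B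
    simp only [eval_var, dg0]
    rcases Nat.lt_or_ge i l.length with h | h
    · rw [List.getD_eq_getElem _ _ h]
      have := hl _ (List.getElem_mem h); omega
    · rw [List.getD_eq_default _ _ h]; simp
  | cst c =>
    have h1 := pw_mul B 0 (c.size + 1)
    have h2 : c.size + 1 < 2 ^ (c.size + 1) := Nat.lt_two_pow_self
    simp only [eval_cst, dg0, pow_zero, zero_add] at *
    omega
  | add a b iha ihb =>
    have ha := (iha hB hl).trans (pw_le B (Nat.le_add_right _ b.dg0))
    have hb := (ihb hB hl).trans (pw_le B (Nat.le_add_left _ a.dg0))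
    have h1 := pw_mul B (a.dg0 + b.dg0) 8
    have h2 := pw_one B (a.dg0 + b.dg0)
    have h3 := size_add_le (a.eval g l) (b.eval g l)
    simp only [eval_add, dg0]
    omega
  | sub a b iha ihb =>
    exact (Nat.size_le_size (Nat.sub_le _ _)).trans ((iha hB hl).trans
      (pw_le B (by simp only [dg0]; omega)))
  | half a iha =>
    exact (Nat.size_le_size (Nat.div_le_self _ _)).trans ((iha hB hl).trans
      (pw_le B (by simp only [dg0]; omega)))
  | cat a b iha ihb =>
    have ha := (iha hB hl).trans (pw_le B (Nat.le_add_right _ b.dg0))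
    have hb := (ihb hB hl).trans (pw_le B (Nat.le_add_left _ a.dg0))
    have h1 := pw_mul B (a.dg0 + b.dg0) 8
    have h3 := size_lv_le ((b.eval g l).bits ++ (a.eval g l).bits)
    rw [lv_cat, List.length_append, len_bits, len_bits] at h3
    simp only [eval_cat, dg0]
    omega
  | ite c a b ihc iha ihb =>
    simp only [eval_ite, dg0]
    split_ifs
    · exact (ihb hB hl).trans (pw_le B (by omega))
    · exact (iha hB hl).trans (pw_le B (by omega))
  | lt a k b iha ihb =>
    obtain ⟨B', h1, h2, h3⟩ := pw_lift B a.dg0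
    have := ihb (l := a.eval g l :: l.drop k) (B := B') (fun i hi => (hB i hi).trans h1)
      (fun x hx => by
        rcases List.mem_cons.mp hx with rfl | hx
        · exact (iha hB hl).trans h2
        · exact (hl x (List.mem_of_mem_drop hx)).trans h1)
    rw [h3] at this
    exact this.trans (pw_le B (by simp only [dg0]; omega))
  | dr k a iha => exact iha hB fun x hx => hl x (List.mem_of_mem_drop hx)
  | rc y bnd base step ihy ihbnd ihbase ihstep =>
    exact size_rcF_le _ ((ihbnd hB hl).trans (pw_le B (by simp only [dg0]; omega)))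
      ((ihbase hB hl).trans (pw_le B (by simp only [dg0]; omega))) _

/-- `d := min (d + 4) (d + 2)`; register `d + 4` is emptied. -/
def clip (d : ℕ) : Cmd :=
  .seq (clr d) (.seq (cpy (d + 4) d) (.seq
    (loc (d + 5) (.seq (cpy (d + 2) (d + 5)) (subS (d + 4) (d + 5)))) (subS d (d + 4))))

theorem clip_ok {d x m : ℕ} (hd : 100 ≤ d) (σ : St) (hx : σ (d + 4) = x.bits)
    (hm : σ (d + 2) = m.bits) :
    Ok P (clip d) σ (update (update σ (d + 4) []) d (min x m).bits)
      (2 * (σ d).length + 186 * x.size + 66 * m.size + 149) := by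
  have := Nat.size_le_size (Nat.sub_le x m)
  refine ((clr_ok _ _).seq ((cpy_ok _ (by omega) (by omega) (by omega)).seq
    ((Ok.loc ((cpy_ok _ (by omega) (by omega) (by omega)).seq
      (subS_ok _ (by omega) (by omega) (by omega)))).seq
      (subS_ok _ (by omega) (by omega) (by omega))))).mono ?_ ?_
  · have e : x - (x - m) = min x m := by omega
    funext w
    simp [update_apply, hx, hm, lv_bits, e]
    grind
  · simp [hx, hm, len_bits, lv_bits]
    omega

/-- Compile an expression; the result goes to the empty register `d`, temporaries lie above. -/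
def comp : PF → List ℕ → ℕ → Cmd
  | .glob i, _, d => if i < 30 then cpy (30 + i) d else .skip
  | .var i, regs, d => (regs[i]?).elim .skip fun r => cpy r d
  | .cst c, _, d => lit d c.bits
  | .add a b, regs, d =>
      .seq (comp a regs d) (loc (d + 1) (.seq (comp b regs (d + 1)) (addS d (d + 1))))
  | .sub a b, regs, d =>
      .seq (comp a regs d) (loc (d + 1) (.seq (comp b regs (d + 1)) (subS d (d + 1))))
  | .half a, regs, d => .seq (comp a regs d) (.cas d .skip .skip .skip)
  | .cat a b, regs, d => .seq (comp a regs d)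
      (loc (d + 1) (.seq (comp b regs (d + 1)) (.seq (app (d + 1) d) (strip d))))
  | .ite c a b, regs, d => .seq (comp c regs d) (.cas d (.seq (clr d) (comp a regs d))
      (.seq (clr d) (comp a regs d)) (comp b regs d))
  | .lt a k b, regs, d => .seq (comp a regs d) (loc (d + 1)
      (.seq (comp b (d :: regs.drop k) (d + 1)) (.seq (clr d) (app (d + 1) d))))
  | .dr k a, regs, d => comp a (regs.drop k) d
  | .rc y bnd base step, regs, d => .seq (comp base regs d)
      (loc (d + 1) (loc (d + 2) (loc (d + 3) (loc (d + 4)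
        (.seq (comp bnd regs (d + 2)) (.seq (comp y regs (d + 4)) (.seq (mov (d + 4) (d + 3))
          (.loop (d + 3)
            (.seq (.push (d + 1) (some false))
              (.seq (comp step ((d + 1) :: d :: regs) (d + 4)) (clip d)))
            (.seq (.push (d + 1) (some true))
              (.seq (comp step ((d + 1) :: d :: regs) (d + 4)) (clip d)))))))))))

/-- The environment of an expression that is compiled into register `d`. -/
structure Env (σ : St) (g : ℕ → ℕ) (regs l : List ℕ) (B d : ℕ) : Prop where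
  hg : Num σ g
  hl : regs.map σ = l.map Nat.bits
  hr : ∀ r ∈ regs, r < d ∧ r ≠ 99
  hd : 100 ≤ d
  hB : ∀ i < 30, (g i).size ≤ B
  hB' : ∀ x ∈ l, x.size ≤ B

variable {σ τ : St} {g : ℕ → ℕ} {regs l : List ℕ} {B d : ℕ}

theorem Env.up (h : Env σ g regs l B d) {d' B' : ℕ} (hd : d ≤ d') (hB : B ≤ B')
    (e : ∀ v < d, τ v = σ v) : Env τ g regs l B' d' where
  hg i hi := by rw [e _ (by have := h.hd; omega), h.hg i hi]
  hl := by
    rw [← h.hl]
    exact List.map_congr_left fun r hr => e r (h.hr r hr).1
  hr r hr := ⟨(h.hr r hr).1.trans_le hd, (h.hr r hr).2⟩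
  hd := h.hd.trans hd
  hB i hi := (h.hB i hi).trans hB
  hB' x hx := (h.hB' x hx).trans hB

theorem Env.drop (h : Env σ g regs l B d) (k : ℕ) : Env σ g (regs.drop k) (l.drop k) B d where
  hg := h.hg
  hl := by rw [List.map_drop, List.map_drop, h.hl]
  hr r hr := h.hr r (List.mem_of_mem_drop hr)
  hd := h.hd
  hB := h.hB
  hB' x hx := h.hB' x (List.mem_of_mem_drop hx)

theorem Env.cons (h : Env σ g regs l B d) {r x : ℕ} (h1 : 100 ≤ r) (h2 : r < d)
    (h3 : σ r = x.bits) (h4 : x.size ≤ B) : Env σ g (r :: regs) (x :: l) B d where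
  hg := h.hg
  hl := by rw [List.map_cons, List.map_cons, h.hl, h3]
  hr r' hr := by
    rcases List.mem_cons.mp hr with rfl | hr
    · omega
    · exact h.hr r' hr
  hd := h.hd
  hB := h.hB
  hB' x' hx := by
    rcases List.mem_cons.mp hx with rfl | hx
    · exact h4
    · exact h.hB' x' hx

theorem Env.size (h : Env σ g regs l B d) (e : PF) : (e.eval g l).size ≤ (B + 2) ^ e.dg0 :=
  e.size_dg0 h.hB h.hB'

/-- The statement proved for every expression. -/
def Good (P : Tbl) (g : ℕ → ℕ) (e : PF) : Prop :=
  ∀ {σ : St} {regs l : List ℕ} {B d : ℕ}, Env σ g regs l B d → σ d = [] →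
    Ok P (comp e regs d) σ (update σ d (e.eval g l).bits) ((B + 2) ^ e.dg0)

theorem good_bin {a b e : PF} (ha : Good P g a) (hb : Good P g b) (op : ℕ → Cmd) (F : ℕ → ℕ → ℕ)
    (hop : ∀ (d : ℕ) (σ : St) (x y : ℕ), 100 ≤ d → σ d = x.bits → σ (d + 1) = y.bits →
      Ok P (op d) σ (update (update σ (d + 1) []) d (F x y).bits) (60 * (x.size + y.size + 1)))
    (h1 : ∀ regs d, comp e regs d =
      .seq (comp a regs d) (loc (d + 1) (.seq (comp b regs (d + 1)) (op d))))
    (h2 : ∀ l, e.eval g l = F (a.eval g l) (b.eval g l)) (h3 : e.dg0 = a.dg0 + b.dg0 + 8) :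
    Good P g e := by
  intro σ regs l B d h h0
  have sa := h.size a
  have sb := h.size b
  have pa := pw_le B (Nat.le_add_right a.dg0 b.dg0)
  have pb := pw_le B (Nat.le_add_left b.dg0 a.dg0)
  have p1 := pw_mul B (a.dg0 + b.dg0) 8
  have p2 := pw_one B (a.dg0 + b.dg0)
  rw [h1, h2, h3]
  refine ((ha h h0).seq (Ok.loc ((hb (h.up (Nat.le_succ d) le_rfl fun v hv => ?_)
    (by simp)).seq (hop d _ (a.eval g l) (b.eval g l) h.hd (by simp) (by simp))))).mono ?_ ?_
  · simp only [update_apply]
    grind
  · funext w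
    simp only [update_apply]
    grind
  · simp
    omega

theorem good_rc {y bnd base step : PF} (hy : Good P g y) (hbnd : Good P g bnd)
    (hbase : Good P g base) (hstep : Good P g step) : Good P g (.rc y bnd base step) := by
  intro σ regs l B d h h0
  have hd := h.hd
  set k := y.dg0 + bnd.dg0 + base.dg0 with hk
  obtain ⟨B', b1, b2, b3⟩ := pw_lift B k
  have py : (B + 2) ^ y.dg0 ≤ (B + 2) ^ k := pw_le B (by omega)
  have pbnd : (B + 2) ^ bnd.dg0 ≤ (B + 2) ^ k := pw_le B (by omega)
  have pbase : (B + 2) ^ base.dg0 ≤ (B + 2) ^ k := pw_le B (by omega)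
  have sy := (h.size y).trans py
  have sbnd := (h.size bnd).trans pbnd
  have sbase := (h.size base).trans pbase
  set Y := y.eval g l with hY
  set M := bnd.eval g l with hM
  set R := rcF M (base.eval g l) fun p acc => step.eval g (p :: acc :: l) with hR
  have sR : ∀ p, (R p).size ≤ (B + 2) ^ k := size_rcF_le _ sbnd sbase
  set W := (B + 2) ^ (k + (k + 2) * step.dg0) with hW
  have w1 : (B + 2) ^ k ≤ W := pw_le B (by omega)
  have w2 : (B' + 2) ^ step.dg0 ≤ W := by rw [b3]; exact pw_le B (by omega)
  have w3 : 1 ≤ (B + 2) ^ k := pw_one _ _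
  have hp : ∀ i ≤ Y.size, (Y.bits.reverse.take i).reverse = (Y / 2 ^ (Y.size - i)).bits := by
    intro i _
    rw [List.take_reverse, List.reverse_reverse, bits_div_pow, len_bits]
  have key := Ok.loop_list (P := P) (v := d + 3)
    (c0 := .seq (.push (d + 1) (some false))
      (.seq (comp step ((d + 1) :: d :: regs) (d + 4)) (clip d)))
    (c1 := .seq (.push (d + 1) (some true))
      (.seq (comp step ((d + 1) :: d :: regs) (d + 4)) (clip d))) Y.bits.reverse
    (fun i => update (update (update (update σ (d + 4) []) (d + 2) M.bits) (d + 1)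
      (Y / 2 ^ (Y.size - i)).bits) d (R (Y / 2 ^ (Y.size - i))).bits) (410 * W) fun i hi => by
      have hi' : i < Y.size := by simpa [len_bits] using hi
      have e : ∀ c : Cmd, (cond Y.bits.reverse[i] (Cmd.seq (.push (d + 1) (some true)) c)
          (.seq (.push (d + 1) (some false)) c)) =
          .seq (.push (d + 1) (some Y.bits.reverse[i])) c := by
        intro c; cases Y.bits.reverse[i] <;> rfl
      rw [e]
      have e1 : (Y / 2 ^ (Y.size - (i + 1))).bits =
          Y.bits.reverse[i] :: (Y / 2 ^ (Y.size - i)).bits := by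
        rw [← hp _ hi', ← hp _ hi'.le, rev_take_succ _ _ hi]
      have e2 : Y / 2 ^ (Y.size - (i + 1)) / 2 = Y / 2 ^ (Y.size - i) := by
        rw [Nat.div_div_eq_div_mul, ← pow_succ]
        congr 2; omega
      have e4 : (Y / 2 ^ (Y.size - (i + 1))).size ≤ B' :=
        (Nat.size_le_size (Nat.div_le_self _ _)).trans (sy.trans b2)
      generalize Y / 2 ^ (Y.size - (i + 1)) = p at e1 e2 e4 ⊢
      generalize Y / 2 ^ (Y.size - i) = q at e1 e2 ⊢
      generalize Y.bits.reverse.drop (i + 1) = r
      generalize Y.bits.reverse[i] = x at e1 ⊢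
      have e3 : R p = min (step.eval g (p :: R q :: l)) M := by
        rcases p with _ | p
        · simp at e1
        · rw [hR, rcF, e2]
      have env : Env (update (update (update (update (update (update σ (d + 4) []) (d + 2) M.bits)
          (d + 1) q.bits) d (R q).bits) (d + 3) r) (d + 1) p.bits) g ((d + 1) :: d :: regs)
          (p :: R q :: l) B' (d + 4) :=
        ((h.up (by omega) b1 fun v hv => by simp only [update_apply]; grind).cons hd (by omega)
          (by simp) ((sR q).trans b2)).cons (by omega) (by omega) (by simp) e4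
      have ss := (env.size step).trans w2
      have sq := (sR q).trans w1
      refine (((Ok.push _ _ _).mono (by simp [e1]) le_rfl).seq ((hstep env (by simp)).seq
        (clip_ok hd _ (update_self _ _ _) (m := M) (by simp)))).mono ?_ ?_
      · funext w
        simp only [update_apply, e3]
        grind
      · simp [len_bits]
        omega
  simp only [List.length_reverse, len_bits, Nat.sub_zero, Nat.sub_self, pow_zero, Nat.div_one,
    Nat.div_eq_of_lt (Nat.lt_size_self Y), Nat.zero_bits] at key
  have p1 := pw_mul B (k + (k + (k + 2) * step.dg0)) 10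
  rw [pow_add, ← hW] at p1
  have p2 : Y.size * (410 * W + 1) ≤ (B + 2) ^ k * (410 * W + 1) := Nat.mul_le_mul_right _ sy
  have p3 : (B + 2) ^ k ≤ (B + 2) ^ k * W := Nat.le_mul_of_pos_right _ (by omega)
  have p4 : (B + 2) ^ k * (410 * W + 1) = 410 * ((B + 2) ^ k * W) + (B + 2) ^ k := by ring
  have e0 : R 0 = base.eval g l := by rw [hR, rcF]
  refine ((hbase h h0).seq (Ok.loc (Ok.loc (Ok.loc (Ok.loc
    ((hbnd (h.up (by omega) le_rfl fun v hv => ?_) (by simp)).seq
    ((hy (h.up (by omega) le_rfl fun v hv => ?_) (by simp)).seq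
    (((mov_ok _ (by omega)).mono ?_ le_rfl).seq key)))))))).mono ?_ ?_
  · simp only [update_apply]; grind
  · simp only [update_apply]; grind
  · funext w
    simp only [update_apply, e0]
    grind
  · funext w
    simp only [update_apply, PF.eval_rc]
    grind
  · have e : (PF.rc y bnd base step).dg0 = k + (k + (k + 2) * step.dg0) + 10 := by
      simp only [PF.dg0, ← hk]; omega
    rw [e]
    have sR' := sR Y
    simp [len_bits, ← hY]
    omega

theorem comp_ok (e : PF) : Good P g e := by
  induction e with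
  | glob i =>
    intro σ regs l B d h h0
    have := pw_four B
    have hd := h.hd
    simp only [comp, PF.eval_glob, PF.dg0]
    split_ifs with hi
    · have := h.hB i hi
      exact (cpy_ok _ (by omega) (by omega) (by omega)).mono (by simp [h0, h.hg i hi])
        (by rw [h.hg i hi, len_bits]; omega)
    · exact Ok.skip.mono (by simp [← h0]) (by omega)
  | var i =>
    intro σ regs l B d h h0
    have := pw_four B
    have hd := h.hd
    have hlen : regs.length = l.length := by simpa using congrArg List.length h.hl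
    simp only [comp, PF.eval_var, PF.dg0]
    rcases Nat.lt_or_ge i l.length with hi | hi
    · have hi' : i < regs.length := by omega
      have e : σ regs[i] = l[i].bits := by
        have := congrArg (fun z => z[i]?) h.hl
        simpa [hi, hi'] using this
      have h1 := h.hr _ (List.getElem_mem hi')
      have h2 := h.hB' _ (List.getElem_mem hi)
      rw [List.getElem?_eq_getElem hi', List.getD_eq_getElem _ _ hi]
      exact (cpy_ok _ (by omega) h1.2 (by omega)).mono (by simp [h0, e])
        (by rw [e, len_bits]; omega)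
    · rw [List.getElem?_eq_none (by omega), List.getD_eq_default _ _ hi]
      exact Ok.skip.mono (by simp [← h0]) (by omega)
  | cst c =>
    intro σ regs l B d h h0
    have h1 := pw_mul B 0 (c.size + 1)
    have h2 : c.size < 2 ^ c.size := Nat.lt_two_pow_self
    rw [pow_succ 2] at h1
    simp only [pow_zero, zero_add] at h1
    exact (lit_ok _ _ _).mono (by simp [h0]) (by simp only [len_bits, PF.dg0]; omega)
  | add a b iha ihb =>
    refine good_bin iha ihb (fun d => addS d (d + 1)) (· + ·) (fun d σ x y hd hx hy => ?_)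
      (fun _ _ => rfl) (fun _ => rfl) rfl
    simpa [hx, hy, lv_bits, len_bits] using addS_ok (P := P) σ (Nat.ne_add_one d) hd (by omega)
  | sub a b iha ihb =>
    refine good_bin iha ihb (fun d => subS d (d + 1)) (· - ·) (fun d σ x y hd hx hy => ?_)
      (fun _ _ => rfl) (fun _ => rfl) rfl
    simpa [hx, hy, lv_bits, len_bits] using subS_ok (P := P) σ (Nat.ne_add_one d) hd (by omega)
  | half a iha =>
    intro σ regs l B d h h0
    have p1 := pw_mul B a.dg0 2
    have p2 := pw_one B a.dg0
    simp only [comp, PF.eval_half, PF.dg0, bits_half]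
    rcases hx : (a.eval g l).bits with _ | ⟨b, r⟩
    · exact ((iha h h0).seq (Ok.casn (by simp [hx]) Ok.skip)).mono (by simp [hx]) (by omega)
    · exact ((iha h h0).seq (Ok.casb (b := b) (l := r) (by simp [hx])
        (by simp only [Bool.cond_self]; exact Ok.skip))).mono (by simp) (by omega)
  | cat a b iha ihb =>
    refine good_bin iha ihb (fun d => .seq (app (d + 1) d) (strip d))
      (fun x y => y + 2 ^ y.size * x) (fun d σ x y hd hx hy => ?_)
      (fun _ _ => rfl) (fun _ => rfl) rfl
    refine ((app_ok _ (by omega) (by omega) (by omega)).seq (strip_ok' _ (by omega))).mono ?_ ?_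
    · simp [hx, hy, lv_cat]
    · simp [hx, hy, len_bits]; omega
  | ite c a b ihc iha ihb =>
    intro σ regs l B d h h0
    have sc := h.size c
    have pc : _ ≤ (B + 2) ^ (c.dg0 + a.dg0 + b.dg0) := pw_le B (show c.dg0 ≤ _ by omega)
    have pa : _ ≤ (B + 2) ^ (c.dg0 + a.dg0 + b.dg0) := pw_le B (show a.dg0 ≤ _ by omega)
    have pb : _ ≤ (B + 2) ^ (c.dg0 + a.dg0 + b.dg0) := pw_le B (show b.dg0 ≤ _ by omega)
    have p1 := pw_mul B (c.dg0 + a.dg0 + b.dg0) 4
    have p2 := pw_one B (c.dg0 + a.dg0 + b.dg0)
    have e0 : update σ d [] = σ := by rw [← h0, update_eq_self]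
    simp only [comp, PF.eval_ite, PF.dg0]
    rcases hx : (c.eval g l).bits with _ | ⟨x, r⟩
    · rw [if_pos (bits_eq_nil.mp hx)]
      have := ihc h h0
      rw [hx, e0] at this
      exact (this.seq (Ok.casn h0 (ihb h h0))).le (by omega)
    · rw [if_neg fun h' => by simp [h'] at hx]
      have hr : r.length ≤ (c.eval g l).size := by rw [← len_bits, hx]; simp
      refine ((ihc h h0).seq (Ok.casb (b := x) (l := r) (by simp [hx]) (by
        simp only [Bool.cond_self]
        exact ((clr_ok _ _).mono (by simp [e0]) le_rfl).seq (iha h h0)))).le ?_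
      simp
      omega
  | lt a k b iha ihb =>
    intro σ regs l B d h h0
    have hd := h.hd
    obtain ⟨B', b1, b2, b3⟩ := pw_lift B a.dg0
    have sa := h.size a
    have env : Env (update (update σ d (a.eval g l).bits) (d + 1) []) g (d :: regs.drop k)
        (a.eval g l :: l.drop k) B' (d + 1) :=
      ((h.drop k).up (by omega) b1 fun v hv => by simp only [update_apply]; grind).cons hd
        (by omega) (by simp) (sa.trans b2)
    have sb := env.size b
    have pa : _ ≤ (B + 2) ^ (a.dg0 + (a.dg0 + 2) * b.dg0) := pw_le B (show a.dg0 ≤ _ by omega)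
    have pb : (B' + 2) ^ b.dg0 ≤ (B + 2) ^ (a.dg0 + (a.dg0 + 2) * b.dg0) := by
      rw [b3]; exact pw_le B (by omega)
    have p1 := pw_mul B (a.dg0 + (a.dg0 + 2) * b.dg0) 5
    have p2 := pw_one B (a.dg0 + (a.dg0 + 2) * b.dg0)
    simp only [comp, PF.eval_lt, PF.dg0]
    refine ((iha h h0).seq (Ok.loc ((ihb env (by simp)).seq ((clr_ok _ _).seq
      (app_ok _ (by omega) (by omega) (by omega)))))).mono ?_ ?_
    · funext w
      simp only [update_apply]
      grind
    · simp [len_bits]
      omega
  | dr k a iha => exact fun h h0 => iha (h.drop k) h0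
  | rc y bnd base step ihy ihbnd ihbase ihstep => exact good_rc ihy ihbnd ihbase ihstep

/-- The exponent of the polynomial bound for time and size. -/
def PF.deg : PF → ℕ := fun e => e.dg0 + 5

theorem PF.size_eval_le (e : PF) {g : ℕ → ℕ} {l : List ℕ} {B : ℕ} (hB : ∀ i < 30, (g i).size ≤ B)
    (hl : ∀ x ∈ l, x.size ≤ B) : (e.eval g l).size ≤ (B + 2) ^ e.deg :=
  (e.size_dg0 hB hl).trans (pw_le B (Nat.le_add_right _ _))

theorem env_top (hg : Num σ g) (hl : regs.map σ = l.map Nat.bits) (hr : ∀ r ∈ regs, r < 90)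
    (hB : ∀ i < 30, (g i).size ≤ B) (hB' : ∀ x ∈ l, x.size ≤ B) (e : ∀ v < 90, τ v = σ v) :
    Env τ g regs l B 100 where
  hg i hi := by rw [e _ (by omega), hg i hi]
  hl := by
    rw [← hl]
    exact List.map_congr_left fun r h => e r (hr r h)
  hr r h := by have := hr r h; omega
  hd := le_rfl
  hB := hB
  hB' := hB'

/-- `d :=` the value of `e`, the local variables being read from the registers `regs`. All
temporaries (registers from 90 on) are local. -/
def evalTo (d : ℕ) (e : PF) (regs : List ℕ) : Cmd :=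
  loc 100 (.seq (comp e regs 100) (.seq (clr d) (app 100 d)))

theorem evalTo_ok (e : PF) {d : ℕ} {regs : List ℕ} {σ : St} {g : ℕ → ℕ} {l : List ℕ} {B : ℕ}
    (hg : Num σ g) (hl : regs.map σ = l.map Nat.bits) (hr : ∀ r ∈ regs, r < 90) (hd : d < 90)
    (hB : ∀ i < 30, (g i).size ≤ B) (hB' : ∀ x ∈ l, x.size ≤ B) :
    Ok P (evalTo d e regs) σ (update σ d (e.eval g l).bits)
      ((B + 2) ^ e.deg + 2 * (σ d).length) := by
  have env : Env (update σ 100 []) g regs l B 100 :=
    env_top hg hl hr hB hB' fun v hv => update_of_ne (by omega) _ _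
  have se := env.size e
  have p1 := pw_mul B e.dg0 5
  have p2 := pw_one B e.dg0
  have d0 : d ≠ 100 := by omega
  refine (Ok.loc ((comp_ok e env (by simp)).seq ((clr_ok _ _).seq
    (app_ok _ (by omega) (by omega) (by omega))))).mono ?_ ?_
  · funext w
    simp only [update_apply]
    grind
  · simp [len_bits, d0, d0.symm, PF.deg]
    omega

/-- `d :=` the value of `e` in unary. -/
def ruler (d : ℕ) (e : PF) (regs : List ℕ) : Cmd :=
  loc 100 (loc 91 (loc 92 (.seq (comp e regs 100) (.seq (clr d) (.seq (mov 100 91) (unary d))))))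

theorem ruler_ok (e : PF) {d : ℕ} {regs : List ℕ} {σ : St} {g : ℕ → ℕ} {l : List ℕ} {B : ℕ}
    (hg : Num σ g) (hl : regs.map σ = l.map Nat.bits) (hr : ∀ r ∈ regs, r < 90) (hd : d < 90)
    (hB : ∀ i < 30, (g i).size ≤ B) (hB' : ∀ x ∈ l, x.size ≤ B) :
    Ok P (ruler d e regs) σ (update σ d (List.replicate (e.eval g l) true))
      ((B + 2) ^ (e.deg + 8) + 30 * e.eval g l + 2 * (σ d).length) := by
  have env : Env (update (update (update σ 100 []) 91 []) 92 []) g regs l B 100 :=
    env_top hg hl hr hB hB' fun v hv => by simp only [update_apply]; grind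
  have se := PF.size_le_self (e.eval g l)
  have p1 := pw_mul B e.dg0 13
  have p2 := pw_one B e.dg0
  have d0 : d ≠ 100 := by omega
  have d1 : d ≠ 91 := by omega
  have d2 : d ≠ 92 := by omega
  refine (Ok.loc (Ok.loc (Ok.loc ((comp_ok e env (by simp)).seq ((clr_ok _ _).seq
    ((mov_ok _ (by omega)).seq (unary_ok d1 d2 (e.eval g l).bits.reverse 0 _
      (by simp [d0.symm, d1.symm]) (by simp [d0, d1]) (by simp [d2.symm])))))))).mono ?_ ?_
  · funext w
    simp only [update_apply, List.reverse_reverse, lv_bits]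
    grind
  · simp [len_bits, lv_bits, d0, d0.symm, d1, d1.symm, d2, d2.symm, PF.deg, add_assoc]
    omega

end Vale.Agent.P338
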