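import Vale.Agent.P338.Hnet

/-! The parameters as functions of the input length. -/

namespace Vale.Agent.P338

open Filter

def pa (n : ℕ) : ℕ := (n.size.size - 1) / 18
def pe (E n : ℕ) : ℕ := pa n / E
def pk (E n : ℕ) : ℕ := pa n - 2 * pe E n
noncomputable def pw (E n : ℕ) : ℕ := pk E n * (wH + wT)
noncomputable def pq (K E n : ℕ) : ℕ :=
  (n.size - (n.size.size + pw E n + 3 * K)) / ((4 * mm ^ pk E n + K) * (2 * mm ^ pe E n))
noncomputable def ps (K E n : ℕ) : ℕ := 2 * pq K E n * mm ^ pe E n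
noncomputable def pG (K E n : ℕ) : ℕ := n.size + 4 - (n.size.size + ps K E n * (4 * mm ^ pk E n))
noncomputable def pB (K E n : ℕ) : ℕ := 2 ^ (ps K E n + 1) + 100 * (5000 * n.size) ^ 2

theorem exists_sq_le (c : ℕ) : ∃ e0, ∀ e ≥ e0, c * (e + 1) ^ 2 ≤ 2 ^ e := by
  refine ⟨8 * c + 8, fun e he => ?_⟩
  have key : ∀ j, (j + 9) ^ 3 ≤ 8 * 2 ^ (j + 8) := by
    intro j
    induction j with
    | zero => norm_num
    | succ j ih =>
      have : (j + 1 + 9) ^ 3 ≤ 2 * (j + 9) ^ 3 := by nlinarith [Nat.zero_le (j ^ 3), Nat.zero_le (j ^ 2)]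
      rw [show j + 1 + 8 = j + 8 + 1 by ring, pow_succ 2]
      omega
  obtain ⟨j, rfl⟩ : ∃ j, e = j + 8 := ⟨e - 8, by omega⟩
  have h1 := key j
  have h2 : 8 * c * (j + 9) ^ 2 ≤ (j + 9) * (j + 9) ^ 2 := Nat.mul_le_mul_right _ (by omega)
  rw [show j + 8 + 1 = j + 9 by ring]
  nlinarith

theorem pe_large {E : ℕ} (hE : 0 < E) (e0 : ℕ) : ∃ n0, ∀ n ≥ n0, e0 ≤ pe E n := by
  refine ⟨2 ^ 2 ^ (18 * (E * e0)), fun n hn => ?_⟩
  have h1 : 2 ^ (18 * (E * e0)) < n.size := Nat.lt_size.mpr hn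
  have h2 : 18 * (E * e0) < n.size.size := Nat.lt_size.mpr h1.le
  rw [pe, Nat.le_div_iff_mul_le hE, pa, mul_comm]
  omega

/-- The basic relations between the parameters. -/
structure Pf (K E c n L l a e k w q s G : ℕ) : Prop where
  hL : L = n.size
  hl : l = L.size
  big : c * (e + 1) ^ 2 ≤ 2 ^ e
  e0 : 0 < e
  ek : e ≤ k
  ha : a = k + 2 * e
  aE : a + 1 ≤ E * (e + 1)
  Ea : E * e ≤ a
  la : l ≤ 18 * (a + 1)
  lo : mm ^ a ≤ L
  hi : L < mm ^ (a + 1)
  hw : w = k * (wH + wT)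
  hs : s = 2 * q * mm ^ e
  q1 : mm ^ e ≤ 32 * q
  q2 : 2 ^ e ≤ q
  hG : G + l + s * (4 * mm ^ k) = L + 4
  G1 : w + K * (s + 3) + 4 ≤ G
  G2 : G ≤ 4 + w + 3 * K + K * s + (4 * mm ^ k + K) * (2 * mm ^ e)

theorem par_arith {K L l w m μ r q s G : ℕ} (m1 : μ = 32 * m) (c0 : 0 < m) (m3 : μ ≤ r)
    (lo : r * (μ * μ) ≤ L) (c1 : 2 * (l + w + 3 * K) ≤ m)
    (hq : q = (L - (l + w + 3 * K)) / ((4 * r + K) * (2 * μ))) (hs : s = 2 * q * μ)
    (hG : G = L + 4 - (l + s * (4 * r))) : m ≤ q ∧ G + l + s * (4 * r) = L + 4 ∧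
      w + K * (s + 3) + 4 ≤ G ∧ G ≤ 4 + w + 3 * K + K * s + (4 * r + K) * (2 * μ) := by
  have c2 : μ ≤ L := by
    have : μ * 1 ≤ μ * (r * μ) := Nat.mul_le_mul_left _ (Nat.mul_pos (by omega) (by omega))
    have : μ * (r * μ) = r * (μ * μ) := by ring
    omega
  have c3 : 0 < (4 * r + K) * (2 * μ) := Nat.mul_pos (by omega) (by omega)
  have q1 : m ≤ q := by
    rw [hq, Nat.le_div_iff_mul_le c3]
    have b1 : (4 * r + K) * (2 * μ) ≤ 8 * r * (2 * μ) := Nat.mul_le_mul_right _ (by omega)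
    have b2 := Nat.mul_le_mul_left m b1
    have b3 : 2 * (m * (8 * r * (2 * μ))) = r * (μ * μ) := by rw [m1]; ring
    omega
  have q3 : q * ((4 * r + K) * (2 * μ)) ≤ L - (l + w + 3 * K) := by
    rw [hq]; exact Nat.div_mul_le_self _ _
  have q4 : L - (l + w + 3 * K) < (4 * r + K) * (2 * μ) * (q + 1) := by
    rw [hq]; exact Nat.lt_mul_div_succ _ c3
  have q5 : q * ((4 * r + K) * (2 * μ)) = s * (4 * r) + K * s := by rw [hs]; ring
  have q6 : (4 * r + K) * (2 * μ) * (q + 1) = s * (4 * r) + K * s + (4 * r + K) * (2 * μ) := by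
    rw [hs]; ring
  rw [mul_add K]
  omega

theorem par_facts (K c : ℕ) {E : ℕ} (hE : 3 ≤ E) : ∃ n0, ∀ n ≥ n0,
    Pf K E c n n.size n.size.size (pa n) (pe E n) (pk E n) (pw E n) (pq K E n) (ps K E n)
      (pG K E n) := by
  obtain ⟨e0, h0⟩ := exists_sq_le (c + 36 * E + 2 * E * (wH + wT) + 6 * K)
  obtain ⟨n0, h1⟩ := pe_large (E := E) (by omega) (e0 + 1)
  refine ⟨n0, fun n hn => ?_⟩
  have h2 := h1 n hn
  have h3 := h0 (pe E n) (by omega)
  have Ea : E * pe E n ≤ pa n := Nat.mul_div_le _ _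
  have aE : pa n + 1 ≤ E * (pe E n + 1) := Nat.lt_mul_div_succ _ (by omega)
  have e3 : 3 * pe E n ≤ pa n := (Nat.mul_le_mul_right _ hE).trans Ea
  have ha : pa n = pk E n + 2 * pe E n := by unfold pk; omega
  have la : n.size.size ≤ 18 * (pa n + 1) := by unfold pa; omega
  have l1 : 18 * pa n < n.size.size := by
    have : 0 < pa n := by omega
    unfold pa at *; omega
  have lo : mm ^ pa n ≤ n.size := by rw [mm, ← pow_mul]; exact Nat.lt_size.mp l1
  have hi : n.size < mm ^ (pa n + 1) := by rw [mm, ← pow_mul]; exact Nat.size_le.mp la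
  have m1 : mm ^ pe E n = 32 * 2 ^ (18 * pe E n - 5) := by
    rw [mm, ← pow_mul, show 32 = 2 ^ 5 from rfl, ← pow_add]; congr 1; omega
  have m2 : 2 ^ pe E n ≤ 2 ^ (18 * pe E n - 5) := Nat.pow_le_pow_right (by norm_num) (by omega)
  have c1 : 2 * (n.size.size + pw E n + 3 * K) ≤ 2 ^ pe E n := by
    have b1 : pw E n ≤ E * (pe E n + 1) * (wH + wT) := Nat.mul_le_mul_right _ (by omega)
    have b2 : pe E n + 1 ≤ (pe E n + 1) ^ 2 := Nat.le_self_pow (by norm_num) _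
    have b3 := Nat.mul_le_mul_left (c + 36 * E + 2 * E * (wH + wT) + 6 * K) b2
    have b4 : (c + 36 * E + 2 * E * (wH + wT) + 6 * K) * (pe E n + 1) = c * (pe E n + 1) +
      36 * (E * (pe E n + 1)) + 2 * (E * (pe E n + 1) * (wH + wT)) + 6 * (K * pe E n) + 6 * K := by
      ring
    omega
  obtain ⟨a1, a2, a3, a4⟩ := par_arith (K := K) (L := n.size) (r := mm ^ pk E n) (q := pq K E n)
    (s := ps K E n) (G := pG K E n) m1 (by positivity)
    (Nat.pow_le_pow_right (by decide) (by omega))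
    (by rw [← pow_add, ← pow_add, ← two_mul, ← ha]; exact lo) (c1.trans m2) rfl rfl rfl
  exact
    { hL := rfl
      hl := rfl
      big := (Nat.mul_le_mul_right _ (by omega)).trans h3
      e0 := by omega
      ek := by omega
      ha := ha
      aE := aE
      Ea := Ea
      la := la
      lo := lo
      hi := hi
      hw := rfl
      hs := rfl
      q1 := by omega
      q2 := by omega
      hG := a2
      G1 := a3
      G2 := a4 }

end Vale.Agent.P338
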