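import Vale.Agent.P338.Step

/-! Passes over the groups of an array. -/

namespace Vale.Agent.P338

open Function

variable {P : Tbl} {g : ℕ → ℕ} {B K Zb t : ℕ}

/-- One round: read a group of each operand, run the body, write the result. -/
def rnd (body : Cmd) : Cmd :=
  .seq (tk 12 3 15) (.seq (tk 13 4 16) (.seq body (.seq (mov 12 10) (tst 11 3))))

def pass (body : Cmd) : Cmd :=
  loc 10 (loc 11 (loc 12 (loc 13 (.seq (tst 11 3) (.seq (.loop 11 (rnd body) (rnd body))
    (mov 10 3))))))

/-- The registers that a pass does not use. -/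
def Out (v : ℕ) : Prop := v < 3 ∨ (4 < v ∧ v < 10) ∨ 16 < v

/-- The body turns the groups `a`, `b` into `o` and the state `s` into `s'`. -/
def Body (P : Tbl) (body : Cmd) (σ : St) (a b o s s' : List Bool) (t : ℕ) : Prop :=
  ∀ τ : St, (∀ v, Out v → τ v = σ v) → τ 12 = a → τ 13 = b → τ 14 = s →
    Ok P body τ (update (update (update τ 13 []) 12 o) 14 s') t

theorem flat_drop_eq_nil {H G i : ℕ} {fa : ℕ → List Bool} (hG : 0 < G)
    (ha : ∀ i < H, (fa i).length = G) (hi : i ≤ H) :
    (flat (H - i) fun j => fa (i + j)) = [] ↔ ¬ i < H := by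
  rw [← List.length_eq_zero_iff, length_flat (S := G) fun j hj => ha _ (by omega)]
  simp only [mul_eq_zero]; omega

theorem pass_ok {body : Cmd} {σ : St} {H G G' Go : ℕ} {fa fb fo I : ℕ → List Bool}
    {rest : List Bool} (hG : 0 < G) (h3 : σ 3 = flat H fa) (h4 : σ 4 = flat H fb ++ rest)
    (h14 : σ 14 = I 0) (h15 : (σ 15).length = G) (h16 : (σ 16).length = G')
    (ha : ∀ i < H, (fa i).length = G) (hb : ∀ i < H, (fb i).length = G')
    (ho : ∀ i < H, (fo i).length ≤ Go)
    (h : ∀ i < H, Body P body σ (fa i) (fb i) (fo i) (I i) (I (i + 1)) t) :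
    Ok P (pass body) σ (update (update (update σ 4 rest) 3 (flat H fo)) 14 (I H))
      (H * (t + 9 * G + 9 * G' + 4 * Go + 50) + 40) := by
  have key := Ok.whl (P := P) (v := 11) (c := rnd body) H
    (fun i => update (update (update (update (update (update σ 10 (flat i fo).reverse) 12 []) 13 [])
      3 (flat (H - i) fun j => fa (i + j))) 4 ((flat (H - i) fun j => fb (i + j)) ++ rest)) 14 (I i))
    (t + 9 * G + 9 * G' + 2 * Go + 45) fun i hi => by
      obtain ⟨k, hk⟩ : ∃ k, H - i = k + 1 := ⟨H - i - 1, by omega⟩
      have hk' : H - (i + 1) = k := by omega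
      have ea : (flat (H - i) fun j => fa (i + j)) =
          fa i ++ flat (H - (i + 1)) fun j => fa (i + 1 + j) := by
        rw [hk, hk', flat_succ']; simp only [add_zero, add_assoc, add_comm 1]
      have eb : (flat (H - i) fun j => fb (i + j)) =
          fb i ++ flat (H - (i + 1)) fun j => fb (i + 1 + j) := by
        rw [hk, hk', flat_succ']; simp only [add_zero, add_assoc, add_comm 1]
      have hn := flat_drop_eq_nil hG ha (show i + 1 ≤ H by omega)
      refine ((tk_ok _ (by omega) (by omega) (by omega) (by omega) (by omega) (by omega)).seq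
        ((tk_ok _ (by omega) (by omega) (by omega) (by omega) (by omega) (by omega)).seq
        ((h i hi _ (fun v hv => ?_) ?_ ?_ ?_).seq ((mov_ok _ (by omega)).seq
        (tst_ok _ (by omega)))))).mono ?_ ?_
      · unfold Out at hv
        simp only [update_apply, Nat.reduceEqDiff, reduceIte]
        split_ifs <;> first | omega | rfl
      · simp [ea, h15, takeD_append' (ha i hi)]
      · simp [eb, h16, takeD_append' (hb i hi)]
      · simp
      · funext w
        simp only [update_apply, Nat.reduceEqDiff, reduceIte]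
        split_ifs <;> first | omega | rfl | simp_all [drop_append' (ha i hi),
          drop_append' (hb i hi), flat_succ]
      · have := ho i hi
        simp [h15, h16]; omega
  have hn := flat_drop_eq_nil hG ha (Nat.zero_le H)
  have hl := length_flat_le ho
  refine (Ok.loc (Ok.loc (Ok.loc (Ok.loc (((tst_ok _ (by omega)).mono ?_ le_rfl).seq
    (key.seq (mov_ok _ (by omega)))))))).mono ?_ ?_
  · funext w
    simp only [update_apply, Nat.reduceEqDiff, reduceIte]
    split_ifs <;> first | omega | rfl | simp_all
  · funext w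
    simp only [update_apply, Nat.reduceEqDiff, reduceIte]
    split_ifs <;> first | omega | rfl | simp_all
  · simp; nlinarith

/-- A pass with group lengths given by expressions. -/
def passE (eG eG' : PF) (body : Cmd) : Cmd :=
  loc 14 (loc 15 (loc 16 (.seq (ruler 15 eG []) (.seq (ruler 16 eG' []) (pass body)))))

theorem passE_ok {body : Cmd} {σ : St} {eG eG' : PF} {H G G' Go : ℕ} {fa fb fo I : ℕ → List Bool}
    {rest : List Bool} (hg : Num σ g) (hB : Bud g B (eG.deg + eG'.deg + 8) Zb)
    (e1 : eG.eval g [] = G) (e2 : eG'.eval g [] = G') (hG : 0 < G) (h3 : σ 3 = flat H fa)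
    (h4 : σ 4 = flat H fb ++ rest) (h14 : I 0 = [])
    (ha : ∀ i < H, (fa i).length = G) (hb : ∀ i < H, (fb i).length = G')
    (ho : ∀ i < H, (fo i).length ≤ Go)
    (h : ∀ i < H, Body P body σ (fa i) (fb i) (fo i) (I i) (I (i + 1)) t) :
    Ok P (passE eG eG' body) σ (update (update σ 4 rest) 3 (flat H fo))
      (H * (t + 9 * G + 9 * G' + 4 * Go + 50) + 32 * (G + G') + 2 * (I H).length + 70 * Zb) := by
  have hg' : Num (update (update (update σ 14 []) 15 []) 16 []) g :=
    ((hg.upd _ (by omega)).upd _ (by omega)).upd _ (by omega)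
  have h1 := ruler_ok (P := P) eG (d := 15) (regs := []) (l := []) hg' rfl (by simp) (by omega)
    hB.sz (by simp)
  have h2 := ruler_ok (P := P) eG' (d := 16) (regs := []) (l := [])
    (hg'.upd (v := 15) (List.replicate (eG.eval g []) true) (by omega)) rfl (by simp) (by omega)
    hB.sz (by simp)
  rw [e1] at h1 h2
  rw [e2] at h2
  refine (Ok.loc (Ok.loc (Ok.loc (h1.seq (h2.seq (pass_ok (H := H) (fa := fa) (fb := fb) (fo := fo)
    (I := I) (rest := rest) (G' := G') (t := t) hG (by simpa using h3) (by simpa using h4)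
    (by simp [h14]) (by simp) (by simp) ha hb ho fun i hi τ hτ =>
      h i hi τ fun v hv => ?_)))))).mono ?_ ?_
  · rw [hτ v hv]
    unfold Out at hv
    simp only [update_apply, Nat.reduceEqDiff, reduceIte]
    split_ifs <;> first | omega | rfl
  · funext w
    simp only [update_apply, Nat.reduceEqDiff, reduceIte]
    split_ifs <;> first | omega | rfl | simp_all
  · have := hB.pow (K' := eG.deg + 8) (by omega)
    have := hB.pow (K' := eG'.deg + 8) (by omega)
    have := hB.pos
    simp; omega

/-- The body works on the groups without a state. -/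
def Body0 (P : Tbl) (body : Cmd) (σ : St) (a b o : List Bool) (t : ℕ) : Prop :=
  ∀ τ : St, (∀ v, Out v → τ v = σ v) → τ 12 = a → τ 13 = b →
    Ok P body τ (update (update τ 13 []) 12 o) t

theorem Body0.body {body : Cmd} {σ : St} {a b o : List Bool} (h : Body0 P body σ a b o t) :
    Body P body σ a b o [] [] t := fun τ h1 h2 h3 h4 => by
  refine (h τ h1 h2 h3).mono ?_ le_rfl
  rw [eq_comm, update_eq_self_iff]; simp [h4]

/-- The body reads the index of the first cell of the group in register 14. -/
def BodyI (P : Tbl) (body : Cmd) (σ : St) (i0 : ℕ) (a b o : List Bool) (t : ℕ) : Prop :=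
  ∀ τ : St, (∀ v, Out v → τ v = σ v) → τ 12 = a → τ 13 = b → τ 14 = i0.bits →
    Ok P body τ (update (update τ 13 []) 12 o) t

/-- A pass over groups of `eG` cells; the cell size is parameter 3. With `two = true` the second
operand is read too. -/
def passI (two : Bool) (eG : PF) (body : Cmd) : Cmd :=
  passE (.mul eG (.glob 3)) (if two then .mul eG (.glob 3) else .cst 0)
    (.seq body (evalTo 14 (.add (.var 0) (.dr 1 eG)) [14]))

def dPass (eG : PF) : ℕ := 2 * (PF.mul eG (.glob 3)).deg + (PF.cst 0).deg + 8 +
  (PF.add (.var 0) (.dr 1 eG)).deg + 1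

theorem passI_ok {body : Cmd} {σ : St} {two : Bool} {eG : PF} {H G S Go : ℕ}
    {u v fo : ℕ → List Bool} {rest : List Bool} (hg : Num σ g) (hB : Bud g B (dPass eG) Zb)
    (e1 : eG.eval g [] = G) (hS : g 3 = S) (hZ : Zb ≤ G * S) (hn : H * G < 2 ^ B) (hH : 0 < H)
    (h3 : σ 3 = flat (H * G) u) (h4 : σ 4 = (if two then flat (H * G) v else []) ++ rest)
    (hu : ∀ j < H * G, (u j).length = S) (hv : two = true → ∀ j < H * G, (v j).length = S)
    (ho : ∀ i < H, (fo i).length ≤ Go)
    (h : ∀ i < H, BodyI P body σ (i * G) (flat G fun j => u (i * G + j))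
      (if two then flat G fun j => v (i * G + j) else []) (fo i) t) :
    Ok P (passI two eG body) σ (update (update σ 4 rest) 3 (flat H fo))
      (H * (t + 4 * Go + 210 * (G * S))) := by
  have hlt : ∀ i < H, ∀ j < G, i * G + j < H * G := fun i hi j hj => by nlinarith
  have hp := hB.pos
  have hB2 := hB.B_le (by unfold dPass; omega)
  refine (passE_ok (B := B) (Zb := Zb) (G := G * S) (G' := if two then G * S else 0)
    (fa := fun i => flat G fun j => u (i * G + j))
    (fb := fun i => if two then flat G fun j => v (i * G + j) else [])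
    (I := fun i => (i * G).bits) (t := t + 4 * Zb) hg (hB.mono ?_) (by simp [e1, hS])
    (by cases two <;> simp [e1, hS]) (by omega) (by rw [h3, flat_mul]) ?_ (by simp)
    (fun i hi => length_flat fun j hj => hu _ (hlt i hi j hj)) (fun i hi => ?_) ho
    fun i hi τ h1 h2 h3 h4 => ?_).le ?_
  · unfold dPass; split_ifs <;> omega
  · rw [h4]; cases two <;> simp [flat_mul]
  · cases two
    · simp
    · simpa using length_flat fun j hj => hv rfl _ (hlt i hi j hj)
  · have hi' : i * G < 2 ^ B := by nlinarith
    have := evalTo_ok (P := P) (.add (.var 0) (.dr 1 eG)) (d := 14) (regs := [14]) (l := [i * G])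
      (σ := update (update τ 13 []) 12 (fo i)) (B := B)
      (((hg.congr fun v hv => h1 v (by unfold Out; omega)).upd _ (by omega)).upd _ (by omega))
      (by simp [h4]) (by simp) (by omega) hB.sz (by simpa using Nat.size_le.mpr hi')
    refine ((h i hi τ h1 h2 h3 h4).seq this).mono (by simp [e1, add_mul]) ?_
    have := hB.pow (K' := (PF.add (.var 0) (.dr 1 eG)).deg) (by unfold dPass; omega)
    have := bits_le hi'
    simp [h4]; omega
  · have := bits_le hn
    have h5 : (if two then G * S else 0) ≤ G * S := by split_ifs <;> omega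
    generalize (if two then G * S else 0) = x at *
    generalize G * S = y at *
    nlinarith

end Vale.Agent.P338
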