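import Vale.Agent.P338.Pass

/-! Rotation, negation and padding of a digit, and selection between two arrays. -/

namespace Vale.Agent.P338

open Function

variable {P : Tbl} {g : ℕ → ℕ} {B K Zb t : ℕ} {rad : ℕ → ℕ} {D S k ℓ : ℕ}
  {R : (ℕ → ℕ) → List Bool → Prop}

theorem idx_parts {Z Y h y z : ℕ} (hy : y < Y) (hz : z < Z) :
    (z + Z * (y + Y * h)) / (Z * Y) = h ∧ (z + Z * (y + Y * h)) / Z % Y = y ∧
      (z + Z * (y + Y * h)) % Z = z := by
  have h1 : (z + Z * (y + Y * h)) / Z = y + Y * h := by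
    rw [Nat.add_mul_div_left _ _ (by omega), Nat.div_eq_of_lt hz, zero_add]
  refine ⟨?_, ?_, ?_⟩
  · rw [← Nat.div_div_eq_div_mul, h1, Nat.add_mul_div_left _ _ (by omega), Nat.div_eq_of_lt hy,
      zero_add]
  · rw [h1, Nat.add_mul_mod_self_left, Nat.mod_eq_of_lt hy]
  · rw [Nat.add_mul_mod_self_left, Nat.mod_eq_of_lt hz]

theorem flat_three (H Y Z : ℕ) (F : ℕ → ℕ → ℕ → List Bool) :
    flat (H * (Z * Y)) (fun j => F (j / (Z * Y)) (j / Z % Y) (j % Z)) =
      flat H fun h => flat Y fun y => flat Z fun z => F h y z := by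
  rw [flat_mul]
  refine flat_congr fun h _ => ?_
  rw [mul_comm Z Y, flat_mul]
  refine flat_congr fun y hy => flat_congr fun z hz => ?_
  have e : h * (Y * Z) + (y * Z + z) = z + Z * (y + Y * h) := by ring
  obtain ⟨h1, h2, h3⟩ := idx_parts (h := h) hy hz
  rw [e, mul_comm Y Z, h1, h2, h3]

/-- A pass that permutes the chunks of every group. -/
theorem mid_lay {body : Cmd} {eG : PF} {ct : ℕ} (hB : Bud g B (dPass eG) Zb) (hk : k + ℓ ≤ D)
    (e1 : eG.eval g [] = wt rad (k + ℓ)) (hS : g 3 = S) (hZ : Zb ≤ wt rad (k + ℓ) * S)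
    (hn : wt rad D < 2 ^ B) (h0 : 0 < wt rad D) (ρ : ℕ → ℕ → ℕ)
    (hρ : ∀ i0, ∀ y < bw rad k ℓ, ρ i0 y < bw rad k ℓ)
    (hb : ∀ σ, Num σ g → ∀ i0 < 2 ^ B, ∀ w : ℕ → List Bool,
      (∀ y < bw rad k ℓ, (w y).length = wt rad k * S) → BodyI P body σ i0 (flat (bw rad k ℓ) w) []
        (flat (bw rad k ℓ) fun y => w (ρ i0 y)) (ct * (wt rad (k + ℓ) * S)))
    (φ : (ℕ → ℕ) → ℕ → ℕ) (Gd : (ℕ → ℕ) → Prop)
    (hφ : ∀ x, Valid rad D x → Gd x → Valid rad D (φ x) ∧ (∀ j, j < k ∨ k + ℓ ≤ j → φ x j = x j) ∧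
      blk rad (φ x) k ℓ = ρ (enc rad (up (k + ℓ) x) D) (blk rad x k ℓ)) :
    Step P (passI false eG body) g (Lay rad D S R) (Lay rad D S fun x c => Gd x → R (φ x) c)
      ((ct + 214) * (wt rad D * S)) := by
  rintro σ hg ⟨u, h1, h2, h3⟩
  have hw : wt rad D = bw rad (k + ℓ) (D - (k + ℓ)) * (wt rad k * bw rad k ℓ) := by
    rw [← wt_add, mul_comm, ← wt_add, Nat.add_sub_cancel' hk]
  rw [wt_add] at e1 hZ hb
  generalize hH : bw rad (k + ℓ) (D - (k + ℓ)) = H at hw
  generalize hY : bw rad k ℓ = Y at *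
  generalize hZ' : wt rad k = Z at *
  have hH0 : 0 < H := Nat.pos_of_mul_pos_right (hw ▸ h0)
  have hlt : ∀ h < H, ∀ y < Y, ∀ z < Z, h * (Z * Y) + (y * Z + z) < wt rad D := by
    intro h hh y hy z hz
    have : y * Z + z < Z * Y := by nlinarith
    rw [hw]; nlinarith
  have key := passI_ok (P := P) (two := false) (body := body) (v := u) (rest := σ 4) (H := H)
    (fo := fun h => flat Y fun y => flat Z fun z => u (h * (Z * Y) + (ρ (h * (Z * Y)) y * Z + z)))
    (Go := Z * Y * S) (t := ct * (Z * Y * S)) hg hB e1 hS hZ (hw ▸ hn) hH0 (hw ▸ h1) (by simp)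
    (hw ▸ h2) (by simp) (fun h hh => ?_) fun h hh => ?_
  · refine ⟨_, ⟨fun j => u (j / (Z * Y) * (Z * Y) + (ρ (j / (Z * Y) * (Z * Y)) (j / Z % Y) * Z +
      j % Z)), rfl, fun j hj => ?_, fun x hx hG => ?_⟩, key.mono ?_ ?_⟩
    · have hY0 : 0 < Y := Nat.pos_of_mul_pos_left (Nat.pos_of_mul_pos_left (hw ▸ h0))
      have hZ0 : 0 < Z := Nat.pos_of_mul_pos_right (Nat.pos_of_mul_pos_left (hw ▸ h0))
      refine h2 _ (hlt _ ?_ _ (hρ _ _ (Nat.mod_lt _ hY0)) _ (Nat.mod_lt _ hZ0))
      rw [hw] at hj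
      exact Nat.div_lt_of_lt_mul (by rwa [mul_comm])
    · obtain ⟨a1, a2, a3⟩ := hφ x hx hG
      have b1 := enc_three (rad := rad) (x := x) hk
      have b2 := enc_three (rad := rad) (x := φ x) hk
      have b3 := enc_up (rad := rad) (x := x) hk
      rw [enc_congr (rad' := rad) (y := x) (fun _ _ => rfl) fun j hj => a2 j (Or.inl hj),
        blk_congr (y := x) (k := k + ℓ) fun j hj => a2 _ (by omega), a3] at b2
      rw [wt_add] at b3
      rw [hY, hZ'] at b1 b2 b3
      obtain ⟨c1, c2, c3⟩ := idx_parts (Z := Z) (Y := Y) (h := blk rad x (k + ℓ) (D - (k + ℓ)))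
        (hY ▸ blk_lt hx hk) (hZ' ▸ enc_lt (hx.mono (show k ≤ D by omega)))
      have := h3 _ a1
      beta_reduce
      rw [b1, c1, c2, c3, mul_comm _ (Z * Y), ← b3]
      rw [b2] at this
      convert this using 2
      rw [b3]; ring
    · rw [update_eq_self, hw, flat_three H Y Z fun h y z =>
        u (h * (Z * Y) + (ρ (h * (Z * Y)) y * Z + z))]
    · rw [hw]; ring_nf; omega
  · rw [mul_comm Z Y, mul_assoc]
    exact (length_flat fun y hy => length_flat fun z hz =>
      h2 _ (by simpa [mul_comm Y Z] using hlt h hh _ (hρ _ _ hy) z hz)).le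
  · have := hb σ hg (h * (Z * Y)) (by have := hw ▸ hn; nlinarith)
      (fun y => flat Z fun z => u (h * (Z * Y) + (y * Z + z)))
      fun y hy => length_flat fun z hz => h2 _ (hlt h hh y hy z hz)
    rw [mul_comm Z Y, flat_mul, mul_comm Y Z]
    exact this

/-- Rotation of the values below `a` by `o`. -/
def rotv (a o y : ℕ) : ℕ := if y < a then (y + o) % a else y

def rotB (eZ ea eo : PF) : Cmd :=
  loc 17 (loc 18 (loc 19 (loc 20
    (.seq (ruler 17 (.mul eo (.mul (.dr 1 eZ) (.glob 3))) [14])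
    (.seq (ruler 18 (.mul (.sub ea eo) (.mul (.dr 1 eZ) (.glob 3))) [14])
    (.seq (tk 19 12 17) (.seq (tk 20 12 18) (.seq (app 19 12) (app 20 12)))))))))

theorem flat_rotv {Y a o : ℕ} (ho : o ≤ a) (ha : a ≤ Y) (w : ℕ → List Bool) :
    (flat Y fun y => w (rotv a o y)) =
      (flat (a - o) fun y => w (o + y)) ++ (flat o w ++ flat (Y - a) fun y => w (a + y)) := by
  obtain ⟨b, rfl⟩ := Nat.exists_eq_add_of_le ho
  obtain ⟨c, rfl⟩ := Nat.exists_eq_add_of_le ha
  rw [Nat.add_sub_cancel_left, Nat.add_sub_cancel_left, show o + b + c = b + (o + c) by ring,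
    flat_add, flat_add]
  congr 1
  · refine flat_congr fun y hy => ?_
    rw [rotv, if_pos (by omega), Nat.mod_eq_of_lt (by omega), add_comm]
  congr 1
  · refine flat_congr fun y hy => ?_
    rw [rotv, if_pos (by omega), show b + y + o = y + (o + b) by ring, Nat.add_mod_right,
      Nat.mod_eq_of_lt (by omega)]
  · refine flat_congr fun y hy => ?_
    rw [rotv, if_neg (by omega)]; congr 1; ring

/-- Rotate the block of weight `eZ`, in groups of `eG` cells; `ea`, `eo` see the index of the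
group as `var 0`. -/
def rotM (eZ eG ea eo : PF) : Cmd := passI false eG (rotB eZ ea eo)

def dRot (eZ eG ea eo : PF) : ℕ := dPass eG + (PF.mul eo (.mul (.dr 1 eZ) (.glob 3))).deg +
  (PF.mul (.sub ea eo) (.mul (.dr 1 eZ) (.glob 3))).deg + 8

theorem rot_lay {eZ eG ea eo : PF} (hB : Bud g B (dRot eZ eG ea eo) Zb) (hk : k + ℓ ≤ D)
    (e0 : eZ.eval g [] = wt rad k) (e1 : eG.eval g [] = wt rad (k + ℓ)) (hS : g 3 = S)
    (hZ : Zb ≤ wt rad (k + ℓ) * S) (hn : wt rad D < 2 ^ B) (h0 : 0 < wt rad D)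
    (ha : ∀ i0, eo.eval g [i0] ≤ ea.eval g [i0] ∧ ea.eval g [i0] ≤ bw rad k ℓ)
    (φ : (ℕ → ℕ) → ℕ → ℕ) (Gd : (ℕ → ℕ) → Prop)
    (hφ : ∀ x, Valid rad D x → Gd x → Valid rad D (φ x) ∧ (∀ j, j < k ∨ k + ℓ ≤ j → φ x j = x j) ∧
      blk rad (φ x) k ℓ = rotv (ea.eval g [enc rad (up (k + ℓ) x) D])
        (eo.eval g [enc rad (up (k + ℓ) x) D]) (blk rad x k ℓ)) :
    Step P (rotM eZ eG ea eo) g (Lay rad D S R) (Lay rad D S fun x c => Gd x → R (φ x) c)
      (400 * (wt rad D * S)) := by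
  refine mid_lay (ct := 186) (hB.mono (by unfold dRot; omega)) hk e1 hS hZ hn h0
    (fun i0 => rotv (ea.eval g [i0]) (eo.eval g [i0])) (fun i0 y hy => ?_)
    (fun σ hg i0 hi w hw τ h1 h2 h3 h4 => ?_) φ Gd hφ
  · unfold rotv; split_ifs with h
    · exact (Nat.mod_lt _ (by omega)).trans_le (ha i0).2
    · exact hy
  obtain ⟨ho, hY⟩ := ha i0
  have hg' : Num (update (update (update (update τ 17 []) 18 []) 19 []) 20 []) g :=
    ((((hg.congr fun v hv => h1 v (by unfold Out; omega)).upd _ (by omega)).upd _ (by omega)).upd _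
      (by omega)).upd _ (by omega)
  have r1 := ruler_ok (P := P) (.mul eo (.mul (.dr 1 eZ) (.glob 3))) (d := 17) (regs := [14])
    (l := [i0]) hg' (by simp [h4]) (by simp) (by omega) hB.sz (by simpa using Nat.size_le.mpr hi)
  have r2 := ruler_ok (P := P) (.mul (.sub ea eo) (.mul (.dr 1 eZ) (.glob 3))) (d := 18)
    (regs := [14]) (l := [i0]) (hg'.upd (v := 17) (List.replicate
      ((PF.mul eo (.mul (.dr 1 eZ) (.glob 3))).eval g [i0]) true) (by omega)) (by simp [h4])
    (by simp) (by omega) hB.sz (by simpa using Nat.size_le.mpr hi)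
  have p1 := hB.pow (K' := (PF.mul eo (.mul (.dr 1 eZ) (.glob 3))).deg + 8) (by unfold dRot; omega)
  have p2 := hB.pow (K' := (PF.mul (.sub ea eo) (.mul (.dr 1 eZ) (.glob 3))).deg + 8)
    (by unfold dRot; omega)
  have p3 := hB.pos
  simp only [PF.eval_mul, PF.eval_sub, PF.eval_dr, List.drop_succ_cons, List.drop_zero,
    PF.eval_glob, Nat.reduceLT, reduceIte, e0, hS] at r1 r2
  rw [wt_add, mul_comm (wt rad k), mul_assoc] at hZ ⊢
  generalize ea.eval g [i0] = a at *
  generalize eo.eval g [i0] = o at *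
  generalize wt rad k * S = Z at *
  generalize bw rad k ℓ = Y at *
  obtain ⟨s1, s2⟩ := flat_split hw (ho.trans hY)
  obtain ⟨s3, s4⟩ := flat_split (n := Y - o) (a := a - o) (u := fun j => w (o + j))
    (fun i hi => hw _ (by omega)) (by omega)
  have l1 : o * Z ≤ Y * Z := Nat.mul_le_mul_right _ (by omega)
  have l2 : (a - o) * Z ≤ Y * Z := Nat.mul_le_mul_right _ (by omega)
  refine (Ok.loc (Ok.loc (Ok.loc (Ok.loc (r1.seq (r2.seq
    ((tk_ok _ (by omega) (by omega) (by omega) (by omega) (by omega) (by omega)).seq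
    ((tk_ok _ (by omega) (by omega) (by omega) (by omega) (by omega) (by omega)).seq
    ((app_ok _ (by omega) (by omega) (by omega)).seq
    (app_ok _ (by omega) (by omega) (by omega))))))))))).mono ?_ ?_
  · funext v
    simp only [update_apply, Nat.reduceEqDiff, reduceIte, h2, List.length_replicate, s1, s2, s3, s4,
      List.append_nil, flat_rotv ho hY]
    split_ifs <;> subst_vars <;> first | omega | rfl | exact h3 | skip
    congr 3
    · omega
    · funext j; congr 1; omega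
  · simp; omega

/-- Negation modulo `a` of the values below `a`. -/
def negv (a y : ℕ) : ℕ := if 0 < y ∧ y < a then a - y else y

def negB (eZ ea : PF) : Cmd :=
  loc 17 (loc 18 (loc 19 (loc 20
    (.seq (ruler 17 (.mul (.dr 1 eZ) (.glob 3)) [14])
    (.seq (ruler 18 (.sub ea (.cst 1)) [14])
    (.seq (tk 19 12 17) (.seq (.loop 18 (tk 20 12 17) (tk 20 12 17))
    (.seq (app 20 12) (app 19 12)))))))))

theorem flat_negv {Y a : ℕ} (ha : a + 1 ≤ Y) (w : ℕ → List Bool) :
    (flat Y fun y => w (negv (a + 1) y)) =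
      w 0 ++ ((flat a fun y => w (a - y)) ++ flat (Y - (a + 1)) fun y => w (a + 1 + y)) := by
  obtain ⟨c, rfl⟩ := Nat.exists_eq_add_of_le ha
  rw [Nat.add_sub_cancel_left, flat_add, flat_succ', List.append_assoc]
  congr 2
  · refine flat_congr fun y hy => ?_
    rw [negv, if_pos (by omega)]; congr 1; omega
  · refine flat_congr fun y hy => ?_
    rw [negv, if_neg (by omega)]

def negM (eZ eG ea : PF) : Cmd := passI false eG (negB eZ ea)

def dNeg (eZ eG ea : PF) : ℕ := dPass eG + (PF.mul (.dr 1 eZ) (.glob 3)).deg +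
  (PF.sub ea (.cst 1)).deg + 8

theorem neg_lay {eZ eG ea : PF} (hB : Bud g B (dNeg eZ eG ea) Zb) (hk : k + ℓ ≤ D)
    (e0 : eZ.eval g [] = wt rad k) (e1 : eG.eval g [] = wt rad (k + ℓ)) (hS : g 3 = S)
    (hZ : Zb ≤ wt rad (k + ℓ) * S) (hn : wt rad D < 2 ^ B) (h0 : 0 < wt rad D)
    (ha : ∀ i0, 1 ≤ ea.eval g [i0] ∧ ea.eval g [i0] ≤ bw rad k ℓ)
    (φ : (ℕ → ℕ) → ℕ → ℕ) (Gd : (ℕ → ℕ) → Prop)
    (hφ : ∀ x, Valid rad D x → Gd x → Valid rad D (φ x) ∧ (∀ j, j < k ∨ k + ℓ ≤ j → φ x j = x j) ∧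
      blk rad (φ x) k ℓ = negv (ea.eval g [enc rad (up (k + ℓ) x) D]) (blk rad x k ℓ)) :
    Step P (negM eZ eG ea) g (Lay rad D S R) (Lay rad D S fun x c => Gd x → R (φ x) c)
      (400 * (wt rad D * S)) := by
  refine mid_lay (ct := 186) (hB.mono (by unfold dNeg; omega)) hk e1 hS hZ hn h0
    (fun i0 => negv (ea.eval g [i0])) (fun i0 y hy => ?_)
    (fun σ hg i0 hi w hw τ h1 h2 h3 h4 => ?_) φ Gd hφ
  · have := ha i0
    unfold negv; split_ifs <;> omega
  obtain ⟨ho, hY⟩ := ha i0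
  have hg' : Num (update (update (update (update τ 17 []) 18 []) 19 []) 20 []) g :=
    ((((hg.congr fun v hv => h1 v (by unfold Out; omega)).upd _ (by omega)).upd _ (by omega)).upd _
      (by omega)).upd _ (by omega)
  have r1 := ruler_ok (P := P) (.mul (.dr 1 eZ) (.glob 3)) (d := 17) (regs := [14])
    (l := [i0]) hg' (by simp [h4]) (by simp) (by omega) hB.sz (by simpa using Nat.size_le.mpr hi)
  have r2 := ruler_ok (P := P) (.sub ea (.cst 1)) (d := 18)
    (regs := [14]) (l := [i0]) (hg'.upd (v := 17) (List.replicate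
      ((PF.mul (.dr 1 eZ) (.glob 3)).eval g [i0]) true) (by omega)) (by simp [h4])
    (by simp) (by omega) hB.sz (by simpa using Nat.size_le.mpr hi)
  have p1 := hB.pow (K' := (PF.mul (.dr 1 eZ) (.glob 3)).deg + 8) (by unfold dNeg; omega)
  have p2 := hB.pow (K' := (PF.sub ea (.cst 1)).deg + 8) (by unfold dNeg; omega)
  have p3 := hB.pos
  simp only [PF.eval_mul, PF.eval_sub, PF.eval_dr, List.drop_succ_cons, List.drop_zero,
    PF.eval_glob, Nat.reduceLT, reduceIte, e0, hS, PF.eval_cst] at r1 r2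
  rw [wt_add, mul_comm (wt rad k), mul_assoc] at hZ ⊢
  obtain ⟨a, ha'⟩ : ∃ a, ea.eval g [i0] = a + 1 := ⟨ea.eval g [i0] - 1, by omega⟩
  rw [ha'] at hY r2 ⊢
  rw [Nat.add_sub_cancel] at r2
  generalize wt rad k * S = Z at *
  generalize bw rad k ℓ = Y at *
  have hZ0 : 0 < Z := Nat.pos_of_mul_pos_left (p3.trans hZ)
  obtain ⟨s1, s2⟩ := flat_split (a := 1) hw (by omega)
  rw [one_mul] at s1 s2
  have lp := Ok.rep (P := P) (v := 18) (c := tk 20 12 17) (List.replicate a true)
    (fun i => update (update (update (update τ 17 (List.replicate Z true)) 19 (w 0)) 12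
      (flat (Y - (i + 1)) fun j => w (i + 1 + j))) 20 (flat i fun y => w (i - y)))
    (9 * Z + 17) fun i hi r => by
      rw [List.length_replicate] at hi
      obtain ⟨s3, s4⟩ := flat_split (n := Y - (i + 1)) (a := 1) (u := fun j => w (i + 1 + j))
        (fun i hi => hw _ (by omega)) (by omega)
      rw [one_mul] at s3 s4
      refine (tk_ok _ (by omega) (by omega) (by omega) (by omega) (by omega) (by omega)).mono ?_
        (by simp)
      funext v
      simp only [update_apply, Nat.reduceEqDiff, reduceIte, List.length_replicate, s3, s4]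
      split_ifs <;> first | omega | rfl | skip
      · rw [flat_one, flat_succ']; simp
      · congr 1; funext j; congr 1; omega
  have l1 : Z ≤ Y * Z := Nat.le_mul_of_pos_left _ (by omega)
  have l2 : a * Z ≤ Y * Z := Nat.mul_le_mul_right _ (by omega)
  have l3 : a ≤ a * Z := Nat.le_mul_of_pos_right _ hZ0
  have l4 := length_flat (n := a) (u := fun y => w (a - y)) fun i hi => hw _ (by omega)
  have l5 := hw 0 (by omega)
  rw [List.length_replicate] at lp
  refine (Ok.loc (Ok.loc (Ok.loc (Ok.loc (r1.seq (r2.seq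
    (((tk_ok _ (by omega) (by omega) (by omega) (by omega) (by omega) (by omega)).mono ?_
      le_rfl).seq (lp.seq ((app_ok _ (by omega) (by omega) (by omega)).seq
    (app_ok _ (by omega) (by omega) (by omega))))))))))).mono ?_ ?_
  · funext v
    simp only [update_apply, Nat.reduceEqDiff, reduceIte, h2, List.length_replicate, s1, s2]
    split_ifs <;> first | omega | rfl | simp
  · funext v
    simp only [update_apply, Nat.reduceEqDiff, reduceIte, flat_negv hY]
    split_ifs <;> subst_vars <;> first | omega | rfl | exact h3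
  · simp [l4, l5]; nlinarith

end Vale.Agent.P338
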