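import Vale.Agent.P338.PrepC

/-! From the linear order to the multidimensional order and back. -/

namespace Vale.Agent.P338

open Function Finset

/-- Pad the digits, reverse their order, apply the Chinese remainder permutation. -/
noncomputable def prepM : Cmd := .seq ppPad (.seq ppRev (ppCrt false))

theorem prep_lay : ∃ K : ℕ, ∀ (P : Tbl) (g : ℕ → ℕ)
    (B Zb n b p f f0 k e σ' s G ω N len Mu : ℕ) (sz : ℕ → ℕ)
    (R : ℕ → ℕ → ℕ → List Bool → Prop), Gx P g B Zb K n b p f f0 k e σ' s G ω N len Mu sz →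
    Step P prepM g (Lay (rad3 (2 ^ (G - ω)) N (2 ^ ω)) 3 (2 * p) fun y => R (y 0) (y 1) (y 2))
      (Lay (radD (2 ^ (G - ω)) (2 ^ s) (4 * mm ^ k) (2 ^ ω)) (4 * mm ^ k + 2) (2 * p)
        fun x c => Vd (4 * mm ^ k) sz x → R (x 0) (mix (4 * mm ^ k) sz
          (crt false (4 * mm ^ k) sz (invF (4 * mm ^ k) sz) (4 * mm ^ k) x)) (x (4 * mm ^ k + 1)) c)
      (K * (mm ^ k * Sw e (2 * σ') len)) := by
  obtain ⟨K1, h1⟩ := ppPad_lay
  obtain ⟨K2, h2⟩ := ppRev_lay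
  obtain ⟨K3, h3⟩ := ppCrt_lay false
  refine ⟨K1 + K2 + K3 + 8002, ?_⟩
  intro P g B Zb n b p f f0 k e σ' s G ω N len Mu sz R h
  have a1 := h1 P g B Zb n b p f f0 k e σ' s G ω N len Mu sz
    (fun x => R (x 0) (mix (4 * mm ^ k) sz (x ∘ ppRv (4 * mm ^ k))) (x (4 * mm ^ k + 1)))
    (h.mono (by omega))
  have a2 := h2 P g B Zb n b p f f0 k e σ' s G ω N len Mu sz
    (fun x c => Vd (4 * mm ^ k) sz (x ∘ ppRv (4 * mm ^ k)) →
      R (x 0) (mix (4 * mm ^ k) sz (x ∘ ppRv (4 * mm ^ k))) (x (4 * mm ^ k + 1)) c)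
    (h.mono (by omega))
  have a3 := h3 P g B Zb n b p f f0 k e σ' s G ω N len Mu sz
    (fun x => R (x 0) (mix (4 * mm ^ k) sz x) (x (4 * mm ^ k + 1))) (h.mono (by omega))
  have a4 := h.ppO
  refine (a1.seq ((a2.post fun l hl => hl.mono fun x c _ _ hc => ?_).seq a3)).mono
    (fun l hl => ?_) (fun l hl => hl.mono fun x c _ _ hc hv => ?_) ?_
  · simpa only [ppRv_ppRv, comp_apply, ppRv_zero, ppRv_top] using hc
  · rw [h.hN] at hl
    exact hl.to_ppRad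
  · have := hc hv
    rwa [crt_other false le_rfl x (Or.inl rfl), crt_other false le_rfl x (Or.inr (by omega))]
      at this
  · generalize mm ^ k * Sw e (2 * σ') len = X at *
    nlinarith [Nat.zero_le ((K1 + K3) * X)]

/-- The inverse steps in the reverse order. -/
noncomputable def unprepM : Cmd := .seq (ppCrt true) (.seq ppRev ppCut)

theorem unprep_lay : ∃ K : ℕ, ∀ (P : Tbl) (g : ℕ → ℕ)
    (B Zb n b p f f0 k e σ' s G ω N len Mu : ℕ) (sz : ℕ → ℕ)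
    (R : (ℕ → ℕ) → List Bool → Prop), Gx P g B Zb K n b p f f0 k e σ' s G ω N len Mu sz →
    Step P unprepM g
      (Lay (radD (2 ^ (G - ω)) (2 ^ s) (4 * mm ^ k) (2 ^ ω)) (4 * mm ^ k + 2) (2 * p)
        fun x c => Vd (4 * mm ^ k) sz x → R x c)
      (Lay (rad3 (2 ^ (G - ω)) N (2 ^ ω)) 3 (2 * p) fun y c => ∃ x, Vd (4 * mm ^ k) sz x ∧
        x 0 = y 0 ∧ x (4 * mm ^ k + 1) = y 2 ∧ mix (4 * mm ^ k) sz x = y 1 ∧
        R (crt true (4 * mm ^ k) sz (invF (4 * mm ^ k) sz) (4 * mm ^ k) x) c)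
      (K * (mm ^ k * Sw e (2 * σ') len)) := by
  obtain ⟨K1, h1⟩ := ppCrt_lay true
  obtain ⟨K2, h2⟩ := ppRev_lay
  obtain ⟨K3, h3⟩ := ppCut_lay
  refine ⟨K1 + K2 + K3 + 8002, ?_⟩
  intro P g B Zb n b p f f0 k e σ' s G ω N len Mu sz R h
  have a1 := h1 P g B Zb n b p f f0 k e σ' s G ω N len Mu sz R (h.mono (by omega))
  have a2 := h2 P g B Zb n b p f f0 k e σ' s G ω N len Mu sz
    (fun x c => Vd (4 * mm ^ k) sz x →
      R (crt true (4 * mm ^ k) sz (invF (4 * mm ^ k) sz) (4 * mm ^ k) x) c) (h.mono (by omega))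
  have a3 := h3 P g B Zb n b p f f0 k e σ' s G ω N len Mu sz
    (fun x c => Vd (4 * mm ^ k) sz (x ∘ ppRv (4 * mm ^ k)) →
      R (crt true (4 * mm ^ k) sz (invF (4 * mm ^ k) sz) (4 * mm ^ k) (x ∘ ppRv (4 * mm ^ k))) c)
    (h.mono (by omega))
  have a4 := h.ppO
  refine (a1.seq (a2.seq a3)).mono (fun _ h => h) (fun l hl => ?_) ?_
  · rw [h.hN]
    exact Lay.of_ppRad (R := fun x =>
      R (crt true (4 * mm ^ k) sz (invF (4 * mm ^ k) sz) (4 * mm ^ k) x)) hl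
  · generalize mm ^ k * Sw e (2 * σ') len = X at *
    nlinarith [Nat.zero_le ((K1 + K3) * X)]

end Vale.Agent.P338
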