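import Vale.Agent.P338.Swaps
import Vale.Agent.P338.Cop

/-! Digit systems between the linear and the padded order, and the size expressions. -/

namespace Vale.Agent.P338

open Function Finset

/-- The inverses in the Chinese remainder map. -/
def invF (d : ℕ) (sz : ℕ → ℕ) (i : ℕ) : ℕ :=
  lastF (fun t => if (∏ j ∈ Ico (i + 1) d, sz j) * t % sz i = 1 % sz i then 0 else 1) (sz i)

theorem crt_invF {d : ℕ} {sz : ℕ → ℕ} (h0 : ∀ i < d, 0 < sz i)
    (h1 : ∀ i < d, ∀ j < d, i ≠ j → Nat.Coprime (sz i) (sz j)) : Crt d sz (invF d sz) := by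
  refine ⟨h0, h1, fun i hi => ?_⟩
  have hc : Nat.Coprime (∏ j ∈ Ico (i + 1) d, sz j) (sz i) :=
    Nat.Coprime.prod_left fun j hj => by
      have := mem_Ico.1 hj
      exact h1 j this.2 i hi (by omega)
  obtain ⟨t, ht, e⟩ := Nat.exists_mul_mod_eq_of_coprime 1 hc (h0 i hi).ne'
  have h2 := (lastF_spec (fun t => if (∏ j ∈ Ico (i + 1) d, sz j) * t % sz i = 1 % sz i then 0
    else 1) (i := t) (if_pos e) _ ht).2
  by_contra k
  simp only [Nat.ModEq, invF] at k
  simp [k] at h2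

/-- The digit system after `m` rounds of padding. -/
def ppRad (Z Q d W : ℕ) (sz : ℕ → ℕ) (m : ℕ) : ℕ → ℕ := fun j =>
  if j = 0 then Z else if j ≤ d then (if j ≤ m then Q else sz (d - j)) else W

/-- Reversal of the positions `1, …, d`. -/
def ppRv (d : ℕ) : ℕ → ℕ := fun j => if 1 ≤ j ∧ j ≤ d then d + 1 - j else j

theorem ppRv_ppRv (d : ℕ) (x : ℕ → ℕ) : (x ∘ ppRv d) ∘ ppRv d = x := by
  funext j
  simp only [comp_apply, ppRv]
  refine congrArg x ?_
  split_ifs <;> omega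

theorem ppRv_zero (d : ℕ) : ppRv d 0 = 0 := by simp [ppRv]

theorem ppRv_top (d : ℕ) : ppRv d (d + 1) = d + 1 := by simp [ppRv]

theorem ppRv_mid {d i : ℕ} (hi : i < d) : ppRv d (1 + i) = 1 + (d - 1 - i) := by
  rw [ppRv, if_pos (by omega)]; omega

theorem tp_ppRv (c : ℕ) : tp (fun i => i) (fun i => 2 * c - 1 - i) c = ppRv (2 * c) := by
  obtain ⟨h1, h2⟩ := tp_spec (lo := fun i => i) (hi := fun i => 2 * c - 1 - i) (c := c)
    (fun i _ j _ h => h) (fun i hi j hj h => by omega) fun i hi j hj => by omega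
  funext m
  by_cases a : 1 ≤ m ∧ m ≤ c
  · have := (h1 (m - 1) (by omega)).1
    rw [show 1 + (m - 1) = m by omega] at this
    rw [this, ppRv, if_pos (by omega)]; omega
  by_cases b : c < m ∧ m ≤ 2 * c
  · have := (h1 (2 * c - m) (by omega)).2
    rw [show 1 + (2 * c - 1 - (2 * c - m)) = m by omega] at this
    rw [this, ppRv, if_pos (by omega)]; omega
  · rw [h2 m fun i hi => by omega, ppRv, if_neg (by omega)]

variable {Z Q d W : ℕ} {sz : ℕ → ℕ}

theorem ppRad_top : ppRad Z Q d W sz d = radD Z Q d W := by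
  funext j
  simp only [ppRad, radD]
  split_ifs <;> rfl

theorem ppRad_succ {m : ℕ} (hm : m < d) :
    update (ppRad Z Q d W sz m) (1 + m) Q = ppRad Z Q d W sz (m + 1) := by
  funext j
  simp only [update_apply, ppRad]
  split_ifs <;> first | rfl | omega

theorem ppRad_pred {m : ℕ} (hm : m < d) :
    update (ppRad Z Q d W sz (m + 1)) (1 + m) (sz (d - 1 - m)) = ppRad Z Q d W sz m := by
  funext j
  simp only [update_apply, ppRad]
  split_ifs <;> first | rfl | omega | skip
  refine congrArg sz ?_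
  omega

theorem ppRad_at {m : ℕ} (hm : m < d) : ppRad Z Q d W sz m (1 + m) = sz (d - 1 - m) := by
  rw [ppRad, if_neg (by omega), if_pos (by omega), if_neg (by omega)]
  refine congrArg sz ?_
  omega

theorem ppRad_at' {m : ℕ} (hm : m < d) : ppRad Z Q d W sz (m + 1) (1 + m) = Q := by
  rw [ppRad, if_neg (by omega), if_pos (by omega), if_pos (by omega)]

theorem wt_ppRad {m i : ℕ} (hm : m ≤ d) (hi : i ≤ m) :
    wt (ppRad Z Q d W sz m) (1 + i) = Z * Q ^ i := by
  rw [← wt_radD Z Q d W (hi.trans hm)]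
  refine wt_congr fun j hj => ?_
  simp only [ppRad, radD]
  split_ifs <;> first | rfl | omega

theorem pp_wt_le {rad rad' : ℕ → ℕ} {D : ℕ} (h : ∀ j < D, rad j ≤ rad' j) :
    wt rad D ≤ wt rad' D := by
  induction D with
  | zero => exact le_rfl
  | succ D ih => exact Nat.mul_le_mul (ih fun j hj => h j (by omega)) (h D (by omega))

theorem pp_wt_pos {rad : ℕ → ℕ} {D : ℕ} (h : ∀ j < D, 0 < rad j) : 0 < wt rad D := by
  induction D with
  | zero => exact one_pos
  | succ D ih => exact Nat.mul_pos (ih fun j hj => h j (by omega)) (h D (by omega))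

theorem wt_ppRad_le (h : ∀ i < d, sz i ≤ Q) (m : ℕ) :
    wt (ppRad Z Q d W sz m) (d + 2) ≤ wt (radD Z Q d W) (d + 2) := by
  refine pp_wt_le fun j hj => ?_
  simp only [ppRad, radD]
  split_ifs
  · exact le_rfl
  · exact le_rfl
  · exact h _ (by omega)
  · exact le_rfl

theorem wt_ppRad_pos (hZ : 0 < Z) (hQ : 0 < Q) (hW : 0 < W) (h : ∀ i < d, 0 < sz i) (m : ℕ) :
    0 < wt (ppRad Z Q d W sz m) (d + 2) := by
  refine pp_wt_pos fun j hj => ?_
  simp only [ppRad]
  split_ifs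
  · exact hZ
  · exact hQ
  · exact h _ (by omega)
  · exact hW

theorem pp_enc_mix (d : ℕ) (sz : ℕ → ℕ) (y : ℕ → ℕ) : ∀ r z : ℕ → ℕ, (∀ j < d, r j = sz (d - 1 - j)) →
    (∀ j < d, z j = y (d - j)) → enc r z d = mix d sz y ∧ wt r d = ∏ i ∈ range d, sz i := by
  induction d with
  | zero => intro r z _ _; simp [enc, mix, wt]
  | succ d ih =>
    intro r z hr hz
    obtain ⟨a1, a2⟩ := ih (fun j => r (1 + j)) (fun j => z (1 + j))
      (fun j hj => by rw [hr _ (by omega)]; exact congrArg sz (by omega))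
      fun j hj => by rw [hz _ (by omega)]; exact congrArg y (by omega)
    have b1 := hr 0 (by omega)
    have b2 := hz 0 (by omega)
    rw [show d + 1 - 1 - 0 = d by omega] at b1
    rw [show d + 1 - 0 = 1 + d by omega] at b2
    constructor
    · rw [mix_succ, add_comm d 1, enc_add, blk, a1]
      simp only [enc, wt, b1, b2]; ring
    · rw [prod_range_succ, add_comm d 1, wt_add, bw, a2]
      simp only [wt, b1]; ring

/-- The three digits of the linear order. -/
def ppTri (d : ℕ) (sz : ℕ → ℕ) (x : ℕ → ℕ) : ℕ → ℕ := fun j =>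
  if j = 0 then x 0 else if j = 1 then mix d sz (x ∘ ppRv d) else x (d + 1)

theorem ppRad_blk (x : ℕ → ℕ) : blk (ppRad Z Q d W sz 0) x 1 d = mix d sz (x ∘ ppRv d) ∧
    bw (ppRad Z Q d W sz 0) 1 d = ∏ i ∈ range d, sz i :=
  pp_enc_mix d sz (x ∘ ppRv d) _ _
    (fun j hj => by
      rw [ppRad, if_neg (by omega), if_pos (by omega), if_neg (by omega)]
      exact congrArg sz (by omega))
    fun j hj => by
      rw [comp_apply, ppRv, if_pos (by omega)]
      exact congrArg x (by omega)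

theorem wt_ppRad_zero :
    wt (ppRad Z Q d W sz 0) (d + 2) = wt (rad3 Z (∏ i ∈ range d, sz i) W) 3 := by
  rw [wt_rad3, wt, add_comm d 1, wt_add, (ppRad_blk (fun _ => 0)).2, ppRad, if_neg (by omega),
    if_neg (by omega)]
  simp [wt, ppRad]

theorem Valid.vd_rv {x : ℕ → ℕ} (hx : Valid (ppRad Z Q d W sz 0) (d + 2) x) :
    Vd d sz (x ∘ ppRv d) := fun i hi => by
  have := hx (1 + (d - 1 - i)) (by omega)
  rw [ppRad, if_neg (by omega), if_pos (by omega), if_neg (by omega),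
    show d - (1 + (d - 1 - i)) = i by omega] at this
  rwa [comp_apply, ppRv_mid hi]

theorem ppTri_spec {x : ℕ → ℕ} (hx : Valid (ppRad Z Q d W sz 0) (d + 2) x) :
    Valid (rad3 Z (∏ i ∈ range d, sz i) W) 3 (ppTri d sz x) ∧
      enc (rad3 Z (∏ i ∈ range d, sz i) W) (ppTri d sz x) 3 = enc (ppRad Z Q d W sz 0) x (d + 2) := by
  constructor
  · intro j hj
    have a0 := hx 0 (by omega)
    have a2 := hx (d + 1) (by omega)
    rw [ppRad, if_neg (by omega), if_neg (by omega)] at a2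
    rw [ppRad, if_pos rfl] at a0
    simp only [ppTri, rad3]
    split_ifs
    · exact a0
    · exact mix_lt hx.vd_rv
    · exact a2
  · rw [enc_three (rad := ppRad Z Q d W sz 0) (k := 1) (ℓ := d) (by omega), (ppRad_blk x).1,
      (ppRad_blk x).2, show d + 2 - (1 + d) = 1 by omega, blk_one, add_comm 1 d]
    simp [enc, wt, rad3, ppTri, ppRad]; ring

variable {S : ℕ} {l : List Bool}

theorem Lay.to_ppRad {R : ℕ → ℕ → ℕ → List Bool → Prop}
    (h : Lay (rad3 Z (∏ i ∈ range d, sz i) W) 3 S (fun y => R (y 0) (y 1) (y 2)) l) :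
    Lay (ppRad Z Q d W sz 0) (d + 2) S
      (fun x => R (x 0) (mix d sz (x ∘ ppRv d)) (x (d + 1))) l :=
  h.view wt_ppRad_zero (ppTri d sz) fun _ hy => ppTri_spec hy

theorem Lay.of_ppRad {R : (ℕ → ℕ) → List Bool → Prop}
    (h : Lay (ppRad Z Q d W sz 0) (d + 2) S (fun x c => Vd d sz (x ∘ ppRv d) → R (x ∘ ppRv d) c) l) :
    Lay (rad3 Z (∏ i ∈ range d, sz i) W) 3 S (fun y c => ∃ x, Vd d sz x ∧ x 0 = y 0 ∧
      x (d + 1) = y 2 ∧ mix d sz x = y 1 ∧ R x c) l := by
  have hv : ∀ y, Valid (rad3 Z (∏ i ∈ range d, sz i) W) 3 y →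
      enc (rad3 Z (∏ i ∈ range d, sz i) W) y 3 < wt (ppRad Z Q d W sz 0) (d + 2) := fun y hy => by
    rw [wt_ppRad_zero]; exact enc_lt hy
  refine (h.view wt_ppRad_zero.symm
    (fun y => dec (ppRad Z Q d W sz 0) (enc (rad3 Z (∏ i ∈ range d, sz i) W) y 3))
    fun y hy => ⟨valid_dec (hv y hy), enc_dec (hv y hy)⟩).mono fun y c hy _ hc => ?_
  have h1 := valid_dec (hv y hy)
  have h2 := enc_dec (hv y hy)
  generalize dec (ppRad Z Q d W sz 0) (enc (rad3 Z (∏ i ∈ range d, sz i) W) y 3) = x at *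
  obtain ⟨a1, a2⟩ := ppTri_spec h1
  have key : ∀ j < 3, ppTri d sz x j = y j := fun j hj => by
    rw [← enc_digit a1 hj, a2, h2, enc_digit hy hj]
  refine ⟨x ∘ ppRv d, h1.vd_rv, ?_, ?_, key 1 (by omega), hc h1.vd_rv⟩
  · rw [comp_apply, ppRv_zero]; exact key 0 (by omega)
  · rw [comp_apply, ppRv_top]; exact key 2 (by omega)

end Vale.Agent.P338
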