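import Vale.Agent.P338.PrepA

/-! Padding, cutting and reversal of the digits. -/

namespace Vale.Agent.P338

open Function Finset

variable {P : Tbl} {g : ℕ → ℕ} {B Zb K n b p f f0 k e σ' s G ω N len Mu : ℕ} {sz : ℕ → ℕ}

theorem Gx.ppS (h : Gx P g B Zb K n b p f f0 k e σ' s G ω N len Mu sz) : 0 < s := by
  rw [h.hs]
  have := h.σ0
  have : 0 < mm ^ e := pow_pos (by decide) _
  positivity

theorem Gx.ppD (h : Gx P g B Zb K n b p f f0 k e σ' s G ω N len Mu sz) : 4 * mm ^ k < B := by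
  have h1 := h.bits
  have h2 := Nat.le_mul_of_pos_left (4 * mm ^ k) h.ppS
  omega

theorem Gx.ppD' (h : Gx P g B Zb K n b p f f0 k e σ' s G ω N len Mu sz) : 4 * mm ^ k < 2 ^ B :=
  h.ppD.trans Nat.lt_two_pow_self

theorem Gx.ppQ (h : Gx P g B Zb K n b p f f0 k e σ' s G ω N len Mu sz) :
    ∀ i < 4 * mm ^ k, sz i ≤ 2 ^ s := fun i hi => by have := h.hi i hi; omega

theorem Gx.ppW (h : Gx P g B Zb K n b p f f0 k e σ' s G ω N len Mu sz) :
    wt (radD (2 ^ (G - ω)) (2 ^ s) (4 * mm ^ k) (2 ^ ω)) (4 * mm ^ k + 2) < 2 ^ B := by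
  have h1 := h.len_eq
  have h2 := h.big
  have h3 := h.p10
  have := Nat.le_mul_of_pos_right
    (wt (radD (2 ^ (G - ω)) (2 ^ s) (4 * mm ^ k) (2 ^ ω)) (4 * mm ^ k + 2)) (show 0 < 2 * p by omega)
  omega

theorem Gx.ppP (h : Gx P g B Zb K n b p f f0 k e σ' s G ω N len Mu sz) :
    (2 ^ s) ^ (4 * mm ^ k) < 2 ^ B := by
  have h1 := h.bits
  rw [← pow_mul]
  exact Nat.pow_lt_pow_right (by norm_num) (by omega)

theorem Gx.ppZ (h : Gx P g B Zb K n b p f f0 k e σ' s G ω N len Mu sz) : Zb ≤ len := by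
  have h1 := h.p10
  rw [← h.len_eq, wt_radD', mul_assoc, mul_assoc]
  exact h.hZ.trans (Nat.le_mul_of_pos_right _ (by positivity))

theorem pp_len_le (e b len : ℕ) : len ≤ Sw e b len := by
  have : 0 < mm ^ e := pow_pos (by decide) _
  have : 1 ≤ (e + 1) * mm ^ e := Nat.succ_le_of_lt (by positivity)
  unfold Sw; nlinarith [Nat.zero_le (pdT ^ e * (b + 1) * (len / (2 ^ wT) ^ e))]

theorem Gx.ppC (h : Gx P g B Zb K n b p f f0 k e σ' s G ω N len Mu sz) :
    4 * mm ^ k * (800 * len + 40 * Zb) + 20 * Zb ≤ 4000 * (mm ^ k * Sw e (2 * σ') len) := by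
  have h1 := h.ppZ
  have h2 := pp_len_le e (2 * σ') len
  have r0 : 0 < mm ^ k := pow_pos (by decide) _
  generalize Sw e (2 * σ') len = X at *
  generalize mm ^ k = r at *
  have : 4 * r * (800 * len + 40 * Zb) ≤ 4 * r * (840 * X) := Nat.mul_le_mul_left _ (by omega)
  have : X ≤ r * X := Nat.le_mul_of_pos_left _ r0
  nlinarith

theorem Gx.ppO (h : Gx P g B Zb K n b p f f0 k e σ' s G ω N len Mu sz) :
    1 ≤ mm ^ k * Sw e (2 * σ') len := by
  have h1 := h.ppZ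
  have h2 := pp_len_le e (2 * σ') len
  have h3 := h.bud.pos
  have r0 : 0 < mm ^ k := pow_pos (by decide) _
  exact Nat.mul_pos r0 (by omega)

/-- The number of dimensions. -/
def ppDim : PF := .mul (.cst 4) (.glob 20)

/-- The size of dimension `i`. -/
def ppSz (i : PF) : PF := PF.dg (.glob 23) (.pow2 (.mul (.glob 24) i)) (.pow2 (.glob 24))

/-- The mirrored loop index. -/
def ppMir : PF := .sub (.sub ppDim (.cst 1)) (.glob 21)

theorem Gx.ppDim (h : Gx P g B Zb K n b p f f0 k e σ' s G ω N len Mu sz) (l : List ℕ) :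
    ppDim.eval g l = 4 * mm ^ k := by simp [P338.ppDim, h.g20]

theorem Gx.ppMir (h : Gx P g B Zb K n b p f f0 k e σ' s G ω N len Mu sz) (l : List ℕ) :
    ppMir.eval g l = 4 * mm ^ k - 1 - g 21 := by simp [P338.ppMir, h.ppDim]

theorem Gx.ppQE (h : Gx P g B Zb K n b p f f0 k e σ' s G ω N len Mu sz) (l : List ℕ) :
    (PF.pow2 (.glob 24)).eval g l = 2 ^ s := by
  have h1 := h.bits
  have r0 : 0 < 4 * mm ^ k := Nat.mul_pos (by norm_num) (pow_pos (by decide) _)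
  have h2 := Nat.le_mul_of_pos_right s r0
  rw [PF.eval_pow2 h.gU _ (by simp [h.g24]; omega)]
  simp [h.g24]

theorem Gx.ppSz (h : Gx P g B Zb K n b p f f0 k e σ' s G ω N len Mu sz) {x : PF} {m : ℕ}
    {l : List ℕ} (hx : x.eval g l = m) (hm : m < 4 * mm ^ k) : (ppSz x).eval g l = sz m := by
  have h1 := h.bits
  have h2 : s * m ≤ s * (4 * mm ^ k) := Nat.mul_le_mul_left _ hm.le
  rw [P338.ppSz, PF.eval_dg, h.ppQE, PF.eval_pow2 h.gU _ (by simp [h.g24, hx]; omega), h.hsz m hm]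
  simp [h.g24, hx]

/-- Pad every digit to the radix `Q`. -/
def ppPad : Cmd :=
  forN 21 ppDim (fitM (.mul (wD (.glob 21)) (ppSz ppMir)) (wD (.add (.glob 21) (.cst 1))))

theorem ppPad_lay : ∃ K : ℕ, ∀ (P : Tbl) (g : ℕ → ℕ)
    (B Zb n b p f f0 k e σ' s G ω N len Mu : ℕ) (sz : ℕ → ℕ)
    (R : (ℕ → ℕ) → List Bool → Prop), Gx P g B Zb K n b p f f0 k e σ' s G ω N len Mu sz →
    Step P ppPad g
      (Lay (ppRad (2 ^ (G - ω)) (2 ^ s) (4 * mm ^ k) (2 ^ ω) sz 0) (4 * mm ^ k + 2) (2 * p) R)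
      (Lay (radD (2 ^ (G - ω)) (2 ^ s) (4 * mm ^ k) (2 ^ ω)) (4 * mm ^ k + 2) (2 * p)
        fun x c => Vd (4 * mm ^ k) sz (x ∘ ppRv (4 * mm ^ k)) → R x c)
      (4000 * (mm ^ k * Sw e (2 * σ') len)) := by
  refine ⟨dFor 21 ppDim + dFit (.mul (wD (.glob 21)) (ppSz ppMir)) (wD (.add (.glob 21) (.cst 1))), ?_⟩
  intro P g B Zb n b p f f0 k e σ' s G ω N len Mu sz R h
  have hp := h.p10
  have hl := h.len_eq
  have hD := h.ppD'
  have hW := h.ppW
  have hle := wt_ppRad_le (Z := 2 ^ (G - ω)) (W := 2 ^ ω) h.ppQ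
  refine (Step.forN (R := fun i => Lay (ppRad (2 ^ (G - ω)) (2 ^ s) (4 * mm ^ k) (2 ^ ω) sz i)
    (4 * mm ^ k + 2) (2 * p) fun x c => (∀ m < i, x (1 + m) < sz (4 * mm ^ k - 1 - m)) → R x c)
    (t := 800 * len) (by omega) (h.bud.mono (by omega)) (h.ppDim _) hD fun i hi => ?_).mono
    (fun l hl => hl.mono fun x c _ _ hc _ => hc) (fun l hl => ?_) h.ppC
  · have h' := h.upd (i := 21) (v := i) (by omega) (by omega)
    have e0 : wt (ppRad (2 ^ (G - ω)) (2 ^ s) (4 * mm ^ k) (2 ^ ω) sz i) (1 + i + 1) =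
        2 ^ (G - ω) * (2 ^ s) ^ i * sz (4 * mm ^ k - 1 - i) := by
      rw [wt, wt_ppRad hi.le le_rfl, ppRad_at hi]
    have key := fit_lay (P := P) (g := update g 21 i) (B := B) (Zb := Zb) (S := 2 * p)
      (rad := ppRad (2 ^ (G - ω)) (2 ^ s) (4 * mm ^ k) (2 ^ ω) sz i) (D := 4 * mm ^ k + 2)
      (k := 1 + i) (Y := 2 ^ s) (eG := .mul (wD (.glob 21)) (ppSz ppMir))
      (e2 := wD (.add (.glob 21) (.cst 1)))
      (R := fun x c => (∀ m < i, x (1 + m) < sz (4 * mm ^ k - 1 - m)) → R x c)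
      (h'.bud.mono (by omega)) (by omega)
      (by
        rw [PF.eval_mul, h'.wD (m := i) (by simp) hi.le,
          h'.ppSz (m := 4 * mm ^ k - 1 - i) (by rw [h'.ppMir, update_self]) (by omega), e0])
      (by rw [h'.wD (m := i + 1) (by simp) hi, wt_ppRad hi.le le_rfl, pow_succ, mul_assoc])
      h'.g3
      (by
        have := h.pos (4 * mm ^ k - 1 - i) (by omega)
        rw [e0, mul_assoc, mul_assoc]
        exact h.hZ.trans (Nat.le_mul_of_pos_right _ (by positivity)))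
      ((hle i).trans_lt hW)
      (wt_ppRad_pos (by positivity) (by positivity) (by positivity) h.pos i)
    rw [ppRad_succ hi, ppRad_at hi] at key
    refine key.mono (fun _ h => h) (fun l hl => hl.mono fun x c _ _ hc hx => ?_) ?_
    · rw [if_pos (hx i (by omega))] at hc
      exact hc fun m hm => hx m (by omega)
    · have a1 := Nat.mul_le_mul_right (2 * p) (hle i)
      have a2 := Nat.mul_le_mul_right (2 * p) (hle (i + 1))
      rw [add_mul]
      omega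
  · rw [ppRad_top] at hl
    refine hl.mono fun x c _ _ hc hx => hc fun m hm => ?_
    have := hx (4 * mm ^ k - 1 - m) (by omega)
    rwa [comp_apply, ppRv_mid (by omega), show 4 * mm ^ k - 1 - (4 * mm ^ k - 1 - m) = m by omega]
      at this

/-- Cut every digit back to its size. -/
def ppCut : Cmd :=
  forN 21 ppDim (fitM (wD (.add ppMir (.cst 1))) (.mul (wD ppMir) (ppSz (.glob 21))))

theorem ppCut_lay : ∃ K : ℕ, ∀ (P : Tbl) (g : ℕ → ℕ)
    (B Zb n b p f f0 k e σ' s G ω N len Mu : ℕ) (sz : ℕ → ℕ)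
    (R : (ℕ → ℕ) → List Bool → Prop), Gx P g B Zb K n b p f f0 k e σ' s G ω N len Mu sz →
    Step P ppCut g
      (Lay (radD (2 ^ (G - ω)) (2 ^ s) (4 * mm ^ k) (2 ^ ω)) (4 * mm ^ k + 2) (2 * p) R)
      (Lay (ppRad (2 ^ (G - ω)) (2 ^ s) (4 * mm ^ k) (2 ^ ω) sz 0) (4 * mm ^ k + 2) (2 * p) R)
      (4000 * (mm ^ k * Sw e (2 * σ') len)) := by
  refine ⟨dFor 21 ppDim + dFit (wD (.add ppMir (.cst 1))) (.mul (wD ppMir) (ppSz (.glob 21))), ?_⟩
  intro P g B Zb n b p f f0 k e σ' s G ω N len Mu sz R h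
  have hp := h.p10
  have hl := h.len_eq
  have hD := h.ppD'
  have hW := h.ppW
  have hle := wt_ppRad_le (Z := 2 ^ (G - ω)) (W := 2 ^ ω) h.ppQ
  refine (Step.forN (R := fun i => Lay
    (ppRad (2 ^ (G - ω)) (2 ^ s) (4 * mm ^ k) (2 ^ ω) sz (4 * mm ^ k - i)) (4 * mm ^ k + 2) (2 * p) R)
    (t := 800 * len) (by omega) (h.bud.mono (by omega)) (h.ppDim _) hD fun i hi => ?_).mono
    (fun l hl => by rwa [Nat.sub_zero, ppRad_top]) (fun l hl => by rwa [Nat.sub_self] at hl) h.ppC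
  have h' := h.upd (i := 21) (v := i) (by omega) (by omega)
  obtain ⟨m, hm⟩ : ∃ m, m = 4 * mm ^ k - 1 - i := ⟨_, rfl⟩
  have hm' : m < 4 * mm ^ k := by omega
  have em : ppMir.eval (update g 21 i) [] = m := by rw [h'.ppMir, update_self, hm]
  have e0 : wt (ppRad (2 ^ (G - ω)) (2 ^ s) (4 * mm ^ k) (2 ^ ω) sz (m + 1)) (1 + m + 1) =
      2 ^ (G - ω) * (2 ^ s) ^ (m + 1) := by
    rw [add_assoc, wt_ppRad hm' le_rfl]
  have key := fit_lay (P := P) (g := update g 21 i) (B := B) (Zb := Zb) (S := 2 * p)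
    (rad := ppRad (2 ^ (G - ω)) (2 ^ s) (4 * mm ^ k) (2 ^ ω) sz (m + 1)) (D := 4 * mm ^ k + 2)
    (k := 1 + m) (Y := sz (4 * mm ^ k - 1 - m)) (eG := wD (.add ppMir (.cst 1)))
    (e2 := .mul (wD ppMir) (ppSz (.glob 21))) (R := R)
    (h'.bud.mono (by omega)) (by omega)
    (by rw [h'.wD (m := m + 1) (by simp [em]) hm', e0])
    (by
      rw [PF.eval_mul, h'.wD em hm'.le, h'.ppSz (m := i) (by simp) hi, wt_ppRad hm' (by omega),
        show 4 * mm ^ k - 1 - m = i by omega])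
    h'.g3
    (by
      rw [e0, mul_assoc]
      exact h.hZ.trans (Nat.le_mul_of_pos_right _ (by positivity)))
    ((hle _).trans_lt hW)
    (wt_ppRad_pos (by positivity) (by positivity) (by positivity) h.pos _)
  rw [ppRad_pred hm', ppRad_at' hm'] at key
  rw [show 4 * mm ^ k - i = m + 1 by omega, show 4 * mm ^ k - (i + 1) = m by omega]
  refine key.mono (fun _ h => h) (fun l hl => hl.mono fun x c hx _ hc => ?_) ?_
  · have a1 := hx (1 + m) (by omega)
    rw [ppRad_at hm'] at a1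
    rwa [if_pos (a1.trans_le (h.ppQ _ (by omega)))] at hc
  · have a1 := Nat.mul_le_mul_right (2 * p) (hle m)
    have a2 := Nat.mul_le_mul_right (2 * p) (hle (m + 1))
    rw [add_mul]
    omega

/-- Reverse the order of the digits. -/
noncomputable def ppRev : Cmd := swapsM (.mul (.cst 2) (.glob 20)) (.glob 21) ppMir

theorem ppRev_lay : ∃ K : ℕ, ∀ (P : Tbl) (g : ℕ → ℕ)
    (B Zb n b p f f0 k e σ' s G ω N len Mu : ℕ) (sz : ℕ → ℕ)
    (R : (ℕ → ℕ) → List Bool → Prop), Gx P g B Zb K n b p f f0 k e σ' s G ω N len Mu sz →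
    Step P ppRev g
      (Lay (radD (2 ^ (G - ω)) (2 ^ s) (4 * mm ^ k) (2 ^ ω)) (4 * mm ^ k + 2) (2 * p) R)
      (Lay (radD (2 ^ (G - ω)) (2 ^ s) (4 * mm ^ k) (2 ^ ω)) (4 * mm ^ k + 2) (2 * p)
        fun x => R (x ∘ ppRv (4 * mm ^ k)))
      (K * (mm ^ k * Sw e (2 * σ') len)) := by
  obtain ⟨K, hK⟩ := swaps_lay (.mul (.cst 2) (.glob 20)) (.glob 21) ppMir
  refine ⟨K, ?_⟩
  intro P g B Zb n b p f f0 k e σ' s G ω N len Mu sz R h
  have hD := h.ppD'
  have key := hK P g B Zb n b p f f0 k e σ' s G ω N len Mu sz (2 * mm ^ k) (fun i => i)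
    (fun i => 2 * (2 * mm ^ k) - 1 - i) R h (by simp [h.g20]) (by omega) fun i hi =>
    ⟨by simp, by
      rw [(h.upd (i := 21) (v := i) (by omega) (by omega)).ppMir, update_self]; omega,
      by omega, by omega⟩
  rwa [tp_ppRv, show 2 * (2 * mm ^ k) = 4 * mm ^ k by ring] at key

end Vale.Agent.P338
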