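import Vale.Agent.P338.PrepB

/-! The passes of the Chinese remainder permutation. -/

namespace Vale.Agent.P338

open Function Finset

variable {P : Tbl} {g : ℕ → ℕ} {B Zb K n b p f f0 k e σ' s G ω N len Mu : ℕ} {sz : ℕ → ℕ}

theorem pp_prod_ite (d i : ℕ) (u : ℕ → ℕ) :
    ∏ j ∈ range d, (if i < j then u j else 1) = ∏ j ∈ Ico (i + 1) d, u j := by
  rw [← prod_filter]
  refine prod_congr ?_ fun _ _ => rfl
  ext j
  simp only [mem_filter, mem_range, mem_Ico]
  omega

theorem pp_sum_ite (d i : ℕ) (u : ℕ → ℕ) :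
    ∑ j ∈ range d, (if i < j then u j else 0) = ∑ j ∈ Ico (i + 1) d, u j := by
  rw [← sum_filter]
  refine sum_congr ?_ fun _ _ => rfl
  ext j
  simp only [mem_filter, mem_range, mem_Ico]
  omega

/-- The product of the sizes above dimension `i`. -/
def ppPr (i : PF) : PF := PF.prodN ppDim (PF.ifLt (.dr 2 i) (.var 0) (ppSz (.var 0)) (.cst 1))

theorem Gx.ppPr (h : Gx P g B Zb K n b p f f0 k e σ' s G ω N len Mu sz) (x : PF) (l : List ℕ) :
    (ppPr x).eval g l = ∏ j ∈ Ico (x.eval g l + 1) (4 * mm ^ k), sz j := by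
  have hD := h.ppD
  rw [P338.ppPr, PF.eval_prodN h.gU (fun j => if x.eval g l < j then sz j else 1)
    (by rw [h.ppDim]; omega) (fun j hj a => ?_) fun m hm => ?_, h.ppDim, pp_prod_ite]
  · rw [h.ppDim] at hj
    rw [PF.eval_ifLt, h.ppSz (m := j) (by simp) hj]
    simp
  · rw [h.ppDim] at hm
    refine lt_of_le_of_lt ?_ h.ppP
    refine le_trans ?_ (Nat.pow_le_pow_right (by positivity) hm)
    simpa using Finset.prod_le_pow_card (range m) (fun j => if x.eval g l < j then sz j else 1)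
      (2 ^ s) fun j hj => by
        have := mem_range.1 hj
        split_ifs
        · exact h.ppQ j (by omega)
        · exact Nat.one_le_two_pow

theorem Gx.ppInv (h : Gx P g B Zb K n b p f f0 k e σ' s G ω N len Mu sz) {x : PF} {m : ℕ}
    {l : List ℕ} (hx : x.eval g l = m) (hm : m < 4 * mm ^ k) :
    (invE (P338.ppPr x) (P338.ppSz x)).eval g l = invF (4 * mm ^ k) sz m := by
  have h1 := h.ppQ m hm
  have h2 := h.hQ
  rw [pow_succ] at h2
  rw [P338.invE, eval_lastE h.gU (fun t => if (∏ j ∈ Ico (m + 1) (4 * mm ^ k), sz j) * t % sz m =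
    1 % sz m then 0 else 1) (by rw [h.ppSz hx hm]; omega) fun i _ a => ?_, h.ppSz hx hm, invF]
  simp [h.ppSz hx hm, h.ppPr, hx]

/-- The position treated in the current pass. -/
def ppPos (dir : Bool) : PF := if dir then ppMir else .glob 21

theorem Gx.ppPos (h : Gx P g B Zb K n b p f f0 k e σ' s G ω N len Mu sz) (dir : Bool)
    (l : List ℕ) : (ppPos dir).eval g l = crtP dir (4 * mm ^ k) (g 21) := by
  cases dir
  · simp [P338.ppPos, crtP]
  · simp [P338.ppPos, crtP, h.ppMir]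

/-- The value of the digits above position `c` of the index `var 0`. -/
def ppUp (c : PF) : PF := PF.sumN ppDim (PF.ifLt (.dr 2 c) (.var 0)
  (.mul (ppPr (.var 0)) (PF.dg (.var 2) (wD (.var 0)) (.pow2 (.glob 24)))) (.cst 0))

def ppOff (c : PF) : PF := PF.mod (.mul (invE (ppPr c) (ppSz c)) (ppUp c)) (ppSz c)

theorem Gx.ppOff (h : Gx P g B Zb K n b p f f0 k e σ' s G ω N len Mu sz) {c : PF} {m : ℕ}
    (hc : ∀ l, c.eval g l = m) (hm : m < 4 * mm ^ k) {x : ℕ → ℕ}
    (hx : Valid (radD (2 ^ (G - ω)) (2 ^ s) (4 * mm ^ k) (2 ^ ω)) (4 * mm ^ k + 2) x)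
    (hv : Vd (4 * mm ^ k) sz x) :
    (ppOff c).eval g [enc (radD (2 ^ (G - ω)) (2 ^ s) (4 * mm ^ k) (2 ^ ω)) (up (1 + m + 1) x)
      (4 * mm ^ k + 2)] = off (4 * mm ^ k) sz (invF (4 * mm ^ k) sz) m x := by
  have hD := h.ppD
  rw [P338.ppOff, PF.eval_mod, PF.eval_mul, h.ppInv (hc _) hm, h.ppSz (hc _) hm, off, ppUp,
    PF.eval_sumN h.gU (fun j => if m < j then (∏ i ∈ Ico (j + 1) (4 * mm ^ k), sz i) * x (1 + j)
      else 0) (by rw [h.ppDim]; omega) (fun j hj a => ?_) ?_, h.ppDim, pp_sum_ite]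
  · rw [h.ppDim]
    refine lt_of_le_of_lt (sum_le_sum fun j _ => ?_) (((mix_lt hv).trans_le ?_).trans h.ppP)
    · split_ifs
      · exact le_rfl
      · exact Nat.zero_le _
    · rw [← h.hN]; exact h.N_le
  · rw [h.ppDim] at hj
    rw [PF.eval_ifLt, PF.eval_dr, hc]
    simp only [PF.eval_var, List.getD_cons_zero, PF.eval_cst]
    split_ifs with hj'
    · have e1 := up_digit (k := 1 + m + 1) (j := 1 + j) hx (by omega) (by omega)
      rw [wt_radD _ _ _ _ hj.le, radD, if_neg (by omega), if_pos (by omega)] at e1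
      rw [PF.eval_mul, h.ppPr, PF.eval_dg, h.ppQE, h.wD (m := j) (by simp) hj.le]
      simp only [PF.eval_var, List.getD_cons_zero, List.getD_cons_succ, e1]
    · rfl

/-- The amount of the rotation. -/
def ppRot (dir : Bool) : PF :=
  if dir then ppOff (ppPos dir) else .sub (ppSz (ppPos dir)) (ppOff (ppPos dir))

/-- The passes of the Chinese remainder permutation or of its inverse. -/
def ppCrt (dir : Bool) : Cmd :=
  forN 21 ppDim (rotM (wD (ppPos dir)) (wD (.add (ppPos dir) (.cst 1))) (ppSz (ppPos dir)) (ppRot dir))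

theorem ppCrt_lay (dir : Bool) : ∃ K : ℕ, ∀ (P : Tbl) (g : ℕ → ℕ)
    (B Zb n b p f f0 k e σ' s G ω N len Mu : ℕ) (sz : ℕ → ℕ)
    (R : (ℕ → ℕ) → List Bool → Prop), Gx P g B Zb K n b p f f0 k e σ' s G ω N len Mu sz →
    Step P (ppCrt dir) g
      (Lay (radD (2 ^ (G - ω)) (2 ^ s) (4 * mm ^ k) (2 ^ ω)) (4 * mm ^ k + 2) (2 * p)
        fun x c => Vd (4 * mm ^ k) sz x → R x c)
      (Lay (radD (2 ^ (G - ω)) (2 ^ s) (4 * mm ^ k) (2 ^ ω)) (4 * mm ^ k + 2) (2 * p)
        fun x c => Vd (4 * mm ^ k) sz x →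
          R (crt dir (4 * mm ^ k) sz (invF (4 * mm ^ k) sz) (4 * mm ^ k) x) c)
      (4000 * (mm ^ k * Sw e (2 * σ') len)) := by
  refine ⟨dFor 21 ppDim +
    dRot (wD (ppPos dir)) (wD (.add (ppPos dir) (.cst 1))) (ppSz (ppPos dir)) (ppRot dir), ?_⟩
  intro P g B Zb n b p f f0 k e σ' s G ω N len Mu sz R h
  have hp := h.p10
  have hl := h.len_eq
  have hD := h.ppD'
  have hW := h.ppW
  refine (Step.forN (R := fun t => Lay (radD (2 ^ (G - ω)) (2 ^ s) (4 * mm ^ k) (2 ^ ω))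
    (4 * mm ^ k + 2) (2 * p) fun x c => Vd (4 * mm ^ k) sz x →
      R (crt dir (4 * mm ^ k) sz (invF (4 * mm ^ k) sz) t x) c)
    (t := 800 * len) (by omega) (h.bud.mono (by omega)) (h.ppDim _) hD fun t ht => ?_).le h.ppC
  have h' := h.upd (i := 21) (v := t) (by omega) (by omega)
  obtain ⟨m, hm⟩ : ∃ m, m = crtP dir (4 * mm ^ k) t := ⟨_, rfl⟩
  have hm' : m < 4 * mm ^ k := hm ▸ crtP_lt dir ht
  have em : ∀ l, (ppPos dir).eval (update g 21 t) l = m := fun l => by
    rw [h'.ppPos, update_self, hm]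
  have es : ∀ l, (ppSz (ppPos dir)).eval (update g 21 t) l = sz m := fun l => h'.ppSz (em l) hm'
  have s0 := h.pos m hm'
  have s1 := h.ppQ m hm'
  have hq : radD (2 ^ (G - ω)) (2 ^ s) (4 * mm ^ k) (2 ^ ω) (1 + m) = 2 ^ s := by
    rw [radD, if_neg (by omega), if_pos (by omega)]
  have e0 : wt (radD (2 ^ (G - ω)) (2 ^ s) (4 * mm ^ k) (2 ^ ω)) (1 + m + 1) =
      2 ^ (G - ω) * (2 ^ s) ^ (m + 1) := by rw [add_assoc, wt_radD _ _ _ _ hm']
  have key := rot_lay (P := P) (g := update g 21 t) (B := B) (Zb := Zb) (S := 2 * p)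
    (rad := radD (2 ^ (G - ω)) (2 ^ s) (4 * mm ^ k) (2 ^ ω)) (D := 4 * mm ^ k + 2)
    (k := 1 + m) (ℓ := 1) (eZ := wD (ppPos dir)) (eG := wD (.add (ppPos dir) (.cst 1)))
    (ea := ppSz (ppPos dir)) (eo := ppRot dir)
    (R := fun x c => Vd (4 * mm ^ k) sz x →
      R (crt dir (4 * mm ^ k) sz (invF (4 * mm ^ k) sz) t x) c)
    (h'.bud.mono (by omega)) (by omega)
    (by rw [h'.wD (em _) hm'.le, wt_radD _ _ _ _ hm'.le])
    (by rw [h'.wD (m := m + 1) (by simp [em]) hm', e0])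
    h'.g3
    (by
      rw [e0, mul_assoc]
      exact h.hZ.trans (Nat.le_mul_of_pos_right _ (by positivity)))
    hW (by rw [wt_radD']; positivity)
    (fun i0 => ⟨by
      cases dir
      · simp [ppRot]
      · rw [ppRot, if_pos rfl, ppOff, PF.eval_mod, es]
        exact (Nat.mod_lt _ s0).le, by rw [es, bw_one, hq]; exact s1⟩)
    (fun x => update x (1 + m) ((x (1 + m) +
      if dir then off (4 * mm ^ k) sz (invF (4 * mm ^ k) sz) m x
      else sz m - off (4 * mm ^ k) sz (invF (4 * mm ^ k) sz) m x) % sz m))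
    (Vd (4 * mm ^ k) sz)
    fun x hx hv => ⟨fun j hj => ?_, fun j hj => update_of_ne (by omega) _ _, ?_⟩
  · refine key.mono (fun _ h => h) (fun l hl => hl.mono fun x c _ _ hc hv => ?_) (by omega)
    rw [crt, ← hm]
    exact hc hv (hv.update (Nat.mod_lt _ s0))
  · by_cases a : j = 1 + m
    · rw [a, update_self, hq]
      exact (Nat.mod_lt _ s0).trans_le s1
    · rw [update_of_ne a]
      exact hx j hj
  · rw [blk_one, blk_one, update_self, es, rotv, if_pos (hv m hm')]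
    have e1 := h'.ppOff em hm' hx hv
    cases dir
    · simp only [ppRot, Bool.false_eq_true, if_false, PF.eval_sub, es, e1]
    · simp only [ppRot, if_true, e1]

end Vale.Agent.P338
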