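import Vale.Agent.P338.StageB
import Vale.Agent.P338.Hnet

/-! The approximate tensor transforms along the active regions. -/

namespace Vale.Agent.P338

open Function

noncomputable def KHc : ℕ := hnet_lay.choose
noncomputable def thH : ℝ := hnet_lay.choose_spec.choose

/-- The cost of one call of procedure 2. -/
noncomputable def Hc (k ρ len : ℕ) : ℕ :=
  ⌈(KHc * (k + 1) ^ 2 * (k * ρ + 1) * (mm * thH) ^ k * len : ℝ)⌉₊

/-- The situation in which the transforms run. -/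
structure Sx (P : Tbl) (g : ℕ → ℕ) (B Zb : ℕ) (rad : ℕ → ℕ) (D p kb nr k o ρ σ K : ℕ)
    (Gd : (ℕ → ℕ) → Prop) (f f0 s Mu : ℕ) : Prop
    extends Cx P g B Zb rad D p kb nr k o ρ σ K Gd where
  bud : Bud g B K Zb
  mul : MulOk P p Mu
  g2 : g 2 = f
  g20 : g 20 = mm ^ k
  g24 : g 24 = s
  hB : 100 * p ^ 2 ≤ B
  hf : f0 + s + p.size + 8 ≤ f
  hp : f + 4 * ((s + 1) * mm ^ k) + 10 ≤ p
  hs : s < ρ
  hσ : 0 < k → s ≤ 2 * σ

variable {P : Tbl} {g : ℕ → ℕ} {B Zb : ℕ} {rad : ℕ → ℕ}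
  {D p kb nr k o ρ σ K f f0 s Mu lv : ℕ} {Gd : (ℕ → ℕ) → Prop} {v : (ℕ → ℕ) → ℂ} {n : ℕ → ℕ}

theorem Sx.dx (h : Sx P g B Zb rad D p kb nr k o ρ σ K Gd f f0 s Mu) :
    Dx P g B Zb rad D p kb o ρ (mm ^ k) K f f0 s Mu := by
  have h1 := h.ho
  have h2 := h.hD
  have h3 := h.sz
  have h4 : wt rad D ≤ wt rad D * (2 * p) := Nat.le_mul_of_pos_right _ (by have := h.p1; omega)
  exact ⟨h.gU, h.g1, h.g2, h.g3, h.g16, h.g18, h.g19, h.g20, h.g24,
    fun i hi => h.reg i (by omega), by omega, h.hZ, h.pos, by omega, h.bud, h.mul, h.hB, h.hf,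
    h.hp, h.hs, Nat.one_le_pow _ _ (by norm_num [mm])⟩

theorem Sx.upd (h : Sx P g B Zb rad D p kb nr k o ρ σ K Gd f f0 s Mu) {i w : ℕ}
    (hi : i = 17 ∨ i = 21) (hw : w < 2 ^ B) :
    Sx P (update g i w) B Zb rad D p kb nr k o ρ σ K Gd f f0 s Mu :=
  ⟨⟨h.t1, h.t2, by rw [update_of_ne (by omega), h.gU], by rw [update_of_ne (by omega), h.g1],
    by rw [update_of_ne (by omega), h.g3], by rw [update_of_ne (by omega), h.g8],
    by rw [update_of_ne (by omega), h.g15], by rw [update_of_ne (by omega), h.g16],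
    by rw [update_of_ne (by omega), h.g18], by rw [update_of_ne (by omega), h.g19],
    h.p1, h.reg, h.ho, h.hD, h.hZ, h.pos, h.sz, h.net⟩, h.bud.set i hw, h.mul,
    by rw [update_of_ne (by omega), h.g2], by rw [update_of_ne (by omega), h.g20],
    by rw [update_of_ne (by omega), h.g24], h.hB, h.hf, h.hp, h.hs, h.hσ⟩

theorem Cx.mono (h : Cx P g B Zb rad D p kb nr k o ρ σ K Gd) {K' : ℕ} (hK : K' ≤ K) :
    Cx P g B Zb rad D p kb nr k o ρ σ K' Gd :=
  ⟨h.t1, h.t2, h.gU, h.g1, h.g3, h.g8, h.g15, h.g16, h.g18, h.g19, h.p1, h.reg, h.ho, h.hD, h.hZ,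
    h.pos, h.sz, fun hk => ⟨(h.net hk).1, hK.trans (h.net hk).2.1, (h.net hk).2.2⟩⟩

theorem Sx.mono (h : Sx P g B Zb rad D p kb nr k o ρ σ K Gd f f0 s Mu) {K' : ℕ} (hK : K' ≤ K) :
    Sx P g B Zb rad D p kb nr k o ρ σ K' Gd f f0 s Mu :=
  ⟨h.toCx.mono hK, h.bud.mono hK, h.mul, h.g2, h.g20, h.g24, h.hB, h.hf, h.hp, h.hs, h.hσ⟩

/-! The butterfly. -/

theorem Bop_map {A A' : Type} [CommRing A] [CommRing A'] (φ : A →+* A') (α β : A) (pos : ℕ → ℕ)
    (t r : ℕ) (u : (ℕ → ℕ) → A) (x : ℕ → ℕ) :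
    φ (Bop α β pos t r u x) = Bop (φ α) (φ β) pos t r (fun y => φ (u y)) x := by
  induction r generalizing x with
  | zero => rfl
  | succ r ih => simp only [Bop, map_add, map_mul, ih]

theorem Bop_scale {A : Type} [CommRing A] (c α β : A) (pos : ℕ → ℕ) (t r : ℕ)
    (u : (ℕ → ℕ) → A) (x : ℕ → ℕ) :
    Bop α β pos t r u x * c ^ r = Bop (c * α) (c * β) pos t r u x := by
  induction r generalizing x with
  | zero => simp [Bop]
  | succ r ih => simp only [Bop, ← ih]; ring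

theorem Bop_Tens (pos : ℕ → ℕ) (t r : ℕ) (u : (ℕ → ℕ) → ℂ) :
    Bop 1 (-Complex.I) pos t r u = Tens pos (fun _ => Eb t) r u := by
  induction r with
  | zero => rfl
  | succ r ih =>
    funext x
    rw [Tens, Module.End.mul_apply, ax_apply, Eb, two_apply, update_eq_self, ← Eb, ← ih]
    rfl

theorem norm_Tens_Eb {G : (ℕ → ℕ) → Prop} {pos : ℕ → ℕ} {t r : ℕ} {u : (ℕ → ℕ) → ℂ} {M : ℝ}
    (hG : ∀ x, G x → ∀ i < r, G (update x (pos i) (x (pos i) ^^^ 2 ^ t)))
    (hu : ∀ x, G x → ‖u x‖ ≤ M) :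
    ∀ x, G x → ‖Tens pos (fun _ => Eb t) r u x‖ ≤ M * 2 ^ r := by
  rw [← Bop_Tens]
  induction r with
  | zero => simpa [Bop] using hu
  | succ r ih =>
    intro x hx
    have ih' := ih fun x hx i hi => hG x hx i (by omega)
    have h1 := ih' x hx
    have h2 := ih' _ (hG x hx r (by omega))
    rw [Bop]
    refine (norm_add_le _ _).trans ?_
    rw [one_mul, norm_mul, norm_neg, Complex.norm_I, one_mul, pow_succ]
    linarith

def kappaE : PF := .ite (.glob 15) (.pow2 (.half (.glob 20)))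
  (.add (.cst 1) (.mul (.pow2 (.glob 1)) (.sub (.pow2 (.glob 1)) (.cst 2))))

theorem io_kappa (h : Sx P g B Zb rad D p kb nr k o ρ σ K Gd f f0 s Mu) (l : List ℕ) :
    io p ((kappaE.eval g l).bits.takeD (2 * p) false) = (1 - jR p) ^ mm ^ k := by
  obtain ⟨n1, n2, n3, n4⟩ := h.dx.nums
  have n5 := h.hp
  have n6 : 4 ≤ 2 ^ p := le_trans (by norm_num) (Nat.pow_le_pow_right (by norm_num)
    (show 2 ≤ p by omega))
  rcases Nat.eq_zero_or_pos k with rfl | hk
  · have e : kappaE.eval g l = 1 + 2 ^ p * (2 ^ p - 2) := by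
      simp [kappaE, h.g15, h.g1, PF.size_U h.gU, min_eq_left (show p ≤ B by omega)]
    obtain ⟨e1, e2⟩ := sg_pack (p := p) (u := 1) (v := 2 ^ p - 2) (by omega) (by omega)
    rw [e, io_eq, e1, e2, pow_zero, pow_one, jR, ← map_one (mkR p), ← map_sub]
    refine mkR_eq_iff.2 ⟨by simp, Int.modEq_iff_dvd.2 ⟨-1, ?_⟩⟩
    rw [Nat.cast_sub (by omega)]
    simp
    ring
  · obtain ⟨m, hm⟩ : 8 ∣ mm ^ k := (show 8 ∣ mm by norm_num [mm]).trans (dvd_pow_self _ hk.ne')
    have e : kappaE.eval g l = 2 ^ (4 * m) + 2 ^ p * 0 := by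
      simp [kappaE, h.g15, hk.ne', h.g20, hm, PF.size_U h.gU, show 8 * m / 2 = 4 * m by omega,
        min_eq_left (show 4 * m ≤ B by omega)]
    obtain ⟨e1, e2⟩ := sg_pack (p := p) (u := 2 ^ (4 * m)) (v := 0)
      (Nat.pow_lt_pow_right (by norm_num) (by omega)) (by omega)
    have e3 : (1 - jR p) ^ 8 = mkR p (2 ^ 4) := by
      rw [jR, ← map_one (mkR p), ← map_sub, ← map_pow]
      congr 1
    rw [e, io_eq, e1, e2, hm, pow_mul _ 8, e3, ← map_pow, ← pow_mul]
    exact congrArg _ (by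
      rw [show (2 ^ (4 * m) : GaussianInt) = ((2 ^ (4 * m) : ℕ) : GaussianInt) by push_cast; rfl]
      ext <;> simp only [Zsqrtd.re_natCast, Zsqrtd.im_natCast, Nat.cast_zero])

def eopM : Cmd := .seq (.call 2) (diagM (.glob 18) (.cst 0) kappaE)

theorem eop_apx (h : Sx P g B Zb rad D p kb nr k o ρ σ K Gd f f0 s Mu)
    (hK : KHc + dDiag (.glob 18) (.cst 0) kappaE ≤ K) {t : ℕ} (e : g 17 = t) (ht : t ≤ s)
    (hG : ∀ x, Gd x → ∀ i < mm ^ k, Gd (update x (kb + o + i) (x (kb + o + i) ^^^ 2 ^ t))) :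
    Step P eopM g (Apx p f0 rad D Gd v lv)
      (Apx p f0 rad D Gd (Tens (fun i => kb + o + i) (fun _ => Eb t) (mm ^ k) v) (lv + mm ^ k))
      (Hc k ρ (wt rad D * (2 * p)) + 11000 * ((Mu + 1) * (wt rad D * (2 * p))) + 1) := by
  have hd := h.dx
  have n0 := h.hs
  have n1 := hd.hD
  refine Step.of_eq ?_
  rintro l ⟨u, h1, h2, h3⟩
  choose! z z1 z2 z3 using h3
  have s1 := hnet_lay.choose_spec.choose_spec.2.2 P g B Zb rad D p kb nr k o ρ σ t Gd
    (fun x => mkR p (z x)) (h.toCx.mono (K' := KHc) (by omega)) (h.bud.mono (K' := KHc) (by omega)) e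
    (by omega) (fun hk => ht.trans (h.hσ hk)) hG
  refine (s1.seq (diag_lay (k := kb) (f := 0) (eW := kappaE) h.mul (h.bud.mono (by omega))
    (by omega) (by simp [h.g18]) rfl h.g1 h.g3 h.p1 (by omega) h.hZ hd.sz h.pos)).mono
    (fun l' e' => e' ▸ ⟨u, h1, h2, z1⟩) (fun l' hl => Lay.mono hl ?_)
    (Nat.add_le_add_right (Nat.add_le_add le_rfl hd.cost.2.2.2) _)
  rintro x c hx - ⟨a, ha, hR, rfl⟩ hx'
  have hV : ∀ x, Valid rad D x ∧ Gd x → ∀ i < mm ^ k,
      Valid rad D (update x (kb + o + i) (x (kb + o + i) ^^^ 2 ^ t)) ∧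
        Gd (update x (kb + o + i) (x (kb + o + i) ^^^ 2 ^ t)) := fun x hx i hi => ⟨fun j hj => by
      by_cases e : j = kb + o + i
      · subst e
        have := hx.1 _ hj
        rw [hd.rad_eq hi] at this
        rw [update_self, hd.rad_eq hi]
        exact Nat.xor_lt_two_pow this (Nat.pow_lt_pow_right (by norm_num) (by omega))
      · rw [update_of_ne e]; exact hx.1 j hj, hG x hx.2 i hi⟩
  refine ⟨Bop 1 (-⟨0, 1⟩) (fun i => kb + o + i) t (mm ^ k) z x, ?_, ?_, ?_⟩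
  · rw [io_cmulC_zero h.p1 ha (by simp), hR hx', io_kappa h, Bop_scale, Bop_map, map_one, map_neg]
    congr 1
    · linear_combination two_hf h.p1 - hf p * jR_sq p
    · change _ = -jR p
      linear_combination hf p * jR_sq p - jR p * two_hf h.p1
  · have e1 := Bop_map GaussianInt.toComplex 1 (-⟨0, 1⟩) (fun i => kb + o + i) t (mm ^ k) z x
    rw [map_one, map_neg, show GaussianInt.toComplex ⟨0, 1⟩ = Complex.I by
      simp [GaussianInt.toComplex_def'], Bop_Tens] at e1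
    have e2 := norm_Tens_Eb (u := (fun y => (z y : ℂ)) - (2 : ℂ) ^ f0 • v) hV
      (fun x hx => z2 x hx.1 hx.2) x ⟨hx, hx'⟩
    rw [map_sub, map_smul] at e2
    rw [e1, pow_add]
    exact e2
  · rw [pow_add]
    exact norm_Tens_Eb hV (fun x hx => z3 x hx.1 hx.2) x ⟨hx, hx'⟩

def tE (dir : Bool) : PF := if dir then .glob 21 else .sub (.glob 24) (.glob 21)

/-- The radix-two transform on the low `s + 1` bits of all active regions. -/
def fftM (dir : Bool) : Cmd :=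
  forN 21 s1E (lett 17 (tE dir) (.seq (preM dir) (.seq eopM (postM dir))))

noncomputable def dFft (dir : Bool) : ℕ := KHc + dDiag (.glob 18) (.cst 0) kappaE + dPre dir +
  dPost dir + dFor 21 s1E + (tE dir).deg

theorem fft_apx' (h : Sx P g B Zb rad D p kb nr k o ρ σ K Gd f f0 s Mu) {dir : Bool}
    (hK : dFft dir ≤ K)
    (hG : ∀ x, Gd x → ∀ i < mm ^ k, ∀ t ≤ s,
      Gd (update x (kb + o + i) (x (kb + o + i) ^^^ 2 ^ t)))
    (hl : f0 + (lv + 7 * ((s + 1) * mm ^ k)) + 3 ≤ p) :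
    Step P (fftM dir) g (Apx p f0 rad D Gd v lv)
      (Apx p f0 rad D Gd (Tens (fun i => kb + o + i) (fun _ => fft dir (s + 1) (s + 1)) (mm ^ k) v)
        (lv + 7 * ((s + 1) * mm ^ k)))
      (34000 * ((s + 1) * (Hc k ρ (wt rad D * (2 * p)) + (Mu + 1) * (wt rad D * (2 * p))))) := by
  have hd := h.dx
  obtain ⟨c1, c2, c3, -⟩ := hd.cost
  obtain ⟨n1, n2, n3, n4⟩ := hd.nums
  have n5 := hd.hp
  have n6 := hd.r1
  unfold dFft at hK
  refine (Step.forN (R := fun j => Apx p f0 rad D Gd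
    (Tens (fun i => kb + o + i) (fun _ => fft dir (s + 1) j) (mm ^ k) v) (lv + 7 * (j * mm ^ k)))
    (t := Hc k ρ (wt rad D * (2 * p)) + 33000 * ((Mu + 1) * (wt rad D * (2 * p))) + 3 + 40 * Zb)
    (by omega) (h.bud.mono (by omega)) hd.eval_s1E (hd.lt_B (by omega)) fun j hj => ?_).mono
    (fun l hl => by simpa [fft, Tens_one] using hl) (fun _ h => h) ?_
  · have h1 := h.upd (Or.inr rfl) (hd.lt_B (show j ≤ p by omega))
    have ht : (if dir then j else s + 1 - 1 - j) ≤ s := by split_ifs <;> omega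
    have a1 := Nat.mul_le_mul_right (mm ^ k) (show j + 1 ≤ s + 1 by omega)
    rw [add_one_mul] at a1
    refine Step.lett (v := if dir then j else s + 1 - 1 - j) (by omega) (h1.bud.mono (by omega))
      (by cases dir <;> simp [tE, h.g24]) ?_
    have h2 := h1.upd (Or.inl rfl) (hd.lt_B (w := if dir then j else s + 1 - 1 - j) (by omega))
    refine ((pre_apx h2.dx (dir := dir) (by omega) (update_self _ _ _) ht (by omega)).seq
      ((eop_apx h2 (by omega) (update_self _ _ _) ht fun x hx i hi => hG x hx i hi _ ht).seq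
      (post_apx h2.dx (dir := dir) (by omega) (update_self _ _ _) ht (by omega)))).mono
      (fun _ h => h) (fun l hl => hl.mono (by rw [add_one_mul]; omega) fun x _ hx => ⟨hx, ?_⟩)
      (by omega)
    simp only [fft, lev]
    rw [Tens_mul (add_right_injective _), Tens_mul (add_right_injective _),
      Tens_mul (add_right_injective _)]
    exacts [rfl, fun _ => two_mem _ _ _, fun _ => dg1_mem _, fun _ => dg1_mem _,
      fun _ => mul_mem (two_mem _ _ _) (dg1_mem _), fun _ => lev_mem _ _, fun _ => fft_mem _ _ _]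
  · generalize (Mu + 1) * (wt rad D * (2 * p)) = X at *
    generalize Hc k ρ (wt rad D * (2 * p)) = H
    nlinarith [Nat.zero_le (s * H), Nat.zero_le (s * X), Nat.mul_le_mul_left s (c2.trans c3),
      Nat.mul_le_mul_left s (c1.trans (c2.trans c3))]

theorem fft_apx : ∃ K : ℕ, ∀ (dir : Bool) (P : Tbl) (g : ℕ → ℕ) (B Zb : ℕ) (rad : ℕ → ℕ)
    (D p kb nr k o ρ σ : ℕ) (Gd : (ℕ → ℕ) → Prop) (f f0 s Mu lv : ℕ) (v : (ℕ → ℕ) → ℂ),
    Sx P g B Zb rad D p kb nr k o ρ σ K Gd f f0 s Mu →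
    (∀ x, Gd x → ∀ i < mm ^ k, ∀ t ≤ s, Gd (update x (kb + o + i) (x (kb + o + i) ^^^ 2 ^ t))) →
    f0 + (lv + 7 * ((s + 1) * mm ^ k)) + 3 ≤ p →
    Step P (fftM dir) g (Apx p f0 rad D Gd v lv)
      (Apx p f0 rad D Gd (Tens (fun i => kb + o + i) (fun _ => fft dir (s + 1) (s + 1)) (mm ^ k) v)
        (lv + 7 * ((s + 1) * mm ^ k)))
      (K * ((s + 1) * (Hc k ρ (wt rad D * (2 * p)) + (Mu + 1) * (wt rad D * (2 * p))))) :=
  ⟨dFft true + dFft false + 34000, fun dir _ _ _ _ _ _ _ _ _ _ _ _ _ _ _ _ _ _ _ _ h hG hl =>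
    (fft_apx' h (by cases dir <;> omega) hG hl).le (Nat.mul_le_mul_right _ (by omega))⟩

def termM (ε : Bool) (j : ℕ) : Cmd :=
  .seq (sgM (1 - j / 4 % 2) (j % 4)) (.seq (fftM false) (.seq (shM ε (1 - j / 4 % 2))
    (.seq (fftM true) (sgM (1 - j / 4 % 2) (j % 4)))))

noncomputable def dTerm (ε : Bool) (j : ℕ) : ℕ :=
  dSg (1 - j / 4 % 2) (j % 4) + dFft false + dFft true + dSh ε (1 - j / 4 % 2)

theorem term_apx (h : Sx P g B Zb rad D p kb nr k o ρ σ K Gd f f0 s Mu) {ε : Bool} {j : ℕ}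
    (hK : dTerm ε j ≤ K) (hρ : s + 2 ≤ ρ) (hs : 2 ^ (s + 1) ≤ B) (hn : Nx g B s (mm ^ k) n)
    (hG : ∀ x, Gd x → ∀ i < mm ^ k, ∀ y, y / 2 ^ (s + 2) = x (kb + o + i) / 2 ^ (s + 2) →
      Gd (update x (kb + o + i) y))
    (hl : f0 + (lv + 24 * ((s + 1) * mm ^ k)) + 3 ≤ p) :
    Step P (termM ε j) g (Apx p f0 rad D Gd v lv)
      (Apx p f0 rad D Gd (Tens (fun i => kb + o + i) (fun i => term ε s (n i) j) (mm ^ k) v)
        (lv + 24 * ((s + 1) * mm ^ k)))
      (100000 * ((s + 1) * Hc k ρ (wt rad D * (2 * p)) +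
        (s + mm ^ k + 1) * ((Mu + 1) * (wt rad D * (2 * p))))) := by
  have hd := h.dx
  obtain ⟨c1, c2, c3, -⟩ := hd.cost
  obtain ⟨n1, n2, n3, n4⟩ := hd.nums
  have n7 : mm ^ k * (s + 4) ≤ 4 * ((s + 1) * mm ^ k) := by nlinarith [Nat.zero_le (s * mm ^ k)]
  have hG' : ∀ x, Gd x → ∀ i < mm ^ k, ∀ t ≤ s,
      Gd (update x (kb + o + i) (x (kb + o + i) ^^^ 2 ^ t)) := fun x hx i hi t ht =>
    hG x hx i hi _ (xor_div_hi (by omega) _)
  unfold dTerm at hK
  refine ((sg_apx hd hn (by omega) (by omega) (by omega)).seq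
    ((fft_apx' h (dir := false) (by omega) hG' (by omega)).seq
    ((sh_apx hd hn (ε := ε) (by omega) (by omega) hρ hs hG (by omega)).seq
    ((fft_apx' h (dir := true) (by omega) hG' (by omega)).seq
    (sg_apx hd hn (by omega) (by omega) (by omega)))))).mono (fun _ h => h)
    (fun l hl => hl.mono (by omega) fun x _ hx => ⟨hx, ?_⟩) ?_
  · simp only [term]
    rw [Tens_mul (add_right_injective _), Tens_mul (add_right_injective _),
      Tens_mul (add_right_injective _), Tens_mul (add_right_injective _)]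
    exacts [rfl, fun _ => fft_mem _ _ _, fun _ => dg1_mem _, fun _ => two_mem _ _ _,
      fun _ => mul_mem (fft_mem _ _ _) (dg1_mem _), fun _ => fft_mem _ _ _,
      fun _ => mul_mem (two_mem _ _ _) (mul_mem (fft_mem _ _ _) (dg1_mem _)), fun _ => dg1_mem _,
      fun _ => mul_mem (fft_mem _ _ _)
        (mul_mem (two_mem _ _ _) (mul_mem (fft_mem _ _ _) (dg1_mem _)))]
  · have := hd.r1
    generalize (Mu + 1) * (wt rad D * (2 * p)) = X at *
    generalize Hc k ρ (wt rad D * (2 * p)) = H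
    generalize mm ^ k = r at *
    nlinarith [Nat.zero_le (s * H), Nat.zero_le (s * X), Nat.zero_le (r * X)]

/-- The in-place transforms of the lengths packed in parameter 23 along all active regions. -/
def stageM (ε : Bool) : Cmd :=
  .seq (dpreM ε) (.seq (seqs (termM ε) 12) (.seq (dpostM ε) nfM))

noncomputable def dStage (ε : Bool) : ℕ :=
  dDpre ε + ∑ j ∈ Finset.range 12, dTerm ε j + dDpost ε + dNf

theorem stage_apx : ∃ K : ℕ, ∀ (ε : Bool) (P : Tbl) (g : ℕ → ℕ) (B Zb : ℕ) (rad : ℕ → ℕ)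
    (D p kb nr k o ρ σ : ℕ) (Gd : (ℕ → ℕ) → Prop) (f f0 s Mu lv : ℕ) (n : ℕ → ℕ)
    (v : (ℕ → ℕ) → ℂ),
    Sx P g B Zb rad D p kb nr k o ρ σ K Gd f f0 s Mu → s + 2 ≤ ρ → 2 ^ (s + 1) ≤ B →
    (∀ i < mm ^ k, n i = g 23 / 2 ^ (s * (g 22 + 2 * i)) % 2 ^ s ∧ 0 < n i ∧
      s * (g 22 + 2 * i) ≤ B) →
    (∀ x, Gd x → ∀ i < mm ^ k, ∀ y, y / 2 ^ (s + 2) = x (kb + o + i) / 2 ^ (s + 2) →
      Gd (update x (kb + o + i) y)) →
    f0 + (lv + 300 * ((s + 1) * mm ^ k)) + 3 ≤ p →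
    Step P (stageM ε) g (Apx p f0 rad D Gd v lv)
      (Apx p f0 rad D Gd (Tens (fun i => kb + o + i) (fun i => Fop ε s (n i)) (mm ^ k) v)
        (lv + 300 * ((s + 1) * mm ^ k)))
      (K * ((s + 1) * Hc k ρ (wt rad D * (2 * p)) +
        (s + mm ^ k + 1) * ((Mu + 1) * (wt rad D * (2 * p))))) := by
  refine ⟨dStage true + dStage false + 1300000, fun ε P g B Zb rad D p kb nr k o ρ σ Gd f f0 s Mu
    lv n v h hρ hs hn hG hl => ?_⟩
  have hK : dStage ε ≤ dStage true + dStage false + 1300000 := by cases ε <;> omega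
  have hK' : 1300000 ≤ dStage true + dStage false + 1300000 := by omega
  generalize dStage true + dStage false + 1300000 = K at *
  refine Step.le ?_ (Nat.mul_le_mul_right _ hK')
  have hd := h.dx
  obtain ⟨c1, c2, c3, -⟩ := hd.cost
  obtain ⟨n1, n2, n3, n4⟩ := hd.nums
  have n7 : s * mm ^ k ≤ (s + 1) * mm ^ k := Nat.mul_le_mul_right _ (by omega)
  unfold dStage at hK
  have s2 := Step.seqs (P := P) (g := g) (c := termM ε) (R := fun j => Apx p f0 rad D Gd
    (Tens (fun i => kb + o + i) (fun i => terms ε s (n i) j) (mm ^ k)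
      (Tens (fun i => kb + o + i) (fun i => Dpre ε s (n i)) (mm ^ k) v))
      (lv + 3 + j * (24 * ((s + 1) * mm ^ k)))) 12 fun j hj => (term_apx h
        ((Finset.single_le_sum (f := dTerm ε) (fun _ _ => Nat.zero_le _)
          (Finset.mem_range.2 hj)).trans (by omega)) hρ hs hn hG (by
          have := Nat.mul_le_mul_right (24 * ((s + 1) * mm ^ k)) (show j + 1 ≤ 12 by omega)
          rw [add_one_mul] at this
          omega)).post fun l hl => hl.mono (by rw [add_one_mul j]; omega) fun x _ hx => ⟨hx, by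
          simp only [terms]
          rw [Tens_mul (add_right_injective _) (fun _ => term_mem _ _ _ _)
            fun _ => terms_mem _ _ _ _]
          rfl⟩
  refine ((dpre_apx hd hn (by omega) (by omega)).seq ((s2.pre fun l hl => ?_).seq
    ((dpost_apx hd hn (ε := ε) (by omega) (by omega)).seq
    (nf_apx hd hn (by omega) hρ hG)))).mono (fun _ h => h)
    (fun l hl => hl.mono (by omega) fun x _ hx => ⟨hx, ?_⟩) ?_
  · simpa [terms, Tens_one] using hl
  · simp only [Fop]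
    rw [Tens_mul (add_right_injective _), Tens_mul (add_right_injective _),
      Tens_mul (add_right_injective _)]
    exacts [rfl, fun _ => terms_mem _ _ _ _, fun _ => dg1_mem _, fun _ => dg1_mem _,
      fun _ => mul_mem (terms_mem _ _ _ _) (dg1_mem _),
      fun _ => mul_mem (pm1_mem _) (pm1_mem _),
      fun _ => mul_mem (dg1_mem _) (mul_mem (terms_mem _ _ _ _) (dg1_mem _))]
  · have := hd.r1
    generalize (Mu + 1) * (wt rad D * (2 * p)) = X at *
    generalize Hc k ρ (wt rad D * (2 * p)) = H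
    generalize mm ^ k = r at *
    nlinarith [Nat.zero_le (s * H), Nat.zero_le (s * X), Nat.zero_le (r * X)]

end Vale.Agent.P338
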