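import Vale.Agent.P338.Diag

/-! Index expressions and diagonal tensor passes for the transforms along the active regions. -/

namespace Vale.Agent.P338

open Function Finset

/-- The part of the situation that the passes need. -/
structure Dx (P : Tbl) (g : ℕ → ℕ) (B Zb : ℕ) (rad : ℕ → ℕ) (D p kb o ρ r K f f0 s Mu : ℕ) :
    Prop where
  gU : g 0 + 1 = 2 ^ B
  g1 : g 1 = p
  g2 : g 2 = f
  g3 : g 3 = 2 * p
  g16 : g 16 = o
  g18 : g 18 = wt rad kb
  g19 : g 19 = ρ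
  g20 : g 20 = r
  g24 : g 24 = s
  reg : ∀ i < o + r, rad (kb + i) = 2 ^ ρ
  hD : kb + (o + r) ≤ D
  hZ : Zb ≤ wt rad kb * (2 * p)
  pos : 0 < wt rad D
  sz : wt rad D < 2 ^ B
  bud : Bud g B K Zb
  mul : MulOk P p Mu
  hB : 100 * p ^ 2 ≤ B
  hf : f0 + s + p.size + 8 ≤ f
  hp : f + 4 * ((s + 1) * r) + 10 ≤ p
  hs : s < ρ
  r1 : 1 ≤ r

variable {P : Tbl} {g : ℕ → ℕ} {B Zb : ℕ} {rad : ℕ → ℕ} {D p kb o ρ r K f f0 s Mu lv : ℕ}
  {l : List ℕ} {Gd : (ℕ → ℕ) → Prop} {v : (ℕ → ℕ) → ℂ}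

theorem wt_le_of {j D : ℕ} (h0 : 0 < wt rad D) (hj : j ≤ D) : wt rad j ≤ wt rad D := by
  refine Nat.le_of_dvd h0 ?_
  obtain ⟨d, rfl⟩ := Nat.exists_eq_add_of_le hj
  rw [wt_add]
  exact dvd_mul_right _ _

theorem wt_pos_of {j D : ℕ} (h0 : 0 < wt rad D) (hj : j ≤ D) : 0 < wt rad j := by
  obtain ⟨d, rfl⟩ := Nat.exists_eq_add_of_le hj
  rw [wt_add] at h0
  exact Nat.pos_of_mul_pos_right h0

namespace Dx

variable (h : Dx P g B Zb rad D p kb o ρ r K f f0 s Mu)
include h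

theorem upd {i w : ℕ} (hi : i = 17 ∨ i = 21) (hw : w < 2 ^ B) :
    Dx P (update g i w) B Zb rad D p kb o ρ r K f f0 s Mu :=
  ⟨by rw [update_of_ne (by omega), h.gU], by rw [update_of_ne (by omega), h.g1],
    by rw [update_of_ne (by omega), h.g2], by rw [update_of_ne (by omega), h.g3],
    by rw [update_of_ne (by omega), h.g16], by rw [update_of_ne (by omega), h.g18],
    by rw [update_of_ne (by omega), h.g19], by rw [update_of_ne (by omega), h.g20],
    by rw [update_of_ne (by omega), h.g24], h.reg, h.hD, h.hZ, h.pos, h.sz, h.bud.set i hw,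
    h.mul, h.hB, h.hf, h.hp, h.hs, h.r1⟩

theorem nums : 10 ≤ p ∧ s + 1 ≤ (s + 1) * r ∧ r ≤ (s + 1) * r ∧ 10 * p ≤ B := by
  have := h.hp
  have := h.hB
  exact ⟨by omega, Nat.le_mul_of_pos_right _ h.r1, Nat.le_mul_of_pos_left _ (by omega),
    by nlinarith⟩

theorem lt_B {w : ℕ} (hw : w ≤ p) : w < 2 ^ B := by
  have := h.nums
  exact (show w < B by omega).trans Nat.lt_two_pow_self

theorem rad_eq {i : ℕ} (hi : i < r) : rad (kb + o + i) = 2 ^ ρ := by
  rw [add_assoc]; exact h.reg _ (by omega)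

theorem wt_eq {i : ℕ} (hi : i ≤ r) : wt rad (kb + o + i) = wt rad kb * 2 ^ (ρ * (o + i)) := by
  rw [add_assoc, wt_add, bw, wt_const fun j hj => h.reg j (by omega), pow_mul]

theorem rho_le {i : ℕ} (hi : i ≤ r) : ρ * (o + i) ≤ B := by
  have h0 := h.hD
  have h1 := wt_le_of h.pos (show kb + o + i ≤ D by omega)
  have h2 := wt_pos_of h.pos (show kb ≤ D by omega)
  rw [h.wt_eq hi] at h1
  exact ((Nat.pow_lt_pow_iff_right (by norm_num : 1 < 2)).mp
    (((Nat.le_mul_of_pos_left _ h2).trans h1).trans_lt h.sz)).le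

theorem rho_B : ρ ≤ B := (Nat.le_mul_of_pos_right _ (by omega)).trans (h.rho_le h.r1)

theorem Z_le {j : ℕ} (h1 : kb ≤ j) (h2 : j ≤ D) : Zb ≤ wt rad j * (2 * p) :=
  h.hZ.trans (Nat.mul_le_mul_right _ (wt_le_of (wt_pos_of h.pos h2) h1))

/-- The basic cost unit dominates the small terms. -/
theorem cost : 1 ≤ Zb ∧ Zb ≤ wt rad D * (2 * p) ∧
    wt rad D * (2 * p) ≤ (Mu + 1) * (wt rad D * (2 * p)) ∧
    (4 * Mu + 11000) * (wt rad D * (2 * p)) ≤ 11000 * ((Mu + 1) * (wt rad D * (2 * p))) := by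
  have := h.hD
  refine ⟨h.bud.pos, h.Z_le (by omega) le_rfl, Nat.le_mul_of_pos_left _ (by omega), ?_⟩
  rw [← mul_assoc 11000]
  exact Nat.mul_le_mul_right _ (by omega)

theorem err {N : ℕ} (hN : N ≤ 2 ^ (s + 1)) : N * (50 * p) * 2 ^ (f0 + 1) ≤ 2 ^ f := by
  have h1 := Nat.lt_size_self p
  calc N * (50 * p) * 2 ^ (f0 + 1) ≤ 2 ^ (s + 1) * (2 ^ 6 * 2 ^ p.size) * 2 ^ (f0 + 1) := by
        gcongr; norm_num
    _ = 2 ^ (f0 + s + p.size + 8) := by ring
    _ ≤ 2 ^ f := Nat.pow_le_pow_right (by norm_num) h.hf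

theorem err' {N : ℕ} (hN : N ≤ 2 ^ (s + 1)) : N * (50 * p) ≤ 2 ^ (p - 3) := by
  have := h.hp
  exact ((Nat.le_mul_of_pos_right _ (by positivity)).trans (h.err hN)).trans
    (Nat.pow_le_pow_right (by norm_num) (by omega))

end Dx

/-! Expressions. -/

def wtE (i : PF) : PF := .mul (.glob 18) (.pow2 (.mul (.glob 19) (.add (.glob 16) i)))
def digE (I i : PF) : PF := .dg I (wtE i) (.pow2 (.glob 19))
def btE (t y : PF) : PF := .dg y (.pow2 t) (.cst 2)
def lowE (t y : PF) : PF := .mod y (.pow2 t)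
def s1E : PF := .add (.glob 24) (.cst 1)
def szE (i : PF) : PF :=
  .dg (.glob 23) (.pow2 (.mul (.glob 24) (.add (.glob 22) (.dbl i)))) (.pow2 (.glob 24))

theorem Dx.eval_wtE (h : Dx P g B Zb rad D p kb o ρ r K f f0 s Mu) {e : PF} {i : ℕ}
    (he : e.eval g l = i) (hi : i ≤ r) : (wtE e).eval g l = wt rad (kb + o + i) := by
  have := h.rho_le hi
  simp [wtE, PF.size_U h.gU, he, h.g16, h.g18, h.g19, h.wt_eq hi, min_eq_left this]

theorem Dx.eval_digE (h : Dx P g B Zb rad D p kb o ρ r K f f0 s Mu) {I e : PF} {i : ℕ}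
    (he : e.eval g l = i) (hi : i < r) :
    (digE I e).eval g l = I.eval g l / wt rad (kb + o + i) % rad (kb + o + i) := by
  simp [digE, h.eval_wtE he hi.le, PF.size_U h.gU, h.g19, min_eq_left h.rho_B, h.rad_eq hi]

theorem Dx.eval_dig_up (h : Dx P g B Zb rad D p kb o ρ r K f f0 s Mu) {I e : PF} {i : ℕ}
    {x : ℕ → ℕ} (hx : Valid rad D x) (hI : I.eval g l = enc rad (up kb x) D)
    (he : e.eval g l = i) (hi : i < r) : (digE I e).eval g l = x (kb + o + i) := by
  have := h.hD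
  rw [h.eval_digE he hi, hI, up_digit hx (by omega) (by omega)]

theorem eval_btE (hU : g 0 + 1 = 2 ^ B) {t y : PF} (ht : t.eval g l ≤ B) :
    (btE t y).eval g l = bt (t.eval g l) (y.eval g l) := by
  simp [btE, bt, PF.size_U hU, min_eq_left ht]

theorem eval_lowE (hU : g 0 + 1 = 2 ^ B) {t y : PF} (ht : t.eval g l ≤ B) :
    (lowE t y).eval g l = y.eval g l % 2 ^ t.eval g l := by
  simp [lowE, PF.size_U hU, min_eq_left ht]

theorem Dx.eval_s1E (h : Dx P g B Zb rad D p kb o ρ r K f f0 s Mu) : s1E.eval g l = s + 1 := by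
  simp [s1E, h.g24]

theorem Dx.bt_s1 (h : Dx P g B Zb rad D p kb o ρ r K f f0 s Mu) (y : PF) :
    (btE s1E y).eval g l = bt (s + 1) (y.eval g l) := by
  have := h.nums
  have := h.hp
  rw [eval_btE h.gU (by rw [h.eval_s1E]; omega), h.eval_s1E]

theorem Dx.low_s (h : Dx P g B Zb rad D p kb o ρ r K f f0 s Mu) (y : PF) :
    (lowE (.glob 24) y).eval g l = y.eval g l % 2 ^ s := by
  have := h.nums
  have := h.hp
  rw [eval_lowE h.gU (by simp [h.g24]; omega)]; simp [h.g24]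

theorem Dx.pow_s1 (h : Dx P g B Zb rad D p kb o ρ r K f f0 s Mu) :
    (PF.pow2 s1E).eval g l = 2 ^ (s + 1) := by
  have := h.nums
  have := h.hp
  rw [PF.eval_pow2 h.gU _ (by rw [h.eval_s1E]; omega), h.eval_s1E]

/-- The lengths of the transforms are packed in parameter 23. -/
def Nx (g : ℕ → ℕ) (B s r : ℕ) (n : ℕ → ℕ) : Prop :=
  ∀ i < r, n i = g 23 / 2 ^ (s * (g 22 + 2 * i)) % 2 ^ s ∧ 0 < n i ∧ s * (g 22 + 2 * i) ≤ B

theorem Nx.upd {n : ℕ → ℕ} (h : Nx g B s r n) (w : ℕ) : Nx (update g 21 w) B s r n := by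
  simpa [Nx] using h

theorem Nx.lt {n : ℕ → ℕ} (h : Nx g B s r n) {i : ℕ} (hi : i < r) : n i < 2 ^ s := by
  rw [(h i hi).1]; exact Nat.mod_lt _ (by positivity)

theorem Dx.eval_szE (h : Dx P g B Zb rad D p kb o ρ r K f f0 s Mu) {n : ℕ → ℕ}
    (hn : Nx g B s r n) {e : PF} {i : ℕ} (he : e.eval g l = i) (hi : i < r) :
    (szE e).eval g l = n i := by
  have := h.nums
  have := h.hp
  simp [szE, PF.size_U h.gU, he, h.g24, min_eq_left (hn i hi).2.2, (hn i hi).1,
    min_eq_left (show s ≤ B by omega)]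

def preE (dir : Bool) (t y : PF) : PF :=
  .mul (btE t y) (if dir then .sub (.mul (.cst 5) (.pow2 t)) (.dbl (lowE t y)) else .pow2 t)

def postE (dir : Bool) (t y : PF) : PF :=
  .mul (btE t y) (if dir then .pow2 t else .add (.pow2 t) (.dbl (lowE t y)))

theorem eval_preE (hU : g 0 + 1 = 2 ^ B) (dir : Bool) {t y : PF} (ht : t.eval g l ≤ B) :
    (preE dir t y).eval g l = preN dir (t.eval g l) (y.eval g l) := by
  cases dir <;>
    simp [preE, preN, eval_btE hU ht, eval_lowE hU ht, PF.size_U hU, min_eq_left ht]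

theorem eval_postE (hU : g 0 + 1 = 2 ^ B) (dir : Bool) {t y : PF} (ht : t.eval g l ≤ B) :
    (postE dir t y).eval g l = postN dir (t.eval g l) (y.eval g l) := by
  cases dir <;>
    simp [postE, postN, eval_btE hU ht, eval_lowE hU ht, PF.size_U hU, min_eq_left ht]

theorem preN_le (dir : Bool) (t y : ℕ) : preN dir t y < 2 ^ (t + 3) := by
  have := bt_lt t y
  have h1 : 0 < 2 ^ t := by positivity
  rw [preN, pow_add]
  rcases (by omega : bt t y = 0 ∨ bt t y = 1) with h | h <;> rw [h] <;> split_ifs <;> omega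

theorem postN_le (dir : Bool) (t y : ℕ) : postN dir t y < 2 ^ (t + 3) := by
  have := bt_lt t y
  have h1 : 0 < 2 ^ t := by positivity
  have := Nat.mod_lt y h1
  rw [postN, pow_add]
  rcases (by omega : bt t y = 0 ∨ bt t y = 1) with h | h <;> rw [h] <;> split_ifs <;> omega

def chE (neg : Bool) (n a : PF) : PF :=
  if neg then .sub (.dbl n) (.mod (.mul a a) (.dbl n)) else .mod (.mul a a) (.dbl n)

theorem eval_chE (neg : Bool) (n a : PF) :
    (chE neg n a).eval g l = chN neg (n.eval g l) (a.eval g l) := by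
  cases neg <;> simp [chE, chN, sq]

theorem chN_le (neg : Bool) {n : ℕ} (hn : 0 < n) (a : ℕ) : chN neg n a ≤ 2 * n := by
  have := Nat.mod_lt (a ^ 2) (show 0 < 2 * n by omega)
  unfold chN; split_ifs <;> omega

def revE (n y : PF) : PF :=
  .lt y 0 (.sumN (.dr 1 n)
    (.mul (btE (.sub (.sub (.dr 3 n) (.cst 1)) (.var 0)) (.var 2)) (.pow2 (.var 0))))

theorem eval_revE (hU : g 0 + 1 = 2 ^ B) {n y : PF} (hn : n.eval g l ≤ B) :
    (revE n y).eval g l = rev (n.eval g l) (y.eval g l) := by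
  rw [revE, PF.eval_lt, PF.eval_sumN hU
    (fun i => bt (n.eval g l - 1 - i) (y.eval g l) * 2 ^ i) (by simpa using hn)]
  · simp [rev]
  · intro i hi a
    have hi' : i < n.eval g l := by simpa using hi
    rw [PF.eval_mul, eval_btE hU (by simp; omega), PF.eval_pow2 hU _ (by simp; omega)]
    simp
  · exact lt_of_lt_of_le (by simpa [rev] using rev_lt (n.eval g l) (y.eval g l))
      (Nat.pow_le_pow_right (by norm_num) hn)

def clsE (τ : ℕ) (n y : PF) : PF :=
  .ifLt (lowE (.glob 24) y) n (btE (.glob 24) y) (.ifEq (btE s1E y) (.cst τ) (.cst 3) (.cst 2))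

def sgE (τ c : ℕ) (n y : PF) : PF :=
  .add (.mul (.odd (clsE τ n y)) (.cst (c % 2))) (.mul (.half (clsE τ n y)) (.cst (c / 2)))

theorem Dx.eval_sgE (h : Dx P g B Zb rad D p kb o ρ r K f f0 s Mu) (τ c : ℕ) (n y : PF) :
    (sgE τ c n y).eval g l = sgN s (n.eval g l) τ c (y.eval g l) := by
  have := h.nums
  have := h.hp
  have e : (btE (.glob 24) y).eval g l = bt s (y.eval g l) := by
    rw [eval_btE h.gU (by simp [h.g24]; omega)]; simp [h.g24]
  simp [sgE, sgN, clsE, cls, h.low_s, h.bt_s1, e]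

theorem sgN_le (s n τ y : ℕ) {c : ℕ} (hc : c < 4) : sgN s n τ c y ≤ 2 := by
  have h1 : cls s n τ y < 4 := by
    have := bt_lt s y
    unfold cls; split_ifs <;> omega
  unfold sgN
  generalize cls s n τ y = a at h1
  interval_cases a <;> omega

def dpreE (ε : Bool) (n y : PF) : PF :=
  .ite (btE s1E y) (chE (!ε) n (lowE (.glob 24) y)) (chE ε n (lowE (.glob 24) y))

def dpostE (ε : Bool) (n y : PF) : PF :=
  .add (.ite (btE s1E y) (chE ε n (lowE (.glob 24) y)) (chE (!ε) n (lowE (.glob 24) y)))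
    (.mul (.sub (.cst 1) (btE s1E y)) n)

def dpostAE (n y : PF) : PF := .ite (btE s1E y) (.cst 1) n

theorem Dx.eval_dpreE (h : Dx P g B Zb rad D p kb o ρ r K f f0 s Mu) (ε : Bool) (n y : PF) :
    (dpreE ε n y).eval g l = dpreN ε s (n.eval g l) (y.eval g l) := by
  have := bt_lt (s + 1) (y.eval g l)
  rcases (by omega : bt (s + 1) (y.eval g l) = 0 ∨ bt (s + 1) (y.eval g l) = 1) with e | e <;>
    simp [dpreE, dpreN, h.bt_s1, eval_chE, h.low_s, e]

theorem Dx.eval_dpostE (h : Dx P g B Zb rad D p kb o ρ r K f f0 s Mu) (ε : Bool) (n y : PF) :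
    (dpostE ε n y).eval g l = dpostN ε s (n.eval g l) (y.eval g l) := by
  have := bt_lt (s + 1) (y.eval g l)
  rcases (by omega : bt (s + 1) (y.eval g l) = 0 ∨ bt (s + 1) (y.eval g l) = 1) with e | e <;>
    simp [dpostE, dpostN, h.bt_s1, eval_chE, h.low_s, e]

theorem Dx.eval_dpostAE (h : Dx P g B Zb rad D p kb o ρ r K f f0 s Mu) (n y : PF) :
    (dpostAE n y).eval g l = dpostA s (n.eval g l) (y.eval g l) := by
  simp [dpostAE, dpostA, h.bt_s1]

/-! Diagonal tensor passes. -/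

/-- Evaluate `a` at the region number `var 0` and the digit of that region in `var j`. -/
def atE (j : ℕ) (a : PF) : PF := .ap2 a (.var 0) (digE (.var j) (.var 0))

def tdE (a b nu de : PF) : PF :=
  wE (.cst 1) (.glob 20) (.prodN (.glob 20) (atE 2 a)) (.prodN (.glob 20) (atE 2 b))
    (atE 4 nu) (atE 4 de)

/-- The expressions see the region number as `var 0` and the digit as `var 1`. -/
def tdM (a b nu de : PF) : Cmd := diagM (.glob 18) (.glob 2) (tdE a b nu de)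

def dTd (a b nu de : PF) : ℕ := dDiag (.glob 18) (.glob 2) (tdE a b nu de)

theorem prod_le_two_pow {F : ℕ → ℕ} {α k : ℕ} (h : ∀ i < k, F i ≤ 2 ^ α) :
    ∏ i ∈ range k, F i ≤ 2 ^ (α * k) := by
  rw [pow_mul]
  simpa using prod_le_pow_card (range k) F (2 ^ α) fun i hi => h i (mem_range.1 hi)

theorem td_apx (h : Dx P g B Zb rad D p kb o ρ r K f f0 s Mu) {a b nu de : PF}
    (hK : dTd a b nu de ≤ K) (A : ℕ → E1) (av bv nv dv : ℕ → ℕ → ℕ) {α : ℕ} (hα : α ≤ s + 1)
    (hl : f0 + lv + 3 ≤ p)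
    (hA : ∀ i < r, A i = dg1 fun y => (av i y : ℂ) / (bv i y : ℕ) * ee ((nv i y : ℝ) / dv i y))
    (he : ∀ i < r, ∀ y l, a.eval g (i :: y :: l) = av i y ∧ b.eval g (i :: y :: l) = bv i y ∧
      nu.eval g (i :: y :: l) = nv i y ∧ de.eval g (i :: y :: l) = dv i y ∧
      av i y ≤ 2 ^ α ∧ 0 < bv i y ∧ bv i y ≤ 2 ^ 1 ∧ 0 < dv i y ∧ nv i y < 2 ^ (s + 3)) :
    Step P (tdM a b nu de) g (Apx p f0 rad D Gd v lv)
      (Apx p f0 rad D Gd (Tens (fun i => kb + o + i) A r v) (lv + (α * r + 3)))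
      (11000 * ((Mu + 1) * (wt rad D * (2 * p)))) := by
  obtain ⟨n1, n2, n3, n4⟩ := h.nums
  have n5 := h.hp
  have n6 := h.hD
  have n7 : α * r ≤ (s + 1) * r := Nat.mul_le_mul_right _ hα
  rw [Tens_congr (fun _ _ => rfl) hA]
  refine (diag_apx (k := kb) (α := α * r) (E := (1 : ℕ) * (50 * p)) (Gd' := Gd) h.mul
    (h.bud.mono hK) (by omega) (by simp [h.g18]) h.g2 h.g1 h.g3 (by omega) h.hZ h.sz h.pos hl
    (by exact_mod_cast h.err (N := 1) Nat.one_le_two_pow)
    (fun x => ∏ i ∈ range r, ((av i (x (kb + o + i)) : ℂ) / (bv i (x (kb + o + i)) : ℕ) *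
      ee ((nv i (x (kb + o + i)) : ℝ) / dv i (x (kb + o + i))))) fun x hx hG =>
        ⟨?_, ?_, Or.inl hG⟩).mono (fun _ h => h)
    (fun l hl => hl.mono (by omega) fun x _ hG => ⟨hG, Tens_dg1 _ _ _ _⟩) h.cost.2.2.2
  · rw [norm_prod, pow_mul]
    refine (prod_le_prod (fun _ _ => norm_nonneg _) (g := fun _ => (2 : ℝ) ^ α)
      fun i hi => ?_).trans (by simp)
    obtain ⟨-, -, -, -, a1, a2, -⟩ := he i (mem_range.1 hi) (x (kb + o + i)) []
    rw [norm_mul, norm_ee, mul_one, norm_div, Complex.norm_natCast, Complex.norm_natCast]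
    exact (div_le_self (by positivity) (by exact_mod_cast a2)).trans (by exact_mod_cast a1)
  · have ea : ∀ (c : PF) (i j : ℕ) (l : List ℕ), i < r →
        (i :: l).getD j 0 = enc rad (up kb x) D →
        (atE j c).eval g (i :: l) = c.eval g (i :: x (kb + o + i) :: i :: l) := by
      intro c i j l hi hj
      rw [atE, PF.eval_ap2, h.eval_dig_up (I := .var j) (e := .var 0) hx hj rfl hi]
      rfl
    have er : (PF.glob 20).eval g [enc rad (up kb x) D] = r := by simp [h.g20]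
    have pa : ∀ k ≤ r, ∏ i ∈ range k, av i (x (kb + o + i)) ≤ 2 ^ (α * k) := fun k hk =>
      prod_le_two_pow fun i hi => (he i (by omega) _ []).2.2.2.2.1
    have pb : ∀ k ≤ r, ∏ i ∈ range k, bv i (x (kb + o + i)) ≤ 2 ^ (1 * k) := fun k hk =>
      prod_le_two_pow fun i hi => (he i (by omega) _ []).2.2.2.2.2.2.1
    have pb0 : 0 < ∏ i ∈ range r, bv i (x (kb + o + i)) :=
      prod_pos fun i hi => (he i (mem_range.1 hi) _ []).2.2.2.2.2.1
    have w := (wE_spec (l := [enc rad (up kb x) D]) (NT := 1) (NI := r) (nt := .cst 1)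
      (ni := .glob 20) (A := .prodN (.glob 20) (atE 2 a)) (Bd := .prodN (.glob 20) (atE 2 b))
      (num := atE 4 nu) (den := atE 4 de) (a := ∏ i ∈ range r, av i (x (kb + o + i)))
      (bd := ∏ i ∈ range r, bv i (x (kb + o + i)))
      (fun _ i => nv i (x (kb + o + i))) (fun _ i => dv i (x (kb + o + i))) h.gU h.g1 h.g2 h.hB n1
      (by omega) rfl er ?_ ?_ (by omega) (by omega)
      ((pa r le_rfl).trans_lt (Nat.pow_lt_pow_right (by norm_num) (by omega))) pb0
      ((pb r le_rfl).trans_lt (Nat.pow_lt_pow_right (by norm_num) (by omega)))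
      (fun d _ i hi _ _ => ?_) ?_ (h.err' Nat.one_le_two_pow)).1
    · rwa [sum_range_one, Nat.cast_prod, Nat.cast_prod, ← prod_div_distrib, ← prod_mul_distrib]
        at w
    · rw [PF.eval_prodN h.gU (fun i => av i (x (kb + o + i))) (by omega)
        (fun i hi _ => by rw [ea _ _ _ _ (er ▸ hi) rfl, (he i (er ▸ hi) _ _).1])
        fun k hk => (pa k (er ▸ hk)).trans_lt (Nat.pow_lt_pow_right (by norm_num)
          ((Nat.mul_le_mul_left α (er ▸ hk)).trans_lt (by omega))), er]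
    · rw [PF.eval_prodN h.gU (fun i => bv i (x (kb + o + i))) (by omega)
        (fun i hi _ => by rw [ea _ _ _ _ (er ▸ hi) rfl, (he i (er ▸ hi) _ _).2.1])
        fun k hk => (pb k (er ▸ hk)).trans_lt (Nat.pow_lt_pow_right (by norm_num) (by omega)), er]
    · rw [ea _ _ _ _ hi rfl, ea _ _ _ _ hi rfl]
      obtain ⟨-, -, a1, a2, -, -, -, a3, a4⟩ := he i hi (x (kb + o + i)) _
      exact ⟨a1, a2, a3, a4.trans (Nat.pow_lt_pow_right (by norm_num) (by omega))⟩
    · rw [one_mul]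
      calc _ ≤ 2 ^ (α * r) * 2 ^ f := Nat.mul_le_mul_right _ (pa r le_rfl)
        _ ≤ 2 ^ (p - 3) := by
          rw [← pow_add]; exact Nat.pow_le_pow_right (by norm_num) (by omega)
        _ ≤ _ := Nat.le_mul_of_pos_left _ pb0

end Vale.Agent.P338
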