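import Vale.Agent.P338.StageA

/-! Twiddle passes, the shear in the frequency domain, and the final permutation. -/

namespace Vale.Agent.P338

open Function Finset

variable {P : Tbl} {g : ℕ → ℕ} {B Zb : ℕ} {rad : ℕ → ℕ} {D p kb o ρ r K f f0 s Mu lv : ℕ}
  {Gd : (ℕ → ℕ) → Prop} {v : (ℕ → ℕ) → ℂ} {n : ℕ → ℕ}

def preM (dir : Bool) : Cmd :=
  tdM (.cst 1) (.cst 1) (preE dir (.glob 17) (.var 1)) (.pow2 (.add (.glob 17) (.cst 2)))
def dPre (dir : Bool) : ℕ :=
  dTd (.cst 1) (.cst 1) (preE dir (.glob 17) (.var 1)) (.pow2 (.add (.glob 17) (.cst 2)))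

theorem pre_apx (h : Dx P g B Zb rad D p kb o ρ r K f f0 s Mu) {dir : Bool} (hK : dPre dir ≤ K)
    {t : ℕ} (e : g 17 = t) (ht : t ≤ s) (hl : f0 + lv + 3 ≤ p) :
    Step P (preM dir) g (Apx p f0 rad D Gd v lv)
      (Apx p f0 rad D Gd (Tens (fun i => kb + o + i) (fun _ => levPre dir t) r v) (lv + 3))
      (11000 * ((Mu + 1) * (wt rad D * (2 * p)))) := by
  have := h.nums
  have := h.hp
  simpa only [zero_mul, zero_add, preM] using td_apx (α := 0) h hK (fun _ => levPre dir t)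
    (fun _ _ => 1) (fun _ _ => 1) (fun _ y => preN dir t y) (fun _ _ => 2 ^ (t + 2)) (by omega) hl
    (fun _ _ => by simp [levPre]) fun i _ y l => ⟨rfl, rfl,
      by rw [eval_preE h.gU _ (by simp [e]; omega)]; simp [e],
      by rw [PF.eval_pow2 h.gU _ (by simp [e]; omega)]; simp [e], le_rfl, one_pos, by norm_num,
      by positivity, (preN_le _ _ _).trans_le (Nat.pow_le_pow_right (by norm_num) (by omega))⟩

def postM (dir : Bool) : Cmd := tdM (.cst 1) (.cst (if dir then 2 else 1))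
  (postE dir (.glob 17) (.var 1)) (.pow2 (.add (.glob 17) (.cst 2)))
def dPost (dir : Bool) : ℕ := dTd (.cst 1) (.cst (if dir then 2 else 1))
  (postE dir (.glob 17) (.var 1)) (.pow2 (.add (.glob 17) (.cst 2)))

theorem post_apx (h : Dx P g B Zb rad D p kb o ρ r K f f0 s Mu) {dir : Bool} (hK : dPost dir ≤ K)
    {t : ℕ} (e : g 17 = t) (ht : t ≤ s) (hl : f0 + lv + 3 ≤ p) :
    Step P (postM dir) g (Apx p f0 rad D Gd v lv)
      (Apx p f0 rad D Gd (Tens (fun i => kb + o + i) (fun _ => levPost dir t) r v) (lv + 3))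
      (11000 * ((Mu + 1) * (wt rad D * (2 * p)))) := by
  have := h.nums
  have := h.hp
  simpa only [zero_mul, zero_add, postM] using td_apx (α := 0) h hK (fun _ => levPost dir t)
    (fun _ _ => 1) (fun _ _ => if dir then 2 else 1) (fun _ y => postN dir t y)
    (fun _ _ => 2 ^ (t + 2)) (by omega) hl
    (fun _ _ => by simp only [levPost, Nat.cast_one]) fun i _ y l => ⟨rfl, rfl,
      by rw [eval_postE h.gU _ (by simp [e]; omega)]; simp [e],
      by rw [PF.eval_pow2 h.gU _ (by simp [e]; omega)]; simp [e], le_rfl,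
      by split_ifs <;> omega, by split_ifs <;> omega,
      by positivity, (postN_le _ _ _).trans_le (Nat.pow_le_pow_right (by norm_num) (by omega))⟩

theorem Dx.sz0 (h : Dx P g B Zb rad D p kb o ρ r K f f0 s Mu) (hn : Nx g B s r n) {i : ℕ}
    (hi : i < r) {l : List ℕ} : (szE (.var 0)).eval g (i :: l) = n i :=
  h.eval_szE hn (e := .var 0) (i := i) (l := i :: l) rfl hi

def sgM (τ c : ℕ) : Cmd := tdM (.cst 1) (.cst 1) (sgE τ c (szE (.var 0)) (.var 1)) (.cst 2)
def dSg (τ c : ℕ) : ℕ := dTd (.cst 1) (.cst 1) (sgE τ c (szE (.var 0)) (.var 1)) (.cst 2)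

theorem sg_apx (h : Dx P g B Zb rad D p kb o ρ r K f f0 s Mu) (hn : Nx g B s r n) {τ c : ℕ}
    (hK : dSg τ c ≤ K) (hc : c < 4) (hl : f0 + lv + 3 ≤ p) :
    Step P (sgM τ c) g (Apx p f0 rad D Gd v lv)
      (Apx p f0 rad D Gd (Tens (fun i => kb + o + i) (fun i => Sg s (n i) τ c) r v) (lv + 3))
      (11000 * ((Mu + 1) * (wt rad D * (2 * p)))) := by
  simpa only [zero_mul, zero_add, sgM] using td_apx (α := 0) h hK (fun i => Sg s (n i) τ c)
    (fun _ _ => 1) (fun _ _ => 1) (fun i y => sgN s (n i) τ c y) (fun _ _ => 2) (by omega) hl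
    (fun _ _ => by simp [Sg]) fun i hi y l => ⟨rfl, rfl,
      by rw [h.eval_sgE, h.sz0 hn hi]; rfl, rfl, le_rfl, one_pos,
      by norm_num, two_pos, (sgN_le _ _ _ _ hc).trans_lt (by
        rw [pow_add]; have := Nat.one_le_two_pow (n := s); omega)⟩

def dpreM (ε : Bool) : Cmd :=
  tdM (.cst 1) (.cst 1) (dpreE ε (szE (.var 0)) (.var 1)) (.dbl (szE (.var 0)))
def dDpre (ε : Bool) : ℕ :=
  dTd (.cst 1) (.cst 1) (dpreE ε (szE (.var 0)) (.var 1)) (.dbl (szE (.var 0)))

theorem dpre_apx (h : Dx P g B Zb rad D p kb o ρ r K f f0 s Mu) (hn : Nx g B s r n) {ε : Bool}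
    (hK : dDpre ε ≤ K) (hl : f0 + lv + 3 ≤ p) :
    Step P (dpreM ε) g (Apx p f0 rad D Gd v lv)
      (Apx p f0 rad D Gd (Tens (fun i => kb + o + i) (fun i => Dpre ε s (n i)) r v) (lv + 3))
      (11000 * ((Mu + 1) * (wt rad D * (2 * p)))) := by
  simpa only [zero_mul, zero_add, dpreM] using td_apx (α := 0) h hK (fun i => Dpre ε s (n i))
    (fun _ _ => 1) (fun _ _ => 1) (fun i y => dpreN ε s (n i) y) (fun i _ => 2 * n i) (by omega) hl
    (fun _ _ => by simp only [Dpre, Nat.cast_one, div_one, one_mul]) fun i hi y l => ⟨rfl, rfl,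
      by rw [h.eval_dpreE, h.sz0 hn hi]; rfl,
      by rw [PF.eval_dbl, h.sz0 hn hi], le_rfl, one_pos,
      by norm_num, by have := (hn i hi).2.1; omega, (chN_le _ (hn i hi).2.1 _).trans_lt (by
        rw [pow_add]; have := hn.lt hi; omega)⟩

def dpostM (ε : Bool) : Cmd := tdM (dpostAE (szE (.var 0)) (.var 1)) (.cst 1)
  (dpostE ε (szE (.var 0)) (.var 1)) (.dbl (szE (.var 0)))
def dDpost (ε : Bool) : ℕ := dTd (dpostAE (szE (.var 0)) (.var 1)) (.cst 1)
  (dpostE ε (szE (.var 0)) (.var 1)) (.dbl (szE (.var 0)))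

theorem dpost_apx (h : Dx P g B Zb rad D p kb o ρ r K f f0 s Mu) (hn : Nx g B s r n) {ε : Bool}
    (hK : dDpost ε ≤ K) (hl : f0 + lv + 3 ≤ p) :
    Step P (dpostM ε) g (Apx p f0 rad D Gd v lv)
      (Apx p f0 rad D Gd (Tens (fun i => kb + o + i) (fun i => Dpost ε s (n i)) r v)
        (lv + (s * r + 3)))
      (11000 * ((Mu + 1) * (wt rad D * (2 * p)))) :=
  td_apx (α := s) h hK (fun i => Dpost ε s (n i))
    (fun i y => dpostA s (n i) y) (fun _ _ => 1) (fun i y => dpostN ε s (n i) y)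
    (fun i _ => 2 * n i) (by omega) hl
    (fun _ _ => by simp only [Dpost, Nat.cast_one, div_one]) fun i hi y l => ⟨
      by rw [h.eval_dpostAE, h.sz0 hn hi]; rfl, rfl,
      by rw [h.eval_dpostE, h.sz0 hn hi]; rfl,
      by rw [PF.eval_dbl, h.sz0 hn hi],
      by
        have := hn.lt hi
        unfold dpostA; split_ifs <;> omega, one_pos,
      by norm_num, by have := (hn i hi).2.1; omega, by
        have a1 := hn.lt hi
        have a2 := chN_le (xor ε (bt (s + 1) y == 0)) (hn i hi).2.1 (y % 2 ^ s)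
        have a3 : (1 - bt (s + 1) y) * n i ≤ 1 * n i := Nat.mul_le_mul_right _ (by omega)
        rw [dpostN, pow_add]; omega⟩

/-! The shear. -/

def lamNE (ε : Bool) (τ : ℕ) : PF :=
  .ifEq (.var 0) (.cst 0) (chE (xor ε (τ == 1)) (szE (.glob 21))
    (.ifLt (.var 2) (.sub (.pow2 s1E) (.var 2)) (.var 2) (.sub (.pow2 s1E) (.var 2))))
    (.ifEq (.var 0) (.cst 1) (.mul (revE s1E (digE (.var 4) (.glob 21))) (.var 2)) (.cst (1 - τ)))

def lamDE : PF :=
  .ifEq (.var 0) (.cst 0) (.dbl (szE (.glob 21))) (.ifEq (.var 0) (.cst 1) (.pow2 s1E) (.cst 2))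

def shE (ε : Bool) (τ : ℕ) : PF :=
  wE (.pow2 s1E) (.cst 3) (.ifEq (btE s1E (digE (.var 0) (.glob 21))) (.cst τ) (.cst 0) (.cst 1))
    (if τ = 1 then .cst 4 else .mul (.cst 4) (szE (.glob 21))) (lamNE ε τ) lamDE

theorem norm_lam_le (ε : Bool) (s τ y : ℕ) {n : ℕ} (hn : 0 < n) : ‖lam ε s n τ y‖ ≤ 2 ^ s := by
  have h1 : ‖(1 : ℂ) / (if τ = 1 then 4 else 4 * n : ℕ)‖ ≤ 1 / 2 := by
    rw [norm_div, norm_one, Complex.norm_natCast]
    refine one_div_le_one_div_of_le two_pos ?_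
    exact_mod_cast (by split_ifs <;> omega : 2 ≤ if τ = 1 then 4 else 4 * n)
  have h2 : ‖∑ d ∈ range (2 ^ (s + 1)), ∏ i ∈ range 3,
      ee ((lamN ε s n τ y d i : ℝ) / lamD s n i)‖ ≤ 2 ^ (s + 1) :=
    (norm_sum_le _ _).trans (by simp)
  rw [lam, norm_mul]
  refine (mul_le_mul h1 h2 (norm_nonneg _) (by norm_num)).trans (le_of_eq ?_)
  ring

theorem shd_apx (h : Dx P g B Zb rad D p kb o ρ r K f f0 s Mu) (hn : Nx g B s r n) {ε : Bool}
    {τ i : ℕ} (hK : dDiag (.glob 18) (.glob 2) (shE ε τ) ≤ K) (hs : 2 ^ (s + 1) ≤ B)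
    (e : g 21 = i) (hi : i < r) (hl : f0 + lv + 3 ≤ p) :
    Step P (diagM (.glob 18) (.glob 2) (shE ε τ)) g (Apx p f0 rad D Gd v lv)
      (Apx p f0 rad D Gd (fun x => (if bt (s + 1) (x (kb + o + i)) = τ then 0 else
        lam ε s (n i) τ (x (kb + o + i))) * v x) (lv + s + 3))
      (11000 * ((Mu + 1) * (wt rad D * (2 * p)))) := by
  obtain ⟨n1, n2, n3, n4⟩ := h.nums
  have n5 := h.hp
  have n6 := h.hD
  have n7 := hn.lt hi
  have n8 := (hn i hi).2.1
  have n9 : 4 * 2 ^ s ≤ 2 ^ p := by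
    rw [show 4 * 2 ^ s = 2 ^ (s + 2) by ring]; exact Nat.pow_le_pow_right (by norm_num) (by omega)
  have e21 : ∀ l, (PF.glob 21).eval g l = i := fun l => by simp [e]
  refine (diag_apx (k := kb) (α := s) (E := (2 ^ (s + 1) : ℕ) * (50 * p)) (Gd' := Gd) h.mul
    (h.bud.mono hK) (by omega) (by simp [h.g18]) h.g2 h.g1 h.g3 (by omega) h.hZ h.sz h.pos hl
    (by exact_mod_cast h.err le_rfl) _ fun x hx hG => ⟨?_, ?_, Or.inl hG⟩).le h.cost.2.2.2
  · split_ifs
    · simp
    · exact norm_lam_le _ _ _ _ n8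
  · have w := (wE_spec (l := [enc rad (up kb x) D]) (NT := 2 ^ (s + 1)) (NI := 3)
      (nt := .pow2 s1E) (ni := .cst 3)
      (A := .ifEq (btE s1E (digE (.var 0) (.glob 21))) (.cst τ) (.cst 0) (.cst 1))
      (Bd := if τ = 1 then .cst 4 else .mul (.cst 4) (szE (.glob 21)))
      (num := lamNE ε τ) (den := lamDE) (a := if bt (s + 1) (x (kb + o + i)) = τ then 0 else 1)
      (bd := if τ = 1 then 4 else 4 * n i)
      (fun d j => lamN ε s (n i) τ (x (kb + o + i)) d j) (fun _ j => lamD s (n i) j)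
      h.gU h.g1 h.g2 h.hB n1 (by omega) h.pow_s1 rfl ?_ ?_ hs (by omega)
      (by have := Nat.one_le_two_pow (n := s); split_ifs <;> omega) (by split_ifs <;> omega)
      (by split_ifs <;> omega) (fun d hd j hj a b => ?_) ?_ (h.err' le_rfl)).1
    · have e : (if bt (s + 1) (x (kb + o + i)) = τ then 0 else lam ε s (n i) τ (x (kb + o + i))) =
          ((if bt (s + 1) (x (kb + o + i)) = τ then 0 else 1 : ℕ) : ℂ) /
            (if τ = 1 then 4 else 4 * n i : ℕ) * ∑ d ∈ range (2 ^ (s + 1)), ∏ j ∈ range 3,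
              ee ((lamN ε s (n i) τ (x (kb + o + i)) d j : ℝ) / lamD s (n i) j) := by
        by_cases hb : bt (s + 1) (x (kb + o + i)) = τ
        · rw [if_pos hb, if_pos hb, Nat.cast_zero, zero_div, zero_mul]
        · rw [if_neg hb, if_neg hb, Nat.cast_one, lam]
      rw [e]
      exact w
    · rw [PF.eval_ifEq, h.bt_s1, h.eval_dig_up (I := .var 0) hx rfl (e21 _) hi]; rfl
    · split_ifs
      · rfl
      · rw [PF.eval_mul, h.eval_szE hn (e21 _) hi]; rfl
    · have a1 := h.eval_szE (l := j :: a :: d :: b :: [enc rad (up kb x) D]) hn (e21 _) hi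
      have a2 := h.eval_dig_up (l := j :: a :: d :: b :: [enc rad (up kb x) D]) (I := .var 4) hx
        rfl (e21 _) hi
      have a3 := eval_revE (l := j :: a :: d :: b :: [enc rad (up kb x) D]) h.gU (n := s1E)
        (y := digE (.var 4) (.glob 21)) (by rw [h.eval_s1E]; omega)
      rw [a2, h.eval_s1E] at a3
      simp only [lamNE, lamDE, PF.eval_ifEq, PF.eval_var, PF.eval_cst, eval_chE, a1, PF.eval_ifLt,
        PF.eval_sub, h.pow_s1, PF.eval_mul, a3, PF.eval_dbl, List.getD_cons_zero,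
        List.getD_cons_succ]
      interval_cases j
      · refine ⟨?_, rfl, by simp [lamD, n8], (chN_le _ n8 _).trans_lt (by omega)⟩
        simp only [lamN, if_true]
        congr 1
        split_ifs <;> omega
      · refine ⟨rfl, rfl, by simp [lamD], ?_⟩
        refine (Nat.mul_lt_mul'' (rev_lt (s + 1) _) hd).trans_le ?_
        rw [← pow_add]
        exact Nat.pow_le_pow_right (by norm_num) (by omega)
      · exact ⟨rfl, rfl, by simp [lamD], by simp only [lamN]; omega⟩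
    · calc _ ≤ 2 ^ (s + 1) * 1 * 2 ^ f := by gcongr; split_ifs <;> omega
        _ ≤ 1 * 2 ^ (p - 3) := by
          rw [mul_one, one_mul, ← pow_add]; exact Nat.pow_le_pow_right (by norm_num) (by omega)
        _ ≤ _ := by gcongr; split_ifs <;> omega

theorem Dx.flip (h : Dx P g B Zb rad D p kb o ρ r K f f0 s Mu) {i : ℕ}
    {R : (ℕ → ℕ) → List Bool → Prop} (hK : dFlip (wtE (.glob 21)) s1E ≤ K) (hs : s + 2 ≤ ρ)
    (e : g 21 = i) (hi : i < r) :
    Step P (flipM (wtE (.glob 21)) s1E) g (Lay rad D (2 * p) R) (Lay rad D (2 * p) fun x =>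
      R (update x (kb + o + i) (x (kb + o + i) ^^^ 2 ^ (s + 1)))) (400 * (wt rad D * (2 * p))) := by
  have := h.hD
  exact flip_lay (h.bud.mono hK) h.gU (by omega) (h.rad_eq hi) (by omega)
    (h.eval_wtE (by simp [e]) hi.le) h.eval_s1E h.g3 (h.Z_le (by omega) (by omega)) h.sz h.pos

theorem xor_div_hi {t u : ℕ} (h : t < u) (y : ℕ) : (y ^^^ 2 ^ t) / 2 ^ u = y / 2 ^ u := by
  rw [Nat.xor_div_two_pow, Nat.div_eq_of_lt (Nat.pow_lt_pow_right (by norm_num) h), Nat.xor_zero]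

def shR (ε : Bool) (τ : ℕ) : Cmd :=
  fork (.seq (diagM (.glob 18) (.glob 2) (shE ε τ)) (flipM (wtE (.glob 21)) s1E))
    (zipM true (.cst 0) (addI 12 13))

def shM (ε : Bool) (τ : ℕ) : Cmd := forN 21 (.glob 20) (shR ε τ)

def dSh (ε : Bool) (τ : ℕ) : ℕ := dDiag (.glob 18) (.glob 2) (shE ε τ) +
  dFlip (wtE (.glob 21)) s1E + dZip (.cst 0) + dFor 21 (.glob 20)

theorem shR_apx (h : Dx P g B Zb rad D p kb o ρ r K f f0 s Mu) (hn : Nx g B s r n) {ε : Bool}
    {τ i : ℕ} (hK : dSh ε τ ≤ K) (hτ : τ < 2) (hρ : s + 2 ≤ ρ) (hs : 2 ^ (s + 1) ≤ B)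
    (hG : ∀ x, Gd x → ∀ i < r, ∀ y, y / 2 ^ (s + 2) = x (kb + o + i) / 2 ^ (s + 2) →
      Gd (update x (kb + o + i) y))
    (e : g 21 = i) (hi : i < r) (hl : f0 + lv + 3 ≤ p) :
    Step P (shR ε τ) g (Apx p f0 rad D Gd v lv)
      (Apx p f0 rad D Gd (ax (kb + o + i) (Sh ε s (n i) τ) v) (lv + (s + 4)))
      (13000 * ((Mu + 1) * (wt rad D * (2 * p)))) := by
  obtain ⟨c1, c2, c3, -⟩ := h.cost
  have n1 := h.nums.1
  unfold dSh at hK
  have s1 := (shd_apx (Gd := Gd) (v := v) (ε := ε) (τ := τ) h hn (by omega) hs e hi hl).seq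
    (h.flip (by omega) hρ e hi)
  refine (Step.fork (n := wt rad D * (2 * p)) (fun l hl => ⟨(Lay.length hl).le,
    s1.mono (fun _ e => e ▸ hl) (fun l' h' => ⟨h', (Lay.length h').le⟩) le_rfl⟩)
    ((zip_lay (F := addC p) (t := 1000) (f := 0) (h.bud.mono (by omega)) h.g1 rfl h.g3 (by omega) (by omega)
      (by omega) h.pos c2 fun τ a1 _ a3 a4 => ⟨length_addC a3 a4,
        (addI_ok (by omega) (by omega) (by omega) a1 a3 a4).le (by omega)⟩).mono (fun _ _ h => h)
      (fun l hl => hl.mono ?_) le_rfl)).le (by omega)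
  rintro x c - - ⟨a, b, ha, hb, h1, h2, rfl⟩ hx
  obtain ⟨z, a1, a2, a3⟩ := h1 hx
  obtain ⟨w, b1, b2, b3⟩ := h2 (hG x hx i hi _ (xor_div_hi (by omega) _))
  have e1 : ax (kb + o + i) (Sh ε s (n i) τ) v x = v x +
      (if bt (s + 1) (x (kb + o + i) ^^^ 2 ^ (s + 1)) = τ then 0 else
        lam ε s (n i) τ (x (kb + o + i) ^^^ 2 ^ (s + 1))) *
        v (update x (kb + o + i) (x (kb + o + i) ^^^ 2 ^ (s + 1))) := by
    have := bt_lt (s + 1) (x (kb + o + i))
    rw [ax_apply, Sh, two_apply, update_eq_self, Pi.one_apply, one_mul, lam_xor, bt_xor]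
    congr 2
    split_ifs <;> first | rfl | omega
  simp only [update_self] at b2 b3
  have e2 : (2 : ℝ) ^ lv + 2 ^ (lv + s + 3) ≤ 2 ^ (lv + (s + 4)) := by
    have : (2 : ℝ) ^ lv ≤ 2 ^ (lv + s + 3) := pow_le_pow_right₀ (by norm_num) (by omega)
    rw [show lv + (s + 4) = lv + s + 3 + 1 by ring, pow_succ _ (lv + s + 3)]
    linarith
  refine ⟨z + w, by rw [io_addC (by omega) ha hb, a1, b1, map_add], ?_, ?_⟩
  · rw [e1, map_add, mul_add, add_sub_add_comm]
    exact (norm_add_le _ _).trans ((add_le_add a2 b2).trans e2)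
  · rw [e1]
    exact (norm_add_le _ _).trans ((add_le_add a3 b3).trans e2)

theorem sh_apx (h : Dx P g B Zb rad D p kb o ρ r K f f0 s Mu) (hn : Nx g B s r n) {ε : Bool}
    {τ : ℕ} (hK : dSh ε τ ≤ K) (hτ : τ < 2) (hρ : s + 2 ≤ ρ) (hs : 2 ^ (s + 1) ≤ B)
    (hG : ∀ x, Gd x → ∀ i < r, ∀ y, y / 2 ^ (s + 2) = x (kb + o + i) / 2 ^ (s + 2) →
      Gd (update x (kb + o + i) y)) (hl : f0 + (lv + r * (s + 4)) + 3 ≤ p) :
    Step P (shM ε τ) g (Apx p f0 rad D Gd v lv)
      (Apx p f0 rad D Gd (Tens (fun i => kb + o + i) (fun i => Sh ε s (n i) τ) r v)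
        (lv + r * (s + 4))) (14000 * (r * ((Mu + 1) * (wt rad D * (2 * p))))) := by
  obtain ⟨c1, c2, c3, -⟩ := h.cost
  have n1 := h.nums
  have n2 := h.hp
  refine (Step.forN (R := fun j => Apx p f0 rad D Gd
    (Tens (fun i => kb + o + i) (fun i => Sh ε s (n i) τ) j v) (lv + j * (s + 4))) (by omega)
    (h.bud.mono (by unfold dSh at hK; omega)) (by simp [h.g20]) (h.lt_B (by omega))
    fun j hj => (shR_apx (h.upd (Or.inr rfl) (h.lt_B (by omega))) (hn.upd j) hK hτ hρ hs hG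
      (update_self _ _ _) hj ?_).post fun l hl => ?_).mono
    (fun l hl => by simpa [Tens] using hl) (fun _ h => h) ?_
  · have := Nat.mul_le_mul_right (s + 4) hj.le
    omega
  · rw [add_one_mul, ← add_assoc]; exact hl
  · have := h.r1
    generalize (Mu + 1) * (wt rad D * (2 * p)) = X at *
    nlinarith

/-! The final permutation. -/

def ngE : PF := .ite (btE s1E (digE (.var 0) (.glob 21))) (.cst 1) (szE (.glob 21))

def ngM : Cmd := negM (wtE (.glob 21)) (.mul (wtE (.glob 21)) (.pow2 (.glob 24))) ngE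

def nfM : Cmd := forN 21 (.glob 20) (.seq ngM (flipM (wtE (.glob 21)) s1E))

def dNf : ℕ := dNeg (wtE (.glob 21)) (.mul (wtE (.glob 21)) (.pow2 (.glob 24))) ngE +
  dFlip (wtE (.glob 21)) s1E + dFor 21 (.glob 20)

theorem bt_div_mul (s y : ℕ) : bt (s + 1) (y / 2 ^ s * 2 ^ s) = bt (s + 1) y := by
  rw [bt, bt, pow_succ, ← Nat.div_div_eq_div_mul, ← Nat.div_div_eq_div_mul,
    Nat.mul_div_cancel _ (by positivity)]

theorem ngP_eq (s y n : ℕ) : ngP s n y =
    negv (if bt (s + 1) y = 0 then n else 1) (y % 2 ^ s) + 2 ^ s * (y / 2 ^ s) := by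
  have := Nat.mod_add_div y (2 ^ s)
  unfold ngP negv
  generalize y % 2 ^ s = a at *
  rcases Nat.eq_zero_or_pos a with rfl | ha
  · simp only [Nat.sub_zero, Nat.mod_self]
    split_ifs <;> omega
  · by_cases h : a < n
    · rw [Nat.mod_eq_of_lt (show n - a < n by omega)]
      split_ifs <;> omega
    · split_ifs <;> omega

theorem ngP_div (s y : ℕ) {n : ℕ} (hn : 0 < n) (hn' : n ≤ 2 ^ s) :
    ngP s n y / 2 ^ (s + 2) = y / 2 ^ (s + 2) := by
  have h0 : 0 < 2 ^ s := by positivity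
  have := Nat.mod_lt y h0
  rw [pow_add, ← Nat.div_div_eq_div_mul, ← Nat.div_div_eq_div_mul, ngP_eq s y n,
    Nat.add_mul_div_left _ _ h0, Nat.div_eq_of_lt (b := 2 ^ s), zero_add]
  unfold negv
  split_ifs <;> omega

theorem ng_lay (h : Dx P g B Zb rad D p kb o ρ r K f f0 s Mu) (hn : Nx g B s r n) {i : ℕ}
    {R : (ℕ → ℕ) → List Bool → Prop} (hK : dNf ≤ K) (e : g 21 = i) (hi : i < r) :
    Step P ngM g (Lay rad D (2 * p) R) (Lay rad D (2 * p) fun x =>
      R (update x (kb + o + i) (ngP s (n i) (x (kb + o + i))))) (400 * (wt rad D * (2 * p))) := by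
  have n0 := h.hD
  have n1 := h.nums
  have n2 := h.hp
  have n3 := h.hs
  have n7 := hn.lt hi
  have n8 := (hn i hi).2.1
  have hk : kb + o + i < D := by omega
  have e21 : ∀ l, (PF.glob 21).eval g l = i := fun l => by simp [e]
  have ea : ∀ i0, ngE.eval g [i0] = if bt (s + 1) (i0 / wt rad (kb + o + i) % rad (kb + o + i)) = 0
      then n i else 1 := fun i0 => by
    rw [ngE, PF.eval_ite, h.bt_s1, h.eval_digE (e21 _) hi, h.eval_szE hn (e21 _) hi]; rfl
  have hR : rad (kb + o + i) = 1 * 2 ^ s * 2 ^ (ρ - s) := by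
    rw [h.rad_eq hi, one_mul, ← pow_add]; congr 1; omega
  have hw : wt (rad3 (wt rad (kb + o + i) * 1) (2 ^ s)
      (2 ^ (ρ - s) * bw rad (kb + o + i + 1) (D - (kb + o + i + 1)))) 3 = wt rad D := by
    rw [wt_split hk, hR]; simp [wt, rad3]; ring
  have hv : ∀ i0, ∀ y < 2 ^ s, negv (ngE.eval g [i0]) y < 2 ^ s := fun i0 y hy => by
    rw [ea]; unfold negv; split_ifs <;> omega
  have e0 := h.eval_wtE (l := []) (e21 _) hi.le
  refine (sub_lay hk hR (fun i0 y => negv (ngE.eval g [i0]) y) hv fun R' => ?_).post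
    fun l hl => hl.mono fun x c hx _ h' => ?_
  · refine (neg_lay (k := 1) (ℓ := 1) (h.bud.mono (by unfold dNf at hK; omega)) (by omega)
      (by simp [e0, wt, rad3])
      (by simp [e0, wt, rad3, h.g24, PF.size_U h.gU, min_eq_left (show s ≤ B by omega)]) h.g3 ?_
      (hw ▸ h.sz) (hw ▸ h.pos) (fun i0 => ?_) _ (fun _ => True) fun y hy _ => ⟨fun j hj => ?_,
        fun j hj => update_of_ne (by omega) _ _, by simp [blk_one]⟩).mono (fun _ h => h)
      (fun l hl => hl.mono fun x c _ _ h => h trivial) (by rw [hw])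
    · refine (h.Z_le (j := kb + o + i) (by omega) hk.le).trans (Nat.mul_le_mul_right _ ?_)
      simp only [wt, rad3, one_mul, mul_one, reduceIte, Nat.reduceEqDiff]
      exact Nat.le_mul_of_pos_right _ (by positivity)
    · rw [ea, bw_one]
      simp only [rad3, reduceIte, Nat.reduceEqDiff]
      split_ifs <;> omega
    · by_cases e : j = 1
      · subst e
        simpa [rad3] using hv _ _ (by simpa [rad3] using hy 1 (by omega))
      · simpa [e] using hy j hj
  · rw [ea, enc_digit (hx.sub0 _ _) hk, sub0, update_self] at h'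
    simp only [Nat.mod_one, one_mul, Nat.div_one, zero_add, bt_div_mul] at h'
    rwa [ngP_eq]

theorem nf_apx (h : Dx P g B Zb rad D p kb o ρ r K f f0 s Mu) (hn : Nx g B s r n) (hK : dNf ≤ K)
    (hρ : s + 2 ≤ ρ)
    (hG : ∀ x, Gd x → ∀ i < r, ∀ y, y / 2 ^ (s + 2) = x (kb + o + i) / 2 ^ (s + 2) →
      Gd (update x (kb + o + i) y)) :
    Step P nfM g (Apx p f0 rad D Gd v lv)
      (Apx p f0 rad D Gd (Tens (fun i => kb + o + i) (fun i => NF s (n i)) r v) lv)
      (1000 * (r * ((Mu + 1) * (wt rad D * (2 * p))))) := by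
  obtain ⟨c1, c2, c3, -⟩ := h.cost
  have n1 := h.nums
  have n2 := h.hp
  refine (Step.forN (R := fun j => Apx p f0 rad D Gd
    (Tens (fun i => kb + o + i) (fun i => NF s (n i)) j v) lv) (by omega)
    (h.bud.mono (by unfold dNf at hK; omega)) (by simp [h.g20]) (h.lt_B (by omega))
    fun j hj => ((ng_lay (h.upd (Or.inr rfl) (h.lt_B (by omega))) (hn.upd j) hK
      (update_self _ _ _) hj).seq ((h.upd (Or.inr rfl) (h.lt_B (by omega))).flip
        (by unfold dNf at hK; omega) hρ (update_self _ _ _) hj)).post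
          fun l hl => Lay.mono hl fun x c _ _ h' hx => ?_).mono
    (fun l hl => by simpa [Tens] using hl) (fun _ h => h) ?_
  · simp only [update_self, update_idem] at h'
    rw [Tens, Module.End.mul_apply, ax_apply, NF, Module.End.mul_apply, pm1_apply, pm1_apply]
    exact h' (hG x hx j hj _ (by
      rw [ngP_div _ _ (hn j hj).2.1 (hn.lt hj).le, xor_div_hi (by omega)]))
  · have := h.r1
    generalize (Mu + 1) * (wt rad D * (2 * p)) = X at *
    generalize wt rad D * (2 * p) = Y at *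
    nlinarith

end Vale.Agent.P338
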