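import Vale.Agent.P338.PFc
import Vale.Agent.P338.Arr

/-! A small program logic for commands that transform the array in register 3. -/

namespace Vale.Agent.P338

open Function

variable {P : Tbl} {g : ℕ → ℕ} {B K Zb t t' : ℕ}

/-- All parameters have at most `B` bits and expressions of degree `K` cost at most `Zb`. -/
structure Bud (g : ℕ → ℕ) (B K Zb : ℕ) : Prop where
  sz : ∀ i < 30, (g i).size ≤ B
  le : (B + 2) ^ K ≤ Zb

theorem Bud.mono (h : Bud g B K Zb) {K' : ℕ} (hK : K' ≤ K) : Bud g B K' Zb :=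
  ⟨h.sz, (Nat.pow_le_pow_right (by omega) hK).trans h.le⟩

theorem Bud.pow (h : Bud g B K Zb) {K' : ℕ} (hK : K' ≤ K) : (B + 2) ^ K' ≤ Zb := (h.mono hK).le

theorem Bud.pos (h : Bud g B K Zb) : 1 ≤ Zb := (Nat.one_le_pow _ _ (by omega)).trans h.le

theorem Bud.set (h : Bud g B K Zb) (i : ℕ) {v : ℕ} (hv : v < 2 ^ B) : Bud (update g i v) B K Zb :=
  ⟨fun j hj => by
    by_cases e : j = i
    · subst e; simpa using Nat.size_le.mpr hv
    · simpa [e] using h.sz j hj, h.le⟩

theorem Bud.lt (h : Bud g B K Zb) {i : ℕ} (hi : i < 30) : g i < 2 ^ B := Nat.size_le.mp (h.sz i hi)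

theorem Bud.B_le (h : Bud g B K Zb) (hK : 1 ≤ K) : B + 2 ≤ Zb := by simpa using h.pow hK

theorem Num.upd {σ : St} (h : Num σ g) {v : ℕ} (l : List Bool) (hv : v < 30 ∨ 60 ≤ v) :
    Num (update σ v l) g := fun i hi => by rw [update_of_ne (by omega), h i hi]

theorem Num.set {σ : St} (h : Num σ g) (i v : ℕ) :
    Num (update σ (30 + i) v.bits) (update g i v) := fun j hj => by
  by_cases e : j = i
  · subst e; simp
  · rw [update_of_ne (by omega), update_of_ne e, h j hj]

theorem Num.congr {σ τ : St} (h : Num σ g) (h' : ∀ v, 16 < v → τ v = σ v) : Num τ g :=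
  fun i hi => by rw [h' _ (by omega), h i hi]

theorem length_bits (n : ℕ) : n.bits.length = n.size := Nat.size_eq_bits_len n

theorem bits_le {n : ℕ} (h : n < 2 ^ B) : n.bits.length ≤ B := by
  rw [length_bits]; exact Nat.size_le.mpr h

/-- `c` changes only register 3, from a list with `Pre` to a list with `Post`. -/
def Step (P : Tbl) (c : Cmd) (g : ℕ → ℕ) (Pre Post : List Bool → Prop) (t : ℕ) : Prop :=
  ∀ σ, Num σ g → Pre (σ 3) → ∃ l, Post l ∧ Ok P c σ (update σ 3 l) t

/-- `c` combines the registers 3 and 4. -/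
def Step2 (P : Tbl) (c : Cmd) (g : ℕ → ℕ) (Pre : List Bool → List Bool → Prop)
    (Post : List Bool → Prop) (t : ℕ) : Prop :=
  ∀ σ, Num σ g → Pre (σ 3) (σ 4) → ∃ l, Post l ∧ Ok P c σ (update (update σ 4 []) 3 l) t

variable {c c' : Cmd} {Pre Pre' Mid Post Post' : List Bool → Prop}

theorem Step.mono (h : Step P c g Pre Post t) (h1 : ∀ l, Pre' l → Pre l)
    (h2 : ∀ l, Post l → Post' l) (ht : t ≤ t') : Step P c g Pre' Post' t' := fun σ hg hp => by
  obtain ⟨l, hl, h⟩ := h σ hg (h1 _ hp)
  exact ⟨l, h2 l hl, h.le ht⟩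

theorem Step.le (h : Step P c g Pre Post t) (ht : t ≤ t') : Step P c g Pre Post t' :=
  h.mono (fun _ h => h) (fun _ h => h) ht

theorem Step.post (h : Step P c g Pre Post t) (h2 : ∀ l, Post l → Post' l) :
    Step P c g Pre Post' t := h.mono (fun _ h => h) h2 le_rfl

theorem Step.pre (h : Step P c g Pre Post t) (h1 : ∀ l, Pre' l → Pre l) :
    Step P c g Pre' Post t := h.mono h1 (fun _ h => h) le_rfl

theorem Step.of_eq (h : ∀ l, Pre l → Step P c g (· = l) Post t) : Step P c g Pre Post t :=
  fun σ hg hp => h _ hp σ hg rfl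

theorem Step2.mono {Pre Pre' : List Bool → List Bool → Prop} (h : Step2 P c g Pre Post t)
    (h1 : ∀ l l', Pre' l l' → Pre l l') (h2 : ∀ l, Post l → Post' l) (ht : t ≤ t') :
    Step2 P c g Pre' Post' t' := fun σ hg hp => by
  obtain ⟨l, hl, h⟩ := h σ hg (h1 _ _ hp)
  exact ⟨l, h2 l hl, h.le ht⟩

theorem Step.skip : Step P .skip g Pre Pre 1 := fun σ _ hp => ⟨_, hp, by simpa using Ok.skip⟩

theorem Step.seq (h : Step P c g Pre Mid t) (h' : Step P c' g Mid Post t') :
    Step P (.seq c c') g Pre Post (t + t' + 1) := fun σ hg hp => by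
  obtain ⟨l, hl, h⟩ := h σ hg hp
  obtain ⟨l', hl', h'⟩ := h' (update σ 3 l) (hg.upd _ (by omega)) (by simpa using hl)
  exact ⟨l', hl', (h.seq h').mono (by simp) le_rfl⟩

theorem Step.call {f : Fin 3} (h : Step P (P f) g Pre Post t) :
    Step P (.call f) g Pre Post (t + 1) := fun σ hg hp => by
  obtain ⟨l, hl, h⟩ := h σ hg hp
  exact ⟨l, hl, h.call⟩

/-- Run `c` with parameter `i` set to the value of `e`. -/
def lett (i : ℕ) (e : PF) (c : Cmd) : Cmd :=
  loc 62 (.seq (evalTo 62 e []) (loc (30 + i) (.seq (app 62 (30 + i)) c)))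

theorem Step.lett {i v : ℕ} {e : PF} (hi : i < 30) (hb : Bud g B e.deg Zb) (hv : e.eval g [] = v)
    (h : Step P c (update g i v) Pre Post t) : Step P (lett i e c) g Pre Post (t + 40 * Zb) :=
  fun σ hg hp => by
  have h1 := evalTo_ok (P := P) e (d := 62) (regs := []) (l := []) (hg.upd (v := 62) [] (by omega))
    rfl (by simp) (by omega) hb.sz (by simp)
  have hs := e.size_eval_le (l := []) hb.sz (by simp)
  rw [hv] at h1 hs
  have n1 : 30 + i ≠ 62 := by omega
  have n2 : 3 ≠ 30 + i := by omega
  obtain ⟨l, hl, h⟩ := h (update (update σ 62 []) (30 + i) v.bits)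
    ((hg.upd (v := 62) [] (by omega)).set i v) (by simpa [n2] using hp)
  refine ⟨l, hl, (Ok.loc (h1.seq (Ok.loc (((app_ok _ n1.symm (by omega) (by omega)).mono ?_
    le_rfl).seq h)))).mono ?_ ?_⟩
  · simp [n1, n1.symm, update_comm n1]
  · funext w
    simp only [update_apply]
    split_ifs <;> simp_all
  · have := hb.le
    have := hb.pos
    simp [n1.symm, n2.symm, length_bits]; omega

/-- Run `c` for the values `0, …, e - 1` of parameter `i`. -/
def forN (i : ℕ) (e : PF) (c : Cmd) : Cmd :=
  loc 63 (.seq (ruler 63 e []) (loc (30 + i)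
    (.loop 63 (.seq c (evalTo (30 + i) (.add (.glob i) (.cst 1)) []))
      (.seq c (evalTo (30 + i) (.add (.glob i) (.cst 1)) [])))))

/-- The degree needed for a counted loop. -/
def dFor (i : ℕ) (e : PF) : ℕ := e.deg + 8 + (PF.add (.glob i) (.cst 1)).deg + 1

theorem Step.forN {i n : ℕ} {e : PF} {R : ℕ → List Bool → Prop} (hi : i < 30)
    (hb : Bud g B (dFor i e) Zb) (hv : e.eval g [] = n) (hn : n < 2 ^ B)
    (h : ∀ j < n, Step P c (update g i j) (R j) (R (j + 1)) t) :
    Step P (forN i e c) g (R 0) (R n) (n * (t + 40 * Zb) + 20 * Zb) := fun σ hg hp => by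
  have n1 : 30 + i ≠ 63 := by omega
  have n2 : 3 ≠ 30 + i := by omega
  have hB := hb.B_le (by unfold dFor; omega)
  have key : ∀ k j, j + k = n → ∀ τ : St, Num τ (update g i j) → R j (τ 3) →
      τ 63 = List.replicate k true → ∃ l, R n l ∧ Ok P
      (.loop 63 (.seq c (evalTo (30 + i) (.add (.glob i) (.cst 1)) []))
        (.seq c (evalTo (30 + i) (.add (.glob i) (.cst 1)) []))) τ
      (update (update (update τ 63 []) (30 + i) n.bits) 3 l) (k * (t + 5 * Zb) + 1) := by
    intro k
    induction k with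
    | zero =>
      intro j hj τ h1 h2 h3
      obtain rfl : j = n := hj
      refine ⟨τ 3, h2, (Ok.loopn h3).mono ?_ (by omega)⟩
      have := h1 i hi
      rw [update_self] at this
      rw [List.replicate_zero] at h3
      rw [← h3, update_eq_self, ← this, update_eq_self, update_eq_self]
    | succ k ih =>
      intro j hj τ h1 h2 h3
      obtain ⟨l, hl, h4⟩ := h j (by omega) (update τ 63 (List.replicate k true))
        (h1.upd _ (by omega)) (by simpa using h2)
      have hb' := (hb.set i (v := j) (by omega)).mono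
        (K' := (PF.add (.glob i) (.cst 1)).deg) (by unfold dFor; omega)
      have h5 := evalTo_ok (P := P) (.add (.glob i) (.cst 1)) (d := 30 + i) (regs := []) (l := [])
        ((h1.upd (v := 63) (List.replicate k true) (by omega)).upd (v := 3) l (by omega)) rfl
        (by simp) (by omega) hb'.sz (by simp)
      have h6 : Num (update (update (update τ 63 (List.replicate k true)) 3 l) (30 + i)
          (j + 1).bits) (update g i (j + 1)) := by
        simpa using ((h1.upd (v := 63) (List.replicate k true) (by omega)).upd (v := 3) l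
          (by omega)).set i (j + 1)
      obtain ⟨l', hl', h7⟩ := ih (j + 1) (by omega) _ h6 (by simpa [n2] using hl)
        (by simp [n1.symm])
      simp only [PF.eval_add, PF.eval_glob, hi, if_true, update_self, PF.eval_cst] at h5
      refine ⟨l', hl', (Ok.loopb (b := true) h3 (h4.seq h5) h7).mono ?_ ?_⟩
      · funext w
        simp only [update_apply]
        split_ifs <;> simp_all
      · have e1 := hb'.le
        have e2 := h1 i hi
        have e3 := bits_le (show j < 2 ^ B by omega)
        rw [update_self] at e2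
        simp only [ne_eq, n2.symm, not_false_eq_true, update_of_ne, n1, e2]
        nlinarith
  have h1 := ruler_ok (P := P) e (d := 63) (regs := []) (l := []) (hg.upd (v := 63) [] (by omega))
    rfl (by simp) (by omega) hb.sz (by simp)
  rw [hv] at h1
  obtain ⟨l, hl, h2⟩ := key n 0 (by simp)
    (update (update (update σ 63 []) 63 (List.replicate n true)) (30 + i) [])
    (by simpa using (hg.upd (v := 63) (List.replicate n true) (by omega)).set i 0)
    (by simpa [n2] using hp) (by simp [n1.symm])
  refine ⟨l, hl, (Ok.loc (h1.seq (Ok.loc h2))).mono ?_ ?_⟩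
  · funext w
    simp only [update_apply]
    split_ifs <;> simp_all
  · have e1 := hb.pow (K' := e.deg + 8) (by unfold dFor; omega)
    have e3 := bits_le hn
    simp [n1.symm, n2.symm]
    nlinarith

/-- Branch on the value of `e`. -/
def iff (e : PF) (c c' : Cmd) : Cmd :=
  loc 62 (.seq (evalTo 62 e []) (.cas 62 (.seq (clr 62) c) (.seq (clr 62) c) c'))

theorem Step.iff {e : PF} (hb : Bud g B e.deg Zb) (h : e.eval g [] ≠ 0 → Step P c g Pre Post t)
    (h' : e.eval g [] = 0 → Step P c' g Pre Post t) :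
    Step P (iff e c c') g Pre Post (t + 20 * Zb) := fun σ hg hp => by
  have h1 := evalTo_ok (P := P) e (d := 62) (regs := []) (l := []) (hg.upd (v := 62) [] (by omega))
    rfl (by simp) (by omega) hb.sz (by simp)
  have hs := e.size_eval_le (l := []) hb.sz (by simp)
  have e1 := hb.le
  have e2 := hb.pos
  by_cases h0 : e.eval g [] = 0
  · obtain ⟨l, hl, h2⟩ := h' h0 (update σ 62 []) (hg.upd _ (by omega)) (by simpa using hp)
    rw [h0, Nat.zero_bits, update_idem] at h1
    refine ⟨l, hl, (Ok.loc (h1.seq (Ok.casn (by simp) h2))).mono ?_ (by simp; omega)⟩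
    rw [update_comm (by omega), update_idem, update_eq_self]
  · obtain ⟨l, hl, h2⟩ := h h0 (update σ 62 []) (hg.upd _ (by omega)) (by simpa using hp)
    rw [← length_bits] at hs
    rcases hb : (e.eval g []).bits with _ | ⟨b, r⟩
    · have := lv_bits (e.eval g [])
      rw [hb] at this
      exact absurd this.symm h0
    rw [hb] at h1 hs
    have h3 : Ok P (cond b (.seq (clr 62) c) (.seq (clr 62) c))
        (update (update (update σ 62 []) 62 (b :: r)) 62 r) (update (update σ 62 []) 3 l)
        (2 * r.length + 1 + t + 1) := by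
      have := ((clr_ok (P := P) (update σ 62 r) 62).mono (by simp) le_rfl).seq h2
      simpa using this
    refine ⟨l, hl, (Ok.loc (h1.seq (Ok.casb (by simp) h3))).mono ?_ (by simp at hs ⊢; omega)⟩
    rw [update_comm (by omega), update_idem, update_eq_self]

/-- Run `c` on the array, keeping the old array in register 4, then combine with `z`; the new
array is the second operand. -/
def fork (c z : Cmd) : Cmd :=
  loc 4 (.seq (loc 5 (.seq (cpy 3 5) (.seq c (.seq (app 3 4) (app 5 3))))) z)

theorem Step.fork {z : Cmd} {n : ℕ} {Rel : List Bool → List Bool → Prop}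
    (h : ∀ l, Pre l → l.length ≤ n ∧ Step P c g (· = l) (fun l' => Rel l l' ∧ l'.length ≤ n) t)
    (hz : Step2 P z g (fun l l' => Pre l ∧ Rel l l') Post t') :
    Step P (fork c z) g Pre Post (t + t' + 20 * n + 50) := fun σ hg hp => by
  obtain ⟨hn, h⟩ := h _ hp
  obtain ⟨l, ⟨hl, hl'⟩, h1⟩ := h (update (update σ 4 []) 5 (σ 3))
    ((hg.upd _ (by omega)).upd _ (by omega)) (by simp)
  obtain ⟨l2, hl2, h2⟩ := hz (update σ 4 l) (hg.upd _ (by omega)) (by simpa using ⟨hp, hl⟩)
  refine ⟨l2, hl2, (Ok.loc (((Ok.loc (((cpy_ok _ (by omega) (by omega) (by omega)).mono (by simp)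
    le_rfl).seq (h1.seq ((app_ok _ (by omega) (by omega) (by omega)).seq
    (app_ok _ (by omega) (by omega) (by omega)))))).mono ?_ le_rfl).seq h2)).mono ?_ ?_⟩
  · funext w
    simp only [update_apply]
    split_ifs <;> first | omega | (subst_vars; simp)
  · funext w
    simp only [update_apply]
    split_ifs <;> first | omega | (subst_vars; simp)
  · simp; omega

end Vale.Agent.P338
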