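import Vale.Agent.P338.SwapD

/-! Fast exchange of two blocks of index digits. -/

namespace Vale.Agent.P338

open Function

variable {P : Tbl} {g rad : ℕ → ℕ} {B Zb t D S q ep xp d b : ℕ}

def eX0 : PF := .pow2 (.glob 12)
def eDd : PF := .pow (.cst mm) (.glob 4)
def linC (s : ℤ) : Cmd := blkM 1 eDd (.glob 10) (.glob 11) fun _ _ => zq s (.cst 1)
def dLin (s : ℤ) : ℕ := dBlk 1 eDd (.glob 10) (.glob 11) fun _ _ => zq s (.cst 1)

/-- Pad, exchange by three shears and a negation, cut. -/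
def swC : Cmd :=
  .seq (ftM eDd (.glob 10) eX0 (.glob 9)) (.seq (ftM eDd (.glob 11) eX0 (.glob 9))
    (.seq (.seq (linC 1) (.seq (ngLoop eDd (.glob 10)) (.seq (.call 1) (linC (-1)))))
    (.seq (ftM eDd (.glob 11) (.glob 9) eX0) (ftM eDd (.glob 10) (.glob 9) eX0))))

noncomputable def eQ : PF := .add (.mul (.cst DT) (.add (.div eX0 (.cst DT)) (.cst 1))) (.cst 1)

def eSc (e : PF) : PF := .div (.mul e (.pow (.glob 9) eDd)) (.pow eX0 eDd)

def swL : List (ℕ × PF) := [(5, .cst 0), (6, .cst 0), (7, .cst 1),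
  (8, .mul (eSc (eSc (.glob 8))) (.glob 3)), (11, eSc (.glob 11))]

/-- Exchange the blocks of weights `eZ` and `eX`, each of `eb * mm ^ ej` bits; `eN` is the number
of cells of the array. -/
noncomputable def swapM (eZ eX eb ej eN : PF) : Cmd :=
  lets [(4, ej), (8, eN), (10, eZ), (11, eX), (12, eb)] (lett 9 eQ (lets swL swC))

structure KS (K : ℕ) : Prop where
  kt : KT K
  k1 : dFt eDd (.glob 10) eX0 (.glob 9) ≤ K
  k2 : dFt eDd (.glob 11) eX0 (.glob 9) ≤ K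
  k3 : dFt eDd (.glob 10) (.glob 9) eX0 ≤ K
  k4 : dFt eDd (.glob 11) (.glob 9) eX0 ≤ K
  k5 : dLin 1 ≤ K
  k6 : dLin (-1) ≤ K
  k7 : dNg eDd (.glob 10) ≤ K
  k8 : eQ.deg ≤ K
  k9 : dLets swL ≤ K
  k10 : 4 * (DT + 1) ≤ K

theorem ub8 (a b c d e f g h : ℕ) :
    ∃ K, a ≤ K ∧ b ≤ K ∧ c ≤ K ∧ d ≤ K ∧ e ≤ K ∧ f ≤ K ∧ g ≤ K ∧ h ≤ K :=
  ⟨a + b + c + d + e + f + g + h, by omega⟩

theorem exists_KS : ∃ K, KS K := by
  obtain ⟨K, a1, a2, a3, a4, a5, a6, a7, a8⟩ := ub8 (PF.glob 4).deg dBase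
    (PF.div (.glob 8) (.cst (2 ^ wT))).deg (dExec (.glob 8) lT) (lT.map dIns).sum
    (6000 * lT.length + 2000) (dFt eDd (.glob 10) eX0 (.glob 9)) (dFt eDd (.glob 11) eX0 (.glob 9))
  obtain ⟨L, b1, b2, b3, b4, b5, b6, b7, b8⟩ := ub8 (dFt eDd (.glob 10) (.glob 9) eX0)
    (dFt eDd (.glob 11) (.glob 9) eX0) (dLin 1) (dLin (-1)) (dNg eDd (.glob 10)) eQ.deg (dLets swL)
    (4 * (DT + 1))
  have h1 := Nat.le_add_right K L
  have h2 := Nat.le_add_left L K
  exact ⟨K + L, ⟨a1.trans h1, a2.trans h1, a3.trans h1, a4.trans h1, a5.trans h1, a6.trans h1⟩,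
    a7.trans h1, a8.trans h1, b1.trans h2, b2.trans h2, b3.trans h2, b4.trans h2, b5.trans h2,
    b6.trans h2, b7.trans h2, b8.trans h2⟩

theorem wt_rset {p n X Y k : ℕ} (h : ∀ i < n, rad (p + i) = X) (hk : p + n ≤ k) :
    wt (rset rad p n Y) k * X ^ n = wt rad k * Y ^ n := by
  obtain ⟨ℓ, rfl⟩ := Nat.exists_eq_add_of_le hk
  rw [wt_add, wt_add rad, wt_win h,
    wt_win (rad := rset rad p n Y) (X := Y) fun i hi => if_pos (by omega),
    wt_congr (rad := rset rad p n Y) (rad' := rad) fun j hj => if_neg (by omega),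
    show bw (rset rad p n Y) (p + n) ℓ = bw rad (p + n) ℓ from
      wt_congr fun j hj => if_neg (by omega)]
  ring

theorem rset_back {p n X Y : ℕ} (h : ∀ i < n, rad (p + i) = X) :
    rset (rset rad p n Y) p n X = rad := by
  funext k
  unfold rset
  split_ifs with a
  · rw [← h (k - p) (by omega), Nat.add_sub_cancel' a.1]
  · rfl

theorem le_rset {p n Y : ℕ} (h : ∀ i < n, rad (p + i) ≤ Y) (k : ℕ) : rad k ≤ rset rad p n Y k := by
  unfold rset
  split_ifs with a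
  · rw [← Nat.add_sub_cancel' a.1]; exact h _ (by omega)
  · rfl

theorem swC_lay [NeZero q] {K j n : ℕ} {R : (ℕ → ℕ) → List Bool → Prop} (hP : P 1 = Tbody)
    (hK : KS K) (hB : Bud g B K Zb) (re : ∀ i < d, rad (ep + i) = 2 ^ b)
    (rx : ∀ i < d, rad (xp + i) = 2 ^ b)
    (h : TC g B Zb (rset (rset rad ep d q) xp d q) D S ep xp d q b) (hq : 2 ^ b ≤ q) (hb : 1 ≤ b)
    (h0 : 0 < wt rad (D + 1)) (hd : d = mm ^ j) (g4 : g 4 = j) (g5 : g 5 = 0) (g6 : g 6 = 0)
    (g7 : g 7 = 1) (hW : (2 ^ wT) ^ j ∣ rad D) (hn : g 8 = (2 ^ wT) ^ j * n) :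
    Step P swC g (Lay rad (D + 1) S R) (Lay rad (D + 1) S fun x => R fun k => x (swI d xp ep k))
      (K * ((pdT ^ j * (b + 1) + j * (2 ^ wT * mm) ^ j) * n) + 5500 * ((d + 1) * g 8) + 8) := by
  have o1 := h.o1
  have o2 := h.o2
  have x2 : 2 ≤ 2 ^ b := Nat.le_self_pow (by omega) 2
  have r1 : ∀ i < d, rset rad ep d q (xp + i) = 2 ^ b := fun i hi => by
    rw [rset, if_neg (by omega), rx i hi]
  have r2 : ∀ i < d, rset rad ep d q (ep + i) = q := fun i hi => if_pos (by omega)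
  have m1 := le_rset (Y := q) fun i hi => (re i hi).trans_le hq
  have m2 := le_rset (Y := q) fun i hi => (r1 i hi).trans_le hq
  have h1 : 0 < wt (rset rad ep d q) (D + 1) := h0.trans_le (wt_mono fun k _ => m1 k)
  have w1 : wt (rset (rset rad ep d q) xp d q) xp = wt (rset rad ep d q) xp :=
    wt_congr fun k hk => if_neg (by omega)
  have w2 : wt (rset (rset rad ep d q) xp d q) ep = wt (rset rad ep d q) ep :=
    wt_congr fun k hk => if_neg (by omega)
  have w3 : wt (rset rad ep d q) ep = wt rad ep := wt_congr fun k hk => if_neg (by omega)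
  have hZ := h.hZ
  have hZ' := h.Z (k := xp) (by omega) (by omega)
  have e0 : ∀ g', TC g' B Zb (rset (rset rad ep d q) xp d q) D S ep xp d q b → g' 4 = j →
      eDd.eval g' [] = d := fun g' h' a =>
    hd ▸ eval_pow' h'.gU rfl (by simp [a]) two_le_mm (hd ▸ h.d_lt)
  have e1 : ∀ i, eX0.eval (update g 13 i) [] = 2 ^ b := fun i => by
    have := h.bB
    rw [eX0, PF.eval_pow2 (h.upd (i := 13) (by omega) i).gU _ (by simp [h.g12]; omega)]
    simp [h.g12]
  have e9 : ∀ i, (PF.glob 9).eval (update g 13 i) [] = q := fun i => by simp [h.g9]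
  have e10 : ∀ i, (PF.glob 10).eval (update g 13 i) [] = _ := fun i => by simpa using h.g10
  have e11 : ∀ i, (PF.glob 11).eval (update g 13 i) [] = _ := fun i => by simpa using h.g11
  have lin : ∀ s : ℤ, dLin s ≤ K → Rz P (linC s) g (rset (rset rad ep d q) xp d q) (D + 1) S
      (act q (shG d ep xp (s : ZMod q))) (500 * ((d + 1) * g 8)) := fun s hs => by
    have := blk_rz (P := P) (M := Matrix.of fun _ _ : Fin 1 => (s : ZMod q)) (hB.mono hs) h.gU h.g3
      h.g9 h.q2 (e0 g h g4) (fun i => e0 _ (h.upd (by omega) i) (by simpa using g4)) e10 e11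
      (fun i r l => by rw [eval_zq (by simp [h.g9])]; simp)
      (fun r l _ => by simpa using o1) (by simpa using h.re) (by simpa using h.rx) (D := D + 1)
      (by omega) (by omega) hZ h.lt h.pos
    rwa [blkG_one, one_mul, ← h.g8] at this
  have c1 := T_rz hP hK.kt j g _ n h hB g4 (by omega) (by omega)
    (by rwa [rset, if_neg (by omega), rset, if_neg (by omega)]) (h.g8 ▸ hn)
  have c2 := ng_rz (P := P) (hB.mono hK.k7) h.gU h.g3 h.g9 h.q2 (e0 g h g4) e10 h.re (D := D + 1)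
    (by omega) hZ h.lt h.pos
  rw [g5, g6, g7, ← hd, add_zero, add_zero, Nat.cast_one] at c1
  have c3 := ((lin 1 hK.k5).seqA (c2.seqA (c1.seqA (lin (-1) hK.k6)))).congr
    (φ' := fun x k => x (swI d xp ep k)) fun x hx => by
      funext k
      have a1 : ∀ k, xp ≤ k ∧ k < xp + d → x k < q := fun k a => by
        have := hx k (by omega); rwa [rset, if_pos a] at this
      have a2 : ∀ k, ep ≤ k ∧ k < ep + d → x k < q := fun k a => by
        have := hx k (by omega); rwa [rset, if_neg (by omega), rset, if_pos a] at this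
      rw [Int.cast_one, Int.cast_neg, Int.cast_one, act, sw_eq o1, ZMod.val_natCast, swI]
      split_ifs with a a'
      · rw [Nat.div_eq_of_lt (a1 k a), Nat.mod_eq_of_lt (a2 _ (by omega))]; simp
      · rw [Nat.div_eq_of_lt (a2 k a'), Nat.mod_eq_of_lt (a1 _ (by omega))]; simp
      · exact Nat.div_add_mod' _ _
  have f1 := ft_lay (P := P) (R := R) (hB.mono hK.k1) h.gU h.g3 h.q2 (e0 g h g4)
    (fun i => (e10 i).trans (w2.trans w3)) e1 e9 re (D := D + 1) (by omega) (w3 ▸ w2 ▸ hZ) _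
    (fun k _ => (m1 k).trans (m2 k)) (fun i hi => (h.re i hi).ge) h.lt h0
  have f2 := fun R => ft_lay (P := P) (R := R) (hB.mono hK.k2) h.gU h.g3 h.q2 (e0 g h g4)
    (fun i => (e11 i).trans w1) e1 e9 r1 (D := D + 1) (by omega) (w1 ▸ hZ') _
    (fun k _ => m2 k) (fun i hi => (h.rx i hi).ge) h.lt h1
  have f3 := fun R => ft_lay (P := P) (R := R) (hB.mono hK.k4) h.gU h.g3 x2 (e0 g h g4)
    e11 e9 e1 h.rx (D := D + 1) (by omega) hZ' _
    (fun k _ => le_rfl) (fun i hi => hq.trans (h.rx i hi).ge) h.lt h.pos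
  have f4 := fun R => ft_lay (P := P) (R := R) (hB.mono hK.k3) h.gU h.g3 x2 (e0 g h g4)
    (fun i => (e10 i).trans w2) e9 e1 r2 (D := D + 1) (by omega) (w2 ▸ hZ) _
    (fun k _ => m2 k) (fun i hi => hq.trans (h.re i hi).ge) h.lt h1
  rw [rset_back r1] at f3
  rw [rset_back re] at f4
  refine (f1.seq ((f2 _).seq ((c3 _).seq ((f3 _).seq (f4 _))))).mono (fun _ h => h)
    (fun l hl => hl.mono fun x c hx _ a => ?_) (by rw [← h.g8]; omega)
  have a1 : ∀ i < d, x (xp + i) < 2 ^ b := fun i hi => rx i hi ▸ hx _ (by omega)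
  have a2 : ∀ i < d, x (ep + i) < 2 ^ b := fun i hi => re i hi ▸ hx _ (by omega)
  refine a (fun i hi => (a2 i hi).trans_le hq) (fun i hi => (a1 i hi).trans_le hq)
    (fun i hi => ?_) fun i hi => ?_
  · beta_reduce
    rw [swI, if_pos (by omega)]; exact a2 _ (by omega)
  · beta_reduce
    rw [swI, if_neg (by omega), if_pos (by omega)]; exact a1 _ (by omega)

theorem pad_facts {K : ℕ} (hK : KS K) (hq : q = DT * (2 ^ b / DT + 1) + 1) (d1 : 1 ≤ d)
    (hb : K * d ≤ 2 ^ b) : 2 ^ b < q ∧ q ≤ 2 ^ (b + 1) ∧ 1 ≤ b ∧ q = DT * (q / DT) + 1 ∧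
      q ^ (2 * d) ≤ 2 * (2 ^ b) ^ (2 * d) := by
  obtain ⟨t0, t8, -⟩ := (exists_DT lT).choose_spec
  change 0 < DT at t0
  have t2 : 2 ≤ DT := (Nat.le_of_dvd t0 (Int.natCast_dvd_natCast.1 t8)).trans' (by norm_num)
  have q0 : 4 * (DT + 1) * d ≤ 2 ^ b := (Nat.mul_le_mul_right _ hK.k10).trans hb
  have q1 : 2 ^ b < q ∧ q ≤ 2 ^ b + (DT + 1) := by
    have := Nat.div_add_mod (2 ^ b) DT
    have := Nat.mod_lt (2 ^ b) t0
    rw [hq, mul_add]; omega
  have q2 : 4 * (DT + 1) ≤ 2 ^ b := (Nat.le_mul_of_pos_right _ d1).trans q0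
  refine ⟨q1.1, by rw [pow_succ]; omega, by rcases b with _ | b <;> omega, ?_,
    (Nat.pow_le_pow_left q1.2 (2 * d)).trans (pow_pad _ _ _ (by linarith))⟩
  rw [hq, Nat.mul_add_div t0, Nat.div_eq_of_lt (show 1 < DT from t2), add_zero]

theorem swap_mid {K j n : ℕ} {R : (ℕ → ℕ) → List Bool → Prop} (hP : P 1 = Tbody)
    (hK : KS K) (hB : Bud g B K Zb) (hU : g 0 + 1 = 2 ^ B) (hS : g 3 = S) (g4 : g 4 = j)
    (g8 : g 8 = wt rad (D + 1)) (g10 : g 10 = wt rad ep) (g11 : g 11 = wt rad xp) (g12 : g 12 = b)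
    (re : ∀ i < d, rad (ep + i) = 2 ^ b) (rx : ∀ i < d, rad (xp + i) = 2 ^ b) (o1 : ep + d ≤ xp)
    (o2 : xp + d ≤ D) (hd : d = mm ^ j) (hb : K * d ≤ 2 ^ b) (hW : (2 ^ wT) ^ j ∣ rad D)
    (hn : wt rad (D + 1) * S = (2 ^ wT) ^ j * n) (hZ : Zb ≤ wt rad ep * S)
    (h0 : 0 < wt rad (D + 1)) (hsz : 4 * (wt rad (D + 1) * S) < 2 ^ B) :
    Step P (lett 9 eQ (lets swL swC)) g (Lay rad (D + 1) S R)
      (Lay rad (D + 1) S fun x => R fun k => x (swI d xp ep k))
      (K * (2 * (pdT ^ j * (b + 1) * n + j * d * (wt rad (D + 1) * S))) +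
        25000 * (d * (wt rad (D + 1) * S))) := by
  have d1 : 1 ≤ d := hd ▸ Nat.one_le_pow _ _ (by have := two_le_mm; omega)
  have z0 := hB.pos
  have S0 : 0 < S := Nat.pos_of_mul_pos_left (z0.trans hZ)
  obtain ⟨q, hq⟩ : ∃ q, q = DT * (2 ^ b / DT + 1) + 1 := ⟨_, rfl⟩
  obtain ⟨q1, q2, q3, q4, q5⟩ := pad_facts hK hq d1 hb
  have x2 : 2 ≤ 2 ^ b := Nat.le_self_pow (by omega) 2
  have : NeZero q := ⟨by omega⟩
  have r1 : ∀ i < d, rset rad ep d q (xp + i) = 2 ^ b := fun i hi => by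
    rw [rset, if_neg (by omega), rx i hi]
  have s1 := wt_rset (Y := q) (k := xp) re o1
  have s2 := wt_rset (Y := q) (k := D + 1) re (by omega)
  have s3 := wt_rset (Y := q) (k := D + 1) r1 (by omega)
  have w4 : wt (rset (rset rad ep d q) xp d q) xp = wt (rset rad ep d q) xp :=
    wt_congr fun k hk => if_neg (by omega)
  have w5 : wt (rset (rset rad ep d q) xp d q) ep = wt rad ep :=
    wt_congr fun k hk => by rw [rset, if_neg (by omega), rset, if_neg (by omega)]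
  have re' : ∀ i < d, rset (rset rad ep d q) xp d q (ep + i) = q := fun i hi => by
    rw [rset, if_neg (by omega), rset, if_pos (by omega)]
  have rx' : ∀ i < d, rset (rset rad ep d q) xp d q (xp + i) = q := fun i hi => if_pos (by omega)
  have rD : rset (rset rad ep d q) xp d q D = rad D := by
    rw [rset, if_neg (by omega), rset, if_neg (by omega)]
  have key := fun g' n a1 a2 => swC_lay (P := P) (g := g') (B := B) (Zb := Zb) (D := D) (S := S)
    (q := q) (n := n) (R := R) hP hK a1 re rx a2 q1.le q3 h0 hd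
  generalize rset (rset rad ep d q) xp d q = rP at *
  have xp0 : 0 < (2 ^ b) ^ d := by positivity
  have s4 : wt rP (D + 1) * (2 ^ b) ^ (2 * d) = wt rad (D + 1) * q ^ (2 * d) := by
    rw [two_mul, pow_add, pow_add, ← mul_assoc, s3, mul_right_comm, s2, mul_assoc]
  have s5 : wt rP (D + 1) ≤ 2 * wt rad (D + 1) := by
    refine Nat.le_of_mul_le_mul_right ?_ (show 0 < (2 ^ b) ^ (2 * d) by positivity)
    rw [s4, mul_comm 2 (wt _ _), mul_assoc]
    exact Nat.mul_le_mul_left _ q5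
  have s6 : 0 < wt rP (D + 1) :=
    Nat.pos_of_mul_pos_right (s4 ▸ Nat.mul_pos h0 (Nat.pow_pos (by omega)))
  have s7 : wt rP (D + 1) * S ≤ 2 * (wt rad (D + 1) * S) :=
    mul_assoc 2 _ S ▸ Nat.mul_le_mul_right _ s5
  have s8 : wt rP (D + 1) ≤ wt rP (D + 1) * S := Nat.le_mul_of_pos_right _ S0
  have p1 : q ^ d < 2 ^ B := by
    have := (win_pow rx' (D := D + 1) (by omega) s6 le_rfl).2; omega
  have p2 : q < 2 ^ B := (Nat.le_self_pow (by omega) q).trans_lt p1
  have p3 : b < B := (Nat.pow_lt_pow_iff_right (by omega)).1 (q1.trans p2)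
  have p4 : d < 2 ^ B := (Nat.lt_pow_self (by omega)).trans p1
  have p5 : (2 ^ b) ^ d < 2 ^ B := (Nat.pow_le_pow_left q1.le d).trans_lt p1
  have p8 := wt_le s6 (show xp ≤ D + 1 by omega)
  obtain ⟨H, hH⟩ := hW
  have w6 : wt rP (D + 1) * S = (2 ^ wT) ^ j * (wt rP D * H * S) := by rw [wt, rD, hH]; ring
  generalize wt rP D * H * S = n' at w6
  have hU1 : update g 9 q 0 + 1 = 2 ^ B := by simpa using hU
  have a1 : ∀ g', g' 0 + 1 = 2 ^ B → g' 12 = b → eX0.eval g' [] = 2 ^ b := fun g' u v => by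
    rw [eX0, PF.eval_pow2 u _ (by simp [v]; omega)]; simp [v]
  have a2 : eDd.eval (update g 9 q) [] = d :=
    hd ▸ eval_pow' hU1 rfl (by simp [g4]) two_le_mm (hd ▸ p4)
  have a3 : ∀ e, (eSc e).eval (update g 9 q) [] =
      e.eval (update g 9 q) [] * q ^ d / (2 ^ b) ^ d := fun e => by
    rw [eSc, PF.eval_div, PF.eval_mul, eval_pow' hU1 (x := q) (by simp) a2 (by omega) p1,
      eval_pow' hU1 (a1 _ hU1 (by simp [g12])) a2 x2 p5]
  have a4 : upds (update g 9 q) swL = update (update (update (update (update (update g 9 q) 11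
      (wt rP xp)) 8 (wt rP (D + 1) * S)) 7 1) 6 0) 5 0 := by
    simp only [swL, upds, PF.eval_cst, PF.eval_mul, a3]
    simp [hS, g8, g11, ← s1, ← s2, ← s3, w4]
  have B1 := hB.set 9 p2
  refine (Step.lett (v := q) (by omega) (hB.mono hK.k8) (by simp [eQ, a1 g hU g12, hq])
    (Step.lets _ (by simp [swL]) (by simp [swL]) (B1.mono hK.k9) (a4 ▸ key _ n'
    (((((B1.set 11 (by omega)).set 8 (by omega)).set 7 (by omega)).set 6 (by omega)).set 5
      (by omega))
    { gU := by simpa using hU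
      g3 := by simpa using hS
      g8 := by simp
      g9 := by simp
      g10 := by simp [g10, w5]
      g11 := by simp
      g12 := by simp [g12]
      re := re', rx := rx', o1 := o1, o2 := o2, hq := q4, q2 := by omega, qb := q2, bB := p3
      hZ := w5 ▸ hZ, pos := s6, S0 := S0, sz := by omega } (by simp [g4]) (by simp) (by simp)
    (by simp) ⟨H, hH⟩ (by simp [w6])))).le ?_
  have v1 : (2 ^ wT) ^ j * n' ≤ (2 ^ wT) ^ j * (2 * n) := by rw [← w6, mul_left_comm, ← hn]; exact s7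
  have v2 : n' ≤ 2 * n := Nat.le_of_mul_le_mul_left v1 (by positivity)
  have v3 : Zb ≤ wt rad (D + 1) * S := hZ.trans (Nat.mul_le_mul_right _ (wt_le h0 (by omega)))
  have v5 : (pdT ^ j * (b + 1) + j * (2 ^ wT * mm) ^ j) * n' ≤
      2 * (pdT ^ j * (b + 1) * n + j * d * (wt rad (D + 1) * S)) :=
    (Nat.mul_le_mul_left _ v2).trans (le_of_eq (by rw [hn, hd]; ring))
  have v6 := Nat.mul_le_mul_left K v5
  have v7 := Nat.mul_le_mul_left (d + 1) s7
  have v8 : wt rad (D + 1) * S ≤ d * (wt rad (D + 1) * S) := Nat.le_mul_of_pos_left _ d1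
  rw [mul_left_comm (d + 1) 2, add_mul d 1 (wt rad _ * S)] at v7
  rw [a4]
  simp only [swL, List.length_cons, List.length_nil, ne_eq, Nat.reduceEqDiff, not_false_eq_true,
    update_of_ne, update_self]
  omega

/-- The digit system in which the exchange takes place. -/
def radT (Z M H d X k : ℕ) : ℕ :=
  if k = 0 then Z else if k ≤ d then X else if k = d + 1 then M else if k ≤ 2 * d + 1 then X else H

theorem exists_view {k1 k2 ℓ X : ℕ} (o1 : k1 + ℓ ≤ k2) (o2 : k2 + ℓ ≤ D) (b1 : bw rad k1 ℓ = X ^ d)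
    (b2 : bw rad k2 ℓ = X ^ d) : ∃ rT : ℕ → ℕ, (∀ i < d, rT (1 + i) = X) ∧
      (∀ i < d, rT (d + 2 + i) = X) ∧ rT (d + 2 + d) = bw rad (k2 + ℓ) (D - (k2 + ℓ)) ∧
      wt rT 1 = wt rad k1 ∧ wt rT (d + 2) = wt rad k2 ∧ wt rT (d + 2 + d + 1) = wt rad D := by
  obtain ⟨rT, hT⟩ : ∃ rT, rT = radT (wt rad k1) (bw rad (k1 + ℓ) (k2 - (k1 + ℓ)))
    (bw rad (k2 + ℓ) (D - (k2 + ℓ))) d X := ⟨_, rfl⟩
  have re : ∀ i < d, rT (1 + i) = X := fun i hi => by
    rw [hT, radT, if_neg (by omega), if_pos (by omega)]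
  have rx : ∀ i < d, rT (d + 2 + i) = X := fun i hi => by
    rw [hT, radT, if_neg (by omega), if_neg (by omega), if_neg (by omega), if_pos (by omega)]
  have rD : rT (d + 2 + d) = bw rad (k2 + ℓ) (D - (k2 + ℓ)) := by
    rw [hT, radT, if_neg (by omega), if_neg (by omega), if_neg (by omega), if_neg (by omega)]
  have w1 : wt rT 1 = wt rad k1 := by simp [hT, wt, radT]
  have w2 : wt rT (d + 2) = wt rad k2 := by
    rw [wt, add_comm d 1, wt_win re, w1, ← b1, ← wt_add, hT, radT, if_neg (by omega),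
      if_neg (by omega), if_pos (by omega), ← wt_add, Nat.add_sub_cancel' o1]
  refine ⟨rT, re, rx, rD, w1, w2, ?_⟩
  rw [wt, wt_win rx, w2, ← b2, ← wt_add, rD, ← wt_add, Nat.add_sub_cancel' o2]

theorem swap_lay : ∃ K : ℕ, ∀ (P : Tbl), P 1 = Tbody → ∀ (eZ eX eb ej eN : PF) (g : ℕ → ℕ)
    (B Zb : ℕ) (rad : ℕ → ℕ) (D S k1 k2 ℓ b j n0 : ℕ) (R : (ℕ → ℕ) → List Bool → Prop)
    (φ : (ℕ → ℕ) → ℕ → ℕ) (Gd : (ℕ → ℕ) → Prop),
    Bud g B (K + eZ.deg + eX.deg + eb.deg + ej.deg + eN.deg) Zb → g 0 + 1 = 2 ^ B → g 3 = S →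
    eZ.eval g [] = wt rad k1 → eX.eval g [] = wt rad k2 → eb.eval g [] = b → ej.eval g [] = j →
    eN.eval g [] = wt rad D → k1 + ℓ ≤ k2 → k2 + ℓ ≤ D →
    bw rad k1 ℓ = 2 ^ (b * mm ^ j) → bw rad k2 ℓ = 2 ^ (b * mm ^ j) →
    (2 ^ wT) ^ j ∣ bw rad (k2 + ℓ) (D - (k2 + ℓ)) → wt rad D * S = (2 ^ wT) ^ j * n0 →
    K * mm ^ j ≤ 2 ^ b → Zb ≤ wt rad k1 * S → 0 < wt rad D → 4 * (wt rad D * S) < 2 ^ B →
    (∀ x, Valid rad D x → Gd x → Valid rad D (φ x) ∧
      (∀ i, i < k1 ∨ (k1 + ℓ ≤ i ∧ i < k2) ∨ k2 + ℓ ≤ i → φ x i = x i) ∧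
      blk rad (φ x) k1 ℓ = blk rad x k2 ℓ ∧ blk rad (φ x) k2 ℓ = blk rad x k1 ℓ) →
    Step P (swapM eZ eX eb ej eN) g (Lay rad D S R) (Lay rad D S fun x c => Gd x → R (φ x) c)
      (K * (pdT ^ j * (b + 1) * n0 + (j + 1) * mm ^ j * (wt rad D * S))) := by
  obtain ⟨K, hK⟩ := exists_KS
  refine ⟨2 * K + 30000, fun P hP eZ eX eb ej eN g B Zb rad D S k1 k2 ℓ b j n0 R φ Gd hB hU hS e1 e2
    e3 e4 e5 o1 o2 b1 b2 hW hn hb hZ h0 hsz hφ => ?_⟩
  obtain ⟨d, hd⟩ : ∃ d, d = mm ^ j := ⟨_, rfl⟩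
  have dj : j < d := hd ▸ Nat.lt_pow_self two_le_mm
  rw [← hd, pow_mul] at b1 b2
  rw [← hd] at hb ⊢
  obtain ⟨rT, re, rx, rD, w1, w2, w3⟩ := exists_view o1 o2 b1 b2
  have z0 := hB.pos
  have s9 : wt rad D ≤ wt rad D * S :=
    Nat.le_mul_of_pos_right _ (Nat.pos_of_mul_pos_left (z0.trans hZ))
  have p6 := wt_le h0 (show k1 ≤ D by omega)
  have p7 := wt_le h0 (show k2 ≤ D by omega)
  have p1 : (2 ^ b) ^ d ≤ wt rad D := w3 ▸ (win_pow rx (by omega) (w3 ▸ h0) le_rfl).2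
  have p2 : 2 ^ b ≤ (2 ^ b) ^ d := Nat.le_self_pow (by omega) _
  have p3 := Nat.lt_two_pow_self (n := b)
  have p4 : d ≤ 2 ^ b := (Nat.le_mul_of_pos_left _ (by omega)).trans hb
  have key := swap_mid (P := P) (g := update (update (update (update (update g 12 b) 11 (wt rad k2))
    10 (wt rad k1)) 8 (wt rad D)) 4 j) (B := B) (Zb := Zb) (D := d + 2 + d) (S := S) (n := n0)
    (R := fun y c => ∀ x, Valid rad D x → enc rad x D = enc rT y (d + 2 + d + 1) → R x c) hP hK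
    ((((((hB.mono (by omega)).set 12 (by omega)).set 11 (by omega)).set 10 (by omega)).set 8
      (by omega)).set 4 (by omega)) (by simpa using hU) (by simpa using hS) (by simp) (by simp [w3])
    (by simp [w1]) (by simp [w2]) (by simp) re rx (by omega) le_rfl hd
    ((Nat.mul_le_mul_right _ (by omega)).trans hb) (rD ▸ hW) (w3 ▸ hn) (w1 ▸ hZ) (w3 ▸ h0)
    (w3 ▸ hsz)
  rw [show update (update (update (update (update g 12 b) 11 (wt rad k2)) 10 (wt rad k1)) 8
    (wt rad D)) 4 j = upds g [(4, ej), (8, eN), (10, eZ), (11, eX), (12, eb)] by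
      simp only [upds, e1, e2, e3, e4, e5]] at key
  refine (Step.lets _ (by simp) (by simp) (hB.mono (by simp only [dLets]; omega))
    (key.mono (fun l hl => ?_) (fun l hl => ?_) le_rfl)).le ?_
  · obtain ⟨u, h1, h2, h3⟩ := hl
    exact ⟨u, w3 ▸ h1, w3 ▸ h2, fun y _ x hx e => e ▸ h3 x hx⟩
  · refine (hl.view w3.symm (fun x => dec rT (enc rad x D)) fun x hx =>
      ⟨valid_dec (w3 ▸ enc_lt hx), enc_dec (w3 ▸ enc_lt hx)⟩).mono fun x c hx _ a hG => ?_
    obtain ⟨c1, c2, c3, c4⟩ := hφ x hx hG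
    refine a _ c1 ?_
    have hy := valid_dec (rad := rT) (w3 ▸ enc_lt hx)
    have ey := enc_dec (rad := rT) (w3 ▸ enc_lt hx)
    generalize dec rT (enc rad x D) = y at hy ey
    have u1 := enc_swap o1 o2 (fun i hi => c2 i (by omega)) c3 c4
    have u2 := enc_swap (rad := rT) (x := y) (y := fun k => y (swI d (d + 2) 1 k)) (k1 := 1)
      (k2 := d + 2) (ℓ := d) (D := d + 2 + d + 1) (by omega) (by omega)
      (fun i hi => by rw [swI, if_neg (by omega), if_neg (by omega)])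
      (enc_congr (fun i hi => by rw [re i hi, rx i hi]) fun i hi => by
        beta_reduce
        rw [swI, if_neg (by omega), if_pos (by omega), Nat.add_sub_cancel_left])
      (enc_congr (fun i hi => by rw [re i hi, rx i hi]) fun i hi => by
        beta_reduce
        rw [swI, if_pos (by omega), Nat.add_sub_cancel_left])
    have u3 : blk rT y 1 d = blk rad x k1 ℓ := by
      rw [← enc_blk hy (by omega), ← enc_blk hx (by omega), ey, w1, b1, bw, wt_const re]
    have u4 : blk rT y (d + 2) d = blk rad x k2 ℓ := by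
      rw [← enc_blk hy (by omega), ← enc_blk hx (by omega), ey, w2, b2, bw, wt_const rx]
    rw [u3, u4, w1, w2, ey] at u2
    omega
  · have v3 : Zb ≤ wt rad D * S := hZ.trans (Nat.mul_le_mul_right _ p6)
    have v8 : wt rad D * S ≤ d * (wt rad D * S) := Nat.le_mul_of_pos_left _ (by omega)
    rw [w3]
    simp only [List.length_cons, List.length_nil]
    generalize wt rad D * S = L at *
    generalize pdT ^ j * (b + 1) * n0 = A at *
    nlinarith [Nat.zero_le A, Nat.zero_le (K * (d * L)), Nat.zero_le (j * (d * L))]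

end Vale.Agent.P338
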