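import Vale.Agent.P338.Arr

/-! Linear maps on digit vectors modulo `q`. -/

namespace Vale.Agent.P338

open Function Matrix

variable {q : ℕ}

/-- The map on digit vectors induced by a map on residues. -/
def act (q : ℕ) (G : (ℕ → ZMod q) → ℕ → ZMod q) (x : ℕ → ℕ) : ℕ → ℕ :=
  fun k => x k / q * q + (G (fun k => (x k : ZMod q)) k).val

theorem act_cast [NeZero q] (G : (ℕ → ZMod q) → ℕ → ZMod q) (x : ℕ → ℕ) :
    (fun k => (act q G x k : ZMod q)) = G fun k => (x k : ZMod q) := by
  funext k; simp [act]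

theorem act_act [NeZero q] (G G' : (ℕ → ZMod q) → ℕ → ZMod q) (x : ℕ → ℕ) :
    act q G (act q G' x) = act q (G ∘ G') x := by
  funext k
  have h : 0 < q := NeZero.pos q
  rw [act, act_cast, act, act, Function.comp, add_comm (x k / q * q),
    Nat.add_mul_div_right _ _ h, Nat.div_eq_of_lt (ZMod.val_lt _), zero_add]

theorem act_fix {G : (ℕ → ZMod q) → ℕ → ZMod q} {x : ℕ → ℕ} {k : ℕ}
    (h : G (fun k => (x k : ZMod q)) k = x k) : act q G x k = x k := by
  rw [act, h, ZMod.val_natCast, Nat.div_add_mod']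

theorem act_id (x : ℕ → ℕ) : act q id x = x := funext fun _ => act_fix rfl

theorem act_small {G : (ℕ → ZMod q) → ℕ → ZMod q} {x : ℕ → ℕ} {k : ℕ} (h : x k < q) :
    act q G x k = (G (fun k => (x k : ZMod q)) k).val := by
  rw [act, Nat.div_eq_of_lt h, zero_mul, zero_add]

section blk

variable {A : Type} [CommRing A] {nb d tp sp p : ℕ}

/-- Add to the `nb` blocks of `d` digits from `tp` on the combinations `M` of the blocks from
`sp` on. -/
def blkG (d tp sp : ℕ) (M : Matrix (Fin nb) (Fin nb) A) (y : ℕ → A) (k : ℕ) : A :=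
  if h : tp ≤ k ∧ (k - tp) / d < nb ∧ 0 < d then
    y k + ∑ l : Fin nb, M ⟨(k - tp) / d, h.2.1⟩ l * y (sp + l * d + (k - tp) % d) else y k

def win (nb d p : ℕ) (y : ℕ → A) : Matrix (Fin nb) (Fin d) A := of fun l s => y (p + l * d + s)

theorem win_lt (l : Fin nb) (s : Fin d) : l * d + s < nb * d := by
  have := l.2
  have := s.2
  nlinarith

theorem blkG_out (M : Matrix (Fin nb) (Fin nb) A) (y : ℕ → A) {k : ℕ}
    (h : k < tp ∨ tp + nb * d ≤ k) : blkG d tp sp M y k = y k := by
  refine dif_neg fun h' => ?_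
  have := (Nat.div_lt_iff_lt_mul h'.2.2).1 h'.2.1
  omega

theorem blkG_in (M : Matrix (Fin nb) (Fin nb) A) (y : ℕ → A) (l : Fin nb) (s : Fin d) :
    blkG d tp sp M y (tp + l * d + s) = y (tp + l * d + s) + ∑ r, M l r * y (sp + r * d + s) := by
  have e : tp + l * d + s - tp = l * d + s := by omega
  have e1 : (l * d + s) / d = l := by
    rw [mul_comm, Nat.mul_add_div s.pos, Nat.div_eq_of_lt s.2, add_zero]
  have e2 : (l * d + s) % d = s := by rw [Nat.mul_add_mod_self_right, Nat.mod_eq_of_lt s.2]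
  rw [blkG, dif_pos ⟨by omega, by rw [e, e1]; exact l.2, s.pos⟩]
  simp only [e, e1, e2]

theorem win_blkG (M : Matrix (Fin nb) (Fin nb) A) (y : ℕ → A) :
    win nb d tp (blkG d tp sp M y) = win nb d tp y + M * win nb d sp y := by
  ext l s
  simp [win, blkG_in, Matrix.mul_apply]

theorem win_blkG_out (M : Matrix (Fin nb) (Fin nb) A) (y : ℕ → A)
    (h : p + nb * d ≤ tp ∨ tp + nb * d ≤ p) : win nb d p (blkG d tp sp M y) = win nb d p y := by
  ext l s
  have := win_lt l s
  exact blkG_out _ _ (by omega)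

omit [CommRing A] in
theorem win_eq {y y' : ℕ → A} (h : win nb d p y = win nb d p y') {k : ℕ} (h1 : p ≤ k)
    (h2 : k < p + nb * d) : y k = y' k := by
  have hd : 0 < d := Nat.pos_of_mul_pos_left (show 0 < nb * d by omega)
  have := congrFun (congrFun h ⟨(k - p) / d, (Nat.div_lt_iff_lt_mul hd).2 (by omega)⟩)
    ⟨(k - p) % d, Nat.mod_lt _ hd⟩
  simp only [win, of_apply] at this
  rwa [add_assoc, Nat.div_add_mod', Nat.add_sub_cancel' h1] at this

theorem blkG_zero (y : ℕ → A) : blkG d tp sp (0 : Matrix (Fin nb) (Fin nb) A) y = y := by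
  funext k; simp [blkG]

omit [CommRing A] in
theorem ext_win {y y' : ℕ → A} (h1 : win nb d tp y = win nb d tp y')
    (h2 : win nb d sp y = win nb d sp y')
    (h3 : ∀ k, (k < tp ∨ tp + nb * d ≤ k) → (k < sp ∨ sp + nb * d ≤ k) → y k = y' k) : y = y' := by
  funext k
  by_cases a : tp ≤ k ∧ k < tp + nb * d
  · exact win_eq h1 a.1 a.2
  by_cases b : sp ≤ k ∧ k < sp + nb * d
  · exact win_eq h2 b.1 b.2
  exact h3 k (by omega) (by omega)

theorem blkG_add (h : sp + nb * d ≤ tp) (M M' : Matrix (Fin nb) (Fin nb) A) :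
    blkG d tp sp M ∘ blkG d tp sp M' = blkG d tp sp (M + M') := by
  funext y
  refine ext_win (nb := nb) (d := d) (tp := tp) (sp := sp) ?_ ?_ fun k h1 h2 => ?_
  · simp only [Function.comp, win_blkG, win_blkG_out _ _ (Or.inl h), Matrix.add_mul]; abel
  · simp only [Function.comp, win_blkG_out _ _ (Or.inl h)]
  · simp only [Function.comp, blkG_out _ _ h1]

/-- Conjugation of a shear by maps inside the two windows. -/
theorem blkG_conj (h : sp + nb * d ≤ tp) (M U V : Matrix (Fin nb) (Fin nb) A) (hU : U * U = 0)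
    (hV : V * V = 0) : blkG d sp sp (-V) ∘ blkG d tp tp U ∘ blkG d tp sp M ∘ blkG d tp tp (-U) ∘
      blkG d sp sp V = blkG d tp sp ((1 + U) * M * (1 + V)) := by
  funext y
  refine ext_win (nb := nb) (d := d) (tp := tp) (sp := sp) ?_ ?_ fun k h1 h2 => ?_
  · simp only [Function.comp, win_blkG, win_blkG_out _ _ (Or.inl h), win_blkG_out _ _ (Or.inr h),
      Matrix.add_mul, Matrix.mul_add, Matrix.neg_mul, Matrix.mul_neg, ← Matrix.mul_assoc, hU,
      Matrix.one_mul, Matrix.mul_one, Matrix.zero_mul]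
    abel
  · simp only [Function.comp, win_blkG, win_blkG_out _ _ (Or.inl h),
      Matrix.add_mul, Matrix.mul_add, Matrix.neg_mul, ← Matrix.mul_assoc, hV, Matrix.zero_mul]
    abel
  · simp only [Function.comp, blkG_out _ _ h1, blkG_out _ _ h2]

/-- The shear by a scalar on `n` digits. -/
def shG (n tp sp : ℕ) (c : A) (y : ℕ → A) (k : ℕ) : A :=
  if tp ≤ k ∧ k < tp + n then y k + c * y (sp + (k - tp)) else y k

theorem blkG_one (c : A) : blkG d tp sp (of fun (_ _ : Fin 1) => c) = shG d tp sp c := by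
  funext y k
  unfold blkG shG
  by_cases h : tp ≤ k ∧ k < tp + d
  · rw [if_pos h, dif_pos ⟨h.1, by rw [Nat.div_eq_of_lt (by omega)]; omega, by omega⟩]
    simp [Nat.mod_eq_of_lt (show k - tp < d by omega)]
  · rw [if_neg h, dif_neg fun h' => ?_]
    have := (Nat.div_lt_iff_lt_mul h'.2.2).1 h'.2.1
    omega

omit [CommRing A] in
theorem ext_blk {y y' : ℕ → A}
    (h1 : ∀ (l : Fin nb) (s : Fin d), y (tp + l * d + s) = y' (tp + l * d + s))
    (h3 : ∀ k, (k < tp ∨ tp + nb * d ≤ k) → y k = y' k) : y = y' :=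
  ext_win (nb := nb) (d := d) (tp := tp) (sp := tp) (by ext l s; exact h1 l s)
    (by ext l s; exact h1 l s) fun k h _ => h3 k h

theorem blkG_scalar (c : A) :
    blkG d tp sp (c • (1 : Matrix (Fin nb) (Fin nb) A)) = shG (nb * d) tp sp c := by
  funext y
  refine ext_blk (nb := nb) (d := d) (tp := tp) (fun l s => ?_) fun k h => ?_
  · have := win_lt l s
    rw [blkG_in, shG, if_pos (by omega), show tp + l * d + s - tp = l * d + s by omega]
    simp [Matrix.one_apply, add_assoc]
  · rw [blkG_out _ _ h, shG, if_neg (by omega)]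

theorem blkG_single (i j : Fin nb) (c : A) :
    blkG d tp sp (Matrix.single i j c) = shG d (tp + i * d) (sp + j * d) c := by
  funext y
  refine ext_blk (nb := nb) (d := d) (tp := tp) (fun l s => ?_) fun k h => ?_
  · have := s.2
    rw [blkG_in, shG]
    by_cases e : i = l
    · subst e
      rw [if_pos (by omega), Nat.add_sub_cancel_left]
      simp [Matrix.single_apply]
    · rw [if_neg fun h => e (Fin.ext (by nlinarith [h.1, h.2]))]
      simp [e]
  · have : (i + 1) * d ≤ nb * d := Nat.mul_le_mul_right _ i.2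
    rw [add_mul] at this
    rw [blkG_out _ _ h, shG, if_neg (by omega)]

def colM (i : Fin nb) (α : Fin nb → A) : Matrix (Fin nb) (Fin nb) A :=
  of fun r l => if l = i ∧ r ≠ i then α r else 0

def rowM (j : Fin nb) (β : Fin nb → A) : Matrix (Fin nb) (Fin nb) A :=
  of fun r l => if r = j ∧ l ≠ j then β l else 0

/-- The factorization of a rank-one matrix. -/
theorem rank_one (i j : Fin nb) (a b α β : Fin nb → A) (e : A) (ha : ∀ l, α l * a i = a l)
    (hb : ∀ l, β l * b j = b l) :
    (1 + colM i α) * Matrix.single i j (e * a i * b j) * (1 + rowM j β) = e • vecMulVec a b := by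
  ext r l
  simp only [colM, rowM, Matrix.mul_apply, Matrix.single_apply, Matrix.add_apply, Matrix.one_apply,
    of_apply, Matrix.smul_apply, vecMulVec_apply, smul_eq_mul, ite_and, mul_ite, mul_zero, ite_mul,
    zero_mul, Finset.sum_ite_eq, Finset.mem_univ, if_true]
  by_cases h1 : r = i <;> by_cases h2 : j = l <;> simp [h1, h2, eq_comm]
  · ring
  · rw [← hb l]; ring
  · rw [← ha r]; ring
  · rw [← ha r, ← hb l]; ring

theorem col_sq (i : Fin nb) (α : Fin nb → A) : colM i α * colM i α = 0 := by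
  ext r l
  rw [Matrix.mul_apply]
  refine Finset.sum_eq_zero fun s _ => ?_
  by_cases h : s = i <;> simp [h, colM]

theorem row_sq (j : Fin nb) (β : Fin nb → A) : rowM j β * rowM j β = 0 := by
  ext r l
  rw [Matrix.mul_apply]
  refine Finset.sum_eq_zero fun s _ => ?_
  by_cases h : s = j <;> simp [h, rowM]

/-- Negation of `n` digits. -/
def ngG (n tp : ℕ) (y : ℕ → A) (k : ℕ) : A := if tp ≤ k ∧ k < tp + n then -y k else y k

/-- Exchange of two windows. -/
def swI (n tp sp k : ℕ) : ℕ :=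
  if tp ≤ k ∧ k < tp + n then sp + (k - tp) else if sp ≤ k ∧ k < sp + n then tp + (k - sp) else k

theorem sw_eq (h : sp + d ≤ tp) (y : ℕ → A) :
    (shG d sp tp 1 ∘ ngG d sp ∘ shG d tp sp 1 ∘ shG d sp tp (-1)) y = fun k => y (swI d tp sp k) := by
  funext k
  simp only [Function.comp, shG, ngG, swI]
  by_cases a : tp ≤ k ∧ k < tp + d
  · have b : ¬ (sp ≤ k ∧ k < sp + d) := by omega
    have c : sp ≤ sp + (k - tp) ∧ sp + (k - tp) < sp + d := by omega
    simp only [a, b, c, if_true, if_false, and_self, Nat.add_sub_cancel_left,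
      Nat.add_sub_cancel' a.1]
    ring
  by_cases b : sp ≤ k ∧ k < sp + d
  · have c : tp ≤ tp + (k - sp) ∧ tp + (k - sp) < tp + d := by omega
    have c' : ¬ (sp ≤ tp + (k - sp) ∧ tp + (k - sp) < sp + d) := by omega
    simp only [a, b, c, c', if_true, if_false, and_self, Nat.add_sub_cancel_left,
      Nat.add_sub_cancel' b.1]
    ring
  · simp only [a, b, if_false]

end blk

/-- Exchange of two blocks at the level of indices. -/
theorem enc_swap {rad x y : ℕ → ℕ} {D k1 k2 ℓ : ℕ} (h1 : k1 + ℓ ≤ k2) (h2 : k2 + ℓ ≤ D)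
    (h : ∀ i, i < k1 ∨ (k1 + ℓ ≤ i ∧ i < k2) ∨ (k2 + ℓ ≤ i ∧ i < D) → y i = x i)
    (e1 : blk rad y k1 ℓ = blk rad x k2 ℓ) (e2 : blk rad y k2 ℓ = blk rad x k1 ℓ) :
    enc rad y D + wt rad k1 * blk rad x k1 ℓ + wt rad k2 * blk rad x k2 ℓ =
      enc rad x D + wt rad k1 * blk rad x k2 ℓ + wt rad k2 * blk rad x k1 ℓ := by
  rw [enc_three h2, enc_three (x := x) h2, enc_three h1, enc_three (x := x) h1, e1, e2,
    enc_congr (rad' := rad) (y := x) (fun _ _ => rfl) fun j hj => h j (by omega),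
    blk_congr (x := y) (y := x) (k := k1 + ℓ) fun j hj => h _ (by omega),
    blk_congr (x := y) (y := x) (k := k2 + ℓ) fun j hj => h _ (by omega)]
  ring

theorem pow_pad (X δ n : ℕ) (h : 2 * n * δ ≤ X) : (X + δ) ^ n ≤ 2 * X ^ n := by
  have key : ∀ i ≤ n, (X + δ) ^ i * X ≤ X ^ (i + 1) + (X + δ) ^ i * (i * δ) := by
    intro i hi
    induction i with
    | zero => simp
    | succ i ih =>
      have := Nat.mul_le_mul_left X (ih (by omega))
      rw [pow_succ (X + δ), pow_succ X (i + 1)]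
      nlinarith [Nat.zero_le ((X + δ) ^ i * δ * δ), Nat.zero_le ((X + δ) ^ i * δ * δ * i)]
  rcases Nat.eq_zero_or_pos X with rfl | hX
  · rcases n with _ | n
    · simp
    · obtain rfl : δ = 0 := by nlinarith
      simp
  have := key n le_rfl
  have h2 := Nat.mul_le_mul_left ((X + δ) ^ n) h
  refine Nat.le_of_mul_le_mul_right ?_ hX
  rw [pow_succ] at this
  nlinarith

theorem wt_mono {rad rad' : ℕ → ℕ} {D : ℕ} (h : ∀ k < D, rad k ≤ rad' k) :
    wt rad D ≤ wt rad' D := by
  induction D with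
  | zero => rfl
  | succ D ih => exact Nat.mul_le_mul (ih fun k hk => h k (by omega)) (h D (by omega))

theorem wt_le {rad : ℕ → ℕ} {D k : ℕ} (h0 : 0 < wt rad D) (hk : k ≤ D) : wt rad k ≤ wt rad D := by
  obtain ⟨ℓ, rfl⟩ := Nat.exists_eq_add_of_le hk
  rw [wt_add] at h0 ⊢
  exact Nat.le_mul_of_pos_right _ (Nat.pos_of_mul_pos_left h0)

theorem wt_pos {rad : ℕ → ℕ} {D k : ℕ} (h0 : 0 < wt rad D) (hk : k ≤ D) : 0 < wt rad k := by
  obtain ⟨ℓ, rfl⟩ := Nat.exists_eq_add_of_le hk
  rw [wt_add] at h0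
  exact Nat.pos_of_mul_pos_right h0

theorem wt_win {rad : ℕ → ℕ} {p n X : ℕ} (h : ∀ i < n, rad (p + i) = X) :
    wt rad (p + n) = wt rad p * X ^ n := by rw [wt_add, bw, wt_const h]

/-- The cell whose bits are given by `f`. -/
def cel (S : ℕ) (f : ℕ → ZMod 2) : List Bool := (List.range S).map fun z => decide (f z = 1)

theorem cel_add (S : ℕ) (f f' : ℕ → ZMod 2) :
    List.zipWith xor (cel S f) (cel S f') = cel S (f + f') := by
  simp only [cel, List.zipWith_map, List.zipWith_self, Pi.add_apply]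
  refine List.map_congr_left fun z _ => ?_
  exact (by decide : ∀ a b : ZMod 2, xor (decide (a = 1)) (decide (b = 1)) = decide (a + b = 1)) _ _

theorem cel_of {S : ℕ} {c : List Bool} (h : c.length = S) :
    cel S (fun z => if c.getD z false then 1 else 0) = c := by
  refine List.ext_getElem (by simp [cel, h]) fun i h1 h2 => ?_
  simp only [cel, List.getElem_map, List.getElem_range, List.getD_eq_getElem _ _ h2]
  exact (by decide : ∀ b : Bool, decide ((if b then 1 else 0 : ZMod 2) = 1) = b) _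

end Vale.Agent.P338
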