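import Vale.Agent.P338.Perm
import Vale.Agent.P338.Item

/-! Padding, selection and cellwise passes. -/

namespace Vale.Agent.P338

open Function

variable {P : Tbl} {g : ℕ → ℕ} {B K Zb t : ℕ} {rad : ℕ → ℕ} {D S k ℓ : ℕ}
  {R R2 : (ℕ → ℕ) → List Bool → Prop}

def fitB (e2 : PF) : Cmd :=
  loc 17 (loc 19 (.seq (ruler 17 (.mul e2 (.glob 3)) []) (.seq (tk 19 12 17)
    (.seq (clr 12) (app 19 12)))))

/-- Cut or pad every group of `eG` cells to `e2` cells. -/
def fitM (eG e2 : PF) : Cmd := passI false eG (fitB e2)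

def dFit (eG e2 : PF) : ℕ := dPass eG + (PF.mul e2 (.glob 3)).deg + 8

theorem wt_update_le (hk : D ≤ k) (Y : ℕ) : wt (update rad k Y) D = wt rad D :=
  wt_congr fun _ hj => update_of_ne (by omega) _ _

theorem wt_split (hk : k < D) : wt rad D = bw rad (k + 1) (D - (k + 1)) * (wt rad k * rad k) := by
  have := wt_add rad (k + 1) (D - (k + 1))
  rwa [Nat.add_sub_cancel' hk, wt, mul_comm] at this

theorem bw_update (Y : ℕ) : bw (update rad k Y) (k + 1) ℓ = bw rad (k + 1) ℓ :=
  wt_congr fun _ _ => update_of_ne (by omega) _ _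

theorem lt_mul_of {Z X z y : ℕ} (hz : z < Z) (hy : y < X) : z + Z * y < Z * X := by nlinarith

theorem div_mul_add {G h j : ℕ} (hj : j < G) : (h * G + j) / G = h := by
  rw [mul_comm, Nat.mul_add_div (by omega), Nat.div_eq_of_lt hj, add_zero]

theorem fit_lay {eG e2 : PF} {Y : ℕ} (hB : Bud g B (dFit eG e2) Zb) (hk : k < D)
    (e0 : eG.eval g [] = wt rad (k + 1)) (e1 : e2.eval g [] = wt rad k * Y) (hS : g 3 = S)
    (hZ : Zb ≤ wt rad (k + 1) * S) (hn : wt rad D < 2 ^ B) (h0 : 0 < wt rad D) :
    Step P (fitM eG e2) g (Lay rad D S R) (Lay (update rad k Y) D S fun x c =>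
      if x k < rad k then R x c else c = List.replicate S false)
      (400 * ((wt rad D + wt (update rad k Y) D) * S)) := by
  rintro σ hg ⟨u, h1, h2, h3⟩
  have hw := wt_split (rad := rad) hk
  have hw' := wt_split (rad := update rad k Y) hk
  rw [bw_update, wt_update_le le_rfl, update_self] at hw'
  rw [wt] at e0 hZ
  generalize hH : bw rad (k + 1) (D - (k + 1)) = H at hw hw'
  generalize hZ' : wt rad k = Z at *
  generalize hY : rad k = X at *
  have hH0 : 0 < H := Nat.pos_of_mul_pos_right (hw ▸ h0)
  have hlt : ∀ h < H, ∀ j < Z * X, h * (Z * X) + j < wt rad D := by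
    intro h hh j hj
    rw [hw]; nlinarith
  have key := passI_ok (P := P) (two := false) (body := fitB e2) (v := u) (rest := σ 4) (H := H)
    (fo := fun h => flat (Z * Y) fun j =>
      if j < Z * X then u (h * (Z * X) + j) else List.replicate S false)
    (Go := Z * Y * S) (t := 100 * (Z * X * S) + 100 * (Z * Y * S))
    hg (hB.mono (by unfold dFit; omega)) e0 hS hZ (hw ▸ hn) hH0 (hw ▸ h1) (by simp)
    (hw ▸ h2) (by simp) (fun h hh => ?_) fun h hh τ a1 a2 a3 a4 => ?_
  · refine ⟨_, ⟨fun j => if j % (Z * Y) < Z * X then u (j / (Z * Y) * (Z * X) + j % (Z * Y))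
      else List.replicate S false, rfl, fun j hj => ?_, fun x hx => ?_⟩, key.mono ?_ ?_⟩
    · beta_reduce
      split_ifs with h
      · rw [hw'] at hj
        exact h2 _ (hlt _ (Nat.div_lt_of_lt_mul (by rwa [mul_comm])) _ h)
      · simp
    · have b1 := enc_three (rad := update rad k Y) (x := x) (ℓ := 1) hk
      have b2 := enc_three (rad := rad) (x := x) (ℓ := 1) hk
      have b3 := enc_lt (hx.mono hk.le)
      have b4 := hx k hk
      have b5 : enc (update rad k Y) x k = enc rad x k :=
        enc_congr (fun _ hj => update_of_ne (by omega) _ _) fun _ _ => rfl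
      have b6 : blk (update rad k Y) x (k + 1) (D - (k + 1)) = blk rad x (k + 1) (D - (k + 1)) :=
        enc_congr (fun _ _ => update_of_ne (by omega) _ _) fun _ _ => rfl
      rw [wt_update_le le_rfl, b5, hZ'] at b3
      rw [update_self] at b4
      rw [wt_update_le le_rfl, b5, b6, bw_one, blk_one, update_self, hZ'] at b1
      rw [bw_one, blk_one, hZ', hY] at b2
      have c1 := (idx_parts (h := blk rad x (k + 1) (D - (k + 1))) b4 b3).1
      have c2 : enc (update rad k Y) x D % (Z * Y) = enc rad x k + Z * x k := by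
        rw [b1, mul_add, ← add_assoc, ← mul_assoc, Nat.add_mul_mod_self_left,
          Nat.mod_eq_of_lt (lt_mul_of b3 b4)]
      beta_reduce
      rw [c2, b1, c1]
      by_cases h : x k < X
      · rw [if_pos h, if_pos (lt_mul_of b3 h)]
        have := h3 x fun j hj => by
          by_cases e : j = k
          · rw [e, hY]; exact h
          · simpa [e] using hx j hj
        convert this using 2
        rw [b2]; ring
      · rw [if_neg h, if_neg (by
          have := Nat.mul_le_mul_left Z (not_lt.mp h)
          omega)]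
    · rw [update_eq_self, hw', flat_mul]
      congr 1
      refine flat_congr fun h hh => flat_congr fun j hj => ?_
      rw [Nat.mul_add_mod_self_right, Nat.mod_eq_of_lt hj, div_mul_add hj]
    · rw [hw', hw]; ring_nf; omega
  · refine (length_flat fun j hj => ?_).le
    split_ifs with h'
    · exact h2 _ (hlt h hh j h')
    · simp
  · have r1 := ruler_ok (P := P) (.mul e2 (.glob 3)) (d := 17) (regs := []) (l := [])
      (((hg.congr fun v hv => a1 v (by unfold Out; omega)).upd (v := 17) [] (by omega)).upd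
        (v := 19) [] (by omega)) rfl (by simp) (by omega) hB.sz (by simp)
    have p1 := hB.pow (K' := (PF.mul e2 (.glob 3)).deg + 8) (by unfold dFit; omega)
    have p3 := hB.pos
    have l1 : ∀ j < Z * X, (u (h * (Z * X) + j)).length = S := fun j hj => h2 _ (hlt h hh j hj)
    have l2 := length_flat l1
    simp only [PF.eval_mul, PF.eval_glob, Nat.reduceLT, reduceIte, e1, hS] at r1
    refine (Ok.loc (Ok.loc (r1.seq
      ((tk_ok _ (by omega) (by omega) (by omega) (by omega) (by omega) (by omega)).seq
      ((clr_ok _ _).seq (app_ok _ (by omega) (by omega) (by omega))))))).mono ?_ ?_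
    · funext v
      simp only [update_apply, Nat.reduceEqDiff, reduceIte, a2, List.length_replicate,
        takeD_flat l1, List.append_nil]
      split_ifs <;> subst_vars <;> first | omega | rfl | exact a3
    · simp [a2, l2]; omega

def selB (e : PF) : Cmd :=
  loc 17 (.seq (evalTo 17 e [14]) (.cas 17 (.seq (clr 12) (app 13 12)) (.seq (clr 12) (app 13 12))
    (clr 13)))

/-- Take a group from the second operand if `e` is not zero, else from the first. -/
def selM (eG e : PF) : Cmd := passI true eG (selB e)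

def dSel (eG e : PF) : ℕ := dPass eG + e.deg

theorem sel_lay {eG e : PF} (hB : Bud g B (dSel eG e) Zb) (hk : k ≤ D)
    (e0 : eG.eval g [] = wt rad k) (hS : g 3 = S)
    (hZ : Zb ≤ wt rad k * S) (hn : wt rad D < 2 ^ B) (h0 : 0 < wt rad D) :
    Step2 P (selM eG e) g (fun l l' => Lay rad D S R l ∧ Lay rad D S R2 l')
      (Lay rad D S fun x c => if e.eval g [enc rad (up k x) D] = 0 then R x c else R2 x c)
      (400 * (wt rad D * S)) := by
  rintro σ hg ⟨⟨u, h1, h2, h3⟩, ⟨v, h1', h2', h3'⟩⟩
  have hw : wt rad D = bw rad k (D - k) * wt rad k := by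
    rw [mul_comm, ← wt_add, Nat.add_sub_cancel' hk]
  generalize hH : bw rad k (D - k) = H at hw
  generalize hZ' : wt rad k = G at *
  have hH0 : 0 < H := Nat.pos_of_mul_pos_right (hw ▸ h0)
  have hlt : ∀ h < H, ∀ j < G, h * G + j < wt rad D := by
    intro h hh j hj
    rw [hw]; nlinarith
  have key := passI_ok (P := P) (two := true) (body := selB e) (u := u) (v := v) (rest := [])
    (H := H) (fo := fun h => flat G fun j =>
      if e.eval g [h * G] = 0 then u (h * G + j) else v (h * G + j))
    (Go := G * S) (t := 100 * (G * S))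
    hg (hB.mono (by unfold dSel; omega)) e0 hS hZ (hw ▸ hn) hH0 (hw ▸ h1) (by simp [h1', hw])
    (hw ▸ h2) (fun _ => hw ▸ h2') (fun h hh => ?_) fun h hh τ a1 a2 a3 a4 => ?_
  · refine ⟨_, ⟨fun j => if e.eval g [j / G * G] = 0 then u j else v j, rfl, fun j hj => ?_,
      fun x hx => ?_⟩, key.mono ?_ ?_⟩
    · beta_reduce
      split_ifs
      exacts [h2 _ hj, h2' _ hj]
    · beta_reduce
      rw [← hZ', enc_div_mul hx hk]
      split_ifs
      exacts [h3 x hx, h3' x hx]
    · rw [hw, flat_mul]
      congr 1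
      refine flat_congr fun h hh => flat_congr fun j hj => ?_
      rw [div_mul_add hj]
    · rw [hw]; ring_nf; omega
  · refine (length_flat fun j hj => ?_).le
    split_ifs
    exacts [h2 _ (hlt h hh j hj), h2' _ (hlt h hh j hj)]
  · have hi : h * G < 2 ^ B := by have := hw ▸ hn; nlinarith
    have r1 := evalTo_ok (P := P) e (d := 17) (regs := [14]) (l := [h * G])
      ((hg.congr fun v hv => a1 v (by unfold Out; omega)).upd (v := 17) [] (by omega))
      (by simp [a4]) (by simp) (by omega) hB.sz (by simpa using Nat.size_le.mpr hi)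
    have hs := e.size_eval_le (l := [h * G]) hB.sz (by simpa using Nat.size_le.mpr hi)
    have p1 := hB.pow (K' := e.deg) (by unfold dSel; omega)
    have p3 := hB.pos
    have l1 := length_flat fun j hj => h2 _ (hlt h hh j hj)
    have l2 := length_flat fun j hj => h2' _ (hlt h hh j hj)
    simp only [reduceIte] at a3
    by_cases h0 : e.eval g [h * G] = 0
    · rw [h0, Nat.zero_bits] at r1
      refine (Ok.loc (r1.seq (Ok.casn (by simp) (clr_ok _ _)))).mono ?_ ?_
      · funext v
        simp only [update_apply, h0, reduceIte]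
        split_ifs <;> subst_vars <;> first | omega | rfl | exact a2
      · simp [a3, l2]; omega
    · rw [← length_bits] at hs
      rcases hb : (e.eval g [h * G]).bits with _ | ⟨b, r⟩
      · have := lv_bits (e.eval g [h * G])
        rw [hb] at this
        exact absurd this.symm h0
      rw [hb] at r1 hs
      refine (Ok.loc (r1.seq (Ok.casb (b := b) (l := r) (by simp) (by
        rw [Bool.cond_self]
        exact (clr_ok _ _).seq (app_ok _ (by omega) (by omega) (by omega)))))).mono ?_ ?_
      · funext v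
        simp only [update_apply, h0, reduceIte, Nat.reduceEqDiff, a3, List.append_nil]
        split_ifs <;> subst_vars <;> first | omega | rfl
      · simp [a2, a3, l1, l2] at hs ⊢; omega

/-- A cellwise pass; registers 60 and 61 hold lists whose lengths are parameter 1 and `ef`. -/
def zipM (two : Bool) (ef : PF) (body : Cmd) : Cmd :=
  loc 60 (loc 61 (.seq (ruler 60 (.glob 1) []) (.seq (ruler 61 ef [])
    (passE (.glob 3) (if two then .glob 3 else .cst 0) body))))

def dZip (ef : PF) : ℕ := 2 * (PF.glob 3).deg + (PF.cst 0).deg + (PF.glob 1).deg + ef.deg + 8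

theorem zipM_ok {body : Cmd} {σ : St} {two : Bool} {ef : PF} {n p f So : ℕ}
    {u v fo : ℕ → List Bool} {rest : List Bool} (hg : Num σ g) (hB : Bud g B (dZip ef) Zb)
    (hp : g 1 = p) (hf : ef.eval g [] = f) (hS : g 3 = S) (hS0 : 0 < S)
    (h3 : σ 3 = flat n u) (h4 : σ 4 = (if two then flat n v else []) ++ rest)
    (hu : ∀ j < n, (u j).length = S) (hv : two = true → ∀ j < n, (v j).length = S)
    (ho : ∀ j < n, (fo j).length ≤ So)
    (h : ∀ τ : St, τ 5 = σ 5 → (τ 60).length = p → (τ 61).length = f → ∀ j < n, τ 12 = u j →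
      τ 13 = (if two then v j else []) → Ok P body τ (update (update τ 13 []) 12 (fo j)) t) :
    Ok P (zipM two ef body) σ (update (update σ 4 rest) 3 (flat n fo))
      (n * (t + 18 * S + 4 * So + 50) + 64 * S + 32 * (p + f) + 90 * Zb) := by
  have hg' : Num (update (update σ 60 []) 61 []) g := (hg.upd _ (by omega)).upd _ (by omega)
  have r1 := ruler_ok (P := P) (.glob 1) (d := 60) (regs := []) (l := []) hg' rfl (by simp)
    (by omega) hB.sz (by simp)
  have r2 := ruler_ok (P := P) ef (d := 61) (regs := []) (l := [])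
    (hg'.upd (v := 60) (List.replicate ((PF.glob 1).eval g []) true) (by omega)) rfl (by simp)
    (by omega) hB.sz (by simp)
  simp only [PF.eval_glob, Nat.reduceLT, reduceIte, hp, hf] at r1 r2
  have key := passE_ok (P := P) (body := body) (B := B) (Zb := Zb) (eG := .glob 3)
    (eG' := if two then .glob 3 else .cst 0) (H := n) (G := S) (G' := if two then S else 0)
    (fa := u) (fb := fun j => if two then v j else []) (fo := fo) (I := fun _ => []) (rest := rest)
    ((hg'.upd (v := 60) (List.replicate p true) (by omega)).upd (v := 61) (List.replicate f true)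
      (by omega)) (hB.mono (by unfold dZip; split_ifs <;> omega)) (by simp [hS])
    (by cases two <;> simp [hS]) hS0 (by simpa using h3) (by cases two <;> simpa using h4) rfl hu
    (fun j hj => by cases two <;> simp [hv, hj]) ho fun j hj => Body0.body fun τ a1 a2 a3 =>
      h τ (by simpa using a1 5 (by unfold Out; omega)) (by simp [a1 60 (by unfold Out; omega)])
        (by simp [a1 61 (by unfold Out; omega)]) j hj a2 a3
  refine (Ok.loc (Ok.loc (r1.seq (r2.seq key)))).mono ?_ ?_
  · funext v
    simp only [update_apply]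
    split_ifs <;> subst_vars <;> first | omega | rfl
  · have := hB.pow (K' := (PF.glob 1).deg + 8) (by unfold dZip; omega)
    have := hB.pow (K' := ef.deg + 8) (by unfold dZip; omega)
    have := hB.pos
    have h5 : (if two then S else 0) ≤ S := by split_ifs <;> omega
    generalize (if two then S else 0) = x at *
    simp; nlinarith

/-- The body computes `F` on cells. -/
def Cell2 (P : Tbl) (body : Cmd) (p f S : ℕ) (F : List Bool → List Bool → List Bool) (t : ℕ) : Prop :=
  ∀ τ : St, (τ 60).length = p → (τ 61).length = f → (τ 12).length = S → (τ 13).length = S →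
    (F (τ 12) (τ 13)).length = S ∧
      Ok P body τ (update (update τ 13 []) 12 (F (τ 12) (τ 13))) (t * S)

def Cell1 (P : Tbl) (body : Cmd) (p f S : ℕ) (F : List Bool → List Bool) (t : ℕ) : Prop :=
  ∀ τ : St, (τ 60).length = p → (τ 61).length = f → (τ 12).length = S →
    (F (τ 12)).length = S ∧ Ok P body τ (update τ 12 (F (τ 12))) (t * S)

theorem zip_cost {n S p f t Zb : ℕ} (hn : 0 < n) (hS : 0 < S) (hp : p ≤ S) (hf : f ≤ S)
    (hZ : Zb ≤ n * S) : n * (t * S + 18 * S + 4 * S + 50) + 64 * S + 32 * (p + f) + 90 * Zb ≤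
      (t + 300) * (n * S) := by
  have : S ≤ n * S := Nat.le_mul_of_pos_left _ hn
  have : n ≤ n * S := Nat.le_mul_of_pos_right _ hS
  nlinarith

theorem zip_lay {body : Cmd} {ef : PF} {p f : ℕ} {F : List Bool → List Bool → List Bool}
    (hB : Bud g B (dZip ef) Zb) (hp : g 1 = p) (hf : ef.eval g [] = f) (hS : g 3 = S) (hS0 : 0 < S)
    (hpS : p ≤ S) (hfS : f ≤ S) (h0 : 0 < wt rad D) (hZ : Zb ≤ wt rad D * S)
    (h : Cell2 P body p f S F t) :
    Step2 P (zipM true ef body) g (fun l l' => Lay rad D S R l ∧ Lay rad D S R2 l')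
      (Lay rad D S fun x c => ∃ a b, a.length = S ∧ b.length = S ∧ R x a ∧ R2 x b ∧ c = F a b)
      ((t + 300) * (wt rad D * S)) := by
  rintro σ hg ⟨⟨u, h1, h2, h3⟩, ⟨v, h1', h2', h3'⟩⟩
  have hl : ∀ j < wt rad D, (F (u j) (v j)).length = S := fun j hj => by
    simpa using (h (update (update (update (update σ 60 (List.replicate p true)) 61
      (List.replicate f true)) 12 (u j)) 13 (v j)) (by simp) (by simp) (by simp [h2 j hj])
      (by simp [h2' j hj])).1
  refine ⟨_, ⟨fun j => F (u j) (v j), rfl, hl, fun x hx => ⟨_, _, h2 _ (enc_lt hx),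
    h2' _ (enc_lt hx), h3 x hx, h3' x hx, rfl⟩⟩, (zipM_ok (two := true) (So := S) (t := t * S)
    (v := v) hg hB hp hf hS hS0 h1 (by simp [h1']) h2 (fun _ => h2') (fun j hj => (hl j hj).le)
    fun τ _ a1 a2 j hj a3 a4 => ?_).le (zip_cost h0 hS0 hpS hfS hZ)⟩
  simp only [reduceIte] at a4
  rw [← a3, ← a4]
  exact (h τ a1 a2 (a3 ▸ h2 j hj) (a4 ▸ h2' j hj)).2

theorem map_lay {body : Cmd} {ef : PF} {p f : ℕ} {F : List Bool → List Bool}
    (hB : Bud g B (dZip ef) Zb) (hp : g 1 = p) (hf : ef.eval g [] = f) (hS : g 3 = S) (hS0 : 0 < S)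
    (hpS : p ≤ S) (hfS : f ≤ S) (h0 : 0 < wt rad D) (hZ : Zb ≤ wt rad D * S)
    (h : Cell1 P body p f S F t) :
    Step P (zipM false ef body) g (Lay rad D S R)
      (Lay rad D S fun x c => ∃ a, a.length = S ∧ R x a ∧ c = F a) ((t + 300) * (wt rad D * S)) := by
  rintro σ hg ⟨u, h1, h2, h3⟩
  have hl : ∀ j < wt rad D, (F (u j)).length = S := fun j hj => by
    simpa using (h (update (update (update σ 60 (List.replicate p true)) 61
      (List.replicate f true)) 12 (u j)) (by simp) (by simp) (by simp [h2 j hj])).1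
  refine ⟨_, ⟨fun j => F (u j), rfl, hl, fun x hx => ⟨_, h2 _ (enc_lt hx), h3 x hx, rfl⟩⟩,
    (zipM_ok (two := false) (So := S) (t := t * S) (v := u) (rest := σ 4) hg hB hp hf hS hS0 h1
    (by simp) h2 (by simp) (fun j hj => (hl j hj).le)
    fun τ _ a1 a2 j hj a3 a4 => ?_).mono (by simp) (zip_cost h0 hS0 hpS hfS hZ)⟩
  simp only [Bool.false_eq_true, reduceIte] at a4
  rw [← a3, ← a4, update_eq_self]
  exact (h τ a1 a2 (a3 ▸ h2 j hj)).2

end Vale.Agent.P338
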