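import Vale.Agent.P338.SwapA
import Vale.Agent.P338.Zip
import Vale.Agent.P338.Lets

/-! Commands that realize maps on digit vectors. -/

namespace Vale.Agent.P338

open Function

variable {P : Tbl} {g rad : ℕ → ℕ} {B Zb t t' D S q : ℕ} {c c' : Cmd}
  {φ φ' : (ℕ → ℕ) → ℕ → ℕ}

/-- `c` pulls the array back along `φ`. -/
def Rz (P : Tbl) (c : Cmd) (g rad : ℕ → ℕ) (D S : ℕ) (φ : (ℕ → ℕ) → ℕ → ℕ) (t : ℕ) : Prop :=
  ∀ R : (ℕ → ℕ) → List Bool → Prop, Step P c g (Lay rad D S R) (Lay rad D S fun x => R (φ x)) t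

theorem Rz.le (h : Rz P c g rad D S φ t) (ht : t ≤ t') : Rz P c g rad D S φ t' :=
  fun R => (h R).le ht

theorem Rz.congr (h : Rz P c g rad D S φ t) (e : ∀ x, Valid rad D x → φ x = φ' x) :
    Rz P c g rad D S φ' t := fun R => (h R).post fun _ hl => hl.mono fun x _ hx _ h => e x hx ▸ h

theorem Rz.skip : Rz P .skip g rad D S id 1 := fun _ => Step.skip

theorem Rz.seq (h : Rz P c g rad D S φ t) (h' : Rz P c' g rad D S φ' t') :
    Rz P (.seq c c') g rad D S (φ ∘ φ') (t + t' + 1) := fun R => (h R).seq (h' fun x => R (φ x))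

theorem Rz.seqA [NeZero q] {G G' : (ℕ → ZMod q) → ℕ → ZMod q} (h : Rz P c g rad D S (act q G) t)
    (h' : Rz P c' g rad D S (act q G') t') :
    Rz P (.seq c c') g rad D S (act q (G ∘ G')) (t + t' + 1) :=
  (h.seq h').congr fun _ _ => act_act _ _ _

theorem Rz.forN {i n : ℕ} {e : PF} (Φ π : ℕ → (ℕ → ℕ) → ℕ → ℕ) (hi : i < 30)
    (hb : Bud g B (dFor i e) Zb) (hv : e.eval g [] = n) (hn : n < 2 ^ B)
    (h : ∀ j < n, Rz P c (update g i j) rad D S (π j) t) (h0 : ∀ x, Φ 0 x = x)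
    (hs : ∀ j < n, ∀ x, Valid rad D x → Φ j (π j x) = Φ (j + 1) x) :
    Rz P (forN i e c) g rad D S (Φ n) (n * (t + 40 * Zb) + 20 * Zb) := fun R => by
  have := Step.forN (P := P) (c := c) (R := fun j => Lay rad D S fun x => R (Φ j x)) hi hb hv hn
    fun j hj => (h j hj _).post fun _ hl => hl.mono fun x _ hx _ h => hs j hj x hx ▸ h
  simpa only [h0] using this

theorem eval_pow' {l : List ℕ} (hU : g 0 + 1 = 2 ^ B) {a n : PF} {x k : ℕ} (ha : a.eval g l = x)
    (hn : n.eval g l = k) (h2 : 2 ≤ x) (hb : x ^ k < 2 ^ B) : (PF.pow a n).eval g l = x ^ k := by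
  have h1 : 2 ^ k < 2 ^ B := (Nat.pow_le_pow_left h2 k).trans_lt hb
  have h3 := (Nat.pow_lt_pow_iff_right (by omega)).1 h1
  subst ha hn
  exact PF.eval_pow hU h3.le (by omega) hb

theorem win_pow {p n i : ℕ} (h : ∀ i < n, rad (p + i) = q) (hD : p + n ≤ D) (h0 : 0 < wt rad D)
    (hi : i ≤ n) : wt rad (p + i) = wt rad p * q ^ i ∧ q ^ i ≤ wt rad D := by
  have e := wt_win (rad := rad) (p := p) (n := i) fun j hj => h j (by omega)
  refine ⟨e, le_trans ?_ (wt_le h0 (show p + i ≤ D by omega))⟩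
  rw [e]
  exact Nat.le_mul_of_pos_left _ (wt_pos h0 (by omega))

theorem valid_act [NeZero q] {x : ℕ → ℕ} {k : ℕ} (hx : Valid rad D x) (hk : k < D) (hq : rad k = q)
    (F : (ℕ → ZMod q) → ZMod q) : Valid rad D (act q (fun y => update y k (F y)) x) ∧
      (∀ j, j < k ∨ k + 1 ≤ j → act q (fun y => update y k (F y)) x j = x j) ∧
      blk rad (act q (fun y => update y k (F y)) x) k 1 = (F fun k => x k).val := by
  have h1 : ∀ j, j < k ∨ k + 1 ≤ j → act q (fun y => update y k (F y)) x j = x j :=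
    fun j hj => act_fix (update_of_ne (by omega) _ _)
  have h2 : act q (fun y => update y k (F y)) x k = (F fun k => x k).val := by
    rw [act_small (hq ▸ hx k hk), update_self]
  refine ⟨fun j hj => ?_, h1, by rw [blk_one, h2]⟩
  by_cases e : j = k
  · rw [e, h2, hq]; exact ZMod.val_lt _
  · rw [h1 j (by omega)]; exact hx j hj

theorem rot_rz [NeZero q] {k : ℕ} {eZ eG eo : PF} (hB : Bud g B (dRot eZ eG (.glob 9) eo) Zb)
    (hk : k < D) (hq : rad k = q) (g9 : g 9 = q) (e0 : eZ.eval g [] = wt rad k)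
    (e1 : eG.eval g [] = wt rad (k + 1)) (hS : g 3 = S) (hZ : Zb ≤ wt rad (k + 1) * S)
    (hn : wt rad D < 2 ^ B) (h0 : 0 < wt rad D) (ho : ∀ i0, eo.eval g [i0] < q)
    (F : (ℕ → ZMod q) → ZMod q) (hF : ∀ x, Valid rad D x →
      ((x k + eo.eval g [enc rad (up (k + 1) x) D] : ℕ) : ZMod q) = F fun k => x k) :
    Rz P (rotM eZ eG (.glob 9) eo) g rad D S (act q fun y => update y k (F y))
      (400 * (wt rad D * S)) := fun R => by
  refine (rot_lay (ℓ := 1) (R := R) hB hk e0 e1 hS hZ hn h0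
    (fun i0 => by simpa [bw_one, hq, g9] using (ho i0).le) _ (fun _ => True) fun x hx _ => ?_).post
    fun _ hl => hl.mono fun x _ _ _ h => h trivial
  obtain ⟨a1, a2, a3⟩ := valid_act hx hk hq F
  refine ⟨a1, a2, ?_⟩
  rw [a3, ← hF x hx, ZMod.val_natCast, blk_one, rotv, if_pos (by simpa [g9, ← hq] using hx k hk)]
  simp [g9]

theorem neg_rz [NeZero q] {k : ℕ} {eZ eG : PF} (hB : Bud g B (dNeg eZ eG (.glob 9)) Zb)
    (hk : k < D) (hq : rad k = q) (g9 : g 9 = q) (e0 : eZ.eval g [] = wt rad k)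
    (e1 : eG.eval g [] = wt rad (k + 1)) (hS : g 3 = S) (hZ : Zb ≤ wt rad (k + 1) * S)
    (hn : wt rad D < 2 ^ B) (h0 : 0 < wt rad D) :
    Rz P (negM eZ eG (.glob 9)) g rad D S (act q fun y => update y k (-y k))
      (400 * (wt rad D * S)) := fun R => by
  refine (neg_lay (ℓ := 1) (R := R) hB hk e0 e1 hS hZ hn h0
    (fun i0 => by simpa [bw_one, hq, g9] using NeZero.one_le) _ (fun _ => True)
    fun x hx _ => ?_).post fun _ hl => hl.mono fun x _ _ _ h => h trivial
  obtain ⟨a1, a2, a3⟩ := valid_act hx hk hq fun y => -y k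
  refine ⟨a1, a2, ?_⟩
  have h1 : x k < q := hq ▸ hx k hk
  rw [a3, blk_one, negv, ZMod.neg_val, ZMod.val_natCast, Nat.mod_eq_of_lt h1]
  simp only [PF.eval_glob, Nat.reduceLT, if_true, g9, ZMod.natCast_eq_zero_iff]
  rcases Nat.eq_zero_or_pos (x k) with h | h
  · simp [h]
  · rw [if_neg (Nat.not_dvd_of_pos_of_lt h h1), if_pos ⟨h, h1⟩]

/-- The round `glob 13` of a loop of `nb * ed` rounds, counted backwards. -/
def eR (nb : ℕ) (ed : PF) : PF := .sub (.sub (.mul (.cst nb) ed) (.cst 1)) (.glob 13)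

def eW (eT e : PF) : PF := .mul eT (.pow (.glob 9) e)

def eO (nb : ℕ) (ed eS : PF) (C : ℕ → ℕ → PF) : PF :=
  .mod (.sumL (fun l => .mul (.dr 1 (.tbl (fun r => C r l) (.div (eR nb ed) ed) nb))
    (.dg (.var 0) (.dr 1 (eW eS (.add (.mul (.cst l) ed) (.mod (eR nb ed) ed)))) (.glob 9))) nb)
    (.glob 9)

/-- Realizes `blkG`. -/
def blkM (nb : ℕ) (ed eT eS : PF) (C : ℕ → ℕ → PF) : Cmd :=
  forN 13 (.mul (.cst nb) ed)
    (rotM (eW eT (eR nb ed)) (.mul (eW eT (eR nb ed)) (.glob 9)) (.glob 9) (eO nb ed eS C))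

def dBlk (nb : ℕ) (ed eT eS : PF) (C : ℕ → ℕ → PF) : ℕ := dFor 13 (.mul (.cst nb) ed) +
  dRot (eW eT (eR nb ed)) (.mul (eW eT (eR nb ed)) (.glob 9)) (.glob 9) (eO nb ed eS C)

theorem blkG_dep {A : Type} [CommRing A] {nb d tp sp k : ℕ} {M : Matrix (Fin nb) (Fin nb) A}
    (hM : ∀ r l, M r l ≠ 0 → tp + (r + 1) * d ≤ sp + l * d) {y y' : ℕ → A}
    (h : ∀ j, k ≤ j → y j = y' j) : blkG d tp sp M y k = blkG d tp sp M y' k := by
  unfold blkG
  split_ifs with a
  · rw [h k le_rfl]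
    refine congrArg _ (Finset.sum_congr rfl fun l _ => ?_)
    by_cases e : M ⟨(k - tp) / d, a.2.1⟩ l = 0
    · rw [e, zero_mul, zero_mul]
    · have := hM _ _ e
      have := Nat.div_add_mod' (k - tp) d
      have := Nat.mod_lt (k - tp) a.2.2
      rw [h _ (by simp only [add_mul] at *; omega)]
  · exact h k le_rfl

theorem loop_cost {n L Zb : ℕ} (h : Zb ≤ L) :
    n * (400 * L + 40 * Zb) + 20 * Zb ≤ 500 * ((n + 1) * L) := by nlinarith

theorem blk_rz [NeZero q] {nb d tp sp : ℕ} {ed eT eS : PF} {C : ℕ → ℕ → PF}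
    {M : Matrix (Fin nb) (Fin nb) (ZMod q)} (hB : Bud g B (dBlk nb ed eT eS C) Zb)
    (hU : g 0 + 1 = 2 ^ B) (hS : g 3 = S) (g9 : g 9 = q) (h2 : 2 ≤ q)
    (e0 : ed.eval g [] = d) (e1 : ∀ i, ed.eval (update g 13 i) [] = d)
    (e2 : ∀ i, eT.eval (update g 13 i) [] = wt rad tp)
    (e3 : ∀ i, eS.eval (update g 13 i) [] = wt rad sp)
    (e4 : ∀ i, ∀ r l : Fin nb, ((C r l).eval (update g 13 i) [] : ZMod q) = M r l)
    (hM : ∀ r l, M r l ≠ 0 → tp + (r + 1) * d ≤ sp + l * d)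
    (r1 : ∀ i < nb * d, rad (tp + i) = q) (r2 : ∀ i < nb * d, rad (sp + i) = q)
    (o1 : tp + nb * d ≤ D) (o2 : sp + nb * d ≤ D) (hZ : Zb ≤ wt rad tp * S)
    (hn : wt rad D < 2 ^ B) (h0 : 0 < wt rad D) :
    Rz P (blkM nb ed eT eS C) g rad D S (act q (blkG d tp sp M))
      (500 * ((nb * d + 1) * (wt rad D * S))) := by
  have hw : ∀ k, tp ≤ k → k ≤ D → Zb ≤ wt rad k * S := fun k h1 h2 =>
    hZ.trans (Nat.mul_le_mul_right _ (wt_le (wt_pos h0 h2) h1))
  have hn' : nb * d < 2 ^ B := ((Nat.lt_pow_self h2).trans_le (win_pow r1 o1 h0 le_rfl).2).trans hn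
  refine ((Rz.forN (n := nb * d) (t := 400 * (wt rad D * S))
    (fun i => act q fun y k => if tp + nb * d ≤ k + i then blkG d tp sp M y k else y k)
    (fun i => act q fun y => update y (tp + (nb * d - 1 - i))
      (blkG d tp sp M y (tp + (nb * d - 1 - i)))) (by omega) (hB.mono (by unfold dBlk; omega))
    (by simp [e0]) hn' (fun i hi => ?_) (fun x => funext fun k => act_fix ?_)
    fun i hi x _ => ?_).congr fun x _ => ?_).le (loop_cost (hw D (by omega) le_rfl))
  · have hd : 0 < d := Nat.pos_of_mul_pos_left (show 0 < nb * d by omega)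
    have hU' : update g 13 i 0 + 1 = 2 ^ B := by simpa using hU
    have a0 : (eR nb ed).eval (update g 13 i) [] = nb * d - 1 - i := by simp [eR, e1]
    generalize hr : nb * d - 1 - i = r at a0
    have hr' : r < nb * d := by omega
    have a1 : (eW eT (eR nb ed)).eval (update g 13 i) [] = wt rad (tp + r) := by
      obtain ⟨b1, b2⟩ := win_pow r1 o1 h0 hr'.le
      rw [eW, PF.eval_mul, e2, eval_pow' hU' (by simp [g9]) a0 h2 (b2.trans_lt hn), b1]
    have a2 : r / d < nb := (Nat.div_lt_iff_lt_mul hd).2 hr'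
    refine rot_rz ((hB.set 13 (by omega)).mono (by unfold dBlk; omega)) (by omega) (r1 r hr')
      (by simp [g9]) a1 (by simp [a1, wt, r1 r hr', g9]) (by simp [hS])
      (hw _ (by omega) (by omega)) hn h0 (fun i0 => by simp [eO, g9, Nat.mod_lt, NeZero.pos q]) _
      fun x hx => ?_
    rw [blkG, dif_pos ⟨by omega, by simpa using a2, hd⟩]
    simp only [eO, PF.eval_mod, PF.eval_glob, Nat.reduceLT, if_true, ne_eq, Nat.reduceEqDiff,
      not_false_eq_true, update_of_ne, g9, Nat.cast_add, ZMod.natCast_mod, PF.eval_sumL,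
      Nat.cast_sum, Nat.add_sub_cancel_left, Finset.sum_range, PF.eval_mul, PF.eval_dr,
      List.drop_succ_cons, List.drop_zero, Nat.cast_mul, PF.eval_dg, PF.eval_var,
      List.getD_cons_zero]
    refine congrArg _ (Finset.sum_congr rfl fun l _ => ?_)
    rw [PF.eval_tbl _ _ _ (by simpa [a0, e1] using a2), PF.eval_div, a0, e1, e4 i ⟨r / d, a2⟩ l]
    by_cases e : M ⟨r / d, a2⟩ l = 0
    · rw [e, zero_mul, zero_mul]
    have c1 := hM _ _ e
    have c2 := Nat.div_add_mod' r d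
    have c3 := Nat.mod_lt r hd
    have c4 := win_lt l ⟨r % d, c3⟩
    simp only [add_mul] at c1 c4
    obtain ⟨b1, b2⟩ := win_pow r2 o2 h0 c4.le
    rw [eW, PF.eval_mul, e3, eval_pow' hU' (x := q) (k := l * d + r % d) (by simp [g9])
      (by simp [a0, e1]) h2 (b2.trans_lt hn), ← b1, add_assoc sp]
    have := up_digit hx (k := tp + r + 1) (j := sp + (l * d + r % d)) (by omega) (by omega)
    rw [r2 _ c4] at this
    rw [← this, ZMod.natCast_mod]
  · split_ifs with h
    · exact blkG_out _ _ (by omega)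
    · rfl
  · rw [act_act]
    congr 1
    funext y k
    simp only [Function.comp]
    split_ifs with a b b
    · exact blkG_dep hM fun j hj => update_of_ne (by omega) _ _
    · omega
    · rw [show k = tp + (nb * d - 1 - i) by omega, update_self]
    · exact update_of_ne (by omega) _ _
  · congr 1
    funext y k
    split_ifs with h
    · rfl
    · exact (blkG_out _ _ (by omega)).symm

def ngLoop (ed eT : PF) : Cmd :=
  forN 13 ed (negM (eW eT (.glob 13)) (.mul (eW eT (.glob 13)) (.glob 9)) (.glob 9))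

def dNg (ed eT : PF) : ℕ :=
  dFor 13 ed + dNeg (eW eT (.glob 13)) (.mul (eW eT (.glob 13)) (.glob 9)) (.glob 9)

theorem ng_rz [NeZero q] {d tp : ℕ} {ed eT : PF} (hB : Bud g B (dNg ed eT) Zb)
    (hU : g 0 + 1 = 2 ^ B) (hS : g 3 = S) (g9 : g 9 = q) (h2 : 2 ≤ q) (e0 : ed.eval g [] = d)
    (e2 : ∀ i, eT.eval (update g 13 i) [] = wt rad tp) (r1 : ∀ i < d, rad (tp + i) = q)
    (o1 : tp + d ≤ D) (hZ : Zb ≤ wt rad tp * S) (hn : wt rad D < 2 ^ B) (h0 : 0 < wt rad D) :
    Rz P (ngLoop ed eT) g rad D S (act q (ngG d tp)) (500 * ((d + 1) * (wt rad D * S))) := by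
  have hw : ∀ k, tp ≤ k → k ≤ D → Zb ≤ wt rad k * S := fun k h1 h2 =>
    hZ.trans (Nat.mul_le_mul_right _ (wt_le (wt_pos h0 h2) h1))
  have hn' : d < 2 ^ B := ((Nat.lt_pow_self h2).trans_le (win_pow r1 o1 h0 le_rfl).2).trans hn
  refine (Rz.forN (n := d) (t := 400 * (wt rad D * S)) (fun i => act q (ngG i tp))
    (fun i => act q fun y => update y (tp + i) (-y (tp + i))) (by omega)
    (hB.mono (by unfold dNg; omega)) e0 hn' (fun i hi => ?_) (fun x => funext fun k => act_fix ?_)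
    fun i hi x _ => ?_).le (loop_cost (hw D (by omega) le_rfl))
  · have a1 : (eW eT (.glob 13)).eval (update g 13 i) [] = wt rad (tp + i) := by
      obtain ⟨b1, b2⟩ := win_pow r1 o1 h0 hi.le
      rw [eW, PF.eval_mul, e2, eval_pow' (k := i) (by simpa using hU) (by simp [g9]) (by simp) h2
        (b2.trans_lt hn), b1]
    exact neg_rz ((hB.set 13 (by omega)).mono (by unfold dNg; omega)) (by omega) (r1 i hi)
      (by simp [g9]) a1 (by simp [a1, wt, r1 i hi, g9]) (by simp [hS])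
      (hw _ (by omega) (by omega)) hn h0
  · exact if_neg (by omega)
  · rw [act_act]
    congr 1
    funext y k
    simp only [Function.comp, ngG, update_apply]
    split_ifs <;> first | omega | rfl | (subst_vars; rfl)

/-- The radices with a window replaced. -/
def rset (rad : ℕ → ℕ) (p n Y : ℕ) : ℕ → ℕ := fun k => if p ≤ k ∧ k < p + n then Y else rad k

def ftM (ed eT eX eY : PF) : Cmd :=
  forN 13 ed (fitM (.mul (.mul eT (.pow eY (.glob 13))) eX) (.mul (.mul eT (.pow eY (.glob 13))) eY))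

def dFt (ed eT eX eY : PF) : ℕ := dFor 13 ed +
  dFit (.mul (.mul eT (.pow eY (.glob 13))) eX) (.mul (.mul eT (.pow eY (.glob 13))) eY)

theorem ft_lay {d tp X Y : ℕ} {ed eT eX eY : PF} {R : (ℕ → ℕ) → List Bool → Prop}
    (hB : Bud g B (dFt ed eT eX eY) Zb) (hU : g 0 + 1 = 2 ^ B) (hS : g 3 = S) (h2 : 2 ≤ Y)
    (e0 : ed.eval g [] = d) (e2 : ∀ i, eT.eval (update g 13 i) [] = wt rad tp)
    (e3 : ∀ i, eX.eval (update g 13 i) [] = X) (e4 : ∀ i, eY.eval (update g 13 i) [] = Y)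
    (r1 : ∀ i < d, rad (tp + i) = X) (o1 : tp + d ≤ D) (hZ : Zb ≤ wt rad tp * S)
    (rM : ℕ → ℕ) (hM : ∀ k < D, rad k ≤ rM k) (hM' : ∀ i < d, Y ≤ rM (tp + i))
    (hn : wt rM D < 2 ^ B) (h0 : 0 < wt rad D) :
    Step P (ftM ed eT eX eY) g (Lay rad D S R)
      (Lay (rset rad tp d Y) D S fun x c => (∀ i < d, x (tp + i) < X) → R x c)
      (1000 * ((d + 1) * (wt rM D * S))) := by
  have m1 : ∀ i ≤ d, wt (rset rad tp i Y) D ≤ wt rM D := fun i hi => wt_mono fun k hk => by
    unfold rset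
    split_ifs with h
    · simpa [Nat.add_sub_cancel' h.1] using hM' (k - tp) (by omega)
    · exact hM k hk
  have m2 : ∀ i, 0 < wt (rset rad tp i Y) D := fun i => by
    refine lt_of_lt_of_le ?_ (wt_mono (rad := fun _ => 1) fun k hk => ?_)
    · rw [wt_const fun _ _ => rfl]; simp
    · unfold rset
      split_ifs
      · omega
      · exact rad_pos h0 hk
  have m3 : ∀ i, wt (rset rad tp i Y) tp = wt rad tp := fun i =>
    wt_congr fun k hk => if_neg (by omega)
  have m4 : ∀ i ≤ d, wt (rset rad tp i Y) (tp + i) = wt rad tp * Y ^ i ∧ Y ^ i < 2 ^ B :=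
    fun i hi => by
      obtain ⟨b1, b2⟩ := win_pow (rad := rset rad tp i Y) (q := Y) (p := tp) (n := i) (D := D)
        (fun j hj => if_pos (by omega)) (by omega) (m2 i) le_rfl
      exact ⟨m3 i ▸ b1, (b2.trans (m1 i hi)).trans_lt hn⟩
  have hZ' : Zb ≤ wt rM D * S := hZ.trans (Nat.mul_le_mul_right _
    ((wt_le h0 (by omega)).trans (wt_mono hM)))
  have hd : d < 2 ^ B := (Nat.lt_pow_self h2).trans (m4 d le_rfl).2
  refine (Step.forN (t := 800 * (wt rM D * S)) (R := fun i => Lay (rset rad tp i Y) D S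
    fun x c => (∀ j < i, x (tp + j) < X) → R x c) (by omega) (hB.mono (by unfold dFt; omega)) e0 hd
    fun i hi => ?_).mono (fun l hl => ?_) (fun _ h => h) (by nlinarith)
  · have a0 : rset rad tp i Y (tp + i) = X := by rw [rset, if_neg (by omega), r1 i hi]
    have a1 : (PF.mul eT (.pow eY (.glob 13))).eval (update g 13 i) [] =
        wt (rset rad tp i Y) (tp + i) := by
      rw [PF.eval_mul, e2, eval_pow' (k := i) (by simpa using hU) (e4 i) (by simp) h2
        (m4 i hi.le).2, (m4 i hi.le).1]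
    have a2 : update (rset rad tp i Y) (tp + i) Y = rset rad tp (i + 1) Y := by
      funext k
      simp only [rset, update_apply]
      split_ifs <;> omega
    have := fit_lay (P := P) (Y := Y) (k := tp + i) (rad := rset rad tp i Y) (D := D) (S := S)
      (R := fun x c => (∀ j < i, x (tp + j) < X) → R x c)
      (eG := .mul (.mul eT (.pow eY (.glob 13))) eX) (e2 := .mul (.mul eT (.pow eY (.glob 13))) eY)
      ((hB.set 13 (v := i) (by omega)).mono (by unfold dFt; omega)) (by omega)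
      (by rw [PF.eval_mul, a1, e3, wt, a0]) (by rw [PF.eval_mul, a1, e4]) (by simp [hS])
      (hZ.trans (Nat.mul_le_mul_right _ (m3 i ▸ wt_le (wt_pos (m2 i) (by omega)) (by omega))))
      ((m1 i hi.le).trans_lt hn) (m2 i)
    rw [a2, a0] at this
    refine this.mono (fun _ h => h) (fun l hl => hl.mono fun x c _ _ h h' => ?_) ?_
    · rw [if_pos (h' i (by omega))] at h
      exact h fun j hj => h' j (by omega)
    · have := m1 i hi.le
      have := m1 (i + 1) hi
      nlinarith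
  · rw [show rset rad tp 0 Y = rad from funext fun k => if_neg (by omega)]
    exact hl.mono fun _ _ _ _ h _ => h

end Vale.Agent.P338
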