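import Vale.Agent.P338.Zip
import Vale.Agent.P338.Net

/-! Wires: the array is cut into `W` equal parts. Execution of instruction lists. -/

namespace Vale.Agent.P338

open Function

variable {P : Tbl} {g : ℕ → ℕ} {B K Zb t : ℕ} {rad : ℕ → ℕ} {D S W n : ℕ}

/-- The list consists of `W` parts of length `n`, part `i` satisfying `Rw i`. -/
def Wires (W n : ℕ) (Rw : ℕ → List Bool → Prop) (l : List Bool) : Prop :=
  ∃ w : ℕ → List Bool, l = flat W w ∧ ∀ i < W, (w i).length = n ∧ Rw i (w i)

theorem Wires.mono {Rw Rw' : ℕ → List Bool → Prop} {l : List Bool} (h : Wires W n Rw l)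
    (h' : ∀ i < W, ∀ a, Rw i a → Rw' i a) : Wires W n Rw' l := by
  obtain ⟨w, h1, h2⟩ := h
  exact ⟨w, h1, fun i hi => ⟨(h2 i hi).1, h' i hi _ (h2 i hi).2⟩⟩

theorem wt_top {H : ℕ} (h : rad D = W * H) : wt rad (D + 1) = W * wt (update rad D H) (D + 1) := by
  rw [wt, wt, h, wt_update_le le_rfl, update_self]; ring

theorem enc_top {H i : ℕ} (x : ℕ → ℕ) : enc rad (update x D (i * H + x D)) (D + 1) =
    i * wt (update rad D H) (D + 1) + enc (update rad D H) x (D + 1) := by
  rw [enc, enc, wt, wt_update_le le_rfl, update_self, update_self,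
    enc_congr (rad' := update rad D H) (y := x) (fun _ hj => (update_of_ne (by omega) _ _).symm)
      fun _ hj => update_of_ne (by omega) _ _]
  ring

theorem Lay.wires {H : ℕ} {R : (ℕ → ℕ) → List Bool → Prop} {l : List Bool} (h : rad D = W * H)
    (hl : Lay rad (D + 1) S R l) : Wires W (wt (update rad D H) (D + 1) * S)
      (fun i => Lay (update rad D H) (D + 1) S fun x => R (update x D (i * H + x D))) l := by
  obtain ⟨u, h1, h2, h3⟩ := hl
  rw [wt_top h] at h1 h2
  rw [flat_mul] at h1
  refine ⟨_, h1, fun i hi => ?_⟩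
  have hl : ∀ j < wt (update rad D H) (D + 1),
      (u (i * wt (update rad D H) (D + 1) + j)).length = S := fun j hj => h2 _ (by nlinarith)
  refine ⟨length_flat hl, _, rfl, hl, fun x hx => ?_⟩
  rw [← enc_top]
  refine h3 _ fun k hk => ?_
  have := hx k hk
  by_cases e : k = D
  · subst e; rw [update_self] at this ⊢; nlinarith
  · rwa [update_of_ne e] at this ⊢

theorem Wires.lay {H : ℕ} {R : ℕ → (ℕ → ℕ) → List Bool → Prop} {l : List Bool} (h : rad D = W * H)
    (hl : Wires W n (fun i => Lay (update rad D H) (D + 1) S (R i)) l) :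
    Lay rad (D + 1) S (fun x => R (x D / H) (update x D (x D % H))) l := by
  obtain ⟨w, h1, h2⟩ := hl
  choose! u h3 h4 h5 using fun i hi => (h2 i hi).2
  generalize hn : wt (update rad D H) (D + 1) = m at *
  refine ⟨fun j => u (j / m) (j % m), ?_, fun j hj => ?_, fun x hx => ?_⟩
  · rw [h1, wt_top h, hn, flat_mul]
    refine flat_congr fun i hi => ?_
    rw [h3 i hi]
    refine flat_congr fun j hj => ?_
    rw [div_mul_add hj, Nat.mul_add_mod_self_right, Nat.mod_eq_of_lt hj]
  · rw [wt_top h, hn] at hj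
    exact h4 _ (Nat.div_lt_of_lt_mul (by rwa [mul_comm])) _
      (Nat.mod_lt _ (Nat.pos_of_mul_pos_left (Nat.zero_lt_of_lt hj)))
  · have hD := hx D (by omega)
    rw [h] at hD
    have hH : 0 < H := Nat.pos_of_mul_pos_left (Nat.zero_lt_of_lt hD)
    have hv : Valid (update rad D H) (D + 1) (update x D (x D % H)) := fun k hk => by
      by_cases e : k = D
      · subst e; simpa using Nat.mod_lt _ hH
      · simpa [e] using hx k hk
    have e := enc_top (rad := rad) (H := H) (i := x D / H) (D := D) (update x D (x D % H))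
    have hlt := enc_lt hv
    rw [update_self, update_idem, Nat.div_add_mod', update_eq_self, hn] at e
    rw [hn] at hlt
    beta_reduce
    rw [e, div_mul_add hlt, Nat.mul_add_mod_self_right, Nat.mod_eq_of_lt hlt]
    exact h5 _ (Nat.div_lt_of_lt_mul (by rwa [mul_comm])) _ hv

/-- Run `c` on wire `i`; `e` is the length of a wire. -/
def onW (e : PF) (i : ℕ) (c : Cmd) : Cmd :=
  loc 6 (loc 7 (loc 8 (loc 17 (loc 18
    (.seq (ruler 17 e []) (.seq (ruler 18 (.mul (.cst i) e) []) (.seq (tk 6 3 18) (.seq (tk 7 3 17)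
    (.seq (app 3 8) (.seq (app 7 3) (.seq c (.seq (app 3 7) (.seq (app 8 3)
    (.seq (app 7 3) (app 6 3)))))))))))))))

def dW (e : PF) (i : ℕ) : ℕ := e.deg + (PF.mul (.cst i) e).deg + 8

theorem flat_update {i : ℕ} (hi : i < W) (w : ℕ → List Bool) (a : List Bool) :
    flat W (update w i a) = flat i w ++ (a ++ flat (W - i - 1) fun j => w (i + (1 + j))) := by
  obtain ⟨k, rfl⟩ := Nat.exists_eq_add_of_lt hi
  rw [add_assoc, flat_add, flat_succ', add_zero, update_self,
    show i + (k + 1) - i - 1 = k by omega]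
  congr 1
  · exact flat_congr fun j hj => update_of_ne (by omega) _ _
  · congr 1
    exact flat_congr fun j hj => by rw [update_of_ne (by omega), add_comm j]

theorem onW_ok {e : PF} {i : ℕ} {c : Cmd} {σ : St} {w : ℕ → List Bool} {r4 : List Bool}
    {Post : List Bool → Prop} (hg : Num σ g) (hB : Bud g B (dW e i) Zb) (he : e.eval g [] = n)
    (hi : i < W) (h3 : σ 3 = flat W w) (hw : ∀ i < W, (w i).length = n)
    (h : ∀ τ, Num τ g → τ 3 = w i → τ 4 = σ 4 →
      ∃ l, (Post l ∧ l.length = n) ∧ Ok P c τ (update (update τ 4 r4) 3 l) t) :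
    ∃ l, (Post l ∧ l.length = n) ∧ Ok P (onW e i c) σ
      (update (update σ 4 r4) 3 (flat W (update w i l))) (t + 120 * (W * n) + 140 * Zb) := by
  have hg' : Num (update (update (update (update (update σ 6 []) 7 []) 8 []) 17 []) 18 []) g :=
    ((((hg.upd _ (by omega)).upd _ (by omega)).upd _ (by omega)).upd _ (by omega)).upd _ (by omega)
  have r1 := ruler_ok (P := P) e (d := 17) (regs := []) (l := []) hg' rfl (by simp)
    (by omega) hB.sz (by simp)
  have r2 := ruler_ok (P := P) (.mul (.cst i) e) (d := 18) (regs := []) (l := [])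
    (hg'.upd (v := 17) (List.replicate (e.eval g []) true) (by omega)) rfl (by simp)
    (by omega) hB.sz (by simp)
  simp only [PF.eval_mul, PF.eval_cst, he] at r1 r2
  obtain ⟨s1, s2⟩ := flat_split hw hi.le
  obtain ⟨s3, s4⟩ := flat_split (n := W - i) (a := 1) (u := fun j => w (i + j))
    (fun j hj => hw _ (by omega)) (by omega)
  rw [one_mul] at s3 s4
  rw [flat_one, add_zero] at s3
  obtain ⟨l, hl, h⟩ := h (update (update (update (update (update (update σ 6 (flat i w)) 7 []) 8
    (flat (W - i - 1) fun j => w (i + (1 + j)))) 17 (List.replicate n true)) 18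
    (List.replicate (i * n) true)) 3 (w i))
    ((((((hg.upd _ (by omega)).upd _ (by omega)).upd _ (by omega)).upd _ (by omega)).upd _
      (by omega)).upd _ (by omega)) (by simp) (by simp)
  have l1 := length_flat (n := i) (u := w) fun j hj => hw _ (by omega)
  have l2 := length_flat (n := W - i - 1) (u := fun j => w (i + (1 + j))) fun j hj => hw _ (by omega)
  have l3 : i * n ≤ W * n := Nat.mul_le_mul_right _ hi.le
  have l4 : (W - i - 1) * n ≤ W * n := Nat.mul_le_mul_right _ (by omega)
  have l5 : n ≤ W * n := Nat.le_mul_of_pos_left _ (by omega)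
  have p1 := hB.pow (K' := e.deg + 8) (by unfold dW; omega)
  have p2 := hB.pow (K' := (PF.mul (.cst i) e).deg + 8) (by unfold dW; omega)
  have p3 := hB.pos
  refine ⟨l, hl, (Ok.loc (Ok.loc (Ok.loc (Ok.loc (Ok.loc (r1.seq (r2.seq
    ((tk_ok _ (by omega) (by omega) (by omega) (by omega) (by omega) (by omega)).seq
    ((tk_ok _ (by omega) (by omega) (by omega) (by omega) (by omega) (by omega)).seq
    ((app_ok _ (by omega) (by omega) (by omega)).seq
    (((app_ok _ (by omega) (by omega) (by omega)).mono ?_ le_rfl).seq (h.seq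
    ((app_ok _ (by omega) (by omega) (by omega)).seq
    ((app_ok _ (by omega) (by omega) (by omega)).seq
    ((app_ok _ (by omega) (by omega) (by omega)).seq
    (app_ok _ (by omega) (by omega) (by omega))))))))))))))))).mono ?_ ?_⟩
  · funext v
    simp only [update_apply, Nat.reduceEqDiff, reduceIte, h3, List.length_replicate, s1, s2, s3, s4,
      List.append_nil]
    split_ifs <;> subst_vars <;> first | omega | rfl
  · funext v
    simp only [update_apply, Nat.reduceEqDiff, reduceIte, List.append_nil, flat_update hi]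
    split_ifs <;> subst_vars <;> first | omega | rfl
  · simp only [update_apply, Nat.reduceEqDiff, reduceIte, h3, List.length_replicate, s1, s2, s3, s4,
      List.append_nil, l1, l2, hl.2, hw i hi, List.length_nil]
    omega

theorem Step.onW {e : PF} {i : ℕ} {c : Cmd} {Rw : ℕ → List Bool → Prop} {Post : List Bool → Prop}
    (hB : Bud g B (dW e i) Zb) (he : e.eval g [] = n) (hi : i < W)
    (h : Step P c g (Rw i) (fun l => Post l ∧ l.length = n) t) :
    Step P (onW e i c) g (Wires W n Rw) (Wires W n (update Rw i Post))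
      (t + 120 * (W * n) + 140 * Zb) := by
  rintro σ hg ⟨w, h1, h2⟩
  obtain ⟨l, hl, h3⟩ := onW_ok (P := P) (c := c) (r4 := σ 4) (t := t) hg hB he hi h1
    (fun i hi => (h2 i hi).1) fun τ a1 a2 a3 => by
      obtain ⟨l, hl, h⟩ := h τ a1 (a2 ▸ (h2 i hi).2)
      exact ⟨l, hl, h.mono (by rw [← a3, update_eq_self]) le_rfl⟩
  refine ⟨_, ⟨update w i l, rfl, fun j hj => ?_⟩, h3.mono (by simp) le_rfl⟩
  by_cases e : j = i
  · subst e; simpa using hl.symm
  · simpa [e] using h2 j hj

/-- Combine wire `i` with a copy of wire `j`. -/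
def gateW (e : PF) (i j : ℕ) (z : Cmd) : Cmd :=
  loc 4 (.seq (onW e j (cpy 3 4)) (onW e i z))

theorem Step.gateW {e : PF} {i j : ℕ} {z : Cmd} {Rw : ℕ → List Bool → Prop}
    {Post : List Bool → Prop} (hB : Bud g B (dW e i + dW e j) Zb) (he : e.eval g [] = n)
    (hi : i < W) (hj : j < W)
    (h : Step2 P z g (fun l l' => Rw i l ∧ Rw j l') (fun l => Post l ∧ l.length = n) t) :
    Step P (gateW e i j z) g (Wires W n Rw) (Wires W n (update Rw i Post))
      (t + 250 * (W * n) + 300 * Zb) := by
  rintro σ hg ⟨w, h1, h2⟩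
  obtain ⟨l0, hl0, h3⟩ := onW_ok (P := P) (c := cpy 3 4) (r4 := w j) (t := 6 * n + 9)
    (Post := (· = w j)) (σ := update σ 4 []) (hg.upd _ (by omega)) (hB.mono (by omega)) he hj
    (by simpa using h1) (fun i hi => (h2 i hi).1) fun τ a1 a2 a3 =>
      ⟨w j, ⟨rfl, (h2 j hj).1⟩, (cpy_ok _ (by omega) (by omega) (by omega)).mono
        (by rw [a2, a3, ← a2, update_comm (by omega), update_eq_self]; simp)
        (by rw [a2, (h2 j hj).1])⟩
  rw [hl0.1, update_eq_self, update_idem] at h3
  obtain ⟨l, hl, h4⟩ := onW_ok (P := P) (c := z) (r4 := []) (t := t) (Post := Post)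
    (σ := update (update σ 4 (w j)) 3 (flat W w)) ((hg.upd _ (by omega)).upd _ (by omega))
    (hB.mono (by omega)) he hi (by simp) (fun i hi => (h2 i hi).1) fun τ a1 a2 a3 =>
      h τ a1 (by rw [a2, a3]; simpa using ⟨(h2 i hi).2, (h2 j hj).2⟩)
  refine ⟨_, ⟨update w i l, rfl, fun j hj => ?_⟩, (Ok.loc (h3.seq h4)).mono ?_ ?_⟩
  · by_cases e : j = i
    · subst e; simpa using hl.symm
    · simpa [e] using h2 j hj
  · funext v
    simp only [update_apply]
    split_ifs <;> subst_vars <;> first | omega | rfl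
  · have : n ≤ W * n := Nat.le_mul_of_pos_left _ (by omega)
    have := hB.pos
    simp; omega

/-- The program of an instruction list. -/
def exec {K : Type} (e : PF) (gt : Co → Cmd) (at' : (Fin mm → K) → (Fin mm → K) → Bool → Cmd) :
    List (Ins K) → Cmd
  | [] => .skip
  | .gate i j c :: l => .seq (gateW e i j (gt c)) (exec e gt at' l)
  | .atom i a b pd :: l => .seq (onW e i (at' a b pd)) (exec e gt at' l)

def dExec {K : Type} (e : PF) : List (Ins K) → ℕ
  | [] => 0
  | .gate i j _ :: l => dW e i + dW e j + dExec e l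
  | .atom i _ _ _ :: l => dW e i + dExec e l

theorem exec_ok {K R V : Type} [Mul K] [CommRing R] [AddCommGroup V] [Module R V] {hf : R}
    {Φ : Matrix (Fin mm) (Fin mm) K → Module.End R V} {e : PF} {gt : Co → Cmd}
    {at' : (Fin mm → K) → (Fin mm → K) → Bool → Cmd}
    {ok : (Fin mm → K) → (Fin mm → K) → Bool → Prop} (Rep : V → List Bool → Prop) {tp : ℕ}
    (he : e.eval g [] = n) (hR : ∀ v l, Rep v l → l.length = n)
    (h1 : ∀ c v v', Step2 P (gt c) g (fun l l' => Rep v l ∧ Rep v' l') (Rep (v + c.val hf • v')) t)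
    (l : List (Ins K)) (hB : Bud g B (dExec e l) Zb) (hl : ∀ x ∈ l, x.wf W ok)
    (h2 : ∀ i a b pd, .atom i a b pd ∈ l → ok a b pd → ∀ v, Step P (at' a b pd) g (Rep v)
      (Rep (Φ (Matrix.vecMulVec a b) v)) (t + pd.toNat * tp)) (u : ℕ → V) :
    Step P (exec e gt at' l) g (Wires W n fun i => Rep (u i))
      (Wires W n fun i => Rep (l.foldl (Ins.run hf Φ) u i))
      (l.length * (t + 250 * (W * n) + 300 * Zb + 1) + (l.map Ins.cost).sum * tp + 1) := by
  induction l generalizing u with
  | nil => simpa [exec] using Step.skip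
  | cons x l ih =>
    have hx := hl x (by simp)
    have ih' := fun hB => ih hB (fun y hy => hl y (by simp [hy]))
      (fun i a b pd hm => h2 i a b pd (by simp [hm])) (Ins.run hf Φ u x)
    have e1 : ∀ i v, update (fun i => Rep (u i)) i (Rep v) = fun j => Rep (update u i v j) :=
      fun i v => funext fun j => by
        by_cases e : j = i
        · subst e; simp
        · simp [e]
    rcases x with ⟨i, j, c⟩ | ⟨i, a, b, pd⟩
    · have := Step.gateW (W := W) (Rw := fun i => Rep (u i)) (hB.mono (K' := dW e i + dW e j)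
        (by rw [dExec]; omega)) he hx.1 hx.2.1
        ((h1 c (u i) (u j)).mono (fun _ _ h => h) (fun l h => ⟨h, hR _ _ h⟩) le_rfl)
      rw [e1] at this
      refine (this.seq (ih' (hB.mono (by rw [dExec]; omega)))).le ?_
      simp [Ins.cost]; ring_nf; omega
    · have := Step.onW (W := W) (Rw := fun i => Rep (u i)) (hB.mono (K' := dW e i)
        (by rw [dExec]; omega)) he hx.1
        ((h2 i a b pd (by simp) hx.2 (u i)).post fun l h => ⟨h, hR _ _ h⟩)
      rw [e1] at this
      refine (this.seq (ih' (hB.mono (by rw [dExec]; omega)))).le ?_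
      simp [Ins.cost]; ring_nf; omega

end Vale.Agent.P338
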