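import Vale.Agent.P338.SwapB
import Vale.Agent.P338.Wire

/-! The first network acting on indices, and the base case of the recursion. -/

namespace Vale.Agent.P338

open Function

/-- The logarithm of the number of wires of the first network. -/
noncomputable def wT : ℕ := netT.choose

/-- The instruction list of the first network. -/
noncomputable def lT : List (Ins ℤ) := netT.choose_spec.choose

/-- The number of recursive calls of the first network. -/
noncomputable def pdT : ℕ := (lT.map Ins.cost).sum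

theorem pdT_sav : Sav pdT (2 ^ wT * mm) := netT.choose_spec.choose_spec.2.1

theorem pdT_lt : pdT < 2 ^ wT * mm := pdT_sav.lt (Nat.mul_pos (by positivity) (by decide))

variable {P : Tbl} {g rad : ℕ → ℕ} {B Zb t D S q : ℕ} {c : Cmd} {φ : (ℕ → ℕ) → ℕ → ℕ}

theorem xor_step (v v' : (ℕ → ℕ) → ℕ → ZMod 2) :
    Step2 P (xorI 3 4) g (fun l l' => Lay rad D S (fun x c => c = cel S (v x)) l ∧
      Lay rad D S (fun x c => c = cel S (v' x)) l')
      (Lay rad D S fun x c => c = cel S ((v + v') x)) (30 * (wt rad D * S + 1)) := by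
  rintro σ - ⟨⟨u, h1, h2, h3⟩, ⟨u', h1', h2', h3'⟩⟩
  have l1 : (σ 3).length = wt rad D * S := h1 ▸ length_flat h2
  have l2 : (σ 4).length = wt rad D * S := h1' ▸ length_flat h2'
  refine ⟨_, ⟨fun i => List.zipWith xor (u i) (u' i), ?_, fun i hi => ?_, fun x hx => ?_⟩,
    (xorI_ok (by omega) (by omega) (by omega) (l1.trans l2.symm)).le (by rw [l1])⟩
  · rw [h1, h1', zipWith_flat _ fun i hi => by rw [h2 i hi, h2' i hi]]
  · simp [h2 i hi, h2' i hi]
  · beta_reduce
    rw [h3 x hx, h3' x hx, cel_add]; rfl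

theorem net_rz {H tp : ℕ} {at' : (Fin mm → ℤ) → (Fin mm → ℤ) → Bool → Cmd}
    (G : Matrix (Fin mm) (Fin mm) ℤ → (ℕ → ℕ) → ℕ → ℕ) (G0 : ∀ x, G 0 x = x)
    (Ga : ∀ M M' x, G (M + M') x = G M' (G M x)) (hH : rad D = 2 ^ wT * H)
    (g8 : g 8 = wt (update rad D H) (D + 1) * S) (hB : Bud g B (dExec (.glob 8) lT) Zb)
    (ht : 30 * (g 8 + 1) ≤ t) (hv : ∀ x, Valid rad (D + 1) x → Valid rad (D + 1) (G 8 x))
    (hu : ∀ x v, G 8 (update x D v) = update (G 8 x) D v)
    (h : ∀ i a b pd, .atom i a b pd ∈ lT →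
      Rz P (at' a b pd) g (update rad D H) (D + 1) S (G (Matrix.vecMulVec a b)) (t + tp)) :
    Rz P (exec (.glob 8) (fun _ => xorI 3 4) at' lT) g rad (D + 1) S (G 8)
      (lT.length * (t + 250 * (2 ^ wT * g 8) + 300 * Zb + 1) + pdT * tp + 1) := by
  refine fun R => Step.of_eq ?_
  rintro l ⟨w, h1, h2, h3⟩
  obtain ⟨n1, -, n2⟩ := netT.choose_spec.choose_spec
  let Φ : Matrix (Fin mm) (Fin mm) ℤ → Module.End (ZMod 2) ((ℕ → ℕ) → ℕ → ZMod 2) :=
    fun M => LinearMap.funLeft (ZMod 2) (ℕ → ZMod 2) (G M)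
  let u : ℕ → (ℕ → ℕ) → ℕ → ZMod 2 := fun i x z =>
    if (w (enc rad (update x D (i * H + x D)) (D + 1))).getD z false then 1 else 0
  have n3 := n2 _ Φ (by ext v x; simp [Φ, G0]) (fun M M' => by ext v x; simp [Φ, Ga]) u
  have key := exec_ok (P := P) (g := g) (B := B) (Zb := Zb) (t := t) (W := 2 ^ wT) (n := g 8)
    (hf := (1 : ZMod 2)) (Φ := Φ) (e := .glob 8) (gt := fun _ => xorI 3 4) (at' := at') (tp := tp)
    (fun v => Lay (update rad D H) (D + 1) S fun x c => c = cel S (v x)) (by simp)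
    (fun v l hl => g8 ▸ hl.length)
    (fun c v v' => by
      rw [show c.val (1 : ZMod 2) = 1 by cases c <;> decide, one_smul]
      exact (xor_step v v').mono (fun _ _ h => h) (fun _ h => h) (g8 ▸ ht))
    lT hB n1 (fun i a b pd hm hp v => by
      subst hp
      exact (h i a b _ hm fun x c => c = cel S (v x)).le (by simp)) u
  refine key.mono ?_ (fun l hl => ?_) le_rfl
  · rintro _ rfl
    have := Lay.wires (R := fun x c => c = w (enc rad x (D + 1))) hH ⟨w, h1, h2, fun _ _ => rfl⟩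
    rw [← g8] at this
    exact this.mono fun i _ a ha => ha.mono fun x c _ hc e => by rw [e] at hc; rw [e, cel_of hc]
  · refine (Wires.lay (R := fun i x c => c = cel S (u i (G 8 x))) hH
      (hl.mono fun i hi a ha => ?_)).mono fun x c hx _ e => ?_
    · rw [show lT.foldl _ u i = _ from n3 i hi] at ha
      exact ha
    · have e2 : update (G 8 x) D (x D) = G 8 x := by rw [← hu, update_eq_self]
      simp only [u, hu, update_idem, update_self, Nat.div_add_mod', e2] at e
      rw [e, cel_of (h2 _ (enc_lt (hv x hx)))]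
      exact h3 _ (hv x hx)

theorem Rz.sel {k : ℕ} {eG e : PF} (h : Rz P c g rad D S φ t) (hB : Bud g B (dSel eG e) Zb)
    (hk : k ≤ D) (e0 : eG.eval g [] = wt rad k) (hS : g 3 = S) (hZ : Zb ≤ wt rad k * S)
    (hn : wt rad D < 2 ^ B) (h0 : 0 < wt rad D) :
    Rz P (fork c (selM eG e)) g rad D S
      (fun x => if e.eval g [enc rad (up k x) D] = 0 then x else φ x)
      (t + 420 * (wt rad D * S) + 50) := fun R => by
  refine (Step.fork (n := wt rad D * S) (Rel := fun _ l' => Lay rad D S (fun x => R (φ x)) l')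
    (fun l hl => ⟨hl.length.le, (h R).mono (fun _ e => e ▸ hl) (fun _ h => ⟨h, h.length.le⟩)
      le_rfl⟩) (sel_lay hB hk e0 hS hZ hn h0)).mono (fun _ h => h)
    (fun _ hl => hl.mono fun x c _ _ h => ?_) (by omega)
  beta_reduce
  split_ifs at h ⊢ <;> exact h

theorem exists_mult {ι : Type} [Fintype ι] (a : ι → ℤ) :
    ∃ n : ℕ, 0 < n ∧ ∀ k, a k ≠ 0 → a k ∣ (n : ℤ) :=
  ⟨∏ k, max 1 (a k).natAbs, Finset.prod_pos fun k _ => by omega, fun k hk => by
    rw [← Int.natAbs_dvd, Int.natCast_dvd_natCast, show (a k).natAbs = max 1 (a k).natAbs by omega]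
    exact Finset.dvd_prod_of_mem _ (Finset.mem_univ k)⟩

theorem exists_DT (l : List (Ins ℤ)) : ∃ n : ℕ, 0 < n ∧ (8 : ℤ) ∣ n ∧ ∀ i a b pd,
    .atom i a b pd ∈ l → ∀ k, (a k ≠ 0 → a k ∣ (n : ℤ)) ∧ (b k ≠ 0 → b k ∣ (n : ℤ)) := by
  induction l with
  | nil => exact ⟨8, by simp⟩
  | cons x l ih =>
    obtain ⟨n, h1, h2, h3⟩ := ih
    rcases x with ⟨i, j, c⟩ | ⟨i, a, b, pd⟩
    · exact ⟨n, h1, h2, fun i a b pd h => h3 i a b pd (by simpa using h)⟩
    obtain ⟨x, a1, a2⟩ := exists_mult a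
    obtain ⟨y, b1, b2⟩ := exists_mult b
    refine ⟨n * (x * y), by positivity, by push_cast; exact h2.mul_right _,
      fun i' a' b' pd' h k => ?_⟩
    push_cast
    rcases List.mem_cons.1 h with e | h
    · cases e
      exact ⟨fun h => ((a2 k h).mul_right _).mul_left _, fun h => ((b2 k h).mul_left _).mul_left _⟩
    · exact ⟨fun h' => ((h3 _ _ _ _ h k).1 h').mul_right _,
        fun h' => ((h3 _ _ _ _ h k).2 h').mul_right _⟩

/-- A common multiple of all denominators. -/
noncomputable def DT : ℕ := (exists_DT lT).choose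

/-- The situation in which procedure 1 is called. -/
structure TC (g : ℕ → ℕ) (B Zb : ℕ) (rad : ℕ → ℕ) (D S ep xp d q b : ℕ) : Prop where
  gU : g 0 + 1 = 2 ^ B
  g3 : g 3 = S
  g8 : g 8 = wt rad (D + 1) * S
  g9 : g 9 = q
  g10 : g 10 = wt rad ep
  g11 : g 11 = wt rad xp
  g12 : g 12 = b
  re : ∀ i < d, rad (ep + i) = q
  rx : ∀ i < d, rad (xp + i) = q
  o1 : ep + d ≤ xp
  o2 : xp + d ≤ D
  hq : q = DT * (q / DT) + 1
  q2 : 2 ≤ q
  qb : q ≤ 2 ^ (b + 1)
  bB : b < B
  hZ : Zb ≤ wt rad ep * S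
  pos : 0 < wt rad (D + 1)
  S0 : 0 < S
  sz : wt rad (D + 1) * S < 2 ^ B

/-- The weights of the first active digits. -/
def eE : PF := eW (.glob 10) (.glob 6)
def eX : PF := eW (.glob 11) (.glob 5)

variable {ep xp d b : ℕ}

theorem TC.lt (h : TC g B Zb rad D S ep xp d q b) : wt rad (D + 1) < 2 ^ B :=
  (Nat.le_mul_of_pos_right _ h.S0).trans_lt h.sz

theorem TC.Z (h : TC g B Zb rad D S ep xp d q b) {k : ℕ} (h1 : ep ≤ k) (h2 : k ≤ D + 1) :
    Zb ≤ wt rad k * S := h.hZ.trans (Nat.mul_le_mul_right _ (wt_le (wt_pos h.pos h2) h1))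

theorem TC.d_lt (h : TC g B Zb rad D S ep xp d q b) : d < 2 ^ B := by
  have := h.o2
  exact ((Nat.lt_pow_self h.q2).trans_le (win_pow h.rx (by omega) h.pos le_rfl).2).trans h.lt

theorem TC.upd (h : TC g B Zb rad D S ep xp d q b) {i : ℕ} (hi : (3 < i ∧ i < 8) ∨ 12 < i) (v : ℕ) :
    TC (update g i v) B Zb rad D S ep xp d q b :=
  { h with
    gU := by rw [update_of_ne (by omega), h.gU]
    g3 := by rw [update_of_ne (by omega), h.g3]
    g8 := by rw [update_of_ne (by omega), h.g8]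
    g9 := by rw [update_of_ne (by omega), h.g9]
    g10 := by rw [update_of_ne (by omega), h.g10]
    g11 := by rw [update_of_ne (by omega), h.g11]
    g12 := by rw [update_of_ne (by omega), h.g12] }

theorem TC.eE (h : TC g B Zb rad D S ep xp d q b) (h6 : g 6 ≤ d) :
    eE.eval g [] = wt rad (ep + g 6) := by
  have := h.o1
  have := h.o2
  obtain ⟨b1, b2⟩ := win_pow h.re (by omega) h.pos h6
  rw [P338.eE, eW, PF.eval_mul, eval_pow' h.gU (by simp [h.g9]) (by simp) h.q2 (b2.trans_lt h.lt), b1]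
  simp [h.g10]

theorem TC.eX (h : TC g B Zb rad D S ep xp d q b) (h5 : g 5 ≤ d) :
    eX.eval g [] = wt rad (xp + g 5) := by
  have := h.o2
  obtain ⟨b1, b2⟩ := win_pow h.rx (by omega) h.pos h5
  rw [P338.eX, eW, PF.eval_mul, eval_pow' h.gU (by simp [h.g9]) (by simp) h.q2 (b2.trans_lt h.lt), b1]
  simp [h.g11]

def eB1 : PF := .mod (.mul (.glob 7) (.pow2 (.glob 13))) (.glob 9)
def eB2 : PF := .odd (.div (.dg (.var 0) (.dr 1 eE) (.glob 9)) (.pow2 (.glob 13)))

/-- The base case: one selection for every bit of the control digit. -/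
def baseC : Cmd := forN 13 (.add (.glob 12) (.cst 1))
  (fork (rotM eX (.mul eX (.glob 9)) (.glob 9) eB1) (selM eE eB2))

def dBase : ℕ := dFor 13 (.add (.glob 12) (.cst 1)) +
  dRot eX (.mul eX (.glob 9)) (.glob 9) eB1 + dSel eE eB2

theorem act_congr {G G' : (ℕ → ZMod q) → ℕ → ZMod q} {x : ℕ → ℕ}
    (h : G (fun k => x k) = G' fun k => x k) : act q G x = act q G' x := by
  funext k; rw [act, act, h]

theorem base_rz [NeZero q] (h : TC g B Zb rad D S ep xp d q b) (hB : Bud g B dBase Zb)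
    (h5 : g 5 < d) (h6 : g 6 < d) :
    Rz P baseC g rad (D + 1) S (act q (shG 1 (xp + g 5) (ep + g 6) (g 7)))
      (1000 * ((b + 1) * (wt rad (D + 1) * S))) := by
  have o1 := h.o1
  have o2 := h.o2
  have z1 := h.Z (k := D + 1) (by omega) le_rfl
  have z2 := hB.pos
  have hb : b + 1 < 2 ^ B := lt_of_le_of_lt h.bB Nat.lt_two_pow_self
  have hy : ∀ x, Valid rad (D + 1) x → ((x (ep + g 6) : ℕ) : ZMod q).val = x (ep + g 6) :=
    fun x hx => ZMod.val_cast_of_lt (h.re _ h6 ▸ hx _ (by omega))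
  refine ((Rz.forN (n := b + 1) (t := 820 * (wt rad (D + 1) * S) + 50)
    (fun i => act q fun y => update y (xp + g 5)
      (y (xp + g 5) + g 7 * ((y (ep + g 6)).val % 2 ^ i : ℕ)))
    (fun i x => if x (ep + g 6) / 2 ^ i % 2 = 0 then x else
      act q (fun y => update y (xp + g 5) (y (xp + g 5) + g 7 * 2 ^ i)) x)
    (by omega) (hB.mono (by unfold dBase; omega)) (by simp [h.g12]) hb (fun i hi => ?_)
    (fun x => funext fun k => act_fix (by simp [Nat.mod_one])) fun i hi x hx => ?_).congr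
    fun x hx => act_congr ?_).le (by nlinarith)
  · have h' := h.upd (i := 13) (by omega) i
    have hB' := hB.set 13 (v := i) (by omega)
    have a1 := h'.eE (by simpa using h6.le)
    have a2 := h'.eX (by simpa using h5.le)
    have a3 : ∀ l, (PF.pow2 (.glob 13)).eval (update g 13 i) l = 2 ^ i := fun l => by
      have := h.bB
      rw [PF.eval_pow2 h'.gU _ (by simp; omega)]; simp
    rw [update_of_ne (by omega)] at a1 a2
    refine (((rot_rz (P := P) (eo := eB1) (hB'.mono (by unfold dBase; omega)) (by omega) (h.rx _ h5)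
      h'.g9 a2 (by simp [a2, wt, h.rx _ h5, h.g9]) h'.g3 (h.Z (by omega) (by omega)) h.lt h.pos
      (fun i0 => by simp [eB1, h.g9, Nat.mod_lt, NeZero.pos q])
      (fun y => y (xp + g 5) + g 7 * 2 ^ i) fun x hx => ?_).sel (e := eB2)
      (hB'.mono (by unfold dBase; omega)) (by omega) a1 h'.g3 (h.Z (by omega) (by omega)) h.lt
      h.pos).congr fun x hx => ?_).le (by omega)
    · simp only [eB1, PF.eval_mod, PF.eval_mul, a3]
      simp [h.g9]
    · have := up_digit hx (k := ep + g 6) le_rfl (by omega)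
      rw [h.re _ h6] at this
      simp only [eB2, PF.eval_odd, PF.eval_div, a3, PF.eval_dg, PF.eval_dr, List.drop_succ_cons,
        List.drop_zero, a1]
      simp [h.g9, this]
  · have e := Nat.mod_pow_succ (b := 2) (x := x (ep + g 6)) (k := i)
    split_ifs with a
    · refine act_congr ?_
      simp only [hy x hx, e, a, mul_zero, add_zero]
    · rw [act_act]
      refine act_congr ?_
      simp only [Function.comp, update_self, update_idem, update_of_ne (show ep + g 6 ≠ xp + g 5 by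
        omega), hy x hx, e, show x (ep + g 6) / 2 ^ i % 2 = 1 by omega]
      push_cast
      congr 1; ring
  · funext k
    rw [hy x hx, Nat.mod_eq_of_lt ((h.re _ h6 ▸ hx _ (by omega)).trans_le h.qb), shG, update_apply]
    split_ifs with a b b
    · simp [a]
    · omega
    · omega
    · rfl

end Vale.Agent.P338
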