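import Vale.Agent.P338.SwapC

/-! The recursive shear of index blocks. -/

namespace Vale.Agent.P338

open Function

variable {P : Tbl} {g rad : ℕ → ℕ} {B Zb t D S q ep xp d b : ℕ}

theorem two_le_mm : 2 ≤ mm := by unfold mm; norm_num

/-- An integer multiple of `e` modulo parameter 9. -/
def zq (κ : ℤ) (e : PF) : PF := .mod (.add (.mul (.cst κ.toNat) e)
  (.mul (.mul (.cst (-κ).toNat) (.sub (.glob 9) (.cst 1))) e)) (.glob 9)

theorem eval_zq [NeZero q] (g9 : g 9 = q) (κ : ℤ) (e : PF) (l : List ℕ) :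
    ((zq κ e).eval g l : ZMod q) = κ * (e.eval g l : ℕ) := by
  have h : ((κ.toNat : ℤ) : ZMod q) - ((-κ).toNat : ℤ) = κ := by
    rw [← Int.cast_sub, Int.toNat_sub_toNat_neg]
  simp only [Int.cast_natCast] at h
  simp [zq, g9, Nat.cast_sub (NeZero.one_le (n := q))]
  linear_combination (e.eval g l : ZMod q) * h

theorem zq_lt [NeZero q] (g9 : g 9 = q) (κ : ℤ) (e : PF) (l : List ℕ) : (zq κ e).eval g l < q := by
  simp [zq, g9, Nat.mod_lt, NeZero.pos q]

noncomputable def tq : PF := .div (.glob 9) (.cst DT)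

noncomputable def cM (K : Matrix (Fin mm) (Fin mm) ℤ) (r l : ℕ) : PF :=
  if h : r < mm ∧ l < mm then zq (K ⟨r, h.1⟩ ⟨l, h.2⟩) tq else .cst 0

noncomputable def zM (q : ℕ) (K : Matrix (Fin mm) (Fin mm) ℤ) : Matrix (Fin mm) (Fin mm) (ZMod q) :=
  Matrix.of fun r l => K r l * ((q / DT : ℕ) : ZMod q)

def eD : PF := .pow (.cst mm) (.sub (.glob 4) (.cst 1))

noncomputable def triM (eT : PF) (K : Matrix (Fin mm) (Fin mm) ℤ) : Cmd := blkM mm eD eT eT (cM K)

theorem TC.eD (h : TC g B Zb rad D S ep xp d q b) {j : ℕ} (g4 : g 4 = j + 1) (hj : mm ^ j ≤ d) :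
    eD.eval g [] = mm ^ j :=
  eval_pow' h.gU rfl (by simp [g4]) two_le_mm (hj.trans_lt h.d_lt)

theorem tri_rz [NeZero q] (h : TC g B Zb rad D S ep xp d q b) {j p : ℕ} {eT : PF}
    {K : Matrix (Fin mm) (Fin mm) ℤ} (hB : Bud g B (dBlk mm eD eT eT (cM K)) Zb)
    (g4 : g 4 = j + 1) (hj : mm ^ j ≤ d) (e : ∀ i, eT.eval (update g 13 i) [] = wt rad p)
    (r : ∀ i < mm * mm ^ j, rad (p + i) = q) (o1 : ep ≤ p) (o2 : p + mm * mm ^ j ≤ D + 1)
    (hK : ∀ r l, K r l ≠ 0 → r < l) :
    Rz P (triM eT K) g rad (D + 1) S (act q (blkG (mm ^ j) p p (zM q K)))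
      (500 * ((mm * mm ^ j + 1) * (wt rad (D + 1) * S))) :=
  blk_rz hB h.gU h.g3 h.g9 h.q2 (h.eD g4 hj)
    (fun i => (h.upd (by omega) i).eD (by simpa using g4) hj) e e
    (fun i r l => by
      rw [cM, dif_pos ⟨r.2, l.2⟩, eval_zq (by simp [h.g9])]
      simp [zM, tq, h.g9])
    (fun r l hl => Nat.add_le_add_left (Nat.mul_le_mul_right _
      (hK r l fun e => hl (by simp [zM, e]))) _) r r o2 o2 (h.Z o1 (by omega)) h.lt h.pos

/-- The last and the first index of the support. -/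
noncomputable def top {A : Type} [Zero A] (a : Fin mm → A) : Fin mm :=
  @Classical.epsilon _ ⟨⟨0, by have := two_le_mm; omega⟩⟩ fun i => a i ≠ 0 ∧ ∀ l, a l ≠ 0 → l ≤ i

noncomputable def bot {A : Type} [Zero A] (a : Fin mm → A) : Fin mm :=
  @Classical.epsilon _ ⟨⟨0, by have := two_le_mm; omega⟩⟩ fun i => a i ≠ 0 ∧ ∀ l, a l ≠ 0 → i ≤ l

theorem top_spec {A : Type} [Zero A] {a : Fin mm → A} (h : a ≠ 0) :
    a (top a) ≠ 0 ∧ ∀ l, a l ≠ 0 → l ≤ top a := by
  refine Classical.epsilon_spec (p := fun i => a i ≠ 0 ∧ ∀ l, a l ≠ 0 → l ≤ i) ?_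
  exact Set.exists_max_image {i | a i ≠ 0} id (Set.toFinite _) (Function.ne_iff.1 h)

theorem bot_spec {A : Type} [Zero A] {a : Fin mm → A} (h : a ≠ 0) :
    a (bot a) ≠ 0 ∧ ∀ l, a l ≠ 0 → bot a ≤ l := by
  refine Classical.epsilon_spec (p := fun i => a i ≠ 0 ∧ ∀ l, a l ≠ 0 → i ≤ l) ?_
  exact Set.exists_min_image {i | a i ≠ 0} id (Set.toFinite _) (Function.ne_iff.1 h)

noncomputable def KU (a : Fin mm → ℤ) : Matrix (Fin mm) (Fin mm) ℤ :=
  colM (top a) fun r => -(a r * (DT / a (top a)))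

noncomputable def KV (a : Fin mm → ℤ) : Matrix (Fin mm) (Fin mm) ℤ :=
  rowM (bot a) fun r => -(a r * (DT / a (bot a)))

noncomputable def atL (a b : Fin mm → ℤ) : List (ℕ × PF) :=
  [(4, .sub (.glob 4) (.cst 1)), (5, .add (.glob 5) (.mul (.cst (top a)) eD)),
    (6, .add (.glob 6) (.mul (.cst (bot b)) eD)),
    (7, zq (-(a (top a) * b (bot b) * (DT / 8))) (.mul tq (.glob 7)))]

open Classical in
noncomputable def atC (a b : Fin mm → ℤ) (_ : Bool) : Cmd :=
  if a ≠ 0 ∧ b ≠ 0 then .seq (triM eE (-KV b)) (.seq (triM eX (KU a))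
    (.seq (lets (atL a b) (.call 1)) (.seq (triM eX (-KU a)) (triM eE (KV b))))) else .skip

noncomputable def dIns : Ins ℤ → ℕ
  | .gate _ _ _ => 0
  | .atom _ a b _ => dBlk mm eD eE eE (cM (-KV b)) + dBlk mm eD eX eX (cM (KU a)) + dLets (atL a b) +
      dBlk mm eD eX eX (cM (-KU a)) + dBlk mm eD eE eE (cM (KV b))

/-- The body of procedure 1. -/
noncomputable def Tbody : Cmd := iff (.glob 4)
  (lett 8 (.div (.glob 8) (.cst (2 ^ wT))) (exec (.glob 8) (fun _ => xorI 3 4) atC lT)) baseC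

theorem TC.inv (h : TC g B Zb rad D S ep xp d q b) {x y : ℤ} (hy : y ∣ (DT : ℤ)) :
    ((-(x * (DT / y)) : ℤ) : ZMod q) * ((q / DT : ℕ) : ZMod q) * y = x := by
  have h1 : ((DT * (q / DT) + 1 : ℕ) : ZMod q) = 0 := by rw [← h.hq]; simp
  have h2 : ((DT / y * y : ℤ) : ZMod q) = (DT : ℤ) := by rw [Int.ediv_mul_cancel hy]
  push_cast at h1 h2 ⊢
  linear_combination -(x : ZMod q) * h1 - x * ((q / DT : ℕ) : ZMod q) * h2

theorem atom_rz [NeZero q] (h : TC g B Zb rad D S ep xp d q b) {j i tp : ℕ} {a a' : Fin mm → ℤ}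
    {pd : Bool} (hm : .atom i a a' pd ∈ lT) (hB : Bud g B (dIns (.atom i a a' pd)) Zb)
    (g4 : g 4 = j + 1) (h5 : g 5 + mm * mm ^ j ≤ d) (h6 : g 6 + mm * mm ^ j ≤ d)
    (ih : ∀ g', TC g' B Zb rad D S ep xp d q b → (∀ K, Bud g B K Zb → Bud g' B K Zb) → g' 4 = j →
      g' 5 + mm ^ j ≤ d → g' 6 + mm ^ j ≤ d →
      Rz P (.call 1) g' rad (D + 1) S (act q (shG (mm ^ j) (xp + g' 5) (ep + g' 6) (g' 7))) tp) :
    Rz P (atC a a' pd) g rad (D + 1) S (act q (blkG (mm ^ j) (xp + g 5) (ep + g 6)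
      ((((-(1 * (DT / 8)) : ℤ) : ZMod q) * ((q / DT : ℕ) : ZMod q) * g 7) •
        (Int.castRingHom (ZMod q)).mapMatrix (Matrix.vecMulVec a a'))))
      (5000 * (mm * mm ^ j * (wt rad (D + 1) * S)) + tp) := by
  have o1 := h.o1
  have o2 := h.o2
  have z1 := h.Z (k := D + 1) (by omega) le_rfl
  have z2 := hB.pos
  have m1 : 1 ≤ mm ^ j := Nat.one_le_pow _ _ (by have := two_le_mm; omega)
  have m2 : mm ^ j ≤ mm * mm ^ j := Nat.le_mul_of_pos_left _ (by have := two_le_mm; omega)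
  have m3 : wt rad (D + 1) * S ≤ mm * mm ^ j * (wt rad (D + 1) * S) :=
    Nat.le_mul_of_pos_left _ (by omega)
  unfold atC
  split_ifs with hz
  swap
  · refine (Rz.skip.congr fun x _ => ?_).le (by omega)
    have : Matrix.vecMulVec a a' = 0 := by
      rcases not_and_or.1 hz with e | e <;> simp [not_not.1 e]
    rw [this, map_zero, smul_zero, show blkG _ _ _ _ = id from funext blkG_zero, act_id, id]
  obtain ⟨a1, a2⟩ := top_spec hz.1
  obtain ⟨b1, b2⟩ := bot_spec hz.2
  obtain ⟨-, d8, hd⟩ := (exists_DT lT).choose_spec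
  have u1 : ∀ r l, KU a r l ≠ 0 → r < l := fun r l hl => by
    simp only [KU, colM, Matrix.of_apply, ne_eq, ite_eq_right_iff, not_forall] at hl
    obtain ⟨⟨rfl, e1⟩, e2⟩ := hl
    exact lt_of_le_of_ne (a2 r fun e => e2 (by simp [e])) e1
  have u2 : ∀ r l, KV a' r l ≠ 0 → r < l := fun r l hl => by
    simp only [KV, rowM, Matrix.of_apply, ne_eq, ite_eq_right_iff, not_forall] at hl
    obtain ⟨⟨rfl, e1⟩, e2⟩ := hl
    exact lt_of_le_of_ne (b2 l fun e => e2 (by simp [e])) (Ne.symm e1)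
  have tX := fun K hB hK => tri_rz (P := P) (K := K) (eT := eX) (p := xp + g 5) h hB g4 (by omega)
    (fun i => by simpa using (h.upd (i := 13) (by omega) i).eX (by simp; omega))
    (fun i hi => by rw [add_assoc]; exact h.rx _ (by omega)) (by omega) (by omega) hK
  have tE := fun K hB hK => tri_rz (P := P) (K := K) (eT := eE) (p := ep + g 6) h hB g4 (by omega)
    (fun i => by simpa using (h.upd (i := 13) (by omega) i).eE (by simp; omega))
    (fun i hi => by rw [add_assoc]; exact h.re _ (by omega)) (by omega) (by omega) hK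
  have w1 : (top a + 1) * mm ^ j ≤ mm * mm ^ j := Nat.mul_le_mul_right _ (top a).2
  have w2 : (bot a' + 1) * mm ^ j ≤ mm * mm ^ j := Nat.mul_le_mul_right _ (bot a').2
  rw [add_mul] at w1 w2
  have dl := h.d_lt
  have ql : q < 2 ^ B := by
    simpa using (win_pow h.rx (i := 1) (by omega) h.pos (by omega)).2.trans_lt h.lt
  have e4 : (PF.sub (.glob 4) (.cst 1)).eval g [] = j := by simp [g4]
  have e5 : (PF.add (.glob 5) (.mul (.cst (top a)) eD)).eval g [] = g 5 + top a * mm ^ j := by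
    simp [h.eD g4 (by omega)]
  have e6 : (PF.add (.glob 6) (.mul (.cst (bot a')) eD)).eval g [] = g 6 + bot a' * mm ^ j := by
    simp [h.eD g4 (by omega)]
  have e7 := eval_zq h.g9 (-(a (top a) * a' (bot a') * (DT / 8))) (.mul tq (.glob 7)) []
  have e8 := zq_lt h.g9 (-(a (top a) * a' (bot a') * (DT / 8))) (.mul tq (.glob 7)) []
  have c0 : Rz P (lets (atL a a') (.call 1)) g rad (D + 1) S _ _ := fun R => Step.lets _
    (by simp [atL]) (by simp [atL]) (hB.mono (by rw [dIns]; omega))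
    (ih (upds g (atL a a')) ((((h.upd (by omega) _).upd (by omega) _).upd (by omega) _).upd
      (by omega) _) (fun K hK => (((hK.set 7 (by omega)).set 6 (by omega)).set 5 (by omega)).set 4
        (by have := hB.lt (i := 4) (by omega); omega))
      (by simp [atL, upds, g4]) (by simp only [atL, upds, e5]; simp; omega)
      (by simp only [atL, upds, e6]; simp; omega) R)
  simp only [atL, upds, e5, e6, update_self, ne_eq, Nat.reduceEqDiff, not_false_eq_true,
    update_of_ne, e7, ← add_assoc, ← blkG_single, List.length_cons, List.length_nil] at c0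
  refine (((tE _ (hB.mono (by rw [dIns]; omega)) fun r l hl => u2 r l (by simpa using hl)).seqA
    ((tX _ (hB.mono (by rw [dIns]; omega)) u1).seqA (Rz.seqA c0
    ((tX _ (hB.mono (by rw [dIns]; omega)) fun r l hl => u1 r l (by simpa using hl)).seqA
    (tE _ (hB.mono (by rw [dIns]; omega)) u2))))).congr fun x _ => ?_).le (by
      simp only [add_mul, one_mul]; omega)
  have n1 : ∀ K, zM q (-K) = -zM q K := fun K => by ext r l; simp [zM]
  have n2 : zM q (KU a) = colM (top a) fun r =>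
      ((-(a r * (DT / a (top a))) : ℤ) : ZMod q) * ((q / DT : ℕ) : ZMod q) := by
    ext r l; simp only [zM, KU, colM, Matrix.of_apply]; split_ifs <;> simp
  have n3 : zM q (KV a') = rowM (bot a') fun r =>
      ((-(a' r * (DT / a' (bot a'))) : ℤ) : ZMod q) * ((q / DT : ℕ) : ZMod q) := by
    ext r l; simp only [zM, KV, rowM, Matrix.of_apply]; split_ifs <;> simp
  have := rank_one (top a) (bot a') (fun r => (a r : ZMod q)) (fun r => (a' r : ZMod q)) _ _
    (((-(1 * (DT / 8)) : ℤ) : ZMod q) * ((q / DT : ℕ) : ZMod q) * g 7)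
    (fun l => h.inv ((hd _ _ _ _ hm _).1 a1)) fun l => h.inv ((hd _ _ _ _ hm _).2 b1)
  have n4 : ((-(a (top a) * a' (bot a') * (DT / 8)) : ℤ) : ZMod q) *
      ((PF.mul tq (.glob 7)).eval g [] : ℕ) = ((-(1 * (DT / 8)) : ℤ) : ZMod q) *
      ((q / DT : ℕ) : ZMod q) * g 7 * a (top a) * a' (bot a') := by
    simp [tq, h.g9]; ring
  have n5 : (Int.castRingHom (ZMod q)).mapMatrix (Matrix.vecMulVec a a') =
      Matrix.vecMulVec (fun r => (a r : ZMod q)) fun r => (a' r : ZMod q) := by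
    ext r l; simp [Matrix.vecMulVec_apply]
  rw [n1, n1, n2, n3, blkG_conj (by omega) _ _ _ (col_sq _ _) (row_sq _ _), n4, this, n5]

theorem valid_shG [NeZero q] {n tp sp : ℕ} {c : ZMod q} {x : ℕ → ℕ} (h : ∀ i < n, rad (tp + i) = q)
    (hx : Valid rad D x) : Valid rad D (act q (shG n tp sp c) x) := fun k hk => by
  by_cases e : tp ≤ k ∧ k < tp + n
  · have := h (k - tp) (by omega)
    rw [Nat.add_sub_cancel' e.1] at this
    rw [act_small (this ▸ hx k hk), this]
    exact ZMod.val_lt _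
  · rw [act_fix (if_neg e)]; exact hx k hk

theorem shG_update {n tp sp : ℕ} {c : ZMod q} (h1 : tp + n ≤ D) (h2 : sp + n ≤ D) (x : ℕ → ℕ)
    (v : ℕ) : act q (shG n tp sp c) (update x D v) = update (act q (shG n tp sp c) x) D v := by
  funext k
  by_cases e : k = D
  · rw [e, act_fix (if_neg (by omega)), update_self, update_self]
  · rw [update_of_ne e, act, act, shG, shG, update_of_ne e]
    split_ifs
    · rw [update_of_ne (by omega)]
    · rfl

/-- The constant `K` is large enough for procedure 1. -/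
structure KT (K : ℕ) : Prop where
  k1 : (PF.glob 4).deg ≤ K
  k2 : dBase ≤ K
  k3 : (PF.div (.glob 8) (.cst (2 ^ wT))).deg ≤ K
  k4 : dExec (.glob 8) lT ≤ K
  k5 : (lT.map dIns).sum ≤ K
  k6 : 6000 * lT.length + 2000 ≤ K

theorem Tcall {K : ℕ} {Pre Post : List Bool → Prop} (hP : P 1 = Tbody) (hK : KT K)
    (hB : Bud g B K Zb) (h : g 4 ≠ 0 → Step P (lett 8 (.div (.glob 8) (.cst (2 ^ wT)))
      (exec (.glob 8) (fun _ => xorI 3 4) atC lT)) g Pre Post t)
    (h' : g 4 = 0 → Step P baseC g Pre Post t) : Step P (.call 1) g Pre Post (t + 20 * Zb + 1) :=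
  Step.call (by rw [hP, Tbody]; exact Step.iff (hB.mono hK.k1) h h')

theorem T_rz [NeZero q] {K : ℕ} (hP : P 1 = Tbody) (hK : KT K) (j : ℕ) : ∀ (g rad : ℕ → ℕ) (n : ℕ),
    TC g B Zb rad D S ep xp d q b → Bud g B K Zb → g 4 = j → g 5 + mm ^ j ≤ d → g 6 + mm ^ j ≤ d →
    (2 ^ wT) ^ j ∣ rad D → wt rad (D + 1) * S = (2 ^ wT) ^ j * n →
    Rz P (.call 1) g rad (D + 1) S (act q (shG (mm ^ j) (xp + g 5) (ep + g 6) (g 7)))
      (K * ((pdT ^ j * (b + 1) + j * (2 ^ wT * mm) ^ j) * n)) := by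
  induction j with
  | zero =>
    intro g rad n h hB g4 h5 h6 _ hn R
    have z1 := h.Z (k := D + 1) (by have := h.o1; have := h.o2; omega) le_rfl
    have z2 := hB.pos
    refine (Tcall hP hK hB (fun e => absurd g4 e)
      fun _ => base_rz h (hB.mono hK.k2) h5 h6 R).le ?_
    simp only [pow_zero, one_mul, zero_mul, add_zero] at hn ⊢
    rw [hn] at z1 ⊢
    have := Nat.mul_le_mul_right ((b + 1) * n) (le_of_add_le_right hK.k6)
    nlinarith
  | succ j ih =>
    rintro g rad n h hB g4 h5 h6 ⟨H, hH⟩ hn R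
    have o1 := h.o1
    have o2 := h.o2
    rw [pow_succ', mul_assoc] at hH
    rw [pow_succ'] at h5 h6
    have hw := wt_top hH
    have hW : 0 < 2 ^ wT := by positivity
    generalize hr : update rad D ((2 ^ wT) ^ j * H) = rad' at hw
    have hn' : wt rad' (D + 1) * S = (2 ^ wT) ^ j * n :=
      Nat.eq_of_mul_eq_mul_left hW (by rw [← mul_assoc, ← hw, hn]; ring)
    have hl : wt rad' (D + 1) * S ≤ wt rad (D + 1) * S := by
      rw [hw, mul_assoc]; exact Nat.le_mul_of_pos_left _ hW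
    have w1 : ∀ k ≤ D, wt rad' k = wt rad k := fun k hk => hr ▸ wt_update_le hk _
    have w2 : ∀ k < D, rad' k = rad k := fun k hk => hr ▸ update_of_ne (by omega) _ _
    have h' : TC (update g 8 (wt rad' (D + 1) * S)) B Zb rad' D S ep xp d q b :=
      { h with
        gU := by simpa using h.gU
        g3 := by simpa using h.g3
        g8 := by simp
        g9 := by simpa using h.g9
        g10 := by rw [w1 ep (by omega)]; simpa using h.g10
        g11 := by rw [w1 xp (by omega)]; simpa using h.g11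
        g12 := by simpa using h.g12
        re := fun i hi => by rw [w2 _ (by omega), h.re i hi]
        rx := fun i hi => by rw [w2 _ (by omega), h.rx i hi]
        hZ := by rw [w1 _ (by omega)]; exact h.hZ
        pos := Nat.pos_of_mul_pos_left (hw ▸ h.pos)
        sz := hl.trans_lt h.sz }
    have hB' := hB.set 8 (hl.trans_lt h.sz)
    have z1 := h'.Z (k := D + 1) (by omega) le_rfl
    have z2 := hB.pos
    have m1 : 1 ≤ mm * mm ^ j := by have := two_le_mm; exact Nat.mul_pos (by omega) (by positivity)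
    have m3 : wt rad' (D + 1) * S ≤ mm * mm ^ j * (wt rad' (D + 1) * S) :=
      Nat.le_mul_of_pos_left _ m1
    have e8 : (((-(1 * (DT / 8)) : ℤ) : ZMod q) * ((q / DT : ℕ) : ZMod q) * g 7) •
        (Int.castRingHom (ZMod q)).mapMatrix (8 : Matrix (Fin mm) (Fin mm) ℤ) =
        (g 7 : ZMod q) • (1 : Matrix (Fin mm) (Fin mm) (ZMod q)) := by
      have := h.inv (x := 1) (exists_DT lT).choose_spec.2.1
      rw [map_ofNat, show (8 : Matrix (Fin mm) (Fin mm) (ZMod q)) = (8 : ZMod q) • 1 by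
        rw [Matrix.smul_one_eq_diagonal]; rfl, smul_smul]
      congr 1
      push_cast at this ⊢
      linear_combination (g 7 : ZMod q) * this
    have key := net_rz (P := P) (at' := atC) (g := update g 8 (wt rad' (D + 1) * S)) (S := S)
      (t := 5000 * (mm * mm ^ j * (wt rad' (D + 1) * S)))
      (fun M => act q (blkG (mm ^ j) (xp + g 5) (ep + g 6)
        ((((-(1 * (DT / 8)) : ℤ) : ZMod q) * ((q / DT : ℕ) : ZMod q) * g 7) •
          (Int.castRingHom (ZMod q)).mapMatrix M)))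
      (fun x => by rw [map_zero, smul_zero, show blkG _ _ _ _ = id from funext blkG_zero, act_id])
      (fun M M' x => by rw [act_act, blkG_add (by omega), map_add, smul_add, add_comm (_ • _)])
      hH (by simp [hr]) (hB'.mono hK.k4) (by simp; omega)
      (fun x hx => by
        rw [e8, blkG_scalar]
        exact valid_shG (fun i hi => by rw [add_assoc]; exact h.rx _ (by omega)) hx)
      (fun x v => by rw [e8, blkG_scalar]; exact shG_update (by omega) (by omega) x v)
      (fun i a a' pd hm => by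
        have := List.single_le_sum (l := lT.map dIns) (fun _ _ => Nat.zero_le _) _
          (List.mem_map_of_mem hm)
        simpa [hr] using atom_rz h' hm (hB'.mono (this.trans hK.k5)) (by simpa using g4)
          (by simpa using h5) (by simpa using h6) fun g' a1 a2 a3 a4 a5 =>
            ih g' rad' n a1 (a2 _ hB') a3 a4 a5 (by simp [← hr]) hn')
    rw [e8, blkG_scalar, ← pow_succ'] at key
    refine (Tcall hP hK hB (fun _ => Step.lett (by omega) (hB.mono hK.k3) (by
        simp only [PF.eval_div, PF.eval_glob, PF.eval_cst, Nat.reduceLT, if_true, h.g8]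
        rw [hw, mul_assoc, Nat.mul_div_cancel_left _ hW]) (key R))
      fun e => absurd e (by simp [g4])).le ?_
    have p1 := pdT_lt.le
    have p2 : (2 ^ wT * mm) ^ (j + 1) * n = 2 ^ wT * (mm ^ (j + 1) * (wt rad' (D + 1) * S)) := by
      rw [hn']; ring
    have p3 : pdT * (j * (2 ^ wT * mm) ^ j * n) ≤ j * ((2 ^ wT * mm) ^ (j + 1) * n) := by
      calc _ ≤ 2 ^ wT * mm * (j * (2 ^ wT * mm) ^ j * n) := Nat.mul_le_mul_right _ p1
        _ = _ := by ring
    rw [← pow_succ'] at m3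
    rw [update_self]
    generalize wt rad' (D + 1) * S = L at *
    have p4 : 2 ^ wT * L ≤ (2 ^ wT * mm) ^ (j + 1) * n := by
      rw [p2]; exact Nat.mul_le_mul_left _ m3
    have p5 : mm ^ (j + 1) * L ≤ (2 ^ wT * mm) ^ (j + 1) * n := by
      rw [p2]; exact Nat.le_mul_of_pos_left _ hW
    have p6 := Nat.mul_le_mul_left K p3
    have p7 : lT.length * (5000 * (mm ^ (j + 1) * L) + 250 * (2 ^ wT * L) + 300 * Zb + 1) ≤
        lT.length * (6000 * ((2 ^ wT * mm) ^ (j + 1) * n)) := Nat.mul_le_mul_left _ (by omega)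
    have p8 : K * ((pdT ^ (j + 1) * (b + 1) + (j + 1) * (2 ^ wT * mm) ^ (j + 1)) * n) =
        pdT * (K * (pdT ^ j * (b + 1) * n)) + K * (j * ((2 ^ wT * mm) ^ (j + 1) * n)) +
        K * ((2 ^ wT * mm) ^ (j + 1) * n) := by ring
    have p9 : pdT * (K * ((pdT ^ j * (b + 1) + j * (2 ^ wT * mm) ^ j) * n)) =
        pdT * (K * (pdT ^ j * (b + 1) * n)) + K * (pdT * (j * (2 ^ wT * mm) ^ j * n)) := by ring
    have p10 := Nat.mul_le_mul_right ((2 ^ wT * mm) ^ (j + 1) * n) hK.k6
    rw [add_mul, mul_comm 6000, mul_assoc] at p10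
    rw [p8, p9]
    omega

end Vale.Agent.P338
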