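import Vale.Agent.P338.Gx

/-! Permutations of the digits of radix `Q` by exchanges. -/

namespace Vale.Agent.P338

open Function Finset

/-- The weight of the digit at position `1 + e`. -/
def wD (e : PF) : PF := .mul (.pow2 (.sub (.glob 26) (.glob 27))) (.pow2 (.mul (.glob 24) e))

/-- The number of cells of the padded array. -/
def eCells : PF := .pow2 (.add (.glob 26) (.mul (.glob 24) (.mul (.cst 4) (.glob 20))))

noncomputable def swapsM (en elo ehi : PF) : Cmd :=
  forN 21 en (swapM (wD elo) (wD ehi) (.div (.glob 24) (.pow2 (.mul (.cst 18) (.glob 25))))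
    (.glob 25) eCells)

/-- The product of the first exchanges, as a map of positions. -/
def tp (lo hi : ℕ → ℕ) : ℕ → ℕ → ℕ
  | 0, m => m
  | i + 1, m => Equiv.swap (1 + lo i) (1 + hi i) (tp lo hi i m)

theorem tp_spec {lo hi : ℕ → ℕ} {c : ℕ} (h1 : ∀ i < c, ∀ j < c, lo i = lo j → i = j)
    (h2 : ∀ i < c, ∀ j < c, hi i = hi j → i = j) (h3 : ∀ i < c, ∀ j < c, lo i ≠ hi j) :
    (∀ i < c, tp lo hi c (1 + lo i) = 1 + hi i ∧ tp lo hi c (1 + hi i) = 1 + lo i) ∧
      ∀ m, (∀ i < c, m ≠ 1 + lo i ∧ m ≠ 1 + hi i) → tp lo hi c m = m := by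
  induction c with
  | zero => simp [tp]
  | succ c ih =>
    obtain ⟨a1, a2⟩ := ih (fun i hi j hj => h1 i (by omega) j (by omega))
      (fun i hi j hj => h2 i (by omega) j (by omega)) fun i hi j hj => h3 i (by omega) j (by omega)
    refine ⟨fun i hi' => ?_, fun m hm => ?_⟩
    · rcases Nat.lt_succ_iff_lt_or_eq.mp hi' with h | rfl
      · have b1 := h1 i hi' c (by omega)
        have b2 := h2 i hi' c (by omega)
        have b3 := h3 i hi' c (by omega)
        have b4 := h3 c (by omega) i hi'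
        rw [tp, tp, (a1 i h).1, (a1 i h).2, Equiv.swap_apply_of_ne_of_ne (by omega) (by omega),
          Equiv.swap_apply_of_ne_of_ne (by omega) (by omega)]
        exact ⟨rfl, rfl⟩
      · rw [tp, tp, a2, a2, Equiv.swap_apply_left, Equiv.swap_apply_right]
        · exact ⟨rfl, rfl⟩
        · intro j hj
          have b2 := h2 i hi' j (by omega)
          have b3 := h3 j (by omega) i hi'
          omega
        · intro j hj
          have b1 := h1 i hi' j (by omega)
          have b3 := h3 i hi' j (by omega)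
          omega
    · rw [tp, a2 m fun i hi => hm i (by omega),
        Equiv.swap_apply_of_ne_of_ne (hm c (by omega)).1 (hm c (by omega)).2]

variable {P : Tbl} {g : ℕ → ℕ} {B Zb K n b p f f0 k e σ' s G ω N len Mu : ℕ} {sz : ℕ → ℕ}

theorem Gx.bits (h : Gx P g B Zb K n b p f f0 k e σ' s G ω N len Mu sz) :
    G + s * (4 * mm ^ k) < B := by
  have h1 := h.big
  have h2 := h.p10
  rw [h.hlen, ← pow_mul, ← pow_add] at h1
  refine (Nat.pow_lt_pow_iff_right (a := 2) (by norm_num)).mp (lt_of_le_of_lt ?_ h1)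
  nlinarith [Nat.one_le_two_pow (n := G + s * (4 * mm ^ k))]

theorem Gx.wD (h : Gx P g B Zb K n b p f f0 k e σ' s G ω N len Mu sz) {x : PF} {m : ℕ}
    {l : List ℕ} (hx : x.eval g l = m) (hm : m ≤ 4 * mm ^ k) :
    (wD x).eval g l = 2 ^ (G - ω) * (2 ^ s) ^ m := by
  have h1 := h.bits
  have h2 : s * m ≤ s * (4 * mm ^ k) := Nat.mul_le_mul_left _ hm
  rw [P338.wD, PF.eval_mul, PF.eval_pow2 h.gU _ (by simp [h.g26, h.g27]; omega),
    PF.eval_pow2 h.gU _ (by simp [h.g24, hx]; omega)]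
  simp [h.g26, h.g27, h.g24, hx, pow_mul]

theorem Gx.eCells (h : Gx P g B Zb K n b p f f0 k e σ' s G ω N len Mu sz) (l : List ℕ) :
    eCells.eval g l = wt (radD (2 ^ (G - ω)) (2 ^ s) (4 * mm ^ k) (2 ^ ω)) (4 * mm ^ k + 2) := by
  have h1 := h.bits
  rw [P338.eCells, PF.eval_pow2 h.gU _ (by simp [h.g26, h.g24, h.g20]; omega), wt_radD',
    mul_right_comm (2 ^ (G - ω)), ← pow_add, Nat.sub_add_cancel h.ωG.le]
  simp [h.g26, h.g24, h.g20, pow_add, pow_mul]

theorem lt_mm_pow (e : ℕ) : 18 * e < mm ^ e := by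
  rw [mm, ← pow_mul]; exact Nat.lt_two_pow_self

theorem swaps_lay (en elo ehi : PF) : ∃ K : ℕ, ∀ (P : Tbl) (g : ℕ → ℕ)
    (B Zb n b p f f0 k e σ' s G ω N len Mu : ℕ) (sz : ℕ → ℕ) (c : ℕ) (lo hi : ℕ → ℕ)
    (R : (ℕ → ℕ) → List Bool → Prop), Gx P g B Zb K n b p f f0 k e σ' s G ω N len Mu sz →
    en.eval g [] = c → c ≤ 4 * mm ^ k → (∀ i < c, elo.eval (update g 21 i) [] = lo i ∧
      ehi.eval (update g 21 i) [] = hi i ∧ lo i < hi i ∧ hi i < 4 * mm ^ k) →
    Step P (swapsM en elo ehi) g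
      (Lay (radD (2 ^ (G - ω)) (2 ^ s) (4 * mm ^ k) (2 ^ ω)) (4 * mm ^ k + 2) (2 * p) R)
      (Lay (radD (2 ^ (G - ω)) (2 ^ s) (4 * mm ^ k) (2 ^ ω)) (4 * mm ^ k + 2) (2 * p)
        fun x => R (x ∘ tp lo hi c))
      (K * (mm ^ k * Sw e (2 * σ') len)) := by
  obtain ⟨K, hK⟩ := swap_lay
  refine ⟨K + (wD elo).deg + (wD ehi).deg +
    (PF.div (.glob 24) (.pow2 (.mul (.cst 18) (.glob 25)))).deg + (PF.glob 25).deg + eCells.deg +
    dFor 21 en + 4 * K + 200, ?_⟩
  intro P g B Zb n b p f f0 k e σ' s G ω N len Mu sz c lo hi R h h1 hc h2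
  have hb := h.bits
  have hp := h.p10
  have hl := h.len_eq
  have r0 : 0 < mm ^ k := pow_pos (by decide) _
  have s0 : 0 < s := by rw [h.hs]; have := h.σ0; have : 0 < mm ^ e := pow_pos (by decide) _; positivity
  have cB : c < 2 ^ B := by
    have := Nat.lt_two_pow_self (n := B)
    nlinarith
  generalize hr : radD (2 ^ (G - ω)) (2 ^ s) (4 * mm ^ k) (2 ^ ω) = rad at *
  have hw : ∀ m ≤ 4 * mm ^ k, wt rad (1 + m) = 2 ^ (G - ω) * (2 ^ s) ^ m := fun m hm => by
    rw [← hr, wt_radD _ _ _ _ hm]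
  have hq : ∀ m < 4 * mm ^ k, rad (1 + m) = 2 ^ s := fun m hm => by
    rw [← hr, radD, if_neg (by omega), if_pos (by omega)]
  have hZ : Zb ≤ len := by
    have := h.hZ
    rw [← hl, ← hr, wt_radD']
    refine this.trans ?_
    rw [mul_assoc, mul_assoc]
    exact Nat.le_mul_of_pos_right _ (by positivity)
  have hS : len ≤ Sw e (2 * σ') len := by
    have : 0 < mm ^ e := pow_pos (by decide) _
    have : 1 ≤ (e + 1) * mm ^ e := Nat.succ_le_of_lt (by positivity)
    unfold Sw; nlinarith [Nat.zero_le (pdT ^ e * (2 * σ' + 1) * (len / (2 ^ wT) ^ e))]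
  have hdiv : (2 ^ wT) ^ e ∣ 2 ^ ω := by
    rw [← pow_mul, h.hω]
    exact pow_dvd_pow _ (by nlinarith [h.ek])
  refine (Step.forN (R := fun i => Lay rad (4 * mm ^ k + 2) (2 * p) fun x => R (x ∘ tp lo hi i))
    (t := K * Sw e (2 * σ') len) (by omega) (h.bud.mono (by omega)) h1 cB fun i hi' => ?_).le ?_
  · obtain ⟨a1, a2, a3, a4⟩ := h2 i hi'
    have h' := h.upd (i := 21) (v := i) (by omega) (by omega)
    have e18 : 18 * e ≤ B := by
      have := lt_mm_pow e
      have : mm ^ e ≤ s := by rw [h.hs]; have := h.σ0; nlinarith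
      nlinarith
    have hlen : wt rad (4 * mm ^ k + 2) * (2 * p) = (2 ^ wT) ^ e * (len / (2 ^ wT) ^ e) := by
      rw [Nat.mul_div_cancel', hl]
      rw [← hl, ← hr, wt_radD']
      exact (hdiv.mul_left _).mul_right _
    refine (hK P h.t1 (wD elo) (wD ehi) _ _ eCells _ B Zb rad (4 * mm ^ k + 2) (2 * p) (1 + lo i)
      (1 + hi i) 1 (2 * σ') e (len / (2 ^ wT) ^ e) _ (fun x => x ∘ Equiv.swap (1 + lo i) (1 + hi i))
      (fun _ => True) (h'.bud.mono (by omega)) h'.gU h'.g3
      (by rw [h'.wD a1 (by omega), hw _ (by omega)]) (by rw [h'.wD a2 (by omega), hw _ (by omega)])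
      ?_ (by simp [h.g25]) (by rw [h'.eCells, hr]) (by omega) (by omega)
      (by rw [bw_one, hq _ (by omega), h.hs]) (by rw [bw_one, hq _ (by omega), h.hs]) ?_ hlen
      ((Nat.mul_le_mul_right _ (by omega)).trans h.hK) ?_ (by rw [← hr, wt_radD']; positivity)
      (by rw [hl]; exact h.big) fun x hx _ => ⟨fun m hm => ?_, fun m hm => ?_, ?_, ?_⟩).mono
      (fun _ h => h) (fun l hl => hl.mono fun x c _ _ hc => hc trivial) (by rw [hl, Sw])
    · rw [PF.eval_div, PF.eval_pow2 h'.gU _ (by simpa [h.g25] using e18)]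
      simp only [PF.eval_glob, PF.eval_mul, PF.eval_cst, Nat.reduceLT, reduceIte, h'.g24, h'.g25]
      rw [h.hs, pow_mul, ← mm, Nat.mul_div_cancel _ (pow_pos (by decide) _)]
    · obtain ⟨j, hj⟩ : ∃ j, 4 * mm ^ k + 2 - (1 + hi i + 1) = j + 1 := ⟨4 * mm ^ k - hi i - 1, by omega⟩
      rw [hj, bw, wt, ← hr, radD, if_neg (by omega), if_neg (by omega)]
      exact hdiv.mul_left _
    · rw [hw _ (by omega), mul_assoc]
      exact h.hZ.trans (Nat.le_mul_of_pos_right _ (by positivity))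
    · simp only [comp_apply, Equiv.swap_apply_def]
      split_ifs with b1 b2
      · rw [b1, hq _ (by omega), ← hq _ a4]; exact hx _ (by omega)
      · rw [b2, hq _ a4, ← hq (lo i) (by omega)]; exact hx _ (by omega)
      · exact hx m hm
    · rw [comp_apply, Equiv.swap_apply_of_ne_of_ne (by omega) (by omega)]
    · simp [blk_one]
    · simp [blk_one]
  · generalize Sw e (2 * σ') len = X at *
    generalize mm ^ k = r at *
    have : c * (K * X + 40 * Zb) ≤ 4 * r * (K * X + 40 * X) := by gcongr; omega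
    have : Zb ≤ r * X := by nlinarith
    nlinarith [Nat.zero_le ((K + (wD elo).deg + (wD ehi).deg +
      (PF.div (.glob 24) (.pow2 (.mul (.cst 18) (.glob 25)))).deg + (PF.glob 25).deg + eCells.deg +
      dFor 21 en) * (r * X))]

end Vale.Agent.P338
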