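import Vale.Agent.P338.Lang

/-! An intermediate machine with one tape for every natural number that runs stack programs. -/

namespace Vale.Agent.P338

open Function

/-- What happens on one tape in one step. -/
inductive Op (G : Type)
  | nop
  | psh (s : G)
  | pop

variable {G Q : Type}

def Op.wr : Op G → G → G × Move
  | .nop, a => (a, .stay)
  | .psh s, _ => (s, .right)
  | .pop, a => (a, .left)

def Op.ap : Op G → List G → List G
  | .nop, l => l
  | .psh s, l => s :: l
  | .pop, l => l.tail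

/-- The cells to the left of position `h` hold the stack `l`, top first. -/
def Rep (tp : ℕ → G) : ℕ → List G → Prop
  | _, [] => True
  | h, s :: l => 0 < h ∧ tp (h - 1) = s ∧ Rep tp (h - 1) l

theorem Rep.congr {tp tp' : ℕ → G} {h : ℕ} {l : List G} (H : Rep tp h l)
    (e : ∀ i < h, tp' i = tp i) : Rep tp' h l := by
  induction l generalizing h with
  | nil => trivial
  | cons s l ih =>
    obtain ⟨h1, h2, h3⟩ := H
    exact ⟨h1, (e _ (by omega)).trans h2, ih h3 fun i hi => e i (by omega)⟩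

theorem Rep.step {tp : ℕ → G} {h : ℕ} {l : List G} (H : Rep tp h l) (o : Op G) :
    Rep (update tp h (o.wr (tp h)).1) ((o.wr (tp h)).2.app h) (o.ap l) := by
  cases o with
  | nop => simpa [Op.wr, Op.ap, Move.app] using H
  | psh s =>
    exact ⟨Nat.succ_pos _, by simp [Op.wr, Move.app],
      H.congr fun i hi => update_of_ne (Nat.ne_of_lt hi) _ _⟩
  | pop =>
    rcases l with _ | ⟨s, l⟩
    · trivial
    · simpa [Op.wr, Op.ap, Move.app] using H.2.2

/-- Configurations with infinitely many tapes. -/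
structure AC (G Q : Type) where
  q : Q
  hd : ℕ → ℕ
  tp : ℕ → ℕ → G

def AC.sc (C : AC G Q) (j : ℕ) : G := C.tp j (C.hd j)

def AC.next (C : AC G Q) (r : Q × (ℕ → Op G)) : AC G Q where
  q := r.1
  hd j := ((r.2 j).wr (C.sc j)).2.app (C.hd j)
  tp j := update (C.tp j) (C.hd j) ((r.2 j).wr (C.sc j)).1

theorem AC.sc_pop {C : AC G Q} {r : Q × (ℕ → Op G)} {j : ℕ} {s : G} {l : List G}
    (H : Rep (C.tp j) (C.hd j) (s :: l)) (e : r.2 j = .pop) : (C.next r).sc j = s := by
  simpa [AC.sc, AC.next, e, Op.wr, Move.app] using H.2.1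

def one (i : ℕ) (o : Op G) : ℕ → Op G := fun j => if j = i then o else .nop

def twoT (i : ℕ) (o : Op G) (i' : ℕ) (o' : Op G) : ℕ → Op G :=
  fun j => if j = i then o else if j = i' then o' else .nop

inductive Tag
  | start
  | rdx
  | rdy
  | exec
  | look
  | fetch
  | fin
  | halt
  deriving DecidableEq

instance : Fintype Tag where
  elems := {.start, .rdx, .rdy, .exec, .look, .fetch, .fin, .halt}
  complete x := by cases x <;> simp

/-- The alphabet: blank, stack symbols, and commands from the list `S`. -/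
abbrev Al (S : List Cmd) := Option Sym ⊕ {c // c ∈ S}

abbrev Act (S : List Cmd) := (Tag × Al S) × (ℕ → Op (Al S))

variable {S : List Cmd}

def bl : Al S := .inl none

def encT (s : Sym) : Al S := .inl (some s)

open Classical in
noncomputable def cd (S : List Cmd) (c : Cmd) : Al S := if h : c ∈ S then .inr ⟨c, h⟩ else bl

theorem cd_mem {c : Cmd} (h : c ∈ S) : cd S c = .inr ⟨c, h⟩ := dif_pos h

noncomputable def ex (P : Tbl) (S : List Cmd) : Cmd → Act S
  | .skip => ((.fetch, bl), one 1 .pop)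
  | .push v s => ((.fetch, bl), twoT 1 .pop (v + 3) (.psh (encT s)))
  | .drop v => ((.fetch, bl), twoT 1 .pop (v + 3) .pop)
  | .seq a b => ((.exec, cd S a), one 1 (.psh (cd S b)))
  | .cas v c0 c1 cn => ((.look, cd S (.cas v c0 c1 cn)), one (v + 3) .pop)
  | .loop v c0 c1 => ((.look, cd S (.loop v c0 c1)), one (v + 3) .pop)
  | .call f => ((.exec, cd S (P f)), fun _ => .nop)

noncomputable def lk (S : List Cmd) : Cmd → Al S → Act S
  | .cas _ c0 c1 _, .inl (some (some b)) => ((.exec, cd S (cond b c1 c0)), fun _ => .nop)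
  | .cas v _ _ cn, a => ((.exec, cd S cn), one (v + 3) (.psh a))
  | .loop v c0 c1, .inl (some (some b)) =>
      ((.exec, cd S (cond b c1 c0)), one 1 (.psh (cd S (.loop v c0 c1))))
  | .loop v _ _, a => ((.fetch, bl), twoT 1 .pop (v + 3) (.psh a))
  | _, _ => ((.halt, bl), fun _ => .nop)

/-- The transition table; the arguments are the symbols on the input tape, on the control tape,
and on the tape of the register that is inspected. -/
noncomputable def dl (P : Tbl) (S : List Cmd) (m : Cmd) :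
    Tag × Al S → Al S → Al S → Al S → Act S
  | (.start, _), _, _, _ => ((.rdx, bl), fun j => if j = 0 ∨ j = 2 then .nop else .psh (encT none))
  | (.rdx, _), .inl (some (some b)), _, _ =>
      ((.rdx, bl), twoT 0 (.psh (encT (some b))) 3 (.psh (encT (some b))))
  | (.rdx, _), a, _, _ => ((.rdy, bl), one 0 (.psh a))
  | (.rdy, _), .inl (some (some b)), _, _ =>
      ((.rdy, bl), twoT 0 (.psh (encT (some b))) 4 (.psh (encT (some b))))
  | (.rdy, _), _, _, _ => ((.exec, cd S m), fun _ => .nop)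
  | (.exec, .inr c), _, _, _ => ex P S c.1
  | (.look, .inr c), _, _, a => lk S c.1 a
  | (.fetch, _), _, .inr c, _ => ((.exec, .inr c), fun _ => .nop)
  | (.fetch, _), _, _, _ => ((.fin, bl), one 3 .pop)
  | (.fin, _), _, _, .inl (some (some b)) => ((.fin, bl), twoT 2 (.psh (encT (some b))) 3 .pop)
  | _, _, _, _ => ((.halt, bl), fun _ => .nop)

def Cmd.reg : Cmd → ℕ
  | .cas v _ _ _ => v
  | .loop v _ _ => v
  | _ => 0

/-- The register that is inspected in a state. -/
def qreg : Tag × Al S → ℕ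
  | (_, .inr c) => c.1.reg
  | _ => 0

abbrev CfT (S : List Cmd) := AC (Al S) (Tag × Al S)

noncomputable def astep (P : Tbl) (S : List Cmd) (m : Cmd) (C : CfT S) : CfT S :=
  C.next (dl P S m C.q (C.sc 0) (C.sc 1) (C.sc (qreg C.q + 3)))

/-- Control stack, registers and output. -/
structure Inv (C : CfT S) (ctl : List (Al S)) (ρ : Raw) (w : List (Al S)) : Prop where
  c : Rep (C.tp 1) (C.hd 1) ctl
  r : ∀ v, Rep (C.tp (v + 3)) (C.hd (v + 3)) ((ρ v).map encT)
  o : C.tp 2 = fun i => w.getD i bl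
  h : C.hd 2 = w.length

variable {C : CfT S} {ctl ctl' w w' : List (Al S)} {ρ ρ' : Raw}

theorem Inv.next (H : Inv C ctl ρ w) (r : Act S) (h1 : ctl' = (r.2 1).ap ctl)
    (h2 : ∀ v, (ρ' v).map encT = (r.2 (v + 3)).ap ((ρ v).map encT)) (h3 : r.2 2 = .nop) :
    Inv (C.next r) ctl' ρ' w where
  c := h1 ▸ H.c.step _
  r v := h2 v ▸ (H.r v).step _
  o := by simpa [AC.next, h3, Op.wr, AC.sc] using H.o
  h := by simpa [AC.next, h3, Op.wr, Move.app] using H.h

theorem Inv.out (H : Inv C ctl ρ w) (r : Act S) {s : Al S} (h1 : ctl' = (r.2 1).ap ctl)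
    (h2 : ∀ v, (ρ' v).map encT = (r.2 (v + 3)).ap ((ρ v).map encT)) (h3 : r.2 2 = .psh s) :
    Inv (C.next r) ctl' ρ' (w ++ [s]) where
  c := h1 ▸ H.c.step _
  r v := h2 v ▸ (H.r v).step _
  o := by
    simp only [AC.next, h3, Op.wr, H.o, H.h]
    funext i
    rcases lt_trichotomy i w.length with h | rfl | h
    · rw [update_of_ne h.ne, List.getD_append _ _ _ _ h]
    · simp
    · rw [update_of_ne h.ne', List.getD_eq_default _ _ h.le,
        List.getD_eq_default _ _ (by simp; omega)]
  h := by simp [AC.next, h3, Op.wr, Move.app, H.h]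

/-- Within `n` steps a configuration with property `F` is reached. -/
def Run (P : Tbl) (m : Cmd) (n : ℕ) (C : CfT S) (F : CfT S → Prop) : Prop :=
  ∃ k ≤ n, F ((astep P S m)^[k] C)

variable {P : Tbl} {m : Cmd} {n n' : ℕ} {F F' : CfT S → Prop}

theorem Run.done (h : F C) : Run P m 0 C F := ⟨0, le_rfl, h⟩

theorem Run.le (h : Run P m n C F) (hn : n ≤ n') : Run P m n' C F :=
  let ⟨k, hk, h⟩ := h
  ⟨k, hk.trans hn, h⟩

theorem Run.step {r : Act S} (e : dl P S m C.q (C.sc 0) (C.sc 1) (C.sc (qreg C.q + 3)) = r)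
    (h : Run P m n (C.next r) F) : Run P m (n + 1) C F := by
  obtain ⟨k, hk, h⟩ := h
  refine ⟨k + 1, by omega, ?_⟩
  rwa [iterate_succ_apply, astep, e]

theorem Run.bind (h : Run P m n C F) (h' : ∀ C', F C' → Run P m n' C' F') :
    Run P m (n + n') C F' := by
  obtain ⟨k, hk, h⟩ := h
  obtain ⟨k', hk', h'⟩ := h' _ h
  exact ⟨k' + k, by omega, by rwa [iterate_add_apply]⟩

def kids (P : Tbl) : Cmd → List Cmd
  | .seq a b => [a, b]
  | .cas _ a b c => [a, b, c]
  | .loop _ a b => [a, b]
  | .call f => [P f]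
  | _ => []

theorem step_exec {c : Cmd} (hc : c ∈ S) (hq : C.q = (.exec, cd S c))
    (h : Run P m n (C.next (ex P S c)) F) : Run P m (n + 1) C F :=
  Run.step (by rw [hq, cd_mem hc]; rfl) h

theorem step_look {c : Cmd} {a : Al S} (hc : c ∈ S) (hq : C.q = (.look, cd S c))
    (ha : C.sc (c.reg + 3) = a) (h : Run P m n (C.next (lk S c a)) F) : Run P m (n + 1) C F :=
  Run.step (by rw [hq, cd_mem hc, ← ha]; rfl) h

theorem step_fetch {c : Cmd} (hc : c ∈ S) (hq : C.q = (.fetch, bl)) (ha : C.sc 1 = cd S c)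
    (h : Run P m n (C.next ((.exec, cd S c), fun _ => .nop)) F) : Run P m (n + 1) C F :=
  Run.step (by rw [hq, ha, cd_mem hc]; rfl) h

theorem map_enc_pop {v : ℕ} {s : Sym} {l : List Sym} (h : ρ v = s :: l) (u : ℕ) :
    (update ρ v l u).map (encT (S := S)) = (one (v + 3) .pop (u + 3)).ap ((ρ u).map encT) := by
  by_cases e : u = v
  · subst e; simp [one, Op.ap, h]
  · simp [one, Op.ap, e]

theorem map_enc_psh {v : ℕ} {s : Sym} {l : List Sym} (h : ρ v = s :: l) (u : ℕ) :
    (ρ u).map (encT (S := S)) =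
      (one (v + 3) (.psh (encT s)) (u + 3)).ap ((update ρ v l u).map encT) := by
  by_cases e : u = v
  · subst e; simp [one, Op.ap, h]
  · simp [one, Op.ap, e]

theorem sim (hS : ∀ c ∈ S, ∀ d ∈ kids P c, d ∈ S) {c : Cmd} {t : ℕ} (h : Exec P c ρ ρ' t)
    (hc : c ∈ S) {C : CfT S} {s : Al S} {ctl : List (Al S)} (hq : C.q = (.exec, cd S c))
    (H : Inv C (s :: ctl) ρ w) :
    Run P m (3 * t) C fun C' => C'.q = (.fetch, bl) ∧ Inv C' ctl ρ' w ∧ C'.sc 1 = s := by
  induction h generalizing C s ctl with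
  | skip =>
    exact (step_exec hc hq (Run.done ⟨rfl, H.next _ rfl (fun _ => rfl) rfl,
      AC.sc_pop H.c rfl⟩)).le (by omega)
  | @push ρ v x =>
    refine (step_exec hc hq (Run.done ⟨rfl, H.next _ rfl (fun u => ?_) (by simp [ex, twoT]),
      AC.sc_pop H.c rfl⟩)).le (by omega)
    by_cases e : u = v
    · subst e; simp [ex, twoT, Op.ap]
    · simp [ex, twoT, Op.ap, e]
  | @drop ρ v x l hv =>
    refine (step_exec hc hq (Run.done ⟨rfl, H.next _ rfl (fun u => ?_) (by simp [ex, twoT]),
      AC.sc_pop H.c rfl⟩)).le (by omega)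
    by_cases e : u = v
    · subst e; simp [ex, twoT, Op.ap, hv]
    · simp [ex, twoT, Op.ap, e]
  | @seq a b ρ ρ' ρ'' t t' _ _ ih ih' =>
    have ha : a ∈ S := hS _ hc _ (by simp [kids])
    have hb : b ∈ S := hS _ hc _ (by simp [kids])
    refine (step_exec hc hq ((ih ha (s := cd S b) rfl (H.next _ rfl (fun _ => rfl) rfl)).bind
      fun C' ⟨h1, h2, h3⟩ => step_fetch hb h1 h3
        (ih' hb rfl (h2.next _ rfl (fun _ => rfl) rfl)))).le (by omega)
  | @casb v c0 c1 cn ρ ρ' l t b hv _ ih =>
    have ha : cond b c1 c0 ∈ S := hS _ hc _ (by cases b <;> simp [kids])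
    have H1 : Inv (C.next (ex P S (.cas v c0 c1 cn))) (s :: ctl) (update ρ v l) w :=
      H.next _ (by simp [ex, one, Op.ap]) (map_enc_pop hv) (by simp [ex, one])
    have h1 := H.r v
    rw [hv] at h1
    exact (step_exec hc hq (step_look hc rfl (AC.sc_pop h1 (by simp [ex, one, Cmd.reg]))
      (ih ha rfl (H1.next _ rfl (fun _ => rfl) rfl)))).le (by omega)
  | @casn v c0 c1 cn ρ ρ' l t hv _ ih =>
    have ha : cn ∈ S := hS _ hc _ (by simp [kids])
    have H1 : Inv (C.next (ex P S (.cas v c0 c1 cn))) (s :: ctl) (update ρ v l) w :=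
      H.next _ (by simp [ex, one, Op.ap]) (map_enc_pop hv) (by simp [ex, one])
    have h1 := H.r v
    rw [hv] at h1
    exact (step_exec hc hq (step_look hc rfl (AC.sc_pop h1 (by simp [ex, one, Cmd.reg]))
      (ih ha rfl (H1.next _ (by simp [lk, encT, one, Op.ap]) (map_enc_psh hv)
        (by simp [lk, encT, one]))))).le (by omega)
  | @loopb v c0 c1 ρ ρ' ρ'' l t t' b hv _ _ ih ih' =>
    have ha : cond b c1 c0 ∈ S := hS _ hc _ (by cases b <;> simp [kids])
    have H1 : Inv (C.next (ex P S (.loop v c0 c1))) (s :: ctl) (update ρ v l) w :=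
      H.next _ (by simp [ex, one, Op.ap]) (map_enc_pop hv) (by simp [ex, one])
    have h1 := H.r v
    rw [hv] at h1
    exact (step_exec hc hq (step_look hc rfl (AC.sc_pop h1 (by simp [ex, one, Cmd.reg]))
      ((ih ha (s := cd S (.loop v c0 c1)) rfl (H1.next _ rfl (fun _ => rfl) rfl)).bind
        fun C' ⟨h1, h2, h3⟩ => step_fetch hc h1 h3
          (ih' hc rfl (h2.next _ rfl (fun _ => rfl) rfl))))).le (by omega)
  | @loopn v c0 c1 ρ l hv =>
    have H1 : Inv (C.next (ex P S (.loop v c0 c1))) (s :: ctl) (update ρ v l) w :=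
      H.next _ (by simp [ex, one, Op.ap]) (map_enc_pop hv) (by simp [ex, one])
    have h1 := H.r v
    rw [hv] at h1
    refine (step_exec hc hq (step_look hc rfl (AC.sc_pop h1 (by simp [ex, one, Cmd.reg]))
      (Run.done ⟨rfl, H1.next _ rfl (fun u => ?_) (by simp [lk, encT, twoT]),
        AC.sc_pop H1.c rfl⟩))).le (by omega)
    rw [map_enc_psh hv u]
    simp [lk, encT, twoT, one]
  | @call f ρ ρ' t _ ih =>
    exact (step_exec hc hq (ih (hS _ hc _ (by simp [kids])) rfl
      (H.next _ rfl (fun _ => rfl) rfl))).le (by omega)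

/-- The unread part of the input. -/
def Inp (C : CfT S) (r : List (Al S)) : Prop := ∀ i, C.tp 0 (C.hd 0 + i) = r.getD i bl

theorem Inp.next {a : Al S} {r : List (Al S)} (H : Inp C (a :: r)) (x : Act S) {s : Al S}
    (e : x.2 0 = .psh s) : Inp (C.next x) r := fun i => by
  have := H (i + 1)
  simp only [AC.next, e, Op.wr, Move.app]
  rw [update_of_ne (by omega), add_assoc, add_comm 1 i, this, List.getD_cons_succ]

theorem run_x (x : List Bool) {r : List (Al S)} {C : CfT S} {ρ : Raw} (hq : C.q = (.rdx, bl))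
    (hi : Inp C (x.map (fun b => encT (some b)) ++ encT none :: r)) (H : Inv C ctl ρ w) :
    Run P m (x.length + 1) C fun C' => C'.q = (.rdy, bl) ∧ Inp C' r ∧
      Inv C' ctl (update ρ 0 (x.reverse.map some ++ ρ 0)) w := by
  induction x generalizing C ρ with
  | nil =>
    have h0 : C.sc 0 = encT none := hi 0
    refine Run.step (r := ((.rdy, bl), one 0 (.psh (encT none)))) (by rw [hq, h0]; rfl)
      (Run.done ⟨rfl, hi.next _ rfl, H.next _ rfl (fun u => ?_) rfl⟩)
    simp [one, Op.ap]
  | cons b x ih =>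
    have h0 : C.sc 0 = encT (some b) := hi 0
    refine Run.step (r := ((.rdx, bl), twoT 0 (.psh (encT (some b))) 3 (.psh (encT (some b)))))
      (by rw [hq, h0]; rfl) ?_
    have := ih (ρ := update ρ 0 (some b :: ρ 0)) rfl (Inp.next hi _ rfl) (H.next
      ((.rdx, bl), twoT 0 (.psh (encT (some b))) 3 (.psh (encT (some b)))) rfl (fun u => by
        rcases u with _ | u <;> simp [twoT, Op.ap]) rfl)
    simpa using this

theorem run_y (y : List Bool) {C : CfT S} {ρ : Raw} (hq : C.q = (.rdy, bl))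
    (hi : Inp C (y.map fun b => encT (some b))) (H : Inv C ctl ρ w) :
    Run P m (y.length + 1) C fun C' => C'.q = (.exec, cd S m) ∧
      Inv C' ctl (update ρ 1 (y.reverse.map some ++ ρ 1)) w := by
  induction y generalizing C ρ with
  | nil =>
    have h0 : C.sc 0 = bl := hi 0
    refine Run.step (r := ((.exec, cd S m), fun _ => .nop)) (by rw [hq, h0]; rfl)
      (Run.done ⟨rfl, H.next _ rfl (fun u => ?_) rfl⟩)
    simp [Op.ap]
  | cons b y ih =>
    have h0 : C.sc 0 = encT (some b) := hi 0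
    refine Run.step (r := ((.rdy, bl), twoT 0 (.psh (encT (some b))) 4 (.psh (encT (some b)))))
      (by rw [hq, h0]; rfl) ?_
    have := ih (ρ := update ρ 1 (some b :: ρ 1)) rfl (Inp.next hi _ rfl) (H.next
      ((.rdy, bl), twoT 0 (.psh (encT (some b))) 4 (.psh (encT (some b)))) rfl (fun u => by
        rcases u with _ | _ | u <;> simp [twoT, Op.ap]) rfl)
    simpa using this

theorem run_fin (u : List Bool) {r : List Sym} {C : CfT S} {ρ : Raw} {w : List (Al S)}
    (hq : C.q = (.fin, bl)) (H : Inv C ctl ρ w)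
    (hu : C.sc 3 :: (ρ 0).map encT = (u.map some ++ none :: r).map encT) :
    Run P m (u.length + 1) C fun C' => C'.q = (.halt, bl) ∧
      C'.tp 2 = fun i => (w ++ u.map fun b => encT (some b)).getD i bl := by
  induction u generalizing C ρ w with
  | nil =>
    have h0 : C.sc 3 = encT none := (List.cons.inj hu).1
    refine Run.step (r := ((.halt, bl), fun _ => .nop))
      (by rw [hq]; change dl P S m _ _ _ (C.sc 3) = _; rw [h0]; rfl) (Run.done ⟨rfl, ?_⟩)
    simpa using (H.next (ρ' := ρ) ((.halt, bl), fun _ => .nop) rfl (fun _ => rfl) rfl).o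
  | cons b u ih =>
    obtain ⟨h0, h1⟩ := List.cons.inj hu
    refine Run.step (r := ((.fin, bl), twoT 2 (.psh (encT (some b))) 3 .pop))
      (by rw [hq]; change dl P S m _ _ _ (C.sc 3) = _; rw [h0]; rfl) ?_
    obtain ⟨s, l, e⟩ : ∃ s l, ρ 0 = s :: l := by
      rcases e : ρ 0 with _ | ⟨s, l⟩
      · simp [e] at h1
      · exact ⟨s, l, rfl⟩
    have h2 := H.r 0
    rw [e] at h2
    have := ih (ρ := update ρ 0 l) rfl (H.out
      ((.fin, bl), twoT 2 (.psh (encT (some b))) 3 .pop) rfl (fun v => by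
        rcases v with _ | v <;> simp [twoT, Op.ap, e]) rfl) (by
      rw [AC.sc_pop (j := 3) h2 rfl, update_self, ← List.map_cons, ← e]
      exact h1)
    simpa using this

/-- The start configuration. -/
def ainit (S : List Cmd) (x y : List Bool) : CfT S where
  q := (.start, bl)
  hd := fun _ => 0
  tp := fun j i => if j = 0 then
    (x.map (fun b => encT (some b)) ++ encT none :: y.map fun b => encT (some b)).getD i bl else bl

/-- The main program followed by the reversal of the result. -/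
def wrap (c : Cmd) : Cmd := .seq c (.seq (.push 0 none) (mov 2 0))

theorem run_all (hS : ∀ c ∈ S, ∀ d ∈ kids P c, d ∈ S) {c : Cmd} (hc : wrap c ∈ S)
    (x y : List Bool) {σ' : St} {t : ℕ} (h : Ok P c (st0 x.reverse y.reverse) σ' t) :
    Run P (wrap c) (3 * t + x.length + y.length + 7 * (σ' 2).length + 17) (ainit S x y) fun C =>
      C.q = (.halt, bl) ∧ C.tp 2 = fun i => ((σ' 2).reverse.map fun b => encT (some b)).getD i bl := by
  obtain ⟨t1, ht1, e1⟩ := h fun _ => []
  let ρ1 : Raw := update (fun _ => []) 0 ((σ' 0).map some ++ [none])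
  obtain ⟨t2, ht2, e2⟩ := mov_ok (P := P) (update σ' 0 []) (show 2 ≠ 0 by norm_num) ρ1
  have e3 : update (emb σ' fun _ => []) 0 (none :: emb σ' (fun _ => []) 0) =
      emb (update σ' 0 []) ρ1 := by
    funext v
    rcases v with _ | v <;> simp [emb, ρ1]
  have e4 := e1.seq (Exec.seq Exec.push (e3 ▸ e2))
  have H0 : Inv ((ainit S x y).next
      ((.rdx, bl), fun j => if j = 0 ∨ j = 2 then .nop else .psh (encT none)))
      [encT none] (fun _ => [none]) [] :=
    Inv.next (ctl := []) (ρ := fun _ => []) ⟨trivial, fun _ => trivial, rfl, rfl⟩ _ rfl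
      (fun v => by simp [Op.ap]) rfl
  have e5 : update (update (fun _ => [none]) 0 (x.reverse.map some ++ [none])) 1
      (y.reverse.map some ++ update (fun _ => [none]) 0 (x.reverse.map some ++ [none]) 1) =
      emb (st0 x.reverse y.reverse) fun _ => [] := by
    funext v
    rcases v with _ | _ | v <;> simp [emb, st0]
  have fin : ∀ (C : CfT S) (ρ : Raw) (u : List Bool) (r : List Sym), C.q = (.fetch, bl) →
      Inv C [] ρ [] → C.sc 1 = encT none → ρ 0 = u.map some ++ none :: r →
      Run P (wrap c) (u.length + 1 + 1) C fun C' => C'.q = (.halt, bl) ∧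
        C'.tp 2 = fun i => (u.map fun b => encT (some b)).getD i bl := by
    intro C ρ u r q H s e
    obtain ⟨a, l, e'⟩ : ∃ a l, ρ 0 = a :: l := by
      rcases e' : ρ 0 with _ | ⟨a, l⟩
      · simp [e'] at e
      · exact ⟨a, l, rfl⟩
    have h2 := H.r 0
    rw [e'] at h2
    refine Run.step (r := ((.fin, bl), one 3 .pop)) (by rw [q, s]; rfl) ?_
    have := run_fin (P := P) (m := wrap c) u (r := r) rfl
      (H.next ((.fin, bl), one 3 .pop) rfl (map_enc_pop e') rfl) (by
        rw [AC.sc_pop (j := 3) h2 rfl, update_self, ← List.map_cons, ← e', e])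
    simpa using this
  refine (Run.step (by rfl) ((run_x x rfl (fun i => ?_) H0).bind fun C1 ⟨q1, i1, H1⟩ =>
    (run_y y q1 i1 H1).bind fun C2 ⟨q2, H2⟩ => (sim hS e4 hc q2 (e5 ▸ H2)).bind
      fun C3 ⟨q3, H3, s3⟩ => fin C3 _ (σ' 2).reverse (ρ1 0) q3 H3 s3 (by simp [emb]))).le ?_
  · simp only [AC.next, Op.wr, Move.app, AC.sc, true_or, if_true, update_eq_self]
    simp [ainit]
  · simp at ht2 ⊢
    omega

theorem astep_halt (h : C.q = (.halt, bl)) : astep P S m C = C := by
  rcases C with ⟨q, hd, tp⟩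
  subst h
  simp [astep, dl, AC.next, Op.wr, Move.app, AC.sc]

def sub : Cmd → List Cmd
  | .seq a b => .seq a b :: (sub a ++ sub b)
  | .cas v a b c => .cas v a b c :: (sub a ++ sub b ++ sub c)
  | .loop v a b => .loop v a b :: (sub a ++ sub b)
  | c => [c]

theorem mem_sub (c : Cmd) : c ∈ sub c := by cases c <;> simp [sub]

theorem kids_sub (P : Tbl) {c d e : Cmd} (h : d ∈ sub c) (h' : e ∈ kids P d) :
    e ∈ sub c ∨ ∃ f, e = P f := by
  have ms := mem_sub
  induction c with
  | seq a b iha ihb => simp only [sub, List.mem_cons, List.mem_append] at h ⊢; grind [kids]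
  | cas v a b c iha ihb ihc => simp only [sub, List.mem_cons, List.mem_append] at h ⊢; grind [kids]
  | loop v a b iha ihb => simp only [sub, List.mem_cons, List.mem_append] at h ⊢; grind [kids]
  | _ => simp only [sub, List.mem_singleton] at h; grind [kids]

/-- All commands that can occur. -/
def allC (P : Tbl) (m : Cmd) : List Cmd := sub m ++ sub (P 0) ++ sub (P 1) ++ sub (P 2)

theorem allC_closed (P : Tbl) (m : Cmd) : ∀ c ∈ allC P m, ∀ d ∈ kids P c, d ∈ allC P m := by
  intro c hc d hd
  have hP : ∀ f, P f ∈ allC P m := by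
    intro f
    fin_cases f <;> simp [allC, mem_sub]
  simp only [allC, List.mem_append] at hc
  rcases hc with ((hc | hc) | hc) | hc <;> rcases kids_sub P hc hd with h | ⟨f, rfl⟩ <;>
    first | exact hP _ | simp [allC, h]

end Vale.Agent.P338
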