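import Vale.Agent.P338.TMa

/-! Compilation of stack programs to multitape Turing machines. -/

namespace Vale.Agent.P338

open Function

/-- A bound for the registers that are ever inspected. -/
def rbd (S : List Cmd) : ℕ := (S.map Cmd.reg).sum

theorem qreg_le {S : List Cmd} (q : Tag × Al S) : qreg q ≤ rbd S := by
  rcases q with ⟨_, _ | ⟨c, hc⟩⟩
  · exact Nat.zero_le _
  · exact List.single_le_sum (by simp) _ (List.mem_map_of_mem hc)

open Classical in
/-- The machine with finitely many tapes. -/
noncomputable def mach (P : Tbl) (S : List Cmd) (m : Cmd) : TM where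
  k := rbd S + 3
  Q := Tag × Al S
  G := Al S
  finQ := inferInstance
  finG := inferInstance
  blank := bl
  sep := encT none
  bit b := encT (some b)
  bit_inj a b h := by simpa [encT] using h
  bit_ne_blank b := by simp [encT, bl]
  bit_ne_sep b := by simp [encT]
  sep_ne_blank := by simp [encT, bl]
  out := ⟨2, by omega⟩
  start := (.start, bl)
  halt := (.halt, bl)
  trans q a :=
    ((dl P S m q (a ⟨0, by omega⟩) (a ⟨1, by omega⟩)
        (a ⟨qreg q + 3, by have := qreg_le q; omega⟩)).1,
      fun j => ((dl P S m q (a ⟨0, by omega⟩) (a ⟨1, by omega⟩)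
        (a ⟨qreg q + 3, by have := qreg_le q; omega⟩)).2 j).wr (a j))

variable {P : Tbl} {S : List Cmd} {m : Cmd}

def proj (P : Tbl) (m : Cmd) (C : CfT S) : (mach P S m).Cfg where
  q := C.q
  head j := C.hd j
  tape j := C.tp j

theorem step_proj (C : CfT S) : (mach P S m).step (proj P m C) = proj P m (astep P S m C) := rfl

theorem run_proj (x y : List Bool) (k : ℕ) :
    (mach P S m).run x y k = proj P m ((astep P S m)^[k] (ainit S x y)) := by
  have e : (mach P S m).init x y = proj P m (ainit S x y) := by
    simp only [TM.init, proj, ainit]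
    congr 1
    funext j i
    by_cases h : j = 0
    · subst h; rfl
    · have h' : ¬ (j : ℕ) = 0 := fun h' => h (Fin.ext h')
      rw [if_neg h]
      exact (if_neg h').symm
  rw [TM.run, e]
  exact (Semiconj.iterate_right (fun C => (step_proj C).symm) k _).symm

/-- A program that turns `st0` into a state with `z` in register 2 gives a machine that writes
`z.reverse` on its output tape. -/
theorem compile_ok (P : Tbl) (c : Cmd) : ∃ (A : TM) (C : ℕ), ∀ (x y z : List Bool) (σ' : St) (t : ℕ),
    Ok P c (st0 x.reverse y.reverse) σ' t → σ' 2 = z →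
    ∃ s ≤ C * (t + x.length + y.length + z.length + 1),
      A.HaltsAt x y s ∧ (A.run x y s).tape A.out = A.word (z.reverse.map A.bit) := by
  classical
  refine ⟨mach P (allC P (wrap c)) (wrap c), 17, fun x y z σ' t h hz => ?_⟩
  subst hz
  obtain ⟨k, hk, h1, h2⟩ := run_all (allC_closed P (wrap c)) (by simp [allC, mem_sub]) x y h
  have ex : ∃ s, ((astep P (allC P (wrap c)) (wrap c))^[s] (ainit _ x y)).q = (.halt, bl) := ⟨k, h1⟩
  have hs := Nat.find_min' ex h1
  refine ⟨Nat.find ex, by omega, ⟨?_, fun s hs => ?_⟩, ?_⟩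
  · rw [run_proj]; exact Nat.find_spec ex
  · rw [run_proj]; exact Nat.find_min ex hs
  · obtain ⟨j, hj⟩ := Nat.exists_eq_add_of_le' hs
    rw [hj, iterate_add_apply, iterate_fixed (astep_halt (Nat.find_spec ex))] at h2
    rw [run_proj]
    exact h2

theorem lv_append_one (a : List Bool) (b : Bool) :
    lv (a ++ [b]) = lv a + 2 ^ a.length * b.toNat := by
  induction a with
  | nil => simp [lv]
  | cons x a ih => simp only [List.cons_append, lv, ih, List.length_cons]; ring

theorem lv_reverse (x : List Bool) : lv x.reverse = val x := by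
  induction x using List.reverseRecOn with
  | nil => rfl
  | append_singleton x b ih =>
    rw [List.reverse_append, List.reverse_singleton, List.singleton_append, lv, ih, val, val,
      List.foldl_append]
    simp [add_comm]

theorem testBit_lv (z : List Bool) (i : ℕ) : (lv z).testBit i = z.getD i false := by
  induction z generalizing i with
  | nil => simp [lv]
  | cons b z ih =>
    rcases i with _ | i
    · cases b <;> simp [lv, Nat.testBit_zero]
    · rw [Nat.testBit_succ, List.getD_cons_succ, ← ih, lv]
      congr 1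
      cases b <;> (simp; try omega)

theorem reverse_eq_bin {z : List Bool} {k v : ℕ} (h : z.length = k) (hv : lv z = v) :
    z.reverse = bin k v := by
  subst h hv
  refine List.ext_getElem (by simp [bin]) fun i h1 h2 => ?_
  have hi : i < z.length := by simpa using h1
  simp only [bin, List.getElem_ofFn, testBit_lv, List.getElem_reverse]
  rw [List.getD_eq_getElem _ _ (by omega)]

theorem TM.HaltsAt.unique {A : TM} {x y : List Bool} {s t : ℕ} (h : A.HaltsAt x y s)
    (h' : A.HaltsAt x y t) : s = t := by
  rcases lt_trichotomy s t with e | e | e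
  · exact absurd h.1 (h'.2 s e)
  · exact e
  · exact absurd h'.1 (h.2 t e)

/-- The final bridge: a program with a time bound gives a multiplying machine with that bound. -/
theorem machine_of_prog (P : Tbl) (c : Cmd) (T : ℕ → ℕ)
    (h : ∀ n ≥ 1, ∀ x y : List Bool, x.length = n → y.length = n → ∃ σ' : St,
      Ok P c (st0 x y) σ' (T n) ∧ (σ' 2).length = 2 * n ∧ lv (σ' 2) = lv x * lv y) :
    ∃ (A : TM) (C : ℕ), A.Multiplies ∧ ∀ n ≥ 1, A.time n ≤ C * (T n + n) := by
  obtain ⟨A, C, hA⟩ := compile_ok P c
  have key : ∀ n ≥ 1, ∀ x y : List Bool, x.length = n → y.length = n →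
      ∃ s ≤ 5 * C * (T n + n), A.HaltsAt x y s ∧
        (A.run x y s).tape A.out = A.word ((bin (2 * n) (val x * val y)).map A.bit) := by
    intro n hn x y hx hy
    obtain ⟨σ', h1, h2, h3⟩ := h n hn x.reverse y.reverse (by simpa) (by simpa)
    obtain ⟨s, hs, h4, h5⟩ := hA x y _ σ' _ h1 rfl
    rw [lv_reverse, lv_reverse] at h3
    rw [reverse_eq_bin h2 h3] at h5
    refine ⟨s, hs.trans ?_, h4, h5⟩
    rw [mul_comm 5, mul_assoc]
    exact Nat.mul_le_mul_left _ (by omega)
  refine ⟨A, 5 * C, fun n hn x y hx hy => ?_, fun n hn => csSup_le' ?_⟩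
  · obtain ⟨s, -, h⟩ := key n hn x y hx hy
    exact ⟨s, h⟩
  · rintro t ⟨x, y, hx, hy, ht⟩
    obtain ⟨s, hs, h1, -⟩ := key n hn x y hx hy
    rwa [ht.unique h1]

end Vale.Agent.P338
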