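import Vale.Agent.P338.Asy
import Vale.Agent.P338.TMc

/-! The recursive multiplication procedure and its running time. -/

namespace Vale.Agent.P338

open Function

variable {P : Tbl} {t : ℕ} {c : Cmd}

def locs : ℕ → Cmd → Cmd
  | 0, c => c
  | i + 1, c => loc (30 + i) (locs i c)

theorem locs_ok (z : List Bool) (i : ℕ) (σ : St)
    (h : ∀ τ : St, (∀ v, v < 30 ∨ 30 + i ≤ v → τ v = σ v) → (∀ j < i, τ (30 + j) = []) →
      Ok P c τ (update (update (update τ 0 []) 1 []) 2 z) t) :
    Ok P (locs i c) σ (update (update (update σ 0 []) 1 []) 2 z) (t + 6 * i) := by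
  induction i generalizing σ with
  | zero => exact h σ (fun _ _ => rfl) (by simp)
  | succ i ih =>
    refine (Ok.loc (ih (update σ (30 + i) []) fun τ h1 h2 => h τ (fun v hv => ?_) fun j hj => ?_)).mono
      ?_ ?_
    · rw [h1 v (by omega), update_of_ne (by omega)]
    · rcases Nat.lt_succ_iff_lt_or_eq.mp hj with hj | rfl
      · exact h2 j hj
      · rw [h1 _ (by omega), update_self]
    · funext v
      simp only [update_apply]
      split_ifs <;> first | omega | rfl | (subst_vars; rfl)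
    · rw [update_of_ne (by omega), update_of_ne (by omega), update_of_ne (by omega), update_self]
      simp; omega

def mulB (c : Cmd) : Cmd :=
  locs 29 (loc 59 (loc 3 (.seq (binlen 59 0) (.seq (app 1 3) (.seq (app 0 3) (.seq c (app 3 2)))))))

theorem mulB_ok {σ : St} {n : ℕ} {z : List Bool} (h0 : (σ 0).length = n) (h1 : (σ 1).length = n)
    (h2 : σ 2 = []) (hz : z.length = 2 * n)
    (h : Step P c (update (fun _ => 0) 29 n) (· = σ 0 ++ σ 1) (· = z) t) :
    Ok P (mulB c) σ (update (update (update σ 0 []) 1 []) 2 z) (t + 100 * n + 300) := by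
  refine (locs_ok (t := t + 100 * n + 120) z 29 σ fun τ a1 a2 => ?_).le (by omega)
  rw [← a1 0 (by omega), ← a1 1 (by omega)] at h
  rw [← a1 0 (by omega)] at h0
  rw [← a1 1 (by omega)] at h1
  rw [← a1 2 (by omega)] at h2
  obtain ⟨l, hl, h⟩ := h (update (update (update (update τ 59 n.bits) 1 []) 0 []) 3 (τ 0 ++ τ 1))
    (fun i hi => by
      rw [update_of_ne (by omega), update_of_ne (by omega), update_of_ne (by omega)]
      by_cases e : i = 29
      · subst e; simp
      · rw [update_of_ne (by omega), update_of_ne e, a2 i (by omega)]; rfl) (by simp)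
  rw [show l = z from hl] at h
  refine (Ok.loc (Ok.loc ((binlen_ok _ (by omega) (by omega) (by omega)).seq
    ((app_ok _ (by omega) (by omega) (by omega)).seq
    (((app_ok _ (by omega) (by omega) (by omega)).mono ?_ le_rfl).seq
    (h.seq (app_ok _ (by omega) (by omega) (by omega)))))))).mono ?_ ?_
  · funext v
    simp only [update_apply, Nat.reduceEqDiff, reduceIte, h0, List.append_nil]
    split_ifs <;> first | omega | rfl
  · funext v
    simp only [update_apply, Nat.reduceEqDiff, reduceIte, h2, List.append_nil]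
    split_ifs <;> first | omega | rfl | (subst_vars; rfl)
  · have := PF.size_le_self n
    simp only [update_apply, Nat.reduceEqDiff, reduceIte, h0, h1, hz, List.length_nil, length_bits]
    omega

/-- Multiplication of short inputs. -/
def smallM : Cmd :=
  loc 5 (loc 17 (.seq (ruler 17 (.glob 29) []) (.seq (tk 5 3 17) (.seq (strip 5) (.seq (strip 3)
    (.seq (evalTo 3 (.mul (.var 0) (.var 1)) [5, 3]) (.seq (ruler 17 (.dbl (.glob 29)) [])
    (.seq (clr 5) (.seq (tk 5 3 17) (.seq (clr 3) (app 5 3)))))))))))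

def dSmall : ℕ := (PF.glob 29).deg + (PF.mul (.var 0) (.var 1)).deg + (PF.dbl (.glob 29)).deg + 8

theorem num_init {n B : ℕ} (h : n.size ≤ B) : ∀ i < 30, (update (fun _ => 0) 29 n i).size ≤ B := by
  intro i _
  by_cases e : i = 29
  · subst e; simpa
  · simp [e]

theorem small_ok {x y : List Bool} {n : ℕ} (hx : x.length = n) (hy : y.length = n) :
    Step P smallM (update (fun _ => 0) 29 n) (· = x ++ y) (· = mulL x y) (300 * (n + 2) ^ dSmall) := by
  intro σ hg h3
  have hB := num_init (PF.size_le_self n)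
  have hb : Bud (update (fun _ => 0) 29 n) n dSmall ((n + 2) ^ dSmall) := ⟨hB, le_rfl⟩
  have s1 := size_lv_le x
  have s2 := size_lv_le y
  have r1 := ruler_ok (P := P) (.glob 29) (d := 17) (regs := []) (l := [])
    ((hg.upd (v := 5) [] (by omega)).upd (v := 17) [] (by omega)) rfl (by simp) (by omega) hB
    (by simp)
  have r2 := evalTo_ok (P := P) (.mul (.var 0) (.var 1)) (d := 3) (regs := [5, 3])
    (l := [lv x, lv y]) (((hg.upd (v := 17) (List.replicate n true) (by omega)).upd (v := 5)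
      (lv x).bits (by omega)).upd (v := 3) (lv y).bits (by omega)) (by simp) (by simp) (by omega) hB
    (by simp; omega)
  have s3 := (PF.mul (.var 0) (.var 1)).size_eval_le (l := [lv x, lv y]) hB (by simp; omega)
  have r3 := ruler_ok (P := P) (.dbl (.glob 29)) (d := 17) (regs := []) (l := [])
    ((((hg.upd (v := 17) (List.replicate n true) (by omega)).upd (v := 5)
      (lv x).bits (by omega)).upd (v := 3) (lv y).bits (by omega)).upd (v := 3) (lv x * lv y).bits
      (by omega)) rfl (by simp) (by omega) hB (by simp)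
  simp only [PF.eval_glob, PF.eval_mul, PF.eval_var, PF.eval_dbl, Nat.reduceLT, reduceIte,
    update_self, List.getD_cons_zero, List.getD_cons_succ] at r1 r2 r3 s3
  refine ⟨_, rfl, (Ok.loc (Ok.loc (r1.seq
    ((tk_ok _ (by omega) (by omega) (by omega) (by omega) (by omega) (by omega)).seq
    ((strip_ok _ (by omega)).seq (((strip_ok _ (by omega)).mono ?_ le_rfl).seq (r2.seq (r3.seq
    ((clr_ok _ _).seq
    ((tk_ok _ (by omega) (by omega) (by omega) (by omega) (by omega) (by omega)).seq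
    ((clr_ok _ _).seq (app_ok _ (by omega) (by omega) (by omega))))))))))))).mono ?_ ?_⟩
  · funext v
    simp only [update_apply, Nat.reduceEqDiff, reduceIte, h3, List.length_replicate,
      List.append_nil, takeD_append' hx, drop_append' hx]
    split_ifs <;> first | omega | rfl
  · funext v
    simp only [update_apply, Nat.reduceEqDiff, reduceIte, List.length_replicate,
      List.append_nil, mulL, hx]
    split_ifs <;> first | omega | rfl | (subst_vars; rfl)
  · have p1 := hb.pow (K' := (PF.glob 29).deg + 8) (by unfold dSmall; omega)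
    have p2 := hb.pow (K' := (PF.dbl (.glob 29)).deg + 8) (by unfold dSmall; omega)
    have p3 := hb.pow (K' := (PF.mul (.var 0) (.var 1)).deg) (by unfold dSmall; omega)
    have p4 := hb.B_le (by unfold dSmall; omega)
    simp only [update_apply, Nat.reduceEqDiff, reduceIte, h3, List.length_replicate,
      List.append_nil, takeD_append' hx, drop_append' hx, List.length_nil, List.length_drop,
      List.takeD_length, length_bits, hx, hy]
    omega

theorem size_pow_le (d : ℕ) : ∃ C, ∀ n ≥ 1, (n.size + 2) ^ d ≤ C * n := by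
  refine ⟨8 * d.factorial * 2 ^ d, fun n hn => ?_⟩
  have h1 : 2 ^ (n.size - 1) ≤ n := Nat.lt_size.mp (by have := Nat.size_pos.mpr hn; omega)
  have h2 : ∀ m : ℕ, m ^ d ≤ d.factorial * 2 ^ d * 2 ^ m := fun m => by
    calc m ^ d ≤ (m + 1).ascFactorial d := (Nat.pow_le_pow_left (Nat.le_succ m) d).trans
          (Nat.pow_succ_le_ascFactorial _ _)
      _ = d.factorial * (m + d).choose d := Nat.ascFactorial_eq_factorial_mul_choose _ _
      _ ≤ d.factorial * 2 ^ (m + d) := Nat.mul_le_mul_left _ (Nat.choose_le_two_pow _ _)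
      _ = _ := by ring
  have h3 : 2 ^ (n.size + 2) ≤ 2 ^ (n.size - 1 + 3) := Nat.pow_le_pow_right (by norm_num) (by omega)
  calc _ ≤ d.factorial * 2 ^ d * 2 ^ (n.size + 2) := h2 _
    _ ≤ d.factorial * 2 ^ d * (n * 8) := Nat.mul_le_mul_left _ (by rw [pow_add _ _ 3] at h3; omega)
    _ = _ := by ring

theorem mul_prog {κ : ℝ} (hκ : κ = 1 / 2 ^ 92) : ∃ (P : Tbl) (A : ℝ), 1 ≤ A ∧
    ∀ n ≥ 1, MulOk P n ⌈A * (n.size : ℝ) ^ (1 - κ)⌉₊ := by
  obtain ⟨E, hE, h1⟩ := tot_le hκ
  have k0 : 0 < κ := by rw [hκ]; positivity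
  have k1 : κ < 1 := by rw [hκ]; norm_num
  obtain ⟨K, C, n1, h2⟩ := big_ok hE
  obtain ⟨n2, h1⟩ := h1 K (2 * C)
  obtain ⟨C', h3⟩ := size_pow_le (PF.ltE (.glob 29) (.cst (n1 + n2))).deg
  let P : Tbl := ![mulB (iff (.ltE (.glob 29) (.cst (n1 + n2))) smallM (bigM K E)), Tbody, Hbody]
  obtain ⟨C2, hC2⟩ : ∃ C2 : ℕ, C2 = 300 * (n1 + n2 + 2) ^ dSmall + 20 * C' + 401 := ⟨_, rfl⟩
  have A1 : (1 : ℝ) ≤ (2 * C2 : ℕ) := by exact_mod_cast (by omega : 1 ≤ 2 * C2)
  refine ⟨P, (2 * C2 : ℕ), A1, fun n => ?_⟩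
  induction n using Nat.strong_induction_on with
  | _ n ih =>
    intro hn σ s0 s1 s2
    have L1 : (1 : ℝ) ≤ (n.size : ℝ) ^ (1 - κ) :=
      Real.one_le_rpow (by exact_mod_cast Nat.size_pos.mpr hn) (by linarith)
    have M1 := Nat.le_ceil (((2 * C2 : ℕ) : ℝ) * (n.size : ℝ) ^ (1 - κ))
    generalize hM : ⌈((2 * C2 : ℕ) : ℝ) * (n.size : ℝ) ^ (1 - κ)⌉₊ = M at *
    have M2 : 2 * C2 ≤ M := by
      exact_mod_cast (le_mul_of_one_le_right (Nat.cast_nonneg _) L1).trans M1
    have M3 := Nat.mul_le_mul_right n M2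
    have z1 := h3 n hn
    have c1 : C2 * n = 300 * (n1 + n2 + 2) ^ dSmall * n + 20 * (C' * n) + 401 * n := by
      rw [hC2]; ring
    have key : ∃ t, t + 20 * (C' * n) + 401 * n ≤ M * n ∧
        (n < n1 + n2 → Step P smallM (update (fun _ => 0) 29 n) (· = σ 0 ++ σ 1)
          (· = mulL (σ 0) (σ 1)) t) ∧ (n1 + n2 ≤ n → Step P (bigM K E) (update (fun _ => 0) 29 n)
          (· = σ 0 ++ σ 1) (· = mulL (σ 0) (σ 1)) t) := by
      rcases lt_or_ge n (n1 + n2) with hlt | hge
      · refine ⟨300 * (n1 + n2 + 2) ^ dSmall * n, by rw [mul_assoc 2] at M3; omega,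
          fun _ => (small_ok s0 s1).le ?_, fun h => by omega⟩
        refine le_trans ?_ (Nat.le_mul_of_pos_right _ hn)
        gcongr
      · obtain ⟨a1, a2, a3⟩ := h2 P rfl rfl n (by omega)
        have p0 : 1 ≤ 5000 * n.size := by have := Nat.size_pos.mpr hn; omega
        refine ⟨_, ?_, fun h => by omega, fun _ => a3 _ _ _ (ih _ a1 p0) s0 s1⟩
        have b0 : ((5000 * n.size).size : ℝ) ^ (1 - κ) ≤ (5000 * n.size).size :=
          Real.rpow_le_self_of_one_le (by exact_mod_cast Nat.size_pos.mpr p0) (by linarith)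
        have b1 := h1 n (by omega) (2 * C2 : ℕ)
          ⌈((2 * C2 : ℕ) : ℝ) * ((5000 * n.size).size : ℝ) ^ (1 - κ)⌉₊ A1
          ((Nat.ceil_lt_add_one (by positivity)).le.trans (by gcongr)) (by omega)
        have b2 := b1.trans (mul_le_mul_of_nonneg_right M1 (Nat.cast_nonneg n))
        have b3 := (Nat.cast_le (α := ℝ)).mp (b2.trans_eq (Nat.cast_mul M n).symm)
        rw [mul_assoc 2] at M3 b3
        have : 0 ≤ 300 * (n1 + n2 + 2) ^ dSmall * n := Nat.zero_le _
        omega
    obtain ⟨t, t1, t2, t3⟩ := key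
    refine (Ok.call (f := 0) (mulB_ok s0 s1 s2 (by simp [mulL, s0])
      (Step.iff (B := n.size) ⟨num_init le_rfl, le_rfl⟩ (fun h => t2 ?_) fun h => t3 ?_))).le
      (by omega)
    · simpa using h
    · simpa using h

theorem fast_machine' {κ : ℝ} (hκ : κ = 1 / 2 ^ 92) : ∃ (A : TM) (C : ℝ), A.Multiplies ∧
    ∀ n ≥ 2, (A.time n : ℝ) ≤ C * n * Real.log n ^ (1 - κ) := by
  obtain ⟨P, A, A1, h⟩ := mul_prog hκ
  have k0 : 0 < κ := by rw [hκ]; positivity
  have k1 : κ < 1 := by rw [hκ]; norm_num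
  obtain ⟨M, C, h1, h2⟩ := machine_of_prog P (.call 0)
    (fun n => ⌈A * (n.size : ℝ) ^ (1 - κ)⌉₊ * n) fun n hn x y hx hy =>
    ⟨_, h n hn (st0 x y) (by simpa [st0] using hx) (by simpa [st0] using hy) (by simp [st0]),
      by simp [mulL, st0, hx], by
        have := Nat.mul_lt_mul'' (lv_lt x) (lv_lt y)
        rw [← pow_add, hy, hx, ← two_mul] at this
        simp [mulL, st0, lv_takeD, lv_bits, hx, Nat.mod_eq_of_lt this]⟩
  refine ⟨M, C * (9 * A), h1, fun n hn => ?_⟩
  have n2 : (2 : ℝ) ≤ n := by exact_mod_cast hn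
  have s2 : 2 ≤ n.size := Nat.lt_size.mpr (by omega)
  have l1 : (n.size : ℝ) ≤ 3 * Real.log n := by
    have a1 : 2 ^ (n.size - 1) ≤ n := Nat.lt_size.mp (by omega)
    have a2 : ((n.size - 1 : ℕ) : ℝ) * Real.log 2 ≤ Real.log n := by
      rw [← Real.log_pow]; exact Real.log_le_log (by positivity) (by exact_mod_cast a1)
    rw [Nat.cast_sub (by omega), Nat.cast_one] at a2
    have a3 : (2 : ℝ) ≤ n.size := by exact_mod_cast s2
    nlinarith [Real.log_two_gt_d9]
  have l0 : 0 ≤ Real.log n := Real.log_nonneg (by linarith)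
  have L1 : (1 : ℝ) ≤ (n.size : ℝ) ^ (1 - κ) :=
    Real.one_le_rpow (by exact_mod_cast (by omega : 1 ≤ n.size)) (by linarith)
  have L2 : (n.size : ℝ) ^ (1 - κ) ≤ 3 * Real.log n ^ (1 - κ) :=
    calc _ ≤ (3 * Real.log n) ^ (1 - κ) := Real.rpow_le_rpow (by positivity) l1 (by linarith)
      _ = 3 ^ (1 - κ) * Real.log n ^ (1 - κ) := Real.mul_rpow (by norm_num) l0
      _ ≤ _ := mul_le_mul_of_nonneg_right (Real.rpow_le_self_of_one_le (by norm_num) (by linarith))
        (by positivity)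
  have L3 := (Nat.ceil_lt_add_one (show 0 ≤ A * (n.size : ℝ) ^ (1 - κ) by positivity)).le
  have L4 : 1 ≤ A * (n.size : ℝ) ^ (1 - κ) := one_le_mul_of_one_le_of_one_le A1 L1
  have L5 := mul_le_mul_of_nonneg_left L2 (zero_le_one.trans A1)
  calc (M.time n : ℝ) ≤ C * ((⌈A * (n.size : ℝ) ^ (1 - κ)⌉₊ + 1) * n) := by
        rw [add_mul, one_mul]; exact_mod_cast h2 n (by omega)
    _ ≤ C * ((9 * A * Real.log n ^ (1 - κ)) * n) := by gcongr; linarith
    _ = _ := by ring

theorem fast_machine : ∃ (A : TM) (κ C : ℝ), 0 < κ ∧ A.Multiplies ∧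
    ∀ n ≥ 2, (A.time n : ℝ) ≤ C * n * Real.log n ^ (1 - κ) := by
  obtain ⟨A, C, h⟩ := fast_machine' rfl
  exact ⟨A, _, C, by positivity, h⟩

end Vale.Agent.P338
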